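import Crest.Agent.R158.Wd4_377
import Crest.Agent.R158.Sl8_434
import Crest.Agent.R158.Pj4_679

/-!
# R158, block WD (helper377), file Wd5: the general local step at a flat wall

* **`gls`** : a change inside the inner box does not change the observable unless two arcs cross the
  stepped half annulus
* **`gls_norm`** : `‖HW w m - HW w' m‖ ≤ 2 P(two arcs cross)`
-/

set_option autoImplicit false
set_option linter.unusedSectionVars false

namespace Crest.Agent.R158.Wd377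

open MeasureTheory
open Crest.Agent.R158.Sw300 (Port Wd L M S u be tls pos Ok Fc cyc Adj thru)
open Crest.Agent.R158.Ob664 (GW HW HV HG HG_spec Gl)
open Crest.Agent.R158.Env664 (IsWord PortOf)
open Crest.Agent.R158.Xr249 (Nx addP bas)
open Crest.Agent.R158.Sl434 hiding cyc mem_L_of_free Loc
open Crest.Agent.R158.Gc748 (stp InS mem_stp N1 N2 JlS JlE JlN JoS JoW JoN mem_fl fl RW)
open Crest.Agent.R158.Pj679 (nbt nbt_0 nbt_1 nbt_2 nbt_3)
open Crest.Agent.R158.Rs689 (PB hf)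

variable {ρ : Equiv.Perm (ℤ × ℤ)} {k : ZMod 4} {X Y : ℤ} {r n e m : ℕ}
variable {wS : Wd (ℤ × ℤ)} {bS : ℤ × ℤ}
variable {A A' : Finset (ℤ × ℤ)} {b b' : Port (ℤ × ℤ) → Port (ℤ × ℤ)}
variable {w w' : Wd (ℤ × ℤ)} {A0 Di Gi : List (Port (ℤ × ℤ))}

theorem b_invol (hw : GW A b w) : Function.Involutive b := by
  have := be_invol hw.word.1
  rwa [be_eq hw] at this

theorem cycI_left {β : Type*} [DecidableEq β] {P R R' : List β} {a b c : β} (ha : a ∈ P)
    (hb : b ∈ P) (hc : c ∈ P) : cycI (P ++ R) a b c ↔ cycI (P ++ R') a b c := by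
  unfold cycI
  rw [List.idxOf_append_of_mem ha, List.idxOf_append_of_mem hb, List.idxOf_append_of_mem hc,
    List.idxOf_append_of_mem ha, List.idxOf_append_of_mem hb, List.idxOf_append_of_mem hc]

/-- **a change inside the inner box** -/
theorem gls (W : Win ρ k X Y r n e m A b) (W' : Win ρ k X Y r n e m A' b') (he : e ≤ m)
    (hk : k = 0 ∨ k = 2) (hF : ∀ x ∈ Far ρ X Y n m, b' x = b x) (hw : GW A b w)
    (hw' : GW A' b' w') (h : StW X Y r n e wS bS)
    (hr : L w ~r A0 ++ (N1 X Y r n).map (ph ρ k) ++ Di ++ (N2 X Y r n e).map (ph ρ k))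
    (hr' : L w' ~r A0 ++ (N1 X Y r n).map (ph ρ k) ++ Gi ++ (N2 X Y r n e).map (ph ρ k))
    (hA : ∀ a ∈ A0, a ∈ Far ρ X Y n m) (hD : ∀ a ∈ Di, a ∈ Near ρ X Y r m)
    (hG : ∀ a ∈ Gi, a ∈ Near ρ X Y r m) {m1 m2 m3 : Port (ℤ × ℤ)} (h1 : m1 ∈ A0) (h2 : m2 ∈ A0)
    (h3 : m3 ∈ A0) (hc : cyc (pos w m1) (pos w m2) (pos w m3)) :
    cyc (pos w' m1) (pos w' m2) (pos w' m3) ∧
      ∀ s : ℤ × ℤ → Bool, (fun t => s (ρ t)) ∉ X2 wS (JL X Y r e) (JO X Y n e) →
        HV w m1 m2 m3 s = HV w' m1 m2 m3 s := by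
  have ok := hw.word.1
  have ok' := hw'.word.1
  have memL : ∀ {x}, x ∈ A0 → x ∈ L w := fun hx => hr.mem_iff.2 (by simp [hx])
  have memL' : ∀ {x}, x ∈ A0 → x ∈ L w' := fun hx => hr'.mem_iff.2 (by simp [hx])
  have hc' : cyc (pos w' m1) (pos w' m2) (pos w' m3) := by
    rw [cyc_ring ok' hr' (memL' h1) (memL' h2) (memL' h3)]
    rw [cyc_ring ok hr (memL h1) (memL h2) (memL h3)] at hc
    simp only [List.append_assoc] at hc ⊢
    exact (cycI_left h1 h2 h3).1 hc
  refine ⟨hc', fun s hs => ?_⟩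
  obtain ⟨n12, n23, n31⟩ := cyc_ne hc
  have hnear : ∀ a ∈ Near ρ X Y r m, a ∉ Far ρ X Y n m ∪ AnP ρ X Y r n e := by
    rintro a ⟨t, d, rfl, ht⟩ (h4 | h4)
    · rw [mem_far] at h4
      have := h.hn
      exact h4 (by unfold Inn at ht ⊢; omega)
    · rw [mem_anP, inS_iff he] at h4
      exact h4.2.2 ht
  have T : Two (al s) b (al s) b' (Far ρ X Y n m) (AnP ρ X Y r n e)
      ((N1 X Y r n).map (ph ρ k)) ((JL X Y r e).map (ph ρ k))
      ((N2 X Y r n e).map (ph ρ k)) ((JO X Y n e).map (ph ρ k))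
      (pull (ph ρ.symm (-k)) ((N1 X Y r n).map (ph ρ k) ++ (JL X Y r e).map (ph ρ k) ++
        (N2 X Y r n e).map (ph ρ k) ++ (JO X Y n e).map (ph ρ k)) (M (fun t => s (ρ t)) wS))
      none A0 Di Gi (M s w) (M s w') (u s w) (u s w') := by
    have S1 := (sys_of_word ok s).rot hr
    have S2 := (sys_of_word ok' s).rot hr'
    rw [be_eq hw] at S1
    rw [be_eq hw'] at S2
    refine ⟨win_annS W he hk (b_invol hw) h s, fun _ _ => rfl, ?_, none_far, hA, S1, S2,
      fun a ha => hnear a (hD a ha), fun a ha => hnear a (hG a ha)⟩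
    rintro x (hx | hx) hJ
    · exact hF x hx
    · obtain ⟨t, d, rfl, ht⟩ := an_chart k hx
      obtain ⟨i1, i2, i3⟩ := inS_inn he ht
      have a1 := (W.shp t (big_inn i1) i3).2 i2
      have a1' := (W'.shp t (big_inn i1) i3).2 i2
      by_cases i4 : Inn X Y r m (nbt t d)
      · -- the port faces the inner box: it is in `Jl`, or the neighbour is outside
        by_cases i5 : Shp X Y e (nbt t d)
        · exfalso
          apply hJ
          have h5 : ¬ InS X Y r n e (nbt t d) := fun h6 => (inS_inn he h6).2.2 i4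
          have h6 := (h.mem ht (d := d)).2 h5
          refine List.mem_map.2 ⟨_, ?_, rfl⟩
          simp only [List.mem_append] at h6
          have hn := h.hn
          rcases h6 with ((h6 | h6) | h6) | h6
          · exfalso
            obtain ⟨y, h7, h8, h9⟩ := mem_N1' hn h6
            simp only [Option.some.injEq, Prod.mk.injEq] at h7
            obtain ⟨rfl, rfl⟩ := h7
            rw [nbt_2] at i5
            unfold Shp at i5
            simp only at i5
            omega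
          · exact h6
          · exfalso
            obtain ⟨y, h7, h8, h9⟩ := mem_N2' hn h6
            simp only [Option.some.injEq, Prod.mk.injEq] at h7
            obtain ⟨rfl, rfl⟩ := h7
            rw [nbt_2] at i5
            unfold Shp at i5
            simp only at i5
            omega
          · exfalso
            unfold Inn at i4
            rcases mem_JO' (by omega) h6 with ⟨z, h7, h8, h9⟩ | ⟨z, h7, h8, h9⟩ | ⟨z, h7, h8, h9⟩ <;>
              simp only [Option.some.injEq, Prod.mk.injEq] at h7 <;> obtain ⟨rfl, rfl⟩ := h7 <;>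
              simp only [nbt_0, nbt_1, nbt_3] at i4 <;> omega
        · exfalso
          unfold Inn at i4 i3 i1
          unfold Shp at i2 i5
          rcases Xr249.Reg.d4 d with rfl | rfl | rfl | rfl <;>
            simp only [nbt_0, nbt_1, nbt_2, nbt_3] at i4 i5 <;> omega
      · have h5 := W.shp _ (big_nbt i1 d) i4
        have h6 := W'.shp _ (big_nbt i1 d) i4
        by_cases h7 : Shp X Y e (nbt t d)
        · rw [W.pl t i1 d a1 (h5.2 h7), W'.pl t i1 d a1' (h6.2 h7)]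
        · rw [W.pl' t i1 d fun h8 => h7 (h5.1 h8.2), W'.pl' t i1 d fun h8 => h7 (h6.1 h8.2)]
  rw [hv_eq ok s (memL h1) (memL h2) (memL h3) hc,
    hv_eq ok' s (memL' h1) (memL' h2) (memL' h3) hc']
  rw [← vv_rot hr (Sw300.nodup ok) ((sys_of_word ok s).uL) (memL h1) (memL h2) (memL h3) n12 n31,
    ← vv_rot hr' (Sw300.nodup ok') ((sys_of_word ok' s).uL) (memL' h1) (memL' h2) (memL' h3) n12 n31]
  refine vv_ann T ?_ h1 h2 h3 n12 n31
  -- at most one arc
  have hmem : ∀ a ∈ ((N1 X Y r n).map (ph ρ k) ++ (JL X Y r e).map (ph ρ k) ++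
      (N2 X Y r n e).map (ph ρ k) ++ (JO X Y n e).map (ph ρ k)).map (ph ρ.symm (-k)),
      M (fun t => s (ρ t)) wS a ∈ ((N1 X Y r n).map (ph ρ k) ++ (JL X Y r e).map (ph ρ k) ++
      (N2 X Y r n e).map (ph ρ k) ++ (JO X Y n e).map (ph ρ k)).map (ph ρ.symm (-k)) := by
    have e1 : ((N1 X Y r n).map (ph ρ k) ++ (JL X Y r e).map (ph ρ k) ++
      (N2 X Y r n e).map (ph ρ k) ++ (JO X Y n e).map (ph ρ k)).map (ph ρ.symm (-k)) =
      N1 X Y r n ++ JL X Y r e ++ N2 X Y r n e ++ JO X Y n e := by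
      simp only [← List.map_append, List.map_map]
      have : (ph ρ.symm (-k) ∘ ph ρ k) = id := by funext x; exact ph_ph ρ k x
      rw [this, List.map_id]
    rw [e1]
    exact (h.ring _).mem
  have key : ∀ i' ∈ JL X Y r e, pull (ph ρ.symm (-k)) ((N1 X Y r n).map (ph ρ k) ++
      (JL X Y r e).map (ph ρ k) ++ (N2 X Y r n e).map (ph ρ k) ++ (JO X Y n e).map (ph ρ k))
      (M (fun t => s (ρ t)) wS) (ph ρ k i') ∈ (JO X Y n e).map (ph ρ k) →
      M (fun t => s (ρ t)) wS i' ∈ JO X Y n e := by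
    intro i' hi' hM
    obtain ⟨-, h5⟩ := pull_spec hmem (x := ph ρ k i') (by
      simp only [List.mem_append, List.mem_map]
      exact Or.inl (Or.inl (Or.inr ⟨i', hi', rfl⟩)))
    obtain ⟨y, hy, h6⟩ := List.mem_map.1 hM
    rw [← h6, ph_ph, ph_ph] at h5
    rw [← h5]; exact hy
  intro i hi j hj hMi hMj
  obtain ⟨i', hi', rfl⟩ := List.mem_map.1 hi
  obtain ⟨j', hj', rfl⟩ := List.mem_map.1 hj
  by_contra hne
  exact hs ⟨i', hi', j', hj', fun e' => hne (by rw [e']), key i' hi' hMi, key j' hj' hMj⟩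

/-- **the bound on the mean values** -/
theorem gls_norm (W : Win ρ k X Y r n e m A b) (W' : Win ρ k X Y r n e m A' b') (he : e ≤ m)
    (hk : k = 0 ∨ k = 2) (hF : ∀ x ∈ Far ρ X Y n m, b' x = b x) (hw : GW A b w)
    (hw' : GW A' b' w') (h : StW X Y r n e wS bS)
    (hr : L w ~r A0 ++ (N1 X Y r n).map (ph ρ k) ++ Di ++ (N2 X Y r n e).map (ph ρ k))
    (hr' : L w' ~r A0 ++ (N1 X Y r n).map (ph ρ k) ++ Gi ++ (N2 X Y r n e).map (ph ρ k))
    (hA : ∀ a ∈ A0, a ∈ Far ρ X Y n m) (hD : ∀ a ∈ Di, a ∈ Near ρ X Y r m)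
    (hG : ∀ a ∈ Gi, a ∈ Near ρ X Y r m) {m1 m2 m3 : Port (ℤ × ℤ)} (h1 : m1 ∈ A0) (h2 : m2 ∈ A0)
    (h3 : m3 ∈ A0) (hc : cyc (pos w m1) (pos w m2) (pos w m3)) :
    cyc (pos w' m1) (pos w' m2) (pos w' m3) ∧
      ‖HW w m1 m2 m3 - HW w' m1 m2 m3‖ ≤
        2 * (PB fun _ : ℤ × ℤ => hf).real (X2 wS (JL X Y r e) (JO X Y n e)) := by
  obtain ⟨k1, k2⟩ := gls W W' he hk hF hw hw' h hr hr' hA hD hG h1 h2 h3 hc
  refine ⟨k1, ?_⟩
  have h4 := HW_sub (w := w) (w' := w') (m1 := m1) (m2 := m2) (m3 := m3) (y1 := m1) (y2 := m2)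
    (y3 := m3) {s : ℤ × ℤ → Bool | cs false (fun t => ρ t) s ∈ X2 wS (JL X Y r e) (JO X Y n e)}
    (fun s hs => by
      refine k2 s fun h5 => hs ?_
      have e1 : cs false (fun t => ρ t) s = fun t => s (ρ t) := by
        funext t; simp [cs]
      rw [Set.mem_ofPred_eq, e1]; exact h5)
  rwa [cs_law (S := (stp X Y r n e).P) (φ := fun t => ρ t)
    (fun x _ y _ hxy => ρ.injective hxy) false ?_] at h4
  intro z z' hz hz2
  have e1 : M z wS = M z' wS :=
    (Ob664.state_congr wS fun t ht => hz t ((h.rwd.tls t).1 ht)).1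
  obtain ⟨i, hi, j, hj, h5, h6, h7⟩ := hz2
  exact ⟨i, hi, j, hj, h5, e1 ▸ h6, e1 ▸ h7⟩

end Crest.Agent.R158.Wd377
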