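import Crest.Agent.R158.Wd5_377

/-!
# R158, block WD (helper377), file Wd6: adding one tile at a wall

* **`GW.add2`** : new tile glued along two consecutive sides (`att` + `con`)
* `GW.add1`, `GW.add3` : one side, three sides
* `Std` : the region looks like the stepped half plane in the whole window
* `Std.ring` : its ring `A0 ++ N1 ++ [p, q, e] ++ N2`
* **`Std.tile`** : word, ring and observable of the region with the tile `(X+1, Y)` added
-/

set_option autoImplicit false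
set_option linter.unusedSectionVars false

namespace Crest.Agent.R158.Wd377

open MeasureTheory
open Crest.Agent.R158.Sw300 (Port Wd L M S u be tls pos Ok Fc cyc Adj thru sd)
open Crest.Agent.R158.Ob664 (GW HW HV HG HG_spec Gl)
open Crest.Agent.R158.Env664 (IsWord PortOf)
open Crest.Agent.R158.Xr249 (Nx addP bas rot)
open Crest.Agent.R158.Sl434 hiding cyc mem_L_of_free Loc
open Crest.Agent.R158.Gc748 (stp InS mem_stp N1 N2 JlS JlE JlN JoS JoW JoN mem_fl fl RW)
open Crest.Agent.R158.Pj679 (nbt nbt_0 nbt_1 nbt_2 nbt_3)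
open Crest.Agent.R158.Rs689 (PB hf)

/-! ### adding a tile -/

section add

variable {T : Type*} [DecidableEq T] {A : Finset T} {b b' : Port T → Port T} {w : Wd T} {t : T}
  {p q q0 : Port T} {d : ZMod 4} {l : List (Port T)}

theorem gw_mem {w : Wd T} (h : GW A b w) (t : T) : t ∈ tls w ↔ t ∈ A := h.word.2.2.1 t

theorem z13 : ∀ d : ZMod 4, d + 1 = d + 3 + 2 := by decide

/-- one side -/
theorem add1 (h : GW A b w) (ht : t ∉ A) (hr : L w ~r p :: l) (hp : p ≠ none)
    (hd : d = sd p + 2)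
    (hb : ∀ x, b' x = if x = p then some (t, d) else if x = some (t, d) then p else b x) :
    ∃ w', GW (insert t A) b' w' ∧
      L w' ~r some (t, d + 1) :: some (t, d + 2) :: some (t, d + 3) :: l := by
  have ok := h.word.1
  have ht' : t ∉ tls w := fun h1 => ht ((gw_mem h t).1 h1)
  have hpL : p ∈ L w := hr.mem_iff.2 (by simp)
  have r1 := L_att_rot (t := t) (d := d) (Sw300.nodup ok) hr
  refine ⟨.att w p t d, gw_mk ⟨?_, ?_, ?_, ?_⟩ h.leg, r1⟩
  · exact ⟨ok, hpL, ht', fun e => absurd e hp⟩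
  · exact ⟨h.word.2.1, hd⟩
  · intro t'
    simp only [tls, List.mem_cons, Finset.mem_insert, gw_mem h]
  · intro x
    rw [hb x]
    simp only [be, be_eq h]

/-- two consecutive sides -/
theorem add2 (h : GW A b w) (ht : t ∉ A) (hr : L w ~r p :: q :: l) (hp : p ≠ none)
    (hq : q ≠ none) (hd : d = sd p + 2) (hs : sd q = d + 1)
    (hb : ∀ x, b' x = if x = some (t, d + 3) then q else if x = q then some (t, d + 3) else
      if x = p then some (t, d) else if x = some (t, d) then p else b x) :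
    ∃ w', GW (insert t A) b' w' ∧ L w' ~r some (t, d + 1) :: some (t, d + 2) :: l := by
  have ok := h.word.1
  have ht' : t ∉ tls w := fun h1 => ht ((gw_mem h t).1 h1)
  have hpL : p ∈ L w := hr.mem_iff.2 (by simp)
  have hqL : q ∈ L w := hr.mem_iff.2 (by simp)
  have r1 := L_att_rot (t := t) (d := d) (Sw300.nodup ok) hr
  have r2 : L (.att w p t d) ~r some (t, d + 3) :: q :: (l ++ [some (t, d + 1), some (t, d + 2)]) := by
    refine r1.trans ?_
    have := List.isRotated_append (l := [some (t, d + 1), some (t, d + 2)])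
      (l' := some (t, d + 3) :: q :: l)
    simpa using this
  have hq3 : (some (t, d + 3) : Port T) ≠ q := fun e => Sw300.ne_port ok ht' _ hqL e.symm
  have ok1 : Ok (.att w p t d) := ⟨ok, hpL, ht', fun e => absurd e hp⟩
  have r3 : L (.con (.att w p t d) (some (t, d + 3)) q) ~r
      some (t, d + 1) :: some (t, d + 2) :: l := by
    refine (L_con_rot (Sw300.nodup ok1) r2).trans ?_
    have := List.isRotated_append (l := l) (l' := [some (t, d + 1), some (t, d + 2)])
    simpa using this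
  refine ⟨.con (.att w p t d) (some (t, d + 3)) q, gw_mk ⟨?_, ?_, ?_, ?_⟩ h.leg, r3⟩
  · exact ⟨ok1, by simp, hq, hq3, adj_of_rot r2⟩
  · refine ⟨⟨h.word.2.1, hd⟩, ?_⟩
    rw [hs, Sw300.sd_some]
    exact z13 d
  · intro t'
    simp only [tls, List.mem_cons, Finset.mem_insert, gw_mem h]
  · intro x
    rw [hb x]
    simp only [be, be_eq h]

/-- three consecutive sides -/
theorem add3 (h : GW A b w) (ht : t ∉ A) (hr : L w ~r q0 :: p :: q :: l) (hp : p ≠ none)
    (hq : q ≠ none) (hq0 : q0 ≠ none) (hd : d = sd p + 2) (hs : sd q = d + 1)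
    (hs0 : sd q0 = d + 3)
    (hb : ∀ x, b' x = if x = q0 then some (t, d + 1) else if x = some (t, d + 1) then q0 else
      if x = some (t, d + 3) then q else if x = q then some (t, d + 3) else
      if x = p then some (t, d) else if x = some (t, d) then p else b x) :
    ∃ w', GW (insert t A) b' w' ∧ L w' ~r some (t, d + 2) :: l := by
  have ok := h.word.1
  have ht' : t ∉ tls w := fun h1 => ht ((gw_mem h t).1 h1)
  have hq0L : q0 ∈ L w := hr.mem_iff.2 (by simp)
  have hr2 : L w ~r p :: q :: (l ++ [q0]) := by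
    refine hr.trans ?_
    have := List.isRotated_append (l := [q0]) (l' := p :: q :: l)
    simpa using this
  obtain ⟨w1, h1, r1⟩ := add2 (b' := fun x => if x = some (t, d + 3) then q else
    if x = q then some (t, d + 3) else if x = p then some (t, d) else
    if x = some (t, d) then p else b x) h ht hr2 hp hq hd hs (fun _ => rfl)
  have r2 : L w1 ~r q0 :: some (t, d + 1) :: (some (t, d + 2) :: l) := by
    refine r1.trans ?_
    have := List.isRotated_append (l := some (t, d + 1) :: some (t, d + 2) :: l) (l' := [q0])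
    simpa using this
  have ok1 := h1.word.1
  have r3 := L_con_rot (Sw300.nodup ok1) r2
  refine ⟨.con w1 q0 (some (t, d + 1)), gw_mk ⟨?_, ?_, ?_, ?_⟩ h1.leg, r3⟩
  · exact ⟨ok1, hq0, by simp, fun e => Sw300.ne_port ok ht' _ hq0L e, adj_of_rot r2⟩
  · refine ⟨h1.word.2.1, ?_⟩
    rw [hs0, Sw300.sd_some]
    exact z13 d
  · intro t'
    simp only [tls]
    exact gw_mem h1 t'
  · intro x
    rw [hb x]
    simp only [be, be_eq h1]

end add

/-! ### the standard window -/

variable {ρ : Equiv.Perm (ℤ × ℤ)} {k : ZMod 4} {X Y : ℤ} {r n e m : ℕ}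
variable {A A' : Finset (ℤ × ℤ)} {b b' : Port (ℤ × ℤ) → Port (ℤ × ℤ)}
variable {w w' : Wd (ℤ × ℤ)}

/-- glueing plain in a part of the chart -/
structure Pln (ρ : Equiv.Perm (ℤ × ℤ)) (k : ZMod 4) (Q : ℤ × ℤ → Prop)
    (A : Finset (ℤ × ℤ)) (b : Port (ℤ × ℤ) → Port (ℤ × ℤ)) : Prop where
  pl : ∀ t, Q t → ∀ d, ρ t ∈ A → ρ (nbt t d) ∈ A →
    b (ph ρ k (some (t, d))) = ph ρ k (some (nbt t d, d + 2))
  pl' : ∀ t, Q t → ∀ d, ¬ (ρ t ∈ A ∧ ρ (nbt t d) ∈ A) →
    b (ph ρ k (some (t, d))) = ph ρ k (some (t, d))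

/-- the region is the stepped half plane in the whole window -/
structure Std (ρ : Equiv.Perm (ℤ × ℤ)) (k : ZMod 4) (X Y : ℤ) (n : ℕ)
    (A : Finset (ℤ × ℤ)) (b : Port (ℤ × ℤ) → Port (ℤ × ℤ)) : Prop where
  shp : ∀ t, Big X Y n 1 t → (ρ t ∈ A ↔ Shp X Y 1 t)
  pln : Pln ρ k (Inn X Y n 1) A b

theorem Std.win (S : Std ρ k X Y n A b) : Win ρ k X Y 1 n 1 1 A b :=
  ⟨fun t h _ => S.shp t h, S.pln.pl, S.pln.pl'⟩

theorem Std.win' (S : Std ρ k X Y n A b) (P : Pln ρ k (Inn X Y n 1) (insert (ρ (X + 1, Y)) A) b') :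
    Win ρ k X Y 1 n 1 1 (insert (ρ (X + 1, Y)) A) b' := by
  refine ⟨fun t h h' => ?_, P.pl, P.pl'⟩
  rw [Finset.mem_insert, EmbeddingLike.apply_eq_iff_eq, ← S.shp t h]
  constructor
  · rintro (h1 | h1)
    · exfalso
      subst h1
      exact h' (by unfold Inn; simp only; omega)
    · exact h1
  · exact Or.inr

theorem ph_rot (x : Port (ℤ × ℤ)) : rot (ph ρ k x) = ph ρ k (rot x) := by
  rcases x with _ | ⟨t, d⟩
  · rfl
  · simp only [ph_some, Xr249.rot_some]
    rw [add_right_comm]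

theorem nx_st {t : ℤ × ℤ} {d d' : ZMod 4} (hd : d' = d + 1)
    (h : b (ph ρ k (some (t, d'))) = ph ρ k (some (t, d'))) :
    Nx (Gl b) (ph ρ k (some (t, d))) (ph ρ k (some (t, d'))) := by
  subst hd
  have e1 : ph ρ k (some (t, d + 1)) = rot (ph ρ k (some (t, d))) := by
    rw [ph_rot, Xr249.rot_some]
  rw [e1] at h ⊢
  refine Nx.stop fun q hq => ?_
  obtain ⟨h1, h2⟩ := hq
  exact h2 (by rw [← h1, h])

theorem nx_go {t t' : ℤ × ℤ} {d d1 d' : ZMod 4} (hd : d1 = d + 1)
    (h : b (ph ρ k (some (t, d1))) = ph ρ k (some (t', d'))) (hne : t ≠ t') {z : Port (ℤ × ℤ)}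
    (hz : Nx (Gl b) (ph ρ k (some (t', d'))) z) : Nx (Gl b) (ph ρ k (some (t, d))) z := by
  subst hd
  refine Nx.go (q := ph ρ k (some (t', d'))) ⟨?_, ?_⟩ hz
  · rw [ph_rot, Xr249.rot_some]; exact h
  · rw [ph_rot, Xr249.rot_some]
    intro e'
    have := ph_inj e'
    simp only [Option.some.injEq, Prod.mk.injEq] at this
    exact hne this.1

/-- the free ends near the new tile, before -/
def DiL (X Y : ℤ) : List (Port (ℤ × ℤ)) :=
  [some ((X, Y), 2), some ((X + 1, Y - 1), 1), some ((X + 1, Y - 1), 2)]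
/-- the free ends near the new tile, after -/
def GiL (X Y : ℤ) : List (Port (ℤ × ℤ)) :=
  [some ((X + 1, Y), 1), some ((X + 1, Y), 2), some ((X + 1, Y - 1), 2)]

/-- the boundary steps of the window -/
theorem Std.chain (S : Std ρ k X Y n A b) (hn : 2 ≤ n) :
    List.IsChain (Nx (Gl b)) ((N1 X Y 1 n ++ DiL X Y ++ N2 X Y 1 n 1).map (ph ρ k)) := by
  have z3 : (3 : ZMod 4) + 2 = 1 := by decide
  have z2 : (2 : ZMod 4) + 2 = 0 := by decide
  have hA : ∀ x y : ℤ, X - n ≤ x → x ≤ X + 2 → Y - n - 1 ≤ y → y ≤ Y + n →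
      (y < Y → x ≤ X + 1) → (Y ≤ y → x ≤ X) → ρ (x, y) ∈ A := fun x y h1 h2 h3 h4 h5 h6 =>
    (S.shp (x, y) (by unfold Big; simp only; omega)).2 (by unfold Shp; simp only; omega)
  have hA' : ∀ x y : ℤ, X - n ≤ x → x ≤ X + 2 → Y - n - 1 ≤ y → y ≤ Y + n →
      ¬ ((y < Y → x ≤ X + 1) ∧ (Y ≤ y → x ≤ X)) → ρ (x, y) ∉ A := fun x y h1 h2 h3 h4 h5 h6 => by
    have := (S.shp (x, y) (by unfold Big; simp only; omega)).1 h6
    unfold Shp at this
    simp only at this
    omega
  have st : ∀ x y : ℤ, X - n < x → x ≤ X + 1 → Y - n ≤ y → y + 1 < Y + n →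
      ρ (x, y) ∈ A → ρ (x, y + 1) ∈ A → ρ (x + 1, y) ∉ A →
      Nx (Gl b) (ph ρ k (some ((x, y + 1), 2))) (ph ρ k (some ((x, y), 2))) := by
    intro x y h1 h2 h3 h4 h5 h6 h7
    refine nx_go (t' := (x, y)) (d1 := 3) (d' := 1) (by decide) ?_ ?_ (nx_st (by decide) ?_)
    · rw [S.pln.pl (x, y + 1) (by unfold Inn; simp only; omega) 3 h6 (by
        rw [nbt_3]; simp only [add_sub_cancel_right]; exact h5), nbt_3, z3]
      simp only [add_sub_cancel_right]
    · intro h; simp at h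
    · refine S.pln.pl' (x, y) (by unfold Inn; simp only; omega) 2 fun h => ?_
      rw [nbt_2] at h
      exact h7 h.2
  rw [List.isChain_map, List.append_assoc]
  refine Gc748.fl_app_chain (fun i hi => ?_) ?_ ?_
  · have e1 : Y + n - 1 - ((i : ℕ) : ℤ) = Y + n - 1 - ((i + 1 : ℕ) : ℤ) + 1 := by push_cast; ring
    simp only [e1]
    refine st X _ (by omega) (by omega) (by omega) (by omega) (hA _ _ ?_ ?_ ?_ ?_ ?_ ?_)
      (hA _ _ ?_ ?_ ?_ ?_ ?_ ?_) (hA' _ _ ?_ ?_ ?_ ?_ ?_) <;> omega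
  · have e1 : Y + n - 1 - ((n - 1 - 1 : ℕ) : ℤ) = Y + 1 := by omega
    simp only [e1]
    refine st X Y (by omega) (by omega) (by omega) (by omega) (hA _ _ ?_ ?_ ?_ ?_ ?_ ?_)
      (hA _ _ ?_ ?_ ?_ ?_ ?_ ?_) (hA' _ _ ?_ ?_ ?_ ?_ ?_) <;> omega
  obtain ⟨l2, hl2⟩ := Gc748.fl_cons (fun i : ℕ =>
    (some ((X + (1 : ℕ), Y - (1 : ℕ) - 1 - i), 2) : Port (ℤ × ℤ))) (n - 1 - 1)
  have eN2 : N2 X Y 1 n 1 = some ((X + (1 : ℕ), Y - (1 : ℕ) - 1 - (0 : ℕ)), 2) :: l2 := hl2
  have cN2 : List.IsChain (fun p q => Nx (Gl b) (ph ρ k p) (ph ρ k q)) (N2 X Y 1 n 1) := by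
    refine Gc748.fl_chain fun i hi => ?_
    have e1 : Y - (1 : ℕ) - 1 - ((i : ℕ) : ℤ) = Y - (1 : ℕ) - 1 - ((i + 1 : ℕ) : ℤ) + 1 := by
      push_cast; ring
    simp only [e1]
    refine st (X + 1) _ (by omega) (by omega) (by omega) (by omega) (hA _ _ ?_ ?_ ?_ ?_ ?_ ?_)
      (hA _ _ ?_ ?_ ?_ ?_ ?_ ?_) (hA' _ _ ?_ ?_ ?_ ?_ ?_) <;> omega
  show List.IsChain (fun p q => Nx (Gl b) (ph ρ k p) (ph ρ k q)) (some ((X, Y), 2) ::
    some ((X + 1, Y - 1), 1) :: some ((X + 1, Y - 1), 2) :: N2 X Y 1 n 1)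
  rw [eN2] at cN2 ⊢
  simp only [List.isChain_cons_cons]
  refine ⟨?_, ?_, ?_, cN2⟩
  · refine nx_go (t' := (X, Y - 1)) (d1 := 3) (d' := 1) (by decide) ?_ ?_
      (nx_go (t' := (X + 1, Y - 1)) (d1 := 2) (d' := 0) (by decide) ?_ ?_ (nx_st (by decide) ?_))
    · rw [S.pln.pl (X, Y) (by unfold Inn; simp only; omega) 3
        (hA _ _ (by omega) (by omega) (by omega) (by omega) (by omega) (by omega)) (by
          rw [nbt_3]
          exact hA _ _ (by omega) (by omega) (by omega) (by omega) (by omega) (by omega)), nbt_3, z3]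
    · intro h; simp only [Prod.mk.injEq] at h; omega
    · rw [S.pln.pl (X, Y - 1) (by unfold Inn; simp only; omega) 2
        (hA _ _ (by omega) (by omega) (by omega) (by omega) (by omega) (by omega)) (by
          rw [nbt_2]
          exact hA _ _ (by omega) (by omega) (by omega) (by omega) (by omega) (by omega)), nbt_2, z2]
    · intro h; simp only [Prod.mk.injEq] at h; omega
    · refine S.pln.pl' (X + 1, Y - 1) (by unfold Inn; simp only; omega) 1 fun h => ?_
      rw [nbt_1] at h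
      exact hA' (X + 1) (Y - 1 + 1) (by omega) (by omega) (by omega) (by omega) (by omega) h.2
  · refine nx_st (by decide) ?_
    refine S.pln.pl' (X + 1, Y - 1) (by unfold Inn; simp only; omega) 2 fun h => ?_
    rw [nbt_2] at h
    exact hA' (X + 1 + 1) (Y - 1) (by omega) (by omega) (by omega) (by omega) (by omega) h.2
  · have e1 : (X + ((1 : ℕ) : ℤ), Y - ((1 : ℕ) : ℤ) - 1 - ((0 : ℕ) : ℤ)) = (X + 1, Y - 2) := by
      ext <;> simp only <;> omega
    rw [e1]
    have h2 := st (X + 1) (Y - 2) (by omega) (by omega) (by omega) (by omega)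
      (hA _ _ (by omega) (by omega) (by omega) (by omega) (by omega) (by omega))
      (hA _ _ (by omega) (by omega) (by omega) (by omega) (by omega) (by omega))
      (hA' _ _ (by omega) (by omega) (by omega) (by omega) (by omega))
    have e2 : Y - 2 + 1 = Y - 1 := by ring
    rwa [e2] at h2

end Crest.Agent.R158.Wd377
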