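import Crest.Agent.R158.Wd6_377

/-!
# R158, block WD (helper377), file Wd7: one tile at a flat wall

* `Std.ring` : ring of a region in the standard window: `A0 ++ N1 ++ Di ++ N2`, `A0` far
* `Std.tile` : the region with the tile `(X+1, Y)` added has a word, ring `A0 ++ N1 ++ Gi ++ N2`
* **`tile_MK`** : the observable changes by at most `C (1/n)^(1+c)`
-/

set_option autoImplicit false
set_option linter.unusedSectionVars false

namespace Crest.Agent.R158.Wd377

open MeasureTheory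
open Crest.Agent.R158.Sw300 (Port Wd L M S u be tls pos Ok Fc cyc Adj thru sd)
open Crest.Agent.R158.Ob664 (GW HW HV HG HG_spec Gl)
open Crest.Agent.R158.Env664 (IsWord PortOf)
open Crest.Agent.R158.Xr249 (Nx addP bas rot)
open Crest.Agent.R158.Sl434 hiding cyc mem_L_of_free Loc
open Crest.Agent.R158.Gc748 (stp InS mem_stp N1 N2 JlS JlE JlN JoS JoW JoN mem_fl fl RW)
open Crest.Agent.R158.Pj679 (nbt nbt_0 nbt_1 nbt_2 nbt_3)
open Crest.Agent.R158.Rs689 (PB hf)

variable {ρ : Equiv.Perm (ℤ × ℤ)} {k : ZMod 4} {X Y : ℤ} {r n e m : ℕ}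
variable {A A' : Finset (ℤ × ℤ)} {b b' : Port (ℤ × ℤ) → Port (ℤ × ℤ)}
variable {w w' : Wd (ℤ × ℤ)}

theorem Std.mem (S : Std ρ k X Y n A b) {x y : ℤ} (h1 : X - n ≤ x) (h2 : x ≤ X + 2)
    (h3 : Y - n - 1 ≤ y) (h4 : y ≤ Y + n) (h5 : y < Y → x ≤ X + 1) (h6 : Y ≤ y → x ≤ X) :
    ρ (x, y) ∈ A :=
  (S.shp (x, y) (by unfold Big; simp only; omega)).2 (by unfold Shp; simp only; omega)

theorem Std.nmem (S : Std ρ k X Y n A b) {x y : ℤ} (h1 : X - n ≤ x) (h2 : x ≤ X + 2)
    (h3 : Y - n - 1 ≤ y) (h4 : y ≤ Y + n) (h5 : ¬ ((y < Y → x ≤ X + 1) ∧ (Y ≤ y → x ≤ X))) :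
    ρ (x, y) ∉ A := fun h6 => by
  have := (S.shp (x, y) (by unfold Big; simp only; omega)).1 h6
  unfold Shp at this
  simp only at this
  omega

theorem nbt_ne (t : ℤ × ℤ) (d : ZMod 4) : nbt t d ≠ t := by
  obtain ⟨x, y⟩ := t
  rcases Xr249.Reg.d4 d with rfl | rfl | rfl | rfl <;>
    simp only [nbt_0, nbt_1, nbt_2, nbt_3, ne_eq, Prod.mk.injEq] <;> omega

/-- the walls of the window -/
theorem of_N1 {y : ℤ} (hn : 2 ≤ n) (h1 : Y + 1 ≤ y) (h2 : y < Y + n) :
    (some ((X, y), 2) : Port (ℤ × ℤ)) ∈ N1 X Y 1 n := by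
  refine mem_fl.2 ⟨(Y + n - 1 - y).toNat, by omega, ?_⟩
  have : Y + n - 1 - ((Y + n - 1 - y).toNat : ℤ) = y := by omega
  rw [this]

theorem of_N2 {y : ℤ} (hn : 2 ≤ n) (h1 : Y - n ≤ y) (h2 : y ≤ Y - 2) :
    (some ((X + 1, y), 2) : Port (ℤ × ℤ)) ∈ N2 X Y 1 n 1 := by
  refine mem_fl.2 ⟨(Y - 2 - y).toNat, by omega, ?_⟩
  have : Y - (1 : ℕ) - 1 - ((Y - 2 - y).toNat : ℤ) = y := by omega
  rw [this]
  rfl

/-- a free end of a tile of the window is on the explicit wall -/
theorem Std.free (S : Std ρ k X Y n A b) (hn : 2 ≤ n) {t : ℤ × ℤ} {d : ZMod 4}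
    (ht : Inn X Y n 1 t) (hA : ρ t ∈ A)
    (hb : b (ph ρ k (some (t, d))) = ph ρ k (some (t, d))) :
    some (t, d) ∈ N1 X Y 1 n ++ DiL X Y ++ N2 X Y 1 n 1 := by
  have h1 : ρ (nbt t d) ∉ A := by
    intro h2
    rw [S.pln.pl t ht d hA h2] at hb
    have := ph_inj hb
    simp only [Option.some.injEq, Prod.mk.injEq] at this
    exact nbt_ne t d this.1
  have h2 := (S.shp t (big_inn ht)).1 hA
  have h3 : ¬ Shp X Y 1 (nbt t d) := fun h => h1 ((S.shp _ (big_nbt ht d)).2 h)
  obtain ⟨x, y⟩ := t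
  unfold Inn at ht
  unfold Shp at h2 h3
  simp only [List.mem_append]
  rcases Xr249.Reg.d4 d with rfl | rfl | rfl | rfl
  · exfalso
    simp only [nbt_0] at h3
    simp only at h2
    omega
  · simp only [nbt_1] at h3
    simp only at h2 ht
    have hx : x = X + 1 := by omega
    have hy : y = Y - 1 := by omega
    subst hx; subst hy
    left; right; simp [DiL]
  · simp only [nbt_2] at h3
    simp only at h2 ht
    by_cases hy : Y ≤ y
    · have hx : x = X := by omega
      subst hx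
      by_cases hy' : y = Y
      · subst hy'
        left; right; simp [DiL]
      · left; left
        exact of_N1 hn (by omega) (by omega)
    · have hx : x = X + 1 := by omega
      subst hx
      by_cases hy' : y = Y - 1
      · subst hy'
        left; right; simp [DiL]
      · right
        exact of_N2 hn (by omega) (by omega)
  · exfalso
    simp only [nbt_3] at h3
    simp only at h2
    omega

/-- tiles of the explicit wall -/
theorem wall_inn (hn : 2 ≤ n) {x : Port (ℤ × ℤ)}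
    (hx : x ∈ N1 X Y 1 n ++ DiL X Y ++ N2 X Y 1 n 1) :
    ∃ t d, x = some (t, d) ∧ Inn X Y n 1 t := by
  simp only [List.mem_append] at hx
  rcases hx with (hx | hx) | hx
  · obtain ⟨y, rfl, h1, h2⟩ := mem_N1' (by omega) hx
    exact ⟨_, _, rfl, by unfold Inn; simp only; omega⟩
  · simp only [DiL, List.mem_cons, List.not_mem_nil, or_false] at hx
    rcases hx with rfl | rfl | rfl <;> exact ⟨_, _, rfl, by unfold Inn; simp only; omega⟩
  · obtain ⟨y, rfl, h1, h2⟩ := mem_N2' (by omega) hx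
    exact ⟨_, _, rfl, by unfold Inn; simp only; omega⟩

/-- **ring of the standard window** -/
theorem Std.ring (S : Std ρ k X Y n A b) (hn : 2 ≤ n) (hw : GW A b w) :
    ∃ A0, L w ~r A0 ++ (N1 X Y 1 n).map (ph ρ k) ++ (DiL X Y).map (ph ρ k) ++
        (N2 X Y 1 n 1).map (ph ρ k) ∧ ∀ a ∈ A0, a ∈ Far ρ X Y n 1 := by
  obtain ⟨l1, l2, e1, m1, m2⟩ := Gc748.fl_split
    (fun i : ℕ => (some ((X, Y + n - 1 - i), 2) : Port (ℤ × ℤ))) (n - 1 - 1) 0 (Nat.zero_le _)
  have e2 : l1 = [] := by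
    rcases l1 with _ | ⟨a, l⟩
    · rfl
    · obtain ⟨j, hj, -⟩ := (m1 a).1 (by simp)
      omega
  subst e2
  have eN1 : N1 X Y 1 n = some ((X, Y + n - 1 - ((0 : ℕ) : ℤ)), 2) :: l2 := e1
  have hc := S.chain hn
  have ew : (N1 X Y 1 n ++ DiL X Y ++ N2 X Y 1 n 1).map (ph ρ k) =
      ph ρ k (some ((X, Y + n - 1 - ((0 : ℕ) : ℤ)), 2)) ::
        (l2 ++ DiL X Y ++ N2 X Y 1 n 1).map (ph ρ k) := by
    rw [eN1]; rfl
  rw [ew] at hc
  have hy : ph ρ k (some ((X, Y + n - 1 - ((0 : ℕ) : ℤ)), 2)) ∈ L w := by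
    rw [ph_some, mem_L hw]
    refine ⟨S.mem (by omega) (by omega) (by omega) (by omega) (by omega) (by omega), ?_⟩
    rw [← ph_some ρ k]
    refine S.pln.pl' _ (by unfold Inn; simp only; omega) _ fun h => ?_
    rw [nbt_2] at h
    exact S.nmem (by omega) (by omega) (by omega) (by omega) (by omega) h.2
  have hyn : ph ρ k (some ((X, Y + n - 1 - ((0 : ℕ) : ℤ)), 2)) ∉
      (l2 ++ DiL X Y ++ N2 X Y 1 n 1).map (ph ρ k) := by
    intro h
    obtain ⟨z, hz, hz2⟩ := List.mem_map.1 h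
    have hz3 := ph_inj hz2
    subst hz3
    simp only [List.mem_append] at hz
    rcases hz with (hz | hz) | hz
    · obtain ⟨j, h1, h2, h3⟩ := (m2 _).1 hz
      simp only [Option.some.injEq, Prod.mk.injEq] at h3
      omega
    · simp only [DiL, List.mem_cons, Option.some.injEq, Prod.mk.injEq, List.not_mem_nil,
        or_false] at hz
      omega
    · obtain ⟨y, h1, h2, h3⟩ := mem_N2' (by omega) hz
      simp only [Option.some.injEq, Prod.mk.injEq] at h1
      omega
  obtain ⟨rest, hr⟩ := ring_pre (nx_det b) (gw_ring hw) hy hc hyn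
  have hr2 : L w ~r rest ++ (N1 X Y 1 n).map (ph ρ k) ++ (DiL X Y).map (ph ρ k) ++
        (N2 X Y 1 n 1).map (ph ρ k) := by
    refine hr.trans ?_
    have := List.isRotated_append (l := (N1 X Y 1 n ++ DiL X Y ++ N2 X Y 1 n 1).map (ph ρ k))
      (l' := rest)
    have e5 : rest ++ (N1 X Y 1 n).map (ph ρ k) ++ (DiL X Y).map (ph ρ k) ++
        (N2 X Y 1 n 1).map (ph ρ k) =
        rest ++ (N1 X Y 1 n ++ DiL X Y ++ N2 X Y 1 n 1).map (ph ρ k) := by
      simp only [List.map_append, List.append_assoc]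
    rw [e5]
    refine List.IsRotated.trans ?_ this
    rw [ew]
    exact List.IsRotated.refl _
  refine ⟨rest, hr2, ?_⟩
  intro a ha t d e' ht
  have haL : a ∈ L w := hr2.mem_iff.2 (by simp [ha])
  have ea : a = ph ρ k (some (t, d - k)) := by rw [e']; simp
  rw [e', mem_L hw] at haL
  have hb : b (ph ρ k (some (t, d - k))) = ph ρ k (some (t, d - k)) := by
    rw [← ea, e']; exact haL.2
  have h1 := S.free hn ht haL.1 hb
  have hnd := (hr2.nodup_iff).1 (Sw300.nodup hw.word.1)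
  have h2 : a ∈ (N1 X Y 1 n).map (ph ρ k) ++ (DiL X Y).map (ph ρ k) ++
      (N2 X Y 1 n 1).map (ph ρ k) := by
    rw [ea, ← List.map_append, ← List.map_append]
    exact List.mem_map_of_mem h1
  have e3 : rest ++ (N1 X Y 1 n).map (ph ρ k) ++ (DiL X Y).map (ph ρ k) ++
        (N2 X Y 1 n 1).map (ph ρ k) = rest ++ ((N1 X Y 1 n).map (ph ρ k) ++
        (DiL X Y).map (ph ρ k) ++ (N2 X Y 1 n 1).map (ph ρ k)) := by
    simp only [List.append_assoc]
  rw [e3] at hnd
  exact notMem_left hnd h2 ha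

theorem zk (k : ZMod 4) : k = 2 + k + 2 ∧ 1 + k = k + 1 ∧ 3 + k = k + 3 ∧ 2 + k = k + 2 ∧
    0 + k = k := by revert k; decide

/-- **the region with one more tile** -/
theorem Std.tile (S : Std ρ k X Y n A b) (hn : 2 ≤ n)
    (P : Pln ρ k (Inn X Y n 1) (insert (ρ (X + 1, Y)) A) b')
    (hF : ∀ x ∈ Far ρ X Y n 1, b' x = b x) (hw : GW A b w) :
    ∃ w' A0, GW (insert (ρ (X + 1, Y)) A) b' w' ∧ (∀ a ∈ A0, a ∈ Far ρ X Y n 1) ∧
      L w ~r A0 ++ (N1 X Y 1 n).map (ph ρ k) ++ (DiL X Y).map (ph ρ k) ++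
        (N2 X Y 1 n 1).map (ph ρ k) ∧
      L w' ~r A0 ++ (N1 X Y 1 n).map (ph ρ k) ++ (GiL X Y).map (ph ρ k) ++
        (N2 X Y 1 n 1).map (ph ρ k) := by
  obtain ⟨A0, hr, hA0⟩ := S.ring hn hw
  obtain ⟨k0, k1, k2, k3, k4⟩ := zk k
  have z3 : (3 : ZMod 4) + 2 = 1 := by decide
  have z2 : (2 : ZMod 4) + 2 = 0 := by decide
  have z1 : (1 : ZMod 4) + 2 = 3 := by decide
  have z0 : (0 : ZMod 4) + 2 = 2 := by decide
  have hnew : ρ (X + 1, Y) ∉ A :=
    S.nmem (by omega) (by omega) (by omega) (by omega) (by omega)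
  have hp1 : ρ (X, Y) ∈ A := S.mem (by omega) (by omega) (by omega) (by omega) (by omega) (by omega)
  have hq1 : ρ (X + 1, Y - 1) ∈ A :=
    S.mem (by omega) (by omega) (by omega) (by omega) (by omega) (by omega)
  have hr2 : L w ~r ph ρ k (some ((X, Y), 2)) :: ph ρ k (some ((X + 1, Y - 1), 1)) ::
      (ph ρ k (some ((X + 1, Y - 1), 2)) :: (N2 X Y 1 n 1).map (ph ρ k) ++
        (A0 ++ (N1 X Y 1 n).map (ph ρ k))) := by
    refine hr.trans ?_
    have := List.isRotated_append (l := A0 ++ (N1 X Y 1 n).map (ph ρ k))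
      (l' := (DiL X Y).map (ph ρ k) ++ (N2 X Y 1 n 1).map (ph ρ k))
    simpa [DiL, List.append_assoc] using this
  have memA' : ∀ t : ℤ × ℤ, ρ t ∈ insert (ρ (X + 1, Y)) A ↔ (t = (X + 1, Y) ∨ ρ t ∈ A) := by
    intro t
    rw [Finset.mem_insert, EmbeddingLike.apply_eq_iff_eq]
  have same : ∀ t : ℤ × ℤ, t ≠ (X + 1, Y) → (ρ t ∈ insert (ρ (X + 1, Y)) A ↔ ρ t ∈ A) := by
    intro t ht
    rw [memA']; tauto
  have hb : ∀ x, b' x = if x = some (ρ (X + 1, Y), k + 3) then ph ρ k (some ((X + 1, Y - 1), 1))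
      else if x = ph ρ k (some ((X + 1, Y - 1), 1)) then some (ρ (X + 1, Y), k + 3) else
      if x = ph ρ k (some ((X, Y), 2)) then some (ρ (X + 1, Y), k) else
      if x = some (ρ (X + 1, Y), k) then ph ρ k (some ((X, Y), 2)) else b x := by
    have e3 : (some (ρ (X + 1, Y), k + 3) : Port (ℤ × ℤ)) = ph ρ k (some ((X + 1, Y), 3)) := by
      rw [ph_some, k2]
    have e0 : (some (ρ (X + 1, Y), k) : Port (ℤ × ℤ)) = ph ρ k (some ((X + 1, Y), 0)) := by
      rw [ph_some, k4]
    rw [e3, e0]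
    intro x
    by_cases hx : x ∈ Far ρ X Y n 1
    · have hne : ∀ t d, Inn X Y n 1 t → x ≠ ph ρ k (some (t, d)) := by
        rintro t d ht rfl
        exact (far_ph.1 hx) ht
      rw [hF x hx, if_neg (hne _ _ (by unfold Inn; simp only; omega)),
        if_neg (hne _ _ (by unfold Inn; simp only; omega)),
        if_neg (hne _ _ (by unfold Inn; simp only; omega)),
        if_neg (hne _ _ (by unfold Inn; simp only; omega))]
    · have hx' : ∃ t d, x = ph ρ k (some (t, d)) ∧ Inn X Y n 1 t := by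
        by_contra hcon
        push Not at hcon
        apply hx
        intro t d e' hi
        exact hcon t (d - k) (by rw [e']; simp) hi
      obtain ⟨t, d, rfl, ht⟩ := hx'
      simp only [ph_inj_iff, Option.some.injEq, Prod.mk.injEq]
      by_cases h1 : t = (X + 1, Y)
      · subst h1
        have c1 : ∀ d : ZMod 4, ¬ ((X + 1, Y) = (X + 1, Y - 1) ∧ d = (1 : ZMod 4)) := by
          rintro d ⟨h, -⟩
          have := congrArg Prod.snd h
          simp only at this
          omega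
        have c2 : ∀ d : ZMod 4, ¬ ((X + 1, Y) = (X, Y) ∧ d = (2 : ZMod 4)) := by
          rintro d ⟨h, -⟩; simp at h
        have c4 : ∀ d d' : ZMod 4, d ≠ d' → ¬ ((X + 1, Y) = (X + 1, Y) ∧ d = d') :=
          fun d d' h h' => h h'.2
        rcases Xr249.Reg.d4 d with rfl | rfl | rfl | rfl
        · rw [if_neg (c4 _ _ (by decide)), if_neg (c1 _), if_neg (c2 _), if_pos ⟨rfl, rfl⟩,
            P.pl _ ht 0 ((memA' _).2 (Or.inl rfl)) ((memA' _).2 (Or.inr (by
              rw [nbt_0]; simpa using hp1))), nbt_0, z0]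
          simp
        · have hn1 : ρ (nbt (X + 1, Y) 1) ∉ insert (ρ (X + 1, Y)) A := by
            rw [same _ (nbt_ne _ _)]
            exact S.nmem (x := X + 1) (y := Y + 1) (by omega) (by omega) (by omega) (by omega)
              (by omega)
          rw [if_neg (c4 _ _ (by decide)), if_neg (c1 _), if_neg (c2 _),
            if_neg (c4 _ _ (by decide)), P.pl' _ ht 1 fun h => hn1 h.2,
            S.pln.pl' _ ht 1 fun h => hnew h.1]
        · have hn1 : ρ (nbt (X + 1, Y) 2) ∉ insert (ρ (X + 1, Y)) A := by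
            rw [same _ (nbt_ne _ _)]
            exact S.nmem (x := X + 1 + 1) (y := Y) (by omega) (by omega) (by omega) (by omega)
              (by omega)
          rw [if_neg (c4 _ _ (by decide)), if_neg (c1 _), if_neg (c2 _),
            if_neg (c4 _ _ (by decide)), P.pl' _ ht 2 fun h => hn1 h.2,
            S.pln.pl' _ ht 2 fun h => hnew h.1]
        · rw [if_pos ⟨rfl, rfl⟩, P.pl _ ht 3 ((memA' _).2 (Or.inl rfl)) ((memA' _).2 (Or.inr (by
              rw [nbt_3]; exact hq1))), nbt_3, z3]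
      · have c3 : ∀ d' : ZMod 4, ¬ (t = (X + 1, Y) ∧ d = d') := fun d' h => h1 h.1
        by_cases h2 : nbt t d = (X + 1, Y)
        · have ht2 : t = nbt (X + 1, Y) (d + 2) := by rw [← h2, nbt_nbt]
          rcases Xr249.Reg.d4 d with rfl | rfl | rfl | rfl
          · exfalso
            rw [z0, nbt_2] at ht2
            subst ht2
            unfold Inn at ht; simp only at ht; omega
          · rw [z1, nbt_3] at ht2
            subst ht2
            rw [if_neg (c3 _), if_pos ⟨rfl, rfl⟩, P.pl _ ht 1 ((memA' _).2 (Or.inr hq1))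
              ((memA' _).2 (Or.inl h2)), h2, z1]
          · rw [z2, nbt_0] at ht2
            simp only [add_sub_cancel_right] at ht2
            subst ht2
            rw [if_neg (c3 _), if_neg (by rintro ⟨h, -⟩; simp at h), if_pos ⟨rfl, rfl⟩,
              P.pl _ ht 2 ((memA' _).2 (Or.inr hp1)) ((memA' _).2 (Or.inl h2)), h2, z2]
          · rw [z3, nbt_1] at ht2
            subst ht2
            have hn1 : ρ (X + 1, Y + 1) ∉ A :=
              S.nmem (by omega) (by omega) (by omega) (by omega) (by omega)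
            rw [if_neg (c3 _), if_neg (by rintro ⟨-, h⟩; exact absurd h (by decide)),
              if_neg (by rintro ⟨-, h⟩; exact absurd h (by decide)), if_neg (c3 _),
              P.pl' _ ht 3 fun h => hn1 ((same _ h1).1 h.1), S.pln.pl' _ ht 3 fun h => hn1 h.1]
        · have c1 : ¬ (t = (X + 1, Y - 1) ∧ d = (1 : ZMod 4)) := by
            rintro ⟨rfl, rfl⟩
            apply h2; rw [nbt_1]; simp
          have c2 : ¬ (t = (X, Y) ∧ d = (2 : ZMod 4)) := by
            rintro ⟨rfl, rfl⟩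
            exact h2 (nbt_2 _)
          rw [if_neg (c3 _), if_neg c1, if_neg c2, if_neg (c3 _)]
          by_cases h3 : ρ t ∈ A ∧ ρ (nbt t d) ∈ A
          · rw [P.pl _ ht d ((same _ h1).2 h3.1) ((same _ h2).2 h3.2),
              S.pln.pl _ ht d h3.1 h3.2]
          · rw [P.pl' _ ht d fun h => h3 ⟨(same _ h1).1 h.1, (same _ h2).1 h.2⟩,
              S.pln.pl' _ ht d h3]
  obtain ⟨w', h', hr'⟩ := add2 hw hnew hr2 (by simp) (by simp)
    (by rw [ph_some, Sw300.sd_some]; exact k0) (by rw [ph_some, Sw300.sd_some]; exact k1) hb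
  refine ⟨w', A0, h', hA0, hr, hr'.trans ?_⟩
  have := List.isRotated_append (l := (GiL X Y).map (ph ρ k) ++ (N2 X Y 1 n 1).map (ph ρ k))
    (l' := A0 ++ (N1 X Y 1 n).map (ph ρ k))
  have e4 : some (ρ (X + 1, Y), k + 1) :: some (ρ (X + 1, Y), k + 2) ::
      (ph ρ k (some ((X + 1, Y - 1), 2)) :: (N2 X Y 1 n 1).map (ph ρ k) ++
        (A0 ++ (N1 X Y 1 n).map (ph ρ k))) =
      (GiL X Y).map (ph ρ k) ++ (N2 X Y 1 n 1).map (ph ρ k) ++
        (A0 ++ (N1 X Y 1 n).map (ph ρ k)) := by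
    simp only [GiL, List.map_cons, List.map_nil, ph_some, k1, k3, List.cons_append,
      List.nil_append]
  rw [e4]
  refine this.trans ?_
  simp only [List.append_assoc]
  exact List.IsRotated.refl _

end Crest.Agent.R158.Wd377
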