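import Crest.Agent.R158.Wf2_850
import Crest.Agent.R158.Vx2_107
import Crest.Agent.R158.Hd1_109

/-!
# Row 158, BLOCK W (helper850), part 3: concentric systems of charges

* `Sys J C D σ τ κ u` : densities `u i`, `i ≤ J`, supported in `BF σ_i \ BF τ_i`, `σ_i ≤ τ_{i+1}`
* `sp z j` : loops around `BF σ_j` inside `BF τ_{j+1}` (their number is `NN σ_j τ_{j+1}`)
* `W_eq` : `W = ∏_j ff (c_0 + .. + c_j) ^ NN_j * ∏ over the rest`
* `W_le`, `W_ge` : the deterministic bounds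
* `cover_count` : a majorant with exponential moments of the number of exceptional loops
* `sys_bd` : **the bounds with an error having all exponential moments**
-/

set_option autoImplicit false

noncomputable section

namespace Crest.Agent.R158.Wf850

open Real Finset MeasureTheory
open Crest.Agent.R161.Geo729 Crest.Agent.R161.Tas682
open Crest.Agent.R158.Rs689 (nu hf PB Dep)
open Crest.Agent.R158.It200 (Cfz Corner fc fc_zero)
open Crest.Agent.R158.We297 (ff)
open Crest.Agent.R158.Cn109 (DepF lsW SS QQ smalls mem_smalls SS_eq VV)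
open Crest.Agent.R158.Vx107 (mass W Ntr Fw)
open Crest.Agent.R158.Hd109 (Dens Err)

/-- system of concentric densities -/
structure Sys (J : ℕ) (C : ℝ) (D : ℕ) (σ τ : ℕ → ℤ) (κ : ℕ → ℕ) (u : ℕ → Face →₀ ℝ) : Prop where
  s0 : 1 ≤ σ 0
  lt : ∀ i ≤ J, τ i < σ i
  mo : ∀ i < J, σ i ≤ τ (i + 1)
  k1 : ∀ i ≤ J, (2 : ℤ) ^ κ i ≤ 2 * σ i
  k2 : ∀ i ≤ J, 1 ≤ i → (2 : ℤ) ^ κ i ≤ τ i + 2
  k3 : ∀ i ≤ J, σ i ≤ D * (2 : ℤ) ^ κ i
  dens : ∀ i ≤ J, Dens C (κ i) (u i).support (u i)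
  sub : ∀ i ≤ J, ∀ v, u i v ≠ 0 → v ∈ BF (0, 0) (σ i) ∧ v ∉ BF (0, 0) (τ i)

/-- the charge -/
def mm (J : ℕ) (c : ℕ → ℝ) (u : ℕ → Face →₀ ℝ) : Face →₀ ℝ := ∑ i ∈ range (J + 1), c i • u i

open Classical in
/-- loops between two boxes -/
def spc (r R : ℤ) (z : Cfz) : Finset (Finset Face) :=
  (BF (0, 0) R).powerset.filter fun A => BF (0, 0) r ⊆ A ∧ A ∈ Lps z

theorem card_spc (r R : ℤ) (z : Cfz) : (spc r R z).card = NN (0, 0) r R z := rfl

theorem mem_spc {r R : ℤ} {z : Cfz} {A : Finset Face} :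
    A ∈ spc r R z ↔ A ⊆ BF (0, 0) R ∧ BF (0, 0) r ⊆ A ∧ A ∈ Lps z := by
  classical
  unfold spc
  rw [Finset.mem_filter, Finset.mem_powerset]

/-- the face at distance `n` -/
theorem far_mem {n : ℤ} (hn : 0 ≤ n) : (((n, 0), false) : Face) ∈ BF (0, 0) n := by
  rw [mem_BF, sd_le]; simp [hn]

theorem far_mem' {n : ℤ} (hn : 0 ≤ n) : (((-n, 0), false) : Face) ∈ BF (0, 0) n := by
  rw [mem_BF, sd_le]; simp [hn]

theorem far_notMem {n m : ℤ} (h : m < n) : (((n, 0), false) : Face) ∉ BF (0, 0) m := by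
  rw [mem_BF]
  intro h2
  have h3 := (sd_le.1 h2).2.1
  dsimp only at h3
  linarith

theorem not_BF_sub {n m : ℤ} (hn : 0 ≤ n) (h : m < n) : ¬ BF (0, 0) n ⊆ BF (0, 0) m :=
  fun h2 => far_notMem h (h2 (far_mem hn))

theorem dia_of_BF {n : ℤ} (hn : 0 ≤ n) {A : Finset Face} (h : BF (0, 0) n ⊆ A) :
    2 * n ≤ dia A := by
  have h1 := sd_le_dia (h (far_mem' hn)) (h (far_mem hn))
  refine le_trans ?_ h1
  unfold sd
  refine le_trans ?_ (le_max_left _ _)
  dsimp only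
  rw [show n - -n = 2 * n by ring]
  exact le_abs_self _

namespace Sys

variable {J : ℕ} {C : ℝ} {D : ℕ} {σ τ : ℕ → ℤ} {κ : ℕ → ℕ} {u : ℕ → Face →₀ ℝ}
  (H : Sys J C D σ τ κ u)

include H

theorem smo {i j : ℕ} (hij : i ≤ j) (hj : j ≤ J) : σ i ≤ σ j := by
  induction j, hij using Nat.le_induction with
  | base => exact le_rfl
  | succ j _ ih =>
      have h1 := H.mo j (by omega)
      have h2 := H.lt (j + 1) hj
      linarith [ih (by omega)]

theorem tmo {i j : ℕ} (hij : i ≤ j) (hj : j ≤ J) : τ i ≤ τ j := by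
  induction j, hij using Nat.le_induction with
  | base => exact le_rfl
  | succ j _ ih =>
      have h1 := H.mo j (by omega)
      have h2 := H.lt j (by omega)
      linarith [ih (by omega)]

theorem pos {i : ℕ} (hi : i ≤ J) : 1 ≤ σ i := H.s0.trans (H.smo (Nat.zero_le i) hi)

theorem mass_nonneg {i : ℕ} (hi : i ≤ J) (A : Finset Face) : 0 ≤ mass (u i) A := by
  refine sum_nonneg fun f _ => ?_
  by_cases h : u i f = 0
  · rw [h]
  · exact (H.dens i hi).nn f (Finsupp.mem_support_iff.2 h)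

omit H in
theorem mass_eq {i : ℕ} (A : Finset Face) : mass (u i) A = Cn109.mass (u i) (u i).support A := by
  classical
  unfold mass Cn109.mass
  symm
  refine sum_subset_zero_on_sdiff (fun f hf => (mem_filter.1 hf).2) (fun f hf => ?_) fun _ _ => rfl
  rw [mem_sdiff, mem_filter, not_and_or] at hf
  rcases hf.2 with h | h
  · exact Finsupp.notMem_support_iff.1 h
  · exact absurd hf.1 h

theorem mass_le_one {i : ℕ} (hi : i ≤ J) (A : Finset Face) : mass (u i) A ≤ 1 := by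
  rw [Sys.mass_eq, ← (H.dens i hi).sum]
  exact sum_le_sum_of_subset_of_nonneg (filter_subset _ _) fun f hf _ => (H.dens i hi).nn f hf

theorem mass_one {i j : ℕ} (hij : i ≤ j) (hj : j ≤ J) {A : Finset Face}
    (h : BF (0, 0) (σ j) ⊆ A) : mass (u i) A = 1 := by
  rw [Sys.mass_eq, ← (H.dens i (hij.trans hj)).sum]
  unfold Cn109.mass
  rw [filter_true_of_mem]
  intro v hv
  exact h (BF_mono (H.smo hij hj) (H.sub i (hij.trans hj) v (Finsupp.mem_support_iff.1 hv)).1)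

theorem mass_zero {i j : ℕ} (hij : j ≤ i) (hi : i ≤ J) {A : Finset Face}
    (h : A ⊆ BF (0, 0) (τ j)) : mass (u i) A = 0 := by
  refine sum_eq_zero fun f hf => ?_
  by_contra hne
  exact (H.sub i hi f hne).2 (BF_mono (H.tmo hij hi) (h hf))

end Sys

/-- all loops which split the largest box -/
def al (n : ℤ) (z : Cfz) : Finset (Finset Face) := (fin_split z (0, 0) n).toFinset

theorem mem_al {n : ℤ} {z : Cfz} {A : Finset Face} :
    A ∈ al n z ↔ A ∈ Lps z ∧ Splits A (BF (0, 0) n) := by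
  unfold al
  rw [Set.Finite.mem_toFinset]
  exact Iff.rfl

theorem mass_mm (J : ℕ) (c : ℕ → ℝ) (u : ℕ → Face →₀ ℝ) (A : Finset Face) :
    mass (mm J c u) A = ∑ i ∈ range (J + 1), c i * mass (u i) A := by
  unfold mm
  have h : ∀ s : Finset ℕ, mass (∑ i ∈ s, c i • u i) A = ∑ i ∈ s, c i * mass (u i) A := by
    intro s
    classical
    induction s using Finset.induction_on with
    | empty => unfold mass; simp
    | insert i s hi ih =>
        rw [sum_insert hi, sum_insert hi, Vx107.mass_add, Vx107.mass_smul, ih]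
  exact h _

theorem ntr_mm {J : ℕ} {C : ℝ} {D : ℕ} {σ τ : ℕ → ℤ} {κ : ℕ → ℕ} {u : ℕ → Face →₀ ℝ}
    (H : Sys J C D σ τ κ u) {c : ℕ → ℝ} (hc : ∑ i ∈ range (J + 1), c i = 0) :
    Ntr (mm J c u) := by
  classical
  unfold Ntr mm
  have h : ∀ s : Finset ℕ, Vx107.tot (∑ i ∈ s, c i • u i) = ∑ i ∈ s, c i * Vx107.tot (u i) := by
    intro s
    induction s using Finset.induction_on with
    | empty => unfold Vx107.tot; simp
    | insert i s hi ih => rw [sum_insert hi, sum_insert hi, Vx107.tot_add, Vx107.tot_smul, ih]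
  rw [h, ← hc]
  refine sum_congr rfl fun i hi => ?_
  have h1 : Vx107.tot (u i) = 1 := (H.dens i (by rw [mem_range] at hi; omega)).sum
  rw [h1, mul_one]

theorem supp_mm {J : ℕ} {C : ℝ} {D : ℕ} {σ τ : ℕ → ℤ} {κ : ℕ → ℕ} {u : ℕ → Face →₀ ℝ}
    (H : Sys J C D σ τ κ u) (c : ℕ → ℝ) : (mm J c u).support ⊆ BF (0, 0) (σ J) := by
  intro f hf
  by_contra hcon
  rw [Finsupp.mem_support_iff] at hf
  apply hf
  unfold mm
  rw [Finsupp.finsetSum_apply]
  refine sum_eq_zero fun i hi => ?_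
  have hi' : i ≤ J := by rw [mem_range] at hi; omega
  have h0 : u i f = 0 := by
    by_contra hne
    exact hcon (BF_mono (H.smo hi' le_rfl) (H.sub i hi' f hne).1)
  rw [Finsupp.smul_apply, h0, smul_zero]

theorem Fw_eq (x : ℝ) : Fw x = ff x := rfl

open Classical in
/-- the special loops -/
def spz (J : ℕ) (σ τ : ℕ → ℤ) (z : Cfz) : Finset (Finset Face) :=
  (range J).biUnion fun j => spc (σ j) (τ (j + 1)) z

open Classical in
/-- the other loops -/
def rst (J : ℕ) (σ τ : ℕ → ℤ) (z : Cfz) : Finset (Finset Face) := al (σ J) z \ spz J σ τ z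

theorem mem_rst {J : ℕ} {σ τ : ℕ → ℤ} {z : Cfz} {A : Finset Face} :
    A ∈ rst J σ τ z ↔ (A ∈ Lps z ∧ Splits A (BF (0, 0) (σ J))) ∧
      ∀ j < J, ¬ (A ⊆ BF (0, 0) (τ (j + 1)) ∧ BF (0, 0) (σ j) ⊆ A) := by
  classical
  unfold rst spz
  rw [mem_sdiff, mem_al, mem_biUnion]
  constructor
  · rintro ⟨h1, h2⟩
    refine ⟨h1, fun j hj h3 => h2 ⟨j, mem_range.2 hj, mem_spc.2 ⟨h3.1, h3.2, h1.1⟩⟩⟩
  · rintro ⟨h1, h2⟩
    refine ⟨h1, ?_⟩
    rintro ⟨j, hj, h3⟩
    rw [mem_spc] at h3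
    exact h2 j (mem_range.1 hj) ⟨h3.1, h3.2.1⟩

/-- partial sums of the charges -/
def cs (c : ℕ → ℝ) (j : ℕ) : ℝ := ∑ i ∈ range (j + 1), c i

theorem spc_sub_al {J : ℕ} {C : ℝ} {D : ℕ} {σ τ : ℕ → ℤ} {κ : ℕ → ℕ} {u : ℕ → Face →₀ ℝ}
    (H : Sys J C D σ τ κ u) {j : ℕ} (hj : j < J) (z : Cfz) :
    spc (σ j) (τ (j + 1)) z ⊆ al (σ J) z := by
  intro A hA
  rw [mem_spc] at hA
  rw [mem_al]
  have hp := H.pos (i := j) (by omega)
  refine ⟨hA.2.2, ⟨_, BF_mono (H.smo (by omega) le_rfl) (far_mem (n := σ j) (by linarith)),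
    hA.2.1 (far_mem (by linarith))⟩, ⟨_, far_mem (n := σ J) (by linarith [H.pos (le_refl J)]), ?_⟩⟩
  intro h
  refine far_notMem ?_ (hA.1 h)
  have h1 := H.lt (j + 1) (by omega)
  have h2 := H.smo (i := j + 1) (j := J) (by omega) le_rfl
  linarith

theorem W_eq {J : ℕ} {C : ℝ} {D : ℕ} {σ τ : ℕ → ℤ} {κ : ℕ → ℕ} {u : ℕ → Face →₀ ℝ}
    (H : Sys J C D σ τ κ u) {c : ℕ → ℝ} (hc : ∑ i ∈ range (J + 1), c i = 0) (z : Cfz) :
    W (mm J c u) z = (∏ j ∈ range J, ff (cs c j) ^ NN (0, 0) (σ j) (τ (j + 1)) z) *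
      ∏ A ∈ rst J σ τ z, ff (∑ i ∈ range (J + 1), c i * mass (u i) A) := by
  classical
  have h1 : W (mm J c u) z = ∏ A ∈ al (σ J) z, Fw (mass (mm J c u) A) := by
    unfold W
    refine finprod_mem_eq_prod_of_inter_mulSupport_eq _ ?_
    ext A
    constructor
    · rintro ⟨h2, h3⟩
      refine ⟨?_, h3⟩
      rw [Finset.mem_coe, mem_al]
      refine ⟨h2, Vx107.splits_of_mass (ntr_mm H hc) (supp_mm H c) fun h4 => h3 ?_⟩
      show Fw (mass (mm J c u) A) = 1
      rw [h4, Vx107.Fw_zero]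
    · rintro ⟨h2, h3⟩
      rw [Finset.mem_coe, mem_al] at h2
      exact ⟨h2.1, h3⟩
  have hsub : spz J σ τ z ⊆ al (σ J) z := by
    unfold spz
    rw [biUnion_subset]
    intro j hj
    exact spc_sub_al H (mem_range.1 hj) z
  have hdisj : ((range J : Finset ℕ) : Set ℕ).PairwiseDisjoint
      fun j => spc (σ j) (τ (j + 1)) z := by
    have key : ∀ j k, j < k → k < J → Disjoint (spc (σ j) (τ (j + 1)) z)
        (spc (σ k) (τ (k + 1)) z) := by
      intro j k hjk hk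
      rw [Finset.disjoint_left]
      intro A hA hB
      rw [mem_spc] at hA hB
      refine not_BF_sub (n := σ k) (by linarith [H.pos (i := k) (by omega)]) ?_
        (hB.2.1.trans hA.1)
      have h2 := H.tmo (i := j + 1) (j := k) (by omega) (by omega)
      have h3 := H.lt k (by omega)
      linarith
    intro j hj k hk hne
    rw [Finset.mem_coe, mem_range] at hj hk
    rcases lt_or_gt_of_ne hne with h | h
    · exact key j k h hk
    · exact (key k j h hj).symm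
  rw [h1, ← prod_sdiff hsub, mul_comm]
  unfold rst
  congr 1
  · unfold spz
    rw [prod_biUnion hdisj]
    refine prod_congr rfl fun j hj => ?_
    rw [mem_range] at hj
    rw [← card_spc, ← prod_const]
    refine prod_congr rfl fun A hA => ?_
    rw [mem_spc] at hA
    rw [Fw_eq, mass_mm]
    congr 1
    unfold cs
    have e : ∀ i ∈ range (J + 1), c i * mass (u i) A = if i ∈ range (j + 1) then c i else 0 := by
      intro i hi
      rw [mem_range] at hi
      split_ifs with h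
      · rw [mem_range] at h
        rw [H.mass_one (j := j) (by omega) (by omega) hA.2.1, mul_one]
      · rw [mem_range] at h
        rw [H.mass_zero (j := j + 1) (by omega) (by omega) hA.1, mul_zero]
    rw [sum_congr rfl e, sum_ite_mem]
    congr 1
    ext i
    rw [mem_inter, mem_range, mem_range]
    omega
  · refine prod_congr rfl fun A _ => ?_
    rw [Fw_eq, mass_mm]

/-- small loops are among the others -/
theorem smalls_sub {J : ℕ} {C : ℝ} {D : ℕ} {σ τ : ℕ → ℤ} {κ : ℕ → ℕ} {u : ℕ → Face →₀ ℝ}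
    (H : Sys J C D σ τ κ u) {i : ℕ} (hi : i ≤ J) (z : Cfz) :
    smalls lsW (u i).support (κ i) z ⊆ rst J σ τ z := by
  classical
  intro A hA
  rw [mem_smalls] at hA
  obtain ⟨h1, ⟨v, hv, hvA⟩, h3⟩ := hA
  have hv' := H.sub i hi v (Finsupp.mem_support_iff.1 hv)
  have h3' : dia A + 1 < 2 ^ κ i := h3
  have hno : ∀ j, i ≤ j → j ≤ J → ¬ BF (0, 0) (σ j) ⊆ A := by
    intro j hij hj h
    have h4 := dia_of_BF (by linarith [H.pos (i := j) hj]) h
    have h5 := H.smo hij hj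
    have h6 := H.k1 i hi
    have h7 : ((dia A : ℤ) + 1) < 2 ^ κ i := by exact_mod_cast h3'
    linarith
  rw [mem_rst]
  refine ⟨⟨h1, ⟨v, BF_mono (H.smo hi le_rfl) hv'.1, hvA⟩, ?_⟩, ?_⟩
  · by_contra hcon
    push Not at hcon
    exact hno J hi le_rfl hcon
  · rintro j hj ⟨h4, h5⟩
    rcases le_or_gt i j with h | h
    · exact hno j h (by omega) h5
    · exact hv'.2 (BF_mono (H.tmo (i := j + 1) (j := i) (by omega) hi) (h4 hvA))

open Classical in
/-- exceptional loops of one box -/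
def exc (n : ℤ) (k : ℕ) (z : Cfz) : Finset (Finset Face) :=
  (al n z).filter fun A => 2 ^ k ≤ dia A + 1

theorem mem_exc {n : ℤ} {k : ℕ} {z : Cfz} {A : Finset Face} :
    A ∈ exc n k z ↔ A ∈ Lps z ∧ Splits A (BF (0, 0) n) ∧ 2 ^ k ≤ dia A + 1 := by
  classical
  unfold exc
  rw [mem_filter, mem_al, and_assoc]

open Classical in
/-- exceptional loops -/
def TT (J : ℕ) (σ : ℕ → ℤ) (κ : ℕ → ℕ) (z : Cfz) : Finset (Finset Face) :=
  (range (J + 1)).biUnion fun i => exc (σ i) (κ i) z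

theorem mem_TT {J : ℕ} {C : ℝ} {D : ℕ} {σ τ : ℕ → ℤ} {κ : ℕ → ℕ} {u : ℕ → Face →₀ ℝ}
    (H : Sys J C D σ τ κ u) {i : ℕ} (hi : i ≤ J) {z : Cfz} {A : Finset Face}
    (hA : A ∈ rst J σ τ z) (hs : A ∉ smalls lsW (u i).support (κ i) z)
    (hm : mass (u i) A ≠ 0) : A ∈ TT J σ κ z := by
  classical
  rw [mem_rst] at hA
  obtain ⟨⟨hL, hspl⟩, hsp⟩ := hA
  obtain ⟨v, hvA, hv⟩ : ∃ v ∈ A, u i v ≠ 0 := by
    by_contra hcon
    push Not at hcon
    exact hm (sum_eq_zero hcon)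
  have hv' := H.sub i hi v hv
  have hdia : 2 ^ κ i ≤ dia A + 1 := by
    by_contra hcon
    refine hs ((mem_smalls lsW).2 ⟨hL, ⟨v, Finsupp.mem_support_iff.2 hv, hvA⟩, ?_⟩)
    exact not_le.1 hcon
  -- least `j ≥ i` with `¬ BF σ_j ⊆ A`
  have hJ : ¬ BF (0, 0) (σ J) ⊆ A := fun h => by
    obtain ⟨w, hw, hwA⟩ := hspl.2
    exact hwA (h hw)
  have hex : ∃ j, i ≤ j ∧ j ≤ J ∧ ¬ BF (0, 0) (σ j) ⊆ A := ⟨J, hi, le_rfl, hJ⟩
  obtain ⟨h1, h2, h3⟩ := Nat.find_spec hex
  set j := Nat.find hex with hj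
  unfold TT
  rw [mem_biUnion]
  refine ⟨j, mem_range.2 (by omega), mem_exc.2 ⟨hL, ⟨⟨v, BF_mono (H.smo h1 h2) hv'.1, hvA⟩, ?_⟩, ?_⟩⟩
  · by_contra hcon
    push Not at hcon
    exact h3 hcon
  · rcases Nat.eq_or_lt_of_le h1 with h4 | h4
    · rw [← h4]; exact hdia
    · have h5 : BF (0, 0) (σ (j - 1)) ⊆ A := by
        by_contra hcon
        exact Nat.find_min hex (m := j - 1) (by omega) ⟨by omega, by omega, hcon⟩
      have h6 := hsp (j - 1) (by omega)
      rw [show j - 1 + 1 = j by omega] at h6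
      have h7 : ¬ A ⊆ BF (0, 0) (τ j) := fun h => h6 ⟨h, h5⟩
      rw [not_subset] at h7
      obtain ⟨w, hw, hw'⟩ := h7
      rw [mem_BF, not_le] at hw'
      have h8 : (((0, 0), false) : Face) ∈ A := h5 (by
        rw [mem_BF, sd_self]
        linarith [H.pos (i := j - 1) (by omega)])
      have h9 := sd_le_dia h8 hw
      have h10 := H.k2 j h2 (by omega)
      have h11 : (2 : ℤ) ^ κ j ≤ ((dia A + 1 : ℕ) : ℤ) := by
        push_cast
        have : sd ((0 : ℤ), (0 : ℤ)) w.1 ≤ dia A := h9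
        linarith
      exact_mod_cast h11

/-- sum of the moduli of the charges -/
def ca (J : ℕ) (c : ℕ → ℝ) : ℝ := ∑ i ∈ range (J + 1), |c i|

theorem ca_nonneg (J : ℕ) (c : ℕ → ℝ) : 0 ≤ ca J c := sum_nonneg fun _ _ => abs_nonneg _

/-- the main exponent -/
def lin (J : ℕ) (c : ℕ → ℝ) (κ : ℕ → ℕ) : ℝ := √3 * ∑ i ∈ range (J + 1), c i * VV (κ i)

/-- **deterministic upper bound** -/
theorem W_le {J : ℕ} {C : ℝ} {D : ℕ} {σ τ : ℕ → ℤ} {κ : ℕ → ℕ} {u : ℕ → Face →₀ ℝ}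
    (H : Sys J C D σ τ κ u) {c : ℕ → ℝ} (hc : ∑ i ∈ range (J + 1), c i = 0) (z : Cfz) :
    |W (mm J c u) z| ≤ (∏ j ∈ range J, |ff (cs c j)| ^ NN (0, 0) (σ j) (τ (j + 1)) z) *
      exp (-(√3 * ∑ i ∈ range (J + 1), c i * SS lsW (u i) (u i).support (κ i) z) +
        (2 * ca J c + 12 * ca J c ^ 2) * ((TT J σ κ z).card +
          ∑ i ∈ range (J + 1), QQ lsW (u i) (u i).support (κ i) z)) := by
  classical
  rw [W_eq H hc, abs_mul, abs_prod]
  simp only [abs_pow]
  refine mul_le_mul_of_nonneg_left ?_ (prod_nonneg fun _ _ => pow_nonneg (abs_nonneg _) _)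
  have h := prod_le (I := range (J + 1)) (R := rst J σ τ z) (T := TT J σ κ z) (c := c)
    (u := fun i A => mass (u i) A) (Sm := fun i => smalls lsW (u i).support (κ i) z)
    (fun i hi A => H.mass_nonneg (by rw [mem_range] at hi; omega) A)
    (fun i hi A => H.mass_le_one (by rw [mem_range] at hi; omega) A)
    (fun i hi => smalls_sub H (by rw [mem_range] at hi; omega) z)
    (fun i hi A hA hs hm => mem_TT H (by rw [mem_range] at hi; omega) hA hs hm)
  refine h.trans (le_of_eq ?_)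
  congr 2
  · congr 2
    refine sum_congr rfl fun i _ => ?_
    rw [SS_eq]
    congr 1
    exact sum_congr rfl fun A _ => Sys.mass_eq A
  · congr 2
    refine sum_congr rfl fun i _ => ?_
    unfold QQ
    exact sum_congr rfl fun A _ => by rw [Sys.mass_eq A]

/-- **deterministic lower bound** -/
theorem W_ge {J : ℕ} {C : ℝ} {D : ℕ} {σ τ : ℕ → ℤ} {κ : ℕ → ℕ} {u : ℕ → Face →₀ ℝ}
    (H : Sys J C D σ τ κ u) {c : ℕ → ℝ} (hc : ∑ i ∈ range (J + 1), c i = 0) {C' : ℝ}
    (hC' : 0 ≤ C') (z : Cfz) (hpos : ∀ j < J, 0 ≤ ff (cs c j))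
    (hlow : ∀ A ∈ rst J σ τ z, exp (-(√3 * ∑ i ∈ range (J + 1), c i * mass (u i) A) -
      C' * (∑ i ∈ range (J + 1), c i * mass (u i) A) ^ 2) ≤
        ff (∑ i ∈ range (J + 1), c i * mass (u i) A)) :
    (∏ j ∈ range J, ff (cs c j) ^ NN (0, 0) (σ j) (τ (j + 1)) z) *
      exp (-(√3 * ∑ i ∈ range (J + 1), c i * SS lsW (u i) (u i).support (κ i) z) -
        (2 * ca J c + C' * ca J c ^ 2) * ((TT J σ κ z).card +
          ∑ i ∈ range (J + 1), QQ lsW (u i) (u i).support (κ i) z)) ≤ W (mm J c u) z := by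
  classical
  rw [W_eq H hc]
  refine mul_le_mul_of_nonneg_left ?_ (prod_nonneg fun j hj => pow_nonneg
    (hpos j (mem_range.1 hj)) _)
  have h := prod_ge (I := range (J + 1)) (R := rst J σ τ z) (T := TT J σ κ z) (c := c)
    (u := fun i A => mass (u i) A) (Sm := fun i => smalls lsW (u i).support (κ i) z)
    (fun i hi A => H.mass_nonneg (by rw [mem_range] at hi; omega) A)
    (fun i hi A => H.mass_le_one (by rw [mem_range] at hi; omega) A)
    (fun i hi => smalls_sub H (by rw [mem_range] at hi; omega) z)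
    (fun i hi A hA hs hm => mem_TT H (by rw [mem_range] at hi; omega) hA hs hm) hC' hlow
  refine le_trans (le_of_eq ?_) h
  congr 2
  · congr 2
    refine sum_congr rfl fun i _ => ?_
    rw [SS_eq]
    congr 1
    exact sum_congr rfl fun A _ => (Sys.mass_eq A).symm
  · congr 2
    refine sum_congr rfl fun i _ => ?_
    unfold QQ
    exact sum_congr rfl fun A _ => by rw [Sys.mass_eq A]

end Crest.Agent.R158.Wf850
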