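import Crest.Agent.R158.Wf3_850

/-!
# Row 158, BLOCK W (helper850), part 4: moments of the errors

* `cover` : a set splitting a box splits one of finitely many small boxes
* `count` : majorant with exponential moments of the number of exceptional loops
* `sys_bd` : **bounds of the weight of a concentric system, error with all exponential moments**
-/

set_option autoImplicit false

noncomputable section

namespace Crest.Agent.R158.Wf850

open Real Finset MeasureTheory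
open Crest.Agent.R161.Geo729 Crest.Agent.R161.Tas682
open Crest.Agent.R158.Rs689 (nu hf PB Dep)
open Crest.Agent.R158.It200 (Cfz Corner fc fc_zero)
open Crest.Agent.R158.We297 (ff)
open Crest.Agent.R158.Cn109 (DepF lsW SS QQ smalls mem_smalls SS_eq VV SS_dep QQ_dep QQ_nonneg)
open Crest.Agent.R158.Vx107 (mass W Ntr Fw)
open Crest.Agent.R158.Hd109 (Dens Err Err_dep lin_moments exp_sum_le)

theorem fc_off (d : Corner) : (fc d).1 ≤ d.1.1 ∧ d.1.1 ≤ (fc d).1 + 1 ∧ (fc d).2 ≤ d.1.2 ∧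
    d.1.2 ≤ (fc d).2 + 1 := by
  obtain ⟨⟨a, b⟩, q⟩ := d
  fin_cases q <;> simp [fc]

theorem cover {A : Finset Face} {n D : ℕ} (hn : 1 ≤ n) {s : ℤ} (hs : s ≤ D * (n : ℤ))
    (h : Splits A (BF (0, 0) s)) : ∃ p ∈ Icc (-(D : ℤ)) D ×ˢ Icc (-(D : ℤ)) D,
      Splits A (BF ((n : ℤ) * p.1, (n : ℤ) * p.2) n) := by
  obtain ⟨d, h1, h2, h3⟩ := exists_sep h
  have hn' : (1 : ℤ) ≤ n := by exact_mod_cast hn
  obtain ⟨f1, f2, f3, f4⟩ := fc_off d
  have hh : 0 ≤ (n : ℤ) / 2 ∧ 2 * ((n : ℤ) / 2) ≤ n ∧ (n : ℤ) / 2 + 1 ≤ n := by omega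
  set m : ℤ := (n : ℤ) / 2 with hm
  have key : ∀ t : ℤ, -s ≤ t → t ≤ s → ∃ a ∈ Icc (-(D : ℤ)) D,
      -m ≤ t - n * a ∧ t - n * a ≤ n - 1 - m := by
    intro t ht1 ht2
    have e1 := Int.mul_ediv_add_emod (t + m) n
    have e2 := Int.emod_nonneg (t + m) (b := n) (by omega)
    have e3 := Int.emod_lt_of_pos (t + m) (b := n) (by omega)
    refine ⟨(t + m) / n, ?_, by linarith, by linarith⟩
    rw [Finset.mem_Icc]
    constructor
    · rw [Int.le_ediv_iff_mul_le (by omega)]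
      nlinarith
    · rw [← Int.lt_add_one_iff, Int.ediv_lt_iff_lt_mul (by omega)]
      nlinarith
  rw [mem_BF, sd_le] at h1
  obtain ⟨c1, c2, c3, c4⟩ := h1
  have hc1 : (0 : ℤ) - s ≤ d.1.1 := c1
  have hc2 : d.1.1 ≤ 0 + s := c2
  have hc3 : (0 : ℤ) - s ≤ d.1.2 := c3
  have hc4 : d.1.2 ≤ 0 + s := c4
  obtain ⟨a, ha, a1, a2⟩ := key d.1.1 (by linarith) (by linarith)
  obtain ⟨b, hb, b1, b2⟩ := key d.1.2 (by linarith) (by linarith)
  have m1 : cv d ∈ BF ((n : ℤ) * a, (n : ℤ) * b) n := by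
    rw [mem_BF, sd_le]
    show (n : ℤ) * a - n ≤ d.1.1 ∧ d.1.1 ≤ (n : ℤ) * a + n ∧ (n : ℤ) * b - n ≤ d.1.2 ∧
      d.1.2 ≤ (n : ℤ) * b + n
    refine ⟨?_, ?_, ?_, ?_⟩ <;> linarith
  have m2 : cf d ∈ BF ((n : ℤ) * a, (n : ℤ) * b) n := by
    rw [mem_BF, sd_le]
    show (n : ℤ) * a - n ≤ (fc d).1 ∧ (fc d).1 ≤ (n : ℤ) * a + n ∧ (n : ℤ) * b - n ≤ (fc d).2 ∧
      (fc d).2 ≤ (n : ℤ) * b + n
    refine ⟨?_, ?_, ?_, ?_⟩ <;> linarith
  refine ⟨(a, b), Finset.mem_product.2 ⟨ha, hb⟩, ?_⟩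
  by_cases hv : cv d ∈ A
  · exact ⟨⟨_, m1, hv⟩, ⟨_, m2, fun hf => h3 ⟨fun _ => hf, fun _ => hv⟩⟩⟩
  · refine ⟨⟨_, m2, ?_⟩, ⟨_, m1, hv⟩⟩
    by_contra hf
    exact h3 ⟨fun h => absurd h hv, fun h => absurd h hf⟩

/-- **exceptional loops have all exponential moments** -/
theorem count {a : ℝ} (ha : 0 ≤ a) (D : ℕ) : ∃ G : ℝ, 1 ≤ G ∧ ∀ (s : ℤ) (k : ℕ),
    s ≤ D * (2 : ℤ) ^ k → ∃ (S : Finset Edge) (K : Cfz → ℕ), DepF S K ∧
      ∫ z, exp (a * K z) ∂(nu hf) ≤ G ∧ ∀ z, (exc s k z).card ≤ K z := by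
  classical
  set P : Finset (ℤ × ℤ) := Icc (-(D : ℤ)) D ×ˢ Icc (-(D : ℤ)) D with hP
  have hPne : P.Nonempty := ⟨(0, 0), by
    rw [hP, Finset.mem_product, Finset.mem_Icc]; simp⟩
  have hpos : 0 ≤ (P.card : ℝ) * a := by positivity
  obtain ⟨G, hG, h⟩ := Lc522.l7 (exp (P.card * a)) (Real.one_le_exp hpos)
  refine ⟨G, hG, fun s k hs => ?_⟩
  have hk : 1 ≤ 2 ^ k := Nat.one_le_two_pow
  choose K hK1 hK2 hK3 using fun p : ℤ × ℤ =>
    h (((2 ^ k : ℕ) : ℤ) * p.1, ((2 ^ k : ℕ) : ℤ) * p.2) (2 ^ k) hk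
  have hdep : ∀ p, DepF (Em522.starE (((2 ^ k : ℕ) : ℤ) * p.1, ((2 ^ k : ℕ) : ℤ) * p.2)
      (2 * 2 ^ k)) (K p) := fun p z z' hz => hK1 p z z' hz
  refine ⟨P.biUnion fun p => Em522.starE (((2 ^ k : ℕ) : ℤ) * p.1, ((2 ^ k : ℕ) : ℤ) * p.2)
      (2 * 2 ^ k), fun z => ∑ p ∈ P, K p z, ?_, ?_, ?_⟩
  · intro z z' hz
    refine Finset.sum_congr rfl fun p hp => hdep p z z' fun e he => hz e ?_
    exact Finset.mem_biUnion.2 ⟨p, hp, he⟩
  · have e1 : ∀ z, exp (a * ((∑ p ∈ P, K p z : ℕ) : ℝ)) = exp (∑ p ∈ P, a * (K p z : ℝ)) := by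
      intro z
      push_cast
      rw [Finset.mul_sum]
    simp only [e1]
    have e2 : ∀ p z, exp ((P.card : ℝ) * (a * (K p z : ℝ))) = exp (P.card * a) ^ K p z := by
      intro p z
      rw [← Real.exp_nat_mul]
      congr 1
      ring
    refine exp_sum_le hPne (X := fun p z => a * (K p z : ℝ)) (fun p _ => ?_) fun p _ => ?_
    · exact ((hdep p).comp fun x => exp ((P.card : ℝ) * (a * (x : ℝ)))).integrable _
    · simp only [e2]
      exact hK2 p
  · intro z
    have h1 : exc s k z ⊆ P.biUnion fun p =>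
        ((fin_split z (((2 ^ k : ℕ) : ℤ) * p.1, ((2 ^ k : ℕ) : ℤ) * p.2) (2 ^ k : ℕ)).toFinset.filter
          fun A => 2 ^ k ≤ 2 * (dia A + 1)) := by
      intro A hA
      rw [mem_exc] at hA
      obtain ⟨hA1, hA2, hA3⟩ := hA
      obtain ⟨p, hp, hp2⟩ := cover hk (D := D) (s := s) (by push_cast; exact hs) hA2
      rw [Finset.mem_biUnion]
      refine ⟨p, hp, ?_⟩
      rw [Finset.mem_filter, Set.Finite.mem_toFinset]
      exact ⟨⟨hA1, hp2⟩, by omega⟩
    refine (Finset.card_le_card h1).trans (Finset.card_biUnion_le.trans ?_)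
    refine Finset.sum_le_sum fun p _ => ?_
    refine le_trans (le_of_eq ?_) (hK3 p z)
    rw [← Set.ncard_coe_finset]
    congr 1
    ext A
    rw [Finset.mem_coe, Finset.mem_filter, Set.Finite.mem_toFinset]
    constructor
    · rintro ⟨⟨a1, a2⟩, a3⟩; exact ⟨a1, a2, a3⟩
    · rintro ⟨a1, a2, a3⟩; exact ⟨⟨a1, a2⟩, a3⟩

/-- **bounds of the weight of a concentric system**, error with exponential moments -/
theorem sys_bd (J : ℕ) {C : ℝ} (hC : 0 ≤ C) (D : ℕ) (c : ℕ → ℝ)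
    (hc : ∑ i ∈ range (J + 1), c i = 0) {C' : ℝ} (hC' : 0 ≤ C') {q : ℝ} (hq : 0 ≤ q) :
    ∃ G : ℝ, 1 ≤ G ∧ ∀ (σ τ : ℕ → ℤ) (κ : ℕ → ℕ) (u : ℕ → Face →₀ ℝ), Sys J C D σ τ κ u →
      ∃ (S : Finset Edge) (E : Cfz → ℝ), DepF S E ∧ (∀ z, 0 ≤ E z) ∧
        ∫ z, exp (q * E z) ∂(nu hf) ≤ G ∧
        (∀ z, |W (mm J c u) z| ≤ (∏ j ∈ range J, |ff (cs c j)| ^ NN (0, 0) (σ j) (τ (j + 1)) z) *
          exp (-lin J c κ + E z)) ∧
        ∀ z, (∀ j < J, 0 ≤ ff (cs c j)) →
          (∀ A ∈ rst J σ τ z, exp (-(√3 * ∑ i ∈ range (J + 1), c i * mass (u i) A) -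
            C' * (∑ i ∈ range (J + 1), c i * mass (u i) A) ^ 2) ≤
              ff (∑ i ∈ range (J + 1), c i * mass (u i) A)) →
          (∏ j ∈ range J, ff (cs c j) ^ NN (0, 0) (σ j) (τ (j + 1)) z) *
            exp (-lin J c κ - E z) ≤ W (mm J c u) z := by
  classical
  set B : ℝ := 2 * ca J c + (12 + C') * ca J c ^ 2 with hB
  have hca := ca_nonneg J c
  have hB0 : 0 ≤ B := by positivity
  set r : Finset ℕ := range (J + 1) with hr
  have hrne : r.Nonempty := ⟨0, by rw [hr, mem_range]; omega⟩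
  obtain ⟨G1, hG1, h1⟩ := lin_moments (ι := Fin (J + 1)) hC (fun i => √3 * c i) (fun _ => B)
    (2 * q) (by positivity) (fun _ => hB0)
  obtain ⟨G2, hG2, h2⟩ := count (a := r.card * (2 * q * B)) (by positivity) D
  refine ⟨G1 + G2, by linarith, fun σ τ κ u H => ?_⟩
  choose! SK K hK1 hK2 hK3 using fun i (hi : i ∈ r) =>
    h2 (σ i) (κ i) (H.k3 i (by rw [hr, mem_range] at hi; omega))
  set E1 : Cfz → ℝ := Err (ι := Fin (J + 1)) (fun i => √3 * c i) (fun _ => B) (fun i => κ i)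
    (fun i => (u i).support) (fun i => u i) with hE1
  set E2 : Cfz → ℝ := fun z => ∑ i ∈ r, B * (K i z : ℝ) with hE2
  have hE1' : ∀ z, E1 z = ∑ i ∈ r, (√3 * |c i| * |SS lsW (u i) (u i).support (κ i) z - VV (κ i)| +
      B * QQ lsW (u i) (u i).support (κ i) z) := by
    intro z
    rw [hE1]
    unfold Err
    rw [hr, ← Fin.sum_univ_eq_sum_range (fun i => √3 * |c i| *
      |SS lsW (u i) (u i).support (κ i) z - VV (κ i)| + B * QQ lsW (u i) (u i).support (κ i) z)]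
    refine Finset.sum_congr rfl fun i _ => ?_
    rw [abs_mul, abs_of_nonneg (Real.sqrt_nonneg 3)]
  have hE1n : ∀ z, 0 ≤ E1 z := by
    intro z
    rw [hE1']
    refine Finset.sum_nonneg fun i _ => ?_
    have := QQ_nonneg lsW (u i) (u i).support (κ i) z
    positivity
  have hE2n : ∀ z, 0 ≤ E2 z := fun z => Finset.sum_nonneg fun i _ => by positivity
  have hd1 := Err_dep (ι := Fin (J + 1)) (fun i => √3 * c i) (fun _ => B) (fun i => κ i)
    (fun i => (u i).support) (fun i => u i)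
  set S1 : Finset Edge := Finset.univ.biUnion fun i : Fin (J + 1) => (u i).support.biUnion fun v =>
      (Finset.range (κ i)).biUnion fun k => Cn109.Sup lsW k v with hS1
  have hd2 : DepF (r.biUnion SK) E2 := by
    refine DepF.sum fun i hi => ?_
    exact ((hK1 i hi).mono (Finset.subset_biUnion_of_mem SK hi)).comp fun x => B * (x : ℝ)
  have hcount : ∀ z, B * ((TT J σ κ z).card : ℝ) ≤ E2 z := by
    intro z
    rw [hE2]
    simp only
    rw [← Finset.mul_sum]
    refine mul_le_mul_of_nonneg_left ?_ hB0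
    have h5 : (TT J σ κ z).card ≤ ∑ i ∈ r, K i z :=
      Finset.card_biUnion_le.trans (Finset.sum_le_sum fun i hi => hK3 i hi z)
    exact_mod_cast h5
  -- comparison of the linear terms
  have hlin : ∀ z, |√3 * ∑ i ∈ r, c i * SS lsW (u i) (u i).support (κ i) z - lin J c κ| ≤
      ∑ i ∈ r, √3 * |c i| * |SS lsW (u i) (u i).support (κ i) z - VV (κ i)| := by
    intro z
    unfold lin
    rw [← hr, ← mul_sub, ← Finset.sum_sub_distrib, abs_mul, abs_of_nonneg (Real.sqrt_nonneg 3)]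
    rw [show (∑ i ∈ r, √3 * |c i| * |SS lsW (u i) (u i).support (κ i) z - VV (κ i)|) =
      √3 * ∑ i ∈ r, |c i| * |SS lsW (u i) (u i).support (κ i) z - VV (κ i)| by
        rw [Finset.mul_sum]; exact Finset.sum_congr rfl fun i _ => by ring]
    refine mul_le_mul_of_nonneg_left ?_ (Real.sqrt_nonneg 3)
    refine (Finset.abs_sum_le_sum_abs _ _).trans (Finset.sum_le_sum fun i _ => ?_)
    rw [← mul_sub, abs_mul]
  have hmain : ∀ z (B' : ℝ), 0 ≤ B' → B' ≤ B →
      |√3 * ∑ i ∈ r, c i * SS lsW (u i) (u i).support (κ i) z - lin J c κ| +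
        B' * ((TT J σ κ z).card + ∑ i ∈ r, QQ lsW (u i) (u i).support (κ i) z) ≤ E1 z + E2 z := by
    intro z B' hB'0 hB'
    have hQ : 0 ≤ ∑ i ∈ r, QQ lsW (u i) (u i).support (κ i) z :=
      Finset.sum_nonneg fun i _ => QQ_nonneg _ _ _ _ _
    have hT : (0 : ℝ) ≤ (TT J σ κ z).card := Nat.cast_nonneg _
    have h6 := hlin z
    have h7 := hcount z
    rw [hE1', Finset.sum_add_distrib, ← Finset.mul_sum (a := B)]
    have h8 : B' * ((TT J σ κ z).card + ∑ i ∈ r, QQ lsW (u i) (u i).support (κ i) z) ≤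
        B * ((TT J σ κ z).card + ∑ i ∈ r, QQ lsW (u i) (u i).support (κ i) z) :=
      mul_le_mul_of_nonneg_right hB' (by linarith)
    rw [mul_add B] at h8
    linarith
  refine ⟨S1 ∪ r.biUnion SK, fun z => E1 z + E2 z,
    DepF.add (hd1.mono Finset.subset_union_left) (hd2.mono Finset.subset_union_right),
    fun z => add_nonneg (hE1n z) (hE2n z), ?_, ?_, ?_⟩
  · have hi1 : Integrable (fun z => exp (2 * q * E1 z)) (nu hf) :=
      (hd1.comp fun x => exp (2 * q * x)).integrable _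
    have hi2 : Integrable (fun z => exp (2 * q * E2 z)) (nu hf) :=
      (hd2.comp fun x => exp (2 * q * x)).integrable _
    have hb1 : ∫ z, exp (2 * q * E1 z) ∂(nu hf) ≤ G1 :=
      h1 (fun i => κ i) (fun i => (u i).support) (fun i => u i) fun i => H.dens i (by omega)
    have hb2 : ∫ z, exp (2 * q * E2 z) ∂(nu hf) ≤ G2 := by
      have e : ∀ z, 2 * q * E2 z = ∑ i ∈ r, 2 * q * B * (K i z : ℝ) := by
        intro z
        rw [hE2]
        simp only
        rw [Finset.mul_sum]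
        exact Finset.sum_congr rfl fun i _ => by ring
      simp only [e]
      refine exp_sum_le hrne (X := fun i z => 2 * q * B * (K i z : ℝ)) (fun i hi => ?_)
        fun i hi => ?_
      · exact ((hK1 i hi).comp fun x => exp (r.card * (2 * q * B * (x : ℝ)))).integrable _
      · have := hK2 i hi
        refine le_trans (le_of_eq ?_) this
        refine integral_congr_ae (Filter.Eventually.of_forall fun z => ?_)
        show exp (r.card * (2 * q * B * (K i z : ℝ))) = exp (r.card * (2 * q * B) * (K i z : ℝ))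
        rw [mul_assoc (r.card : ℝ)]
    calc ∫ z, exp (q * (E1 z + E2 z)) ∂(nu hf)
        ≤ ∫ z, (exp (2 * q * E1 z) + exp (2 * q * E2 z)) ∂(nu hf) := by
          refine integral_mono ?_ (hi1.add hi2) fun z => ?_
          · exact ((DepF.add (hd1.mono (T := S1 ∪ r.biUnion SK) Finset.subset_union_left)
              (hd2.mono Finset.subset_union_right)).comp fun x => exp (q * x)).integrable _
          · show exp (q * (E1 z + E2 z)) ≤ exp (2 * q * E1 z) + exp (2 * q * E2 z)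
            rcases le_total (E1 z) (E2 z) with h | h
            · have : q * (E1 z + E2 z) ≤ 2 * q * E2 z := by nlinarith
              have h3 := exp_le_exp.2 this
              linarith [exp_pos (2 * q * E1 z)]
            · have : q * (E1 z + E2 z) ≤ 2 * q * E1 z := by nlinarith
              have h3 := exp_le_exp.2 this
              linarith [exp_pos (2 * q * E2 z)]
      _ = ∫ z, exp (2 * q * E1 z) ∂(nu hf) + ∫ z, exp (2 * q * E2 z) ∂(nu hf) :=
          integral_add hi1 hi2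
      _ ≤ G1 + G2 := add_le_add hb1 hb2
  · intro z
    refine (W_le H hc z).trans (mul_le_mul_of_nonneg_left ?_
      (prod_nonneg fun _ _ => pow_nonneg (abs_nonneg _) _))
    apply exp_le_exp.2
    have h6 := hmain z (2 * ca J c + 12 * ca J c ^ 2) (by positivity) (by rw [hB]; nlinarith)
    have h7 := (abs_le.1 (le_refl |√3 * ∑ i ∈ r, c i * SS lsW (u i) (u i).support (κ i) z -
      lin J c κ|)).1
    linarith
  · intro z hpos hlow
    refine le_trans (mul_le_mul_of_nonneg_left ?_ (prod_nonneg fun j hj =>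
      pow_nonneg (hpos j (mem_range.1 hj)) _)) (W_ge H hc hC' z hpos hlow)
    apply exp_le_exp.2
    have h6 := hmain z (2 * ca J c + C' * ca J c ^ 2) (by positivity) (by rw [hB]; nlinarith)
    have h7 := (abs_le.1 (le_refl |√3 * ∑ i ∈ r, c i * SS lsW (u i) (u i).support (κ i) z -
      lin J c κ|)).2
    linarith

end Crest.Agent.R158.Wf850
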