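import Crest.Agent.R158.Wf5_850

/-!
# Row 158, BLOCK W (helper850), part 7: three blobs, crossings between the rings

* `AA s R` : an open path of the annulus joins `sd ≤ s` to `R ≤ sd`; `aa_dep`, `aa_of`, `aa_prob`
* `sys3`, `mass3` (masses when no loop crosses), `nn_zero` (no loop between the rings when some
  loop crosses), `aa_of_cross`
* `interp` : interpolation of moments
-/

set_option autoImplicit false

noncomputable section

namespace Crest.Agent.R158.Wf850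

open Real Finset MeasureTheory Filter Topology
open Crest.Agent.R161.Geo729 Crest.Agent.R161.Dual374 Crest.Agent.R161.Tas682
open Crest.Agent.R158.Fr158 (bx mem_bx mem_bx_sd eIn mem_eIn)
open Crest.Agent.R158.Rs689 (nu hf PB Dep ArmX arm_half)
open Crest.Agent.R158.It200 (Cfz Corner fc fc_zero)
open Crest.Agent.R158.We297 (ff kap)
open Crest.Agent.R158.Cn109 (DepF lsW SS QQ smalls mem_smalls SS_eq VV VV_inc VV_diff VV_mono
  integral_mul_indep)
open Crest.Agent.R158.Vx107 (mass W Ntr Fw tot)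
open Crest.Agent.R158.Hd109 (Dens hoelder_exp rev_hoelder)

/-! ### annular arm -/

/-- edges of an annulus -/
def aE (s R : ℤ) : Finset Edge := eIn (bx (0, 0) R) \ eIn (bx (0, 0) s)

/-- an open path of the annulus crosses it -/
def AA (s R : ℤ) : Set Cfz := {z | ∃ u v : P2, sd (0, 0) u ≤ s ∧ R ≤ sd (0, 0) v ∧
  Relation.ReflTransGen (PStep (fun e => z e = true ∧ e ∈ aE s R)) u v}

theorem aa_dep (s R : ℤ) : Dep (aE s R) (AA s R) := by
  intro z z' h
  have e : (fun e => z e = true ∧ e ∈ aE s R) = (fun e => z' e = true ∧ e ∈ aE s R) := by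
    funext e
    refine propext ⟨fun h' => ⟨?_, h'.2⟩, fun h' => ⟨?_, h'.2⟩⟩
    · rw [← h e h'.2]; exact h'.1
    · rw [h e h'.2]; exact h'.1
  unfold AA
  rw [Set.mem_ofPred_eq, Set.mem_ofPred_eq, e]

theorem edge_in {z : Cfz} {s R : ℤ} {e : Edge} {a b : P2} (he : z e = true)
    (hE : (a = src e ∧ b = tgt e) ∨ (a = tgt e ∧ b = src e)) (ha : sd (0, 0) a ≤ R)
    (hb : sd (0, 0) b ≤ R) (hb' : s < sd (0, 0) b) : z e = true ∧ e ∈ aE s R := by
  refine ⟨he, ?_⟩
  unfold aE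
  rw [Finset.mem_sdiff, mem_eIn, mem_eIn, mem_bx_sd, mem_bx_sd, mem_bx_sd, mem_bx_sd]
  rcases hE with ⟨h1, h2⟩ | ⟨h1, h2⟩
  · rw [← h1, ← h2]
    exact ⟨⟨ha, hb⟩, fun h => by linarith [h.2]⟩
  · rw [← h1, ← h2]
    exact ⟨⟨hb, ha⟩, fun h => by linarith [h.1]⟩

theorem aa_of {z : Cfz} {s R : ℤ} (hsR : s < R) {u v : P2} (hu : sd (0, 0) u ≤ s)
    (hv : R ≤ sd (0, 0) v) (h : Relation.ReflTransGen (PStep (fun e => z e = true)) u v) :
    z ∈ AA s R := by
  have key : ∀ w, Relation.ReflTransGen (PStep (fun e => z e = true)) u w →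
      z ∈ AA s R ∨ (sd (0, 0) w < R ∧ ∃ u', sd (0, 0) u' ≤ s ∧
        Relation.ReflTransGen (PStep (fun e => z e = true ∧ e ∈ aE s R)) u' w) := by
    intro w hw
    induction hw with
    | refl => exact Or.inr ⟨by linarith, u, hu, .refl⟩
    | @tail a b hab hs ih =>
        rcases ih with h1 | ⟨h1, u', h2, h3⟩
        · exact Or.inl h1
        · have h4 := Lc522.sd_nbr (v := ((0 : ℤ), (0 : ℤ))) hs
          obtain ⟨e, he, hE⟩ := hs
          rcases le_or_gt R (sd (0, 0) b) with h5 | h5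
          · exact Or.inl ⟨u', b, h2, h5, h3.tail ⟨e, edge_in he hE (by linarith) (by linarith)
              (by linarith), hE⟩⟩
          · right
            refine ⟨h5, ?_⟩
            rcases le_or_gt (sd (0, 0) b) s with h6 | h6
            · exact ⟨b, h6, .refl⟩
            · exact ⟨u', h2, h3.tail ⟨e, edge_in he hE (by linarith) (by linarith) h6, hE⟩⟩
  rcases key v h with h1 | ⟨h1, _⟩
  · exact h1
  · linarith

theorem aa_prob : ∃ C a : ℝ, 0 < C ∧ 0 < a ∧ ∀ s R : ℕ, 1 ≤ s → s ≤ R →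
    (nu hf).real (AA s R) ≤ C * ((s : ℝ) / R) ^ a := by
  obtain ⟨C, a, hC, ha, h⟩ := arm_half
  refine ⟨C, a, hC, ha, fun s R hs hsR => le_trans (measureReal_mono ?_) (h (0, 0) s R hs hsR)⟩
  rintro z ⟨u, v, hu, hv, huv⟩
  unfold sd at hu hv
  dsimp only at hu hv
  rw [max_le_iff] at hu
  rw [le_max_iff] at hv
  exact ⟨u, v, hu.1, hu.2, hv, Relation.ReflTransGen.mono
    (fun _ _ ⟨e, h1, h2⟩ => ⟨e, h1.1, h2⟩) _ _ huv⟩

/-! ### three blobs -/

variable {us ws : ℕ → Face →₀ ℝ}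

/-- three densities -/
def u3 (us ws : ℕ → Face →₀ ℝ) (K L r : ℕ) (i : ℕ) : Face →₀ ℝ :=
  if i = 0 then us r else if i = 1 then ws ((K + 1) * r) else ws ((K + 1) * L * r)
/-- outer radii -/
def s3 (K L r : ℕ) (i : ℕ) : ℤ :=
  if i = 0 then r else if i = 1 then 2 * (((K + 1) * r : ℕ) : ℤ) else 2 * (((K + 1) * L * r : ℕ) : ℤ)
/-- inner radii -/
def t3 (K L r : ℕ) (i : ℕ) : ℤ :=
  if i = 0 then -1 else if i = 1 then ((K * r / 2 : ℕ) : ℤ) else (((K + 1) * L * r : ℕ) : ℤ) / 2 - 1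
/-- levels -/
def k3 (K L r : ℕ) (i : ℕ) : ℕ :=
  if i = 0 then Nat.log 2 r else if i = 1 then Nat.log 2 (K * r) - 1
  else Nat.log 2 ((K + 1) * L * r) - 1
/-- charges -/
def c3 (b : ℝ) (i : ℕ) : ℝ := if i = 0 then -2 * b else if i ≤ 2 then b else 0

theorem sum_c3 (b : ℝ) : ∑ i ∈ range (2 + 1), c3 b i = 0 := by
  rw [Finset.sum_range_succ, Finset.sum_range_succ, Finset.sum_range_one]
  simp only [c3, if_true, one_ne_zero, if_false, Nat.one_le_ofNat, two_ne_zero, le_refl]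
  ring

theorem cs_c3 (b : ℝ) : cs (c3 b) 0 = -2 * b ∧ cs (c3 b) 1 = -b := by
  unfold cs
  constructor
  · simp [c3]
  · rw [Finset.sum_range_succ, Finset.sum_range_one]
    simp only [c3, if_true, one_ne_zero, if_false, Nat.one_le_ofNat]
    ring

theorem mm3 (us ws : ℕ → Face →₀ ℝ) (b : ℝ) (K L r : ℕ) :
    mm 2 (c3 b) (u3 us ws K L r) =
      (-2 * b) • us r + b • ws ((K + 1) * r) + b • ws ((K + 1) * L * r) := by
  unfold mm
  rw [Finset.sum_range_succ, Finset.sum_range_succ, Finset.sum_range_one]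
  simp only [c3, u3, if_true, one_ne_zero, if_false, Nat.one_le_ofNat, two_ne_zero, le_refl,
    OfNat.ofNat_ne_one]

/-- sizes -/
theorem size3 {K L r : ℕ} (hK : 2 ≤ K) (hL : 6 ≤ L) (hr : 2 ≤ r) :
    2 * r ≤ K * r ∧ (K + 1) * r = K * r + r ∧ 6 * ((K + 1) * r) ≤ (K + 1) * L * r ∧
      6 ≤ (K + 1) * r := by
  have hKr : 2 * r ≤ K * r := Nat.mul_le_mul_right r hK
  have hK1 : (K + 1) * r = K * r + r := by ring
  refine ⟨hKr, hK1, ?_, by omega⟩
  have : (K + 1) * L * r = L * ((K + 1) * r) := by ring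
  rw [this]
  exact Nat.mul_le_mul_right _ hL

theorem sys3 (B : Blobs us ws) {K L r : ℕ} (hK : 2 ≤ K) (hL : 6 ≤ L) (hr : 2 ≤ r) :
    Sys 2 1 16 (s3 K L r) (t3 K L r) (k3 K L r) (u3 us ws K L r) := by
  obtain ⟨hKr, hK1, hP, hP6⟩ := size3 hK hL hr
  obtain ⟨l1, l2, l3⟩ := log_half (n := K * r) (by omega)
  have p1 := Nat.pow_log_le_self 2 (x := r) (by omega)
  have p2 := Nat.lt_pow_succ_log_self (b := 2) (by norm_num) r
  rw [pow_succ] at p2
  have hc : ∀ i, i ≤ 2 → i = 0 ∨ i = 1 ∨ i = 2 := by intro i hi; omega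
  generalize hQ : (K + 1) * L * r = Q at *
  obtain ⟨q1, q2, q3⟩ := log_half (n := Q) (by omega)
  have e0 : s3 K L r 0 = r := rfl
  have e1 : s3 K L r 1 = 2 * (((K + 1) * r : ℕ) : ℤ) := rfl
  have e2 : s3 K L r 2 = 2 * (Q : ℤ) := by rw [← hQ]; rfl
  have f0 : t3 K L r 0 = -1 := rfl
  have f1 : t3 K L r 1 = ((K * r / 2 : ℕ) : ℤ) := rfl
  have f2 : t3 K L r 2 = (Q : ℤ) / 2 - 1 := by rw [← hQ]; rfl
  have g0 : k3 K L r 0 = Nat.log 2 r := rfl
  have g1 : k3 K L r 1 = Nat.log 2 (K * r) - 1 := rfl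
  have g2 : k3 K L r 2 = Nat.log 2 Q - 1 := by rw [← hQ]; rfl
  have w0 : u3 us ws K L r 0 = us r := rfl
  have w1 : u3 us ws K L r 1 = ws ((K + 1) * r) := rfl
  have w2 : u3 us ws K L r 2 = ws Q := by rw [← hQ]; rfl
  have z1 : (2 : ℤ) ^ (Nat.log 2 (K * r) - 1) ≤ ((K * r / 2 : ℕ) : ℤ) := by exact_mod_cast l1
  have z2 : (2 : ℤ) ^ (Nat.log 2 Q - 1) ≤ ((Q / 2 : ℕ) : ℤ) := by exact_mod_cast q1
  have hKr' : (((K + 1) * r : ℕ) : ℤ) = ((K * r : ℕ) : ℤ) + r := by rw [hK1]; push_cast; ring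
  have a1 : (2 : ℤ) * r ≤ ((K * r : ℕ) : ℤ) := by exact_mod_cast hKr
  have a2 : 6 * (((K + 1) * r : ℕ) : ℤ) ≤ Q := by exact_mod_cast hP
  have a3 : (2 : ℤ) ≤ r := by exact_mod_cast hr
  refine ⟨?_, ?_, ?_, ?_, ?_, ?_, ?_, ?_⟩
  · rw [e0]; omega
  · intro i hi
    rcases hc i hi with rfl | rfl | rfl
    · rw [e0, f0]; omega
    · rw [e1, f1, hKr']; omega
    · rw [e2, f2]; omega
  · intro i hi
    obtain rfl | rfl : i = 0 ∨ i = 1 := by omega
    · rw [e0, show 0 + 1 = 1 by rfl, f1]; omega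
    · rw [e1, show 1 + 1 = 2 by rfl, f2]; omega
  · intro i hi
    rcases hc i hi with rfl | rfl | rfl
    · rw [e0, g0]
      have : (2 : ℤ) ^ Nat.log 2 r ≤ r := by exact_mod_cast p1
      omega
    · rw [e1, g1, hKr']; omega
    · rw [e2, g2]; omega
  · intro i hi hi1
    obtain rfl | rfl : i = 1 ∨ i = 2 := by omega
    · rw [g1, f1]; linarith
    · rw [g2, f2]; omega
  · intro i hi
    rcases hc i hi with rfl | rfl | rfl
    · rw [e0, g0]
      have : (r : ℤ) < 2 ^ Nat.log 2 r * 2 := by exact_mod_cast p2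
      push_cast
      have h0 : (0 : ℤ) < 2 ^ Nat.log 2 r := by positivity
      linarith
    · rw [e1, g1, hKr']
      have h5 : ((K * r : ℕ) : ℤ) < 4 * 2 ^ (Nat.log 2 (K * r) - 1) := by exact_mod_cast l2
      push_cast at h5 a1 ⊢
      linarith
    · rw [e2, g2]
      have h5 : (Q : ℤ) < 4 * 2 ^ (Nat.log 2 Q - 1) := by exact_mod_cast q2
      push_cast
      linarith
  · intro i hi
    rcases hc i hi with rfl | rfl | rfl
    · rw [g0, w0]
      exact dens_of (B.us_nn r) (B.us_tot r (by omega)) fun f =>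
        (B.us_le r f).trans (le_four p1 (by norm_num))
    · rw [g1, w1]
      refine dens_of (B.ws_nn _ (by omega)) (B.ws_tot _ (by omega)) fun f =>
        (B.ws_le _ (by omega) f).trans (le_four ?_ (by norm_num))
      omega
    · rw [g2, w2]
      refine dens_of (B.ws_nn _ (by omega)) (B.ws_tot _ (by omega)) fun f =>
        (B.ws_le _ (by omega) f).trans (le_four ?_ (by norm_num))
      omega
  · intro i hi v hv
    rcases hc i hi with rfl | rfl | rfl
    · rw [w0] at hv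
      rw [e0, f0]
      refine ⟨B.us_sub r v hv, ?_⟩
      rw [mem_BF]
      have := sd_nonneg' ((0 : ℤ), (0 : ℤ)) v.1
      have h0 : ¬ sd ((0 : ℤ), (0 : ℤ)) v.1 ≤ -1 := by omega
      exact h0
    · rw [w1] at hv
      rw [e1, f1]
      obtain ⟨h1, h2⟩ := B.ws_sub _ (by omega) v hv
      refine ⟨h1, fun h3 => h2 (BF_mono ?_ h3)⟩
      rw [hKr']
      omega
    · rw [w2] at hv
      rw [e2, f2]
      exact B.ws_sub _ (by omega) v hv

/-- no loop crosses between the two rings -/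
def NoX (K L r : ℕ) (z : Cfz) : Prop :=
  ∀ A ∈ Lps z, Splits A (BF (0, 0) (s3 K L r 1)) → A ⊆ BF (0, 0) (t3 K L r 2)

/-- masses of the three-blob system when no loop crosses -/
theorem mass3 (B : Blobs us ws) {K L r : ℕ} (hK : 2 ≤ K) (hL : 6 ≤ L) (hr : 2 ≤ r) {b : ℝ}
    (hb : 0 ≤ b) {z : Cfz} (hz : NoX K L r z) {A : Finset Face} (hA : A ∈ Lps z) :
    -2 * b ≤ ∑ i ∈ range (2 + 1), c3 b i * mass (u3 us ws K L r i) A ∧
      ∑ i ∈ range (2 + 1), c3 b i * mass (u3 us ws K L r i) A ≤ b := by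
  have H := sys3 B hK hL hr
  have h0 := H.mass_nonneg (i := 0) (by omega) A
  have h1 := H.mass_nonneg (i := 1) (by omega) A
  have h2 := H.mass_nonneg (i := 2) (by omega) A
  have k0 := H.mass_le_one (i := 0) (by omega) A
  have k1 := H.mass_le_one (i := 1) (by omega) A
  have k2 := H.mass_le_one (i := 2) (by omega) A
  rw [Finset.sum_range_succ, Finset.sum_range_succ, Finset.sum_range_one]
  have e : c3 b 0 * mass (u3 us ws K L r 0) A + c3 b 1 * mass (u3 us ws K L r 1) A +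
      c3 b 2 * mass (u3 us ws K L r 2) A = b * (-2 * mass (u3 us ws K L r 0) A +
        mass (u3 us ws K L r 1) A + mass (u3 us ws K L r 2) A) := by
    simp only [c3, if_true, one_ne_zero, if_false, Nat.one_le_ofNat, two_ne_zero, le_refl]
    ring
  rw [e]
  set m0 := mass (u3 us ws K L r 0) A
  set m1 := mass (u3 us ws K L r 1) A with hm1
  set m2 := mass (u3 us ws K L r 2) A with hm2
  have key : m1 = 0 ∨ m2 = 0 ∨ m0 = 1 := by
    by_contra hcon
    push Not at hcon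
    obtain ⟨n1, n2, n0⟩ := hcon
    obtain ⟨v, hvA, hv⟩ : ∃ v ∈ A, u3 us ws K L r 1 v ≠ 0 := by
      by_contra h
      push Not at h
      exact n1 (sum_eq_zero h)
    obtain ⟨w, hwA, hw⟩ : ∃ v ∈ A, u3 us ws K L r 2 v ≠ 0 := by
      by_contra h
      push Not at h
      exact n2 (sum_eq_zero h)
    have hv' := H.sub 1 (by omega) v hv
    have hw' := H.sub 2 (by omega) w hw
    have hsp : ¬ Splits A (BF (0, 0) (s3 K L r 1)) := fun h => hw'.2 (hz A hA h hwA)
    have hsub : BF (0, 0) (s3 K L r 1) ⊆ A := by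
      intro f hf
      by_contra hfA
      exact hsp ⟨⟨v, hv'.1, hvA⟩, ⟨f, hf, hfA⟩⟩
    exact n0 (H.mass_one (j := 1) (by omega) (by omega) hsub)
  constructor
  · nlinarith
  · rcases key with h | h | h
    · rw [h]; nlinarith
    · rw [h]; nlinarith
    · rw [h]; nlinarith

/-- if some loop crosses then no loop lies between the rings -/
theorem nn_zero {K L r : ℕ} {z : Cfz} (hz : ¬ NoX K L r z) :
    NN (0, 0) (s3 K L r 1) (t3 K L r 2) z = 0 := by
  unfold NoX at hz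
  push Not at hz
  obtain ⟨B, hB, hsp, hnot⟩ := hz
  rw [NN_zero_iff]
  intro A hA h1 h2
  rcases lam hB hA with h | h | h
  · exact hnot (h.trans h2)
  · obtain ⟨f, hf, hfB⟩ := hsp.2
    exact hfB (h (h1 hf))
  · obtain ⟨f, hf, hfB⟩ := hsp.1
    rw [Finset.disjoint_left] at h
    exact h hfB (h1 hf)

/-- a crossing loop gives an arm -/
theorem aa_of_cross {K L r : ℕ} {z : Cfz} (hz : ¬ NoX K L r z)
    (hst : s3 K L r 1 < t3 K L r 2 + 1) : z ∈ AA (s3 K L r 1) (t3 K L r 2 + 1) := by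
  unfold NoX at hz
  push Not at hz
  obtain ⟨B, hB, hsp, hnot⟩ := hz
  obtain ⟨⟨u, v, hu, hv, huv⟩, -⟩ := cross2 hB hsp hnot
  exact aa_of hst hu hv huv

/-! ### interpolation -/

theorem interp {Ω : Type*} {m : MeasurableSpace Ω} {μ : Measure Ω} {X : Ω → ℝ} {s t θ : ℝ}
    (hX : ∀ ω, 0 < X ω) (h0 : 0 ≤ θ) (h1 : θ ≤ 1) (hi1 : Integrable (fun ω => X ω ^ s) μ)
    (hi2 : Integrable (fun ω => X ω ^ t) μ)
    (hi3 : Integrable (fun ω => X ω ^ ((1 - θ) * s + θ * t)) μ)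
    (hp1 : 0 < ∫ ω, X ω ^ s ∂μ) (hp2 : 0 < ∫ ω, X ω ^ t ∂μ) :
    ∫ ω, X ω ^ ((1 - θ) * s + θ * t) ∂μ ≤
      (∫ ω, X ω ^ s ∂μ) ^ (1 - θ) * (∫ ω, X ω ^ t ∂μ) ^ θ := by
  set a := ∫ ω, X ω ^ s ∂μ with ha
  set b := ∫ ω, X ω ^ t ∂μ with hb
  have hpt : ∀ ω, X ω ^ ((1 - θ) * s + θ * t) ≤
      (a ^ (1 - θ) * b ^ θ) * ((1 - θ) * (X ω ^ s / a) + θ * (X ω ^ t / b)) := by
    intro ω
    have h3 := Real.geom_mean_le_arith_mean2_weighted (w₁ := 1 - θ) (w₂ := θ)
      (p₁ := X ω ^ s / a) (p₂ := X ω ^ t / b) (by linarith) h0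
      (div_nonneg (Real.rpow_nonneg (hX ω).le _) hp1.le)
      (div_nonneg (Real.rpow_nonneg (hX ω).le _) hp2.le) (by ring)
    rw [Real.div_rpow (Real.rpow_nonneg (hX ω).le _) hp1.le,
      Real.div_rpow (Real.rpow_nonneg (hX ω).le _) hp2.le, ← Real.rpow_mul (hX ω).le,
      ← Real.rpow_mul (hX ω).le, div_mul_div_comm, ← Real.rpow_add (hX ω),
      div_le_iff₀ (by positivity)] at h3
    rw [show (1 - θ) * s + θ * t = s * (1 - θ) + t * θ by ring]
    linarith
  calc ∫ ω, X ω ^ ((1 - θ) * s + θ * t) ∂μ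
      ≤ ∫ ω, (a ^ (1 - θ) * b ^ θ) * ((1 - θ) * (X ω ^ s / a) + θ * (X ω ^ t / b)) ∂μ :=
        integral_mono hi3 ((((hi1.div_const a).const_mul _).add
          ((hi2.div_const b).const_mul _)).const_mul _) hpt
    _ = a ^ (1 - θ) * b ^ θ := by
        rw [integral_const_mul, integral_add ((hi1.div_const a).const_mul _)
          ((hi2.div_const b).const_mul _), integral_const_mul, integral_const_mul,
          integral_div, integral_div, ← ha, ← hb, div_self hp1.ne', div_self hp2.ne']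
        ring

end Crest.Agent.R158.Wf850
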