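import Crest.Agent.R158.Wf7_850

/-!
# Row 158, BLOCK W (helper850), part 8: F3, the inequality at fixed scales

* `lin3`, `core3`
-/

set_option autoImplicit false

noncomputable section

namespace Crest.Agent.R158.Wf850

open Real Finset MeasureTheory Filter Topology
open Crest.Agent.R161.Geo729 Crest.Agent.R161.Dual374 Crest.Agent.R161.Tas682
open Crest.Agent.R158.Fr158 (bx mem_bx mem_bx_sd eIn mem_eIn)
open Crest.Agent.R158.Rs689 (nu hf PB Dep ArmX arm_half)
open Crest.Agent.R158.It200 (Cfz Corner fc fc_zero)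
open Crest.Agent.R158.We297 (ff kap)
open Crest.Agent.R158.Cn109 (DepF lsW SS QQ smalls mem_smalls SS_eq VV VV_inc VV_diff VV_mono
  integral_mul_indep)
open Crest.Agent.R158.Vx107 (mass W Ntr Fw tot)
open Crest.Agent.R158.Hd109 (Dens hoelder_exp rev_hoelder)

variable {us ws : ℕ → Face →₀ ℝ}

/-- the exponent of the three-blob system -/
theorem lin3 : ∃ C : ℝ, 0 ≤ C ∧ ∀ (b : ℝ) (K L r : ℕ), 0 ≤ b → 2 ≤ K → 6 ≤ L → 2 ≤ r →
    √3 * (-2 * b) * DD (K, r) ≤ -lin 2 (c3 b) (k3 K L r) + b * C * (Nat.log 2 L + 1) := by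
  obtain ⟨C, hC, h⟩ := VV_diff
  refine ⟨√3 * C, by positivity, fun b K L r hb hK hL hr => ?_⟩
  obtain ⟨hKr, hK1, hP, hP6⟩ := size3 hK hL hr
  have m1 := VV_mono (show Nat.log 2 (K * r) - 1 ≤ Nat.log 2 (K * r) by omega)
  have hQ : Nat.log 2 ((K + 1) * L * r) ≤ Nat.log 2 (K * r) + Nat.log 2 L + 2 := by
    have p1 := Nat.lt_pow_succ_log_self (b := 2) (by norm_num) (K * r)
    have p2 := Nat.lt_pow_succ_log_self (b := 2) (by norm_num) L
    have h1 : (K + 1) * L * r ≤ 2 * (L * (K * r)) := by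
      have : (K + 1) * L * r ≤ (2 * K) * L * r :=
        Nat.mul_le_mul_right _ (Nat.mul_le_mul_right _ (by omega))
      calc (K + 1) * L * r ≤ (2 * K) * L * r := this
        _ = 2 * (L * (K * r)) := by ring
    have h2 : L * (K * r) < 2 ^ (Nat.log 2 L).succ * 2 ^ (Nat.log 2 (K * r)).succ :=
      Nat.mul_lt_mul'' p2 p1
    have h3 : (K + 1) * L * r < 2 ^ (Nat.log 2 (K * r) + Nat.log 2 L + 3) := by
      calc (K + 1) * L * r ≤ 2 * (L * (K * r)) := h1
        _ < 2 * (2 ^ (Nat.log 2 L).succ * 2 ^ (Nat.log 2 (K * r)).succ) := by omega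
        _ = 2 ^ (Nat.log 2 (K * r) + Nat.log 2 L + 3) := by
            rw [Nat.succ_eq_add_one, Nat.succ_eq_add_one]; ring
    have := Nat.log_lt_of_lt_pow (b := 2) (by omega) h3
    omega
  have hV : VV (Nat.log 2 ((K + 1) * L * r) - 1) - VV (Nat.log 2 (K * r)) ≤
      C * (Nat.log 2 L + 1) := by
    have h1 := h (Nat.log 2 (K * r)) (Nat.log 2 L + 1)
    have h2 := VV_mono (show Nat.log 2 ((K + 1) * L * r) - 1 ≤
      Nat.log 2 (K * r) + (Nat.log 2 L + 1) by omega)
    have h3 := h1.2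
    push_cast at h3
    linarith
  unfold lin
  rw [Finset.sum_range_succ, Finset.sum_range_succ, Finset.sum_range_one]
  simp only [c3, k3, DD, if_true, one_ne_zero, if_false, Nat.one_le_ofNat, two_ne_zero, le_refl,
    OfNat.ofNat_ne_one]
  have e1 : √3 * b * (VV (Nat.log 2 ((K + 1) * L * r) - 1) - VV (Nat.log 2 (K * r))) ≤
      √3 * b * (C * (Nat.log 2 L + 1)) := mul_le_mul_of_nonneg_left hV (by positivity)
  have e2 : √3 * b * (VV (Nat.log 2 (K * r) - 1) - VV (Nat.log 2 (K * r))) ≤ 0 :=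
    mul_nonpos_of_nonneg_of_nonpos (by positivity) (by linarith)
  linarith

/-- probability of an arm between the rings -/
def PA (K L r : ℕ) : ℝ := (nu hf).real (AA (s3 K L r 1) (t3 K L r 2 + 1))

theorem pa_nonneg (K L r : ℕ) : 0 ≤ PA K L r := measureReal_nonneg

theorem pa_le_one (K L r : ℕ) : PA K L r ≤ 1 := measureReal_le_one

theorem pa_le : ∃ C a : ℝ, 0 < C ∧ 0 < a ∧ ∀ K L r : ℕ, 2 ≤ K → 6 ≤ L → 2 ≤ r →
    PA K L r ≤ C * (1 / (L : ℝ)) ^ a := by
  obtain ⟨C, a, hC, ha, h⟩ := aa_prob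
  refine ⟨C * 8 ^ a, a, by positivity, ha, fun K L r hK hL hr => ?_⟩
  obtain ⟨hKr, hK1, hP, hP6⟩ := size3 hK hL hr
  have e1 : s3 K L r 1 = ((2 * ((K + 1) * r) : ℕ) : ℤ) := by
    show 2 * (((K + 1) * r : ℕ) : ℤ) = _
    push_cast; ring
  have e2 : t3 K L r 2 + 1 = ((((K + 1) * L * r) / 2 : ℕ) : ℤ) := by
    show (((K + 1) * L * r : ℕ) : ℤ) / 2 - 1 + 1 = _
    generalize (K + 1) * L * r = Q
    omega
  have h1 := h (2 * ((K + 1) * r)) (((K + 1) * L * r) / 2) (by omega) (by omega)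
  unfold PA
  rw [e1, e2]
  refine h1.trans ?_
  rw [mul_assoc C]
  refine mul_le_mul_of_nonneg_left ?_ hC.le
  rw [← Real.mul_rpow (by norm_num) (by positivity)]
  refine Real.rpow_le_rpow (by positivity) ?_ ha.le
  set P := (K + 1) * r with hPdef
  have hQ : (K + 1) * L * r = L * P := by rw [hPdef]; ring
  rw [hQ]
  have hP0 : (0 : ℝ) < P := by exact_mod_cast (by omega : 0 < P)
  have hL0 : (0 : ℝ) < L := by exact_mod_cast (by omega : 0 < L)
  have h2 : L * P ≤ 4 * (L * P / 2) := by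
    have : 2 ≤ L * P := by nlinarith
    omega
  have h3 : (L : ℝ) * P ≤ 4 * ((L * P / 2 : ℕ) : ℝ) := by exact_mod_cast h2
  have h4 : 0 < ((L * P / 2 : ℕ) : ℝ) := by nlinarith [mul_pos hL0 hP0]
  rw [div_le_iff₀ h4]
  have e3 : 8 * (1 / (L : ℝ)) * ((L * P / 2 : ℕ) : ℝ) = 2 * (4 * ((L * P / 2 : ℕ) : ℝ)) / L := by
    ring
  rw [e3, le_div_iff₀ hL0]
  push_cast at h3 ⊢
  nlinarith

theorem ff_pos_of {b : ℝ} (hb : 0 < b) (hb' : b < π / 6) : 1 < ff (-2 * b) ∧ 1 < ff (-b) := by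
  have hpi := Real.pi_pos
  have key : ∀ t : ℝ, 0 ≤ t → t < π / 3 → 1 < 2 * Real.cos t := by
    intro t h0 h1
    have := Real.cos_lt_cos_of_nonneg_of_le_pi_div_two h0 (by linarith) h1
    rw [Real.cos_pi_div_three] at this
    linarith
  unfold ff We297.lam
  exact ⟨key _ (by linarith) (by linarith), key _ (by linarith) (by linarith)⟩

/-- disjointness of the supports -/
theorem disj3 {K L r : ℕ} (hK : 2 ≤ K) (hL : 6 ≤ L) (hr : 2 ≤ r) :
    Disjoint (annF (0, 0) (r : ℤ) ((K * r / 2 : ℕ) : ℤ)) (aE (s3 K L r 1) (t3 K L r 2 + 1)) := by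
  obtain ⟨hKr, hK1, hP, hP6⟩ := size3 hK hL hr
  rw [Finset.disjoint_left]
  intro e he he'
  unfold annF at he
  unfold aE at he'
  rw [Finset.mem_sdiff] at he he'
  refine he'.2 ?_
  have h1 := he.1
  rw [mem_eIn, mem_bx_sd, mem_bx_sd] at h1 ⊢
  have h2 : ((K * r / 2 : ℕ) : ℤ) + 2 ≤ s3 K L r 1 := by
    show _ ≤ 2 * (((K + 1) * r : ℕ) : ℤ)
    omega
  exact ⟨h1.1.trans h2, h1.2.trans h2⟩

/-- **the inequality at fixed scales** -/
theorem core3 (B : Blobs us ws) {b : ℝ} (hb : 0 < b) (hb' : b < π / 6) {p : ℝ} (hp : 1 < p)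
    (hp2 : p ≤ 2) : ∃ G : ℝ, 1 ≤ G ∧ ∀ K L r : ℕ, 2 ≤ K → 6 ≤ L → 2 ≤ r →
      (MM (K, r) ((ff (-2 * b)) ^ (1 / p)) * (1 - PA K L r)) ^ p ≤
        G * (exp (lin 2 (c3 b) (k3 K L r)) * ∫ z, W (mm 2 (c3 b) (u3 us ws K L r)) z ∂(nu hf) +
          G * ((MM (K, r) ((ff (-2 * b)) ^ p)) ^ (1 / p) * (PA K L r) ^ (1 / p))) := by
  classical
  have hp0 : 0 < p := by linarith
  have hp1 : 0 < p - 1 := by linarith
  have hpi := Real.pi_pos
  set q := p / (p - 1) with hq
  have hq0 : 0 ≤ q := by positivity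
  have hqle : 1 / (p - 1) ≤ q := by
    rw [hq]; exact div_le_div_of_nonneg_right (by linarith) hp1.le
  obtain ⟨C', hC', hlow⟩ := ff_lower (lo := -2 * b) (hi := b) (by linarith) hb'
  obtain ⟨G, hG, hsys⟩ := sys_bd 2 (C := 1) zero_le_one 16 (c3 b) (sum_c3 b) (C' := C') hC' hq0
  obtain ⟨hx, hx1⟩ := ff_pos_of hb hb'
  refine ⟨G, hG, fun K L r hK hL hr => ?_⟩
  have H := sys3 B hK hL hr
  obtain ⟨S, E, hE1, hE2, hE3, hE4, hE5⟩ := hsys _ _ _ _ H
  have hWi := Vx107.integrable_W (ntr_mm H (sum_c3 b)) (nu hf)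
  set x := ff (-2 * b) with hxdef
  have hx0 : 0 < x := by linarith
  have hd := n0_dep K r
  set S1 := annF (0, 0) (r : ℤ) ((K * r / 2 : ℕ) : ℤ) with hS1
  set S2 := aE (s3 K L r 1) (t3 K L r 2 + 1) with hS2
  set w : Cfz → ℝ := W (mm 2 (c3 b) (u3 us ws K L r)) with hw
  set l := lin 2 (c3 b) (k3 K L r) with hl
  set h : Cfz → ℝ := fun z => if z ∈ AA (s3 K L r 1) (t3 K L r 2 + 1) then 1 else 0 with hh
  have hhd : DepF S2 h := by
    intro z z' hz
    have := aa_dep (s3 K L r 1) (t3 K L r 2 + 1) z z' hz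
    simp only [hh]
    by_cases h1 : z ∈ AA (s3 K L r 1) (t3 K L r 2 + 1)
    · rw [if_pos h1, if_pos (this.1 h1)]
    · rw [if_neg h1, if_neg (fun h2 => h1 (this.2 h2))]
  have hh01 : ∀ z, h z = 0 ∨ h z = 1 := by
    intro z; simp only [hh]; split_ifs <;> simp
  have hhint : ∫ z, h z ∂(nu hf) = PA K L r := by
    have e : h = Set.indicator (AA (s3 K L r 1) (t3 K L r 2 + 1)) (fun _ => (1 : ℝ)) := by
      funext z; simp only [hh, Set.indicator]
    rw [e, integral_indicator (aa_dep _ _).measurableSet]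
    simp [PA]
  set X : Cfz → ℝ := fun z => x ^ N0 K r z with hX
  have hXd : DepF S1 X := hd.comp fun n => x ^ n
  have hX0 : ∀ z, 0 < X z := fun z => pow_pos hx0 _
  -- product of the weights of the special loops
  have eprod : ∀ (f : ℝ → ℝ) z, ∏ j ∈ range 2, f (ff (cs (c3 b) j)) ^ NN (0, 0) (s3 K L r j)
      (t3 K L r (j + 1)) z = f x ^ N0 K r z * f (ff (-b)) ^ NN (0, 0) (s3 K L r 1) (t3 K L r 2) z := by
    intro f z
    rw [Finset.prod_range_succ, Finset.prod_range_one, (cs_c3 b).1, (cs_c3 b).2]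
    rfl
  have hs1 : 0 ≤ s3 K L r 1 := by
    show 0 ≤ 2 * (((K + 1) * r : ℕ) : ℤ)
    positivity
  have hst : s3 K L r 1 < t3 K L r 2 + 1 := by
    obtain ⟨hKr, hK1, hP, hP6⟩ := size3 hK hL hr
    show 2 * (((K + 1) * r : ℕ) : ℤ) < (((K + 1) * L * r : ℕ) : ℤ) / 2 - 1 + 1
    generalize (K + 1) * L * r = Q at *
    omega
  -- lower bound when no loop crosses
  have hlowG : ∀ z, NoX K L r z → X z * exp (-l - E z) ≤ w z := by
    intro z hz
    have h1 := hE5 z ?_ ?_
    · have h2 := eprod id z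
      simp only [id] at h2
      rw [h2] at h1
      refine le_trans ?_ h1
      refine mul_le_mul_of_nonneg_right ?_ (exp_pos _).le
      exact le_mul_of_one_le_right (pow_pos hx0 _).le (one_le_pow₀ hx1.le)
    · intro j hj
      obtain rfl | rfl : j = 0 ∨ j = 1 := by omega
      · rw [(cs_c3 b).1]; exact hx0.le
      · rw [(cs_c3 b).2]; linarith
    · intro A hA
      rw [mem_rst] at hA
      have h1 := mass3 B hK hL hr hb.le hz hA.1.1
      exact hlow _ h1.1 h1.2
  -- upper bound when some loop crosses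
  have hupG : ∀ z, ¬ NoX K L r z → |w z| ≤ X z * exp (-l + E z) := by
    intro z hz
    have h1 := hE4 z
    have h2 := eprod (fun y => |y|) z
    rw [h2, nn_zero hz, pow_zero, mul_one, abs_of_pos hx0] at h1
    exact h1
  have hpt : ∀ z, exp (-l) * (X z * (1 - h z) * exp (-E z)) -
      exp (-l) * (X z * h z * exp (E z)) ≤ w z := by
    intro z
    rcases hh01 z with h0 | h0
    · rw [h0]
      have hz : NoX K L r z := by
        by_contra hcon
        have h1 := aa_of_cross hcon hst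
        simp only [hh, if_pos h1] at h0
        exact one_ne_zero h0
      refine le_trans (le_of_eq ?_) (hlowG z hz)
      rw [sub_eq_add_neg (-l) (E z), Real.exp_add]
      ring
    · rw [h0]
      have e1 : exp (-l) * (X z * (1 - 1) * exp (-E z)) - exp (-l) * (X z * 1 * exp (E z)) =
          -(X z * exp (-l + E z)) := by
        rw [Real.exp_add]; ring
      rw [e1]
      by_cases hz : NoX K L r z
      · have h1 := hlowG z hz
        have h2 : 0 ≤ X z * exp (-l - E z) := by have := hX0 z; positivity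
        have h3 : 0 ≤ X z * exp (-l + E z) := by have := hX0 z; positivity
        linarith
      · exact (abs_le.1 (hupG z hz)).1
  -- integrability
  set T := S1 ∪ S2 ∪ S with hT
  have dX : DepF T X := hXd.mono fun e he => by simp [hT, he]
  have dh : DepF T h := hhd.mono fun e he => by simp [hT, he]
  have dE : DepF T E := hE1.mono fun e he => by simp [hT, he]
  have d1 : DepF T (fun z => X z * (1 - h z)) := dX.mul (dh.comp fun y => 1 - y)
  have d2 : DepF T (fun z => X z * h z) := dX.mul dh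
  have i1 : Integrable (fun z => X z * (1 - h z) * exp (-E z)) (nu hf) :=
    (d1.mul (dE.comp fun y => exp (-y))).integrable _
  have i2 : Integrable (fun z => X z * h z * exp (E z)) (nu hf) :=
    (d2.mul (dE.comp fun y => exp y)).integrable _
  have hI : exp (-l) * ∫ z, X z * (1 - h z) * exp (-E z) ∂(nu hf) -
      exp (-l) * ∫ z, X z * h z * exp (E z) ∂(nu hf) ≤ ∫ z, w z ∂(nu hf) := by
    rw [← integral_const_mul, ← integral_const_mul, ← integral_sub (i1.const_mul _) (i2.const_mul _)]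
    exact integral_mono ((i1.const_mul _).sub (i2.const_mul _)) hWi hpt
  have hI2 : ∫ z, X z * (1 - h z) * exp (-E z) ∂(nu hf) ≤
      exp l * ∫ z, w z ∂(nu hf) + ∫ z, X z * h z * exp (E z) ∂(nu hf) := by
    have h1 : exp l * exp (-l) = 1 := by rw [← Real.exp_add]; simp
    have h2 := mul_le_mul_of_nonneg_left hI (exp_pos l).le
    rw [mul_sub, ← mul_assoc, ← mul_assoc, h1, one_mul, one_mul] at h2
    linarith
  -- reverse Hölder
  have hrev := rev_hoelder (μ := nu hf) hp (Y := fun z => X z * (1 - h z)) (L := E)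
    (fun z => by
      have := hX0 z
      rcases hh01 z with h0 | h0 <;> rw [h0] <;> simp [this.le])
    d1.measurable.aestronglyMeasurable hE1.measurable.aestronglyMeasurable i1
    ((hE1.comp fun y => exp (y / (p - 1))).integrable _)
  have e1 : (∫ z, (X z * (1 - h z)) ^ (1 / p) ∂(nu hf)) =
      MM (K, r) (x ^ (1 / p)) * (1 - PA K L r) := by
    have e2 : ∀ z, (X z * (1 - h z)) ^ (1 / p) = (x ^ (1 / p)) ^ N0 K r z * (1 - h z) := by
      intro z
      rcases hh01 z with h0 | h0 <;> rw [h0]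
      · rw [sub_zero, mul_one, mul_one]
        exact rpow_pow_comm hx0.le (1 / p) _
      · rw [sub_self, mul_zero, mul_zero, Real.zero_rpow (by positivity)]
    simp only [e2]
    have e3 := integral_mul_indep (fun _ => hf) (disj3 hK hL hr)
      (f := fun z => (x ^ (1 / p)) ^ N0 K r z) (g := fun z => 1 - h z)
      (hd.comp fun n => (x ^ (1 / p)) ^ n) (hhd.comp fun y => 1 - y)
    have e4 : ∫ z, (1 - h z) ∂(nu hf) = 1 - PA K L r := by
      have hi : Integrable h (nu hf) := hhd.integrable _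
      rw [integral_sub (integrable_const 1) hi, hhint]
      simp
    have e5 : (∫ z, (x ^ (1 / p)) ^ N0 K r z * (1 - h z) ∂(nu hf)) =
        (∫ z, (x ^ (1 / p)) ^ N0 K r z ∂(nu hf)) * ∫ z, (1 - h z) ∂(nu hf) := e3
    rw [e5, e4]
    rfl
  rw [e1] at hrev
  have hG1 : (∫ z, exp (E z / (p - 1)) ∂(nu hf)) ^ (p - 1) ≤ G := by
    have h1 : ∫ z, exp (E z / (p - 1)) ∂(nu hf) ≤ G := by
      refine le_trans (integral_mono ((hE1.comp fun y => exp (y / (p - 1))).integrable _)
        ((hE1.comp fun y => exp (q * y)).integrable _) fun z => ?_) hE3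
      apply exp_le_exp.2
      have := mul_le_mul_of_nonneg_right hqle (hE2 z)
      calc E z / (p - 1) = 1 / (p - 1) * E z := by ring
        _ ≤ q * E z := this
    calc (∫ z, exp (E z / (p - 1)) ∂(nu hf)) ^ (p - 1) ≤ G ^ (p - 1) :=
          Real.rpow_le_rpow (integral_nonneg fun z => (exp_pos _).le) h1 hp1.le
      _ ≤ G ^ (1 : ℝ) := Real.rpow_le_rpow_of_exponent_le hG (by linarith)
      _ = G := Real.rpow_one G
  -- Hölder
  have hho := hoelder_exp (μ := nu hf) hp (Y := fun z => X z * h z) (L := E)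
    (fun z => by
      have := hX0 z
      rcases hh01 z with h0 | h0 <;> rw [h0] <;> simp [this.le])
    d2.measurable.aestronglyMeasurable hE1.measurable.aestronglyMeasurable
    ((d2.comp fun y => y ^ p).integrable _) ((hE1.comp fun y => exp (p / (p - 1) * y)).integrable _)
  have e6 : (∫ z, (X z * h z) ^ p ∂(nu hf)) = MM (K, r) (x ^ p) * PA K L r := by
    have e2 : ∀ z, (X z * h z) ^ p = (x ^ p) ^ N0 K r z * h z := by
      intro z
      rcases hh01 z with h0 | h0 <;> rw [h0]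
      · rw [mul_zero, mul_zero, Real.zero_rpow hp0.ne']
      · rw [mul_one, mul_one]
        exact rpow_pow_comm hx0.le p _
    simp only [e2]
    have e3 := integral_mul_indep (fun _ => hf) (disj3 hK hL hr)
      (f := fun z => (x ^ p) ^ N0 K r z) (g := h) (hd.comp fun n => (x ^ p) ^ n) hhd
    have e5 : (∫ z, (x ^ p) ^ N0 K r z * h z ∂(nu hf)) =
        (∫ z, (x ^ p) ^ N0 K r z ∂(nu hf)) * ∫ z, h z ∂(nu hf) := e3
    rw [e5, hhint]
    rfl
  rw [e6] at hho
  have hM0 : 0 ≤ MM (K, r) (x ^ p) := integral_nonneg fun z => pow_nonneg (Real.rpow_nonneg hx0.le _) _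
  rw [Real.mul_rpow hM0 (pa_nonneg K L r)] at hho
  have hG2 : (∫ z, exp (p / (p - 1) * E z) ∂(nu hf)) ^ ((p - 1) / p) ≤ G := by
    calc (∫ z, exp (p / (p - 1) * E z) ∂(nu hf)) ^ ((p - 1) / p) ≤ G ^ ((p - 1) / p) :=
          Real.rpow_le_rpow (integral_nonneg fun z => (exp_pos _).le) hE3 (by positivity)
      _ ≤ G ^ (1 : ℝ) := Real.rpow_le_rpow_of_exponent_le hG (by
          rw [div_le_one hp0]; linarith)
      _ = G := Real.rpow_one G
  have hpa := pa_nonneg K L r
  have hI0 : 0 ≤ ∫ z, X z * (1 - h z) * exp (-E z) ∂(nu hf) := by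
    refine integral_nonneg fun z => ?_
    have := hX0 z
    rcases hh01 z with h0 | h0
    · simp only [h0]; positivity
    · simp only [h0]; simp
  calc (MM (K, r) (x ^ (1 / p)) * (1 - PA K L r)) ^ p
      ≤ (∫ z, X z * (1 - h z) * exp (-E z) ∂(nu hf)) * G :=
        hrev.trans (mul_le_mul_of_nonneg_left hG1 hI0)
    _ ≤ (exp l * ∫ z, w z ∂(nu hf) + ∫ z, X z * h z * exp (E z) ∂(nu hf)) * G :=
        mul_le_mul_of_nonneg_right hI2 (by linarith)
    _ ≤ (exp l * ∫ z, w z ∂(nu hf) +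
          (MM (K, r) (x ^ p)) ^ (1 / p) * (PA K L r) ^ (1 / p) * G) * G := by
        refine mul_le_mul_of_nonneg_right ?_ (by linarith)
        refine add_le_add le_rfl (hho.trans (mul_le_mul_of_nonneg_left hG2 ?_))
        positivity
    _ = _ := by ring

end Crest.Agent.R158.Wf850
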