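import Mathlib

/-!
# Row 158, Block W-F (helper109), part 1: power laws from one-step recursions
-/

set_option autoImplicit false

noncomputable section

namespace Crest.Agent.R158.Wh109

open Filter Topology

/-- `p (M r) ≤ β p r` for large `r`, `β ≤ M ^ (-θ)` ⟹ `p n ≤ n ^ (-θ+ε)` eventually -/
theorem chain_upper {p : ℕ → ℝ} (anti : Antitone p) (h0 : ∀ n, 0 ≤ p n) {M r0 : ℕ} (hM : 2 ≤ M)
    {β θ : ℝ} (hθ : 0 ≤ θ) (hβθ : β ≤ (M : ℝ) ^ (-θ))
    (hstep : ∀ r, r0 ≤ r → p (M * r) ≤ β * p r) {ε : ℝ} (hε : 0 < ε) :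
    ∀ᶠ n : ℕ in atTop, p n ≤ (n : ℝ) ^ (-θ + ε) := by
  set r1 := max r0 1 with hr1
  have hr1p : 0 < r1 := lt_of_lt_of_le one_pos (le_max_right _ _)
  have hMp : 0 < M := by omega
  have hMr : (0 : ℝ) < M := by exact_mod_cast hMp
  have h1 : ∀ j : ℕ, p (M ^ j * r1) ≤ ((M : ℝ) ^ j) ^ (-θ) * p r1 := by
    intro j
    induction j with
    | zero => simp
    | succ j ih =>
      have h2 := hstep (M ^ j * r1) ((le_max_left r0 1).trans
        (Nat.le_mul_of_pos_left _ (Nat.pow_pos hMp)))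
      have h3 : M ^ (j + 1) * r1 = M * (M ^ j * r1) := by ring
      rw [h3]
      calc p (M * (M ^ j * r1)) ≤ β * p (M ^ j * r1) := h2
        _ ≤ (M : ℝ) ^ (-θ) * (((M : ℝ) ^ j) ^ (-θ) * p r1) :=
            mul_le_mul hβθ ih (h0 _) (Real.rpow_nonneg hMr.le _)
        _ = ((M : ℝ) ^ (j + 1)) ^ (-θ) * p r1 := by
            rw [pow_succ, Real.mul_rpow (by positivity) hMr.le]; ring
  set C : ℝ := ((M : ℝ) * r1) ^ θ * p r1
  have h4 : ∀ n : ℕ, r1 ≤ n → p n ≤ C * (n : ℝ) ^ (-θ) := by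
    intro n hn
    set j := Nat.log M (n / r1)
    have hq : n / r1 ≠ 0 := (Nat.div_pos hn hr1p).ne'
    have h5 : M ^ j * r1 ≤ n :=
      (Nat.mul_le_mul_right _ (Nat.pow_log_le_self M hq)).trans (Nat.div_mul_le_self n r1)
    have h6 : n < M ^ (j + 1) * r1 := by
      have h7 : n / r1 < M ^ (j + 1) := Nat.lt_pow_succ_log_self (by omega) _
      exact (Nat.div_lt_iff_lt_mul hr1p).1 h7
    have h8 : (n : ℝ) < (M : ℝ) ^ j * (M * r1) := by
      have : (n : ℝ) < (M : ℝ) ^ (j + 1) * r1 := by exact_mod_cast h6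
      calc (n : ℝ) < (M : ℝ) ^ (j + 1) * r1 := this
        _ = _ := by ring
    have hn0 : (0 : ℝ) < n := by exact_mod_cast hr1p.trans_le hn
    have hr1' : (0 : ℝ) < r1 := by exact_mod_cast hr1p
    have h9 : ((M : ℝ) ^ j) ^ (-θ) ≤ ((M : ℝ) * r1) ^ θ * (n : ℝ) ^ (-θ) := by
      rw [Real.rpow_neg (by positivity), Real.rpow_neg hn0.le, ← div_eq_mul_inv,
        inv_eq_one_div, div_le_div_iff₀ (by positivity) (by positivity), one_mul,
        ← Real.mul_rpow (by positivity) (by positivity)]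
      refine Real.rpow_le_rpow hn0.le ?_ hθ
      linarith [h8]
    calc p n ≤ p (M ^ j * r1) := anti h5
      _ ≤ ((M : ℝ) ^ j) ^ (-θ) * p r1 := h1 j
      _ ≤ (((M : ℝ) * r1) ^ θ * (n : ℝ) ^ (-θ)) * p r1 := mul_le_mul_of_nonneg_right h9 (h0 _)
      _ = C * (n : ℝ) ^ (-θ) := by ring
  have h10 : ∀ᶠ n : ℕ in atTop, C ≤ (n : ℝ) ^ ε :=
    ((tendsto_rpow_atTop hε).comp tendsto_natCast_atTop_atTop).eventually_ge_atTop C
  filter_upwards [h10, eventually_ge_atTop r1] with n hn1 hn2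
  have hn0 : (0 : ℝ) < n := by exact_mod_cast hr1p.trans_le hn2
  calc p n ≤ C * (n : ℝ) ^ (-θ) := h4 n hn2
    _ ≤ (n : ℝ) ^ ε * (n : ℝ) ^ (-θ) :=
        mul_le_mul_of_nonneg_right hn1 (Real.rpow_nonneg hn0.le _)
    _ = (n : ℝ) ^ (-θ + ε) := by rw [← Real.rpow_add hn0]; ring_nf

/-- `β p r ≤ p (M r)` for large `r`, `M ^ (-θ) ≤ β` ⟹ `n ^ (-θ-ε) ≤ p n` eventually -/
theorem chain_lower {p : ℕ → ℝ} (anti : Antitone p) (h0 : ∀ n, 0 < p n) {M r0 : ℕ} (hM : 2 ≤ M)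
    {β θ : ℝ} (hθ : 0 ≤ θ) (hβθ : (M : ℝ) ^ (-θ) ≤ β)
    (hstep : ∀ r, r0 ≤ r → β * p r ≤ p (M * r)) {ε : ℝ} (hε : 0 < ε) :
    ∀ᶠ n : ℕ in atTop, (n : ℝ) ^ (-θ - ε) ≤ p n := by
  set r1 := max r0 1 with hr1
  have hr1p : 0 < r1 := lt_of_lt_of_le one_pos (le_max_right _ _)
  have hMp : 0 < M := by omega
  have hMr : (0 : ℝ) < M := by exact_mod_cast hMp
  have hβ : 0 ≤ β := (Real.rpow_nonneg hMr.le _).trans hβθ
  have h1 : ∀ j : ℕ, ((M : ℝ) ^ j) ^ (-θ) * p r1 ≤ p (M ^ j * r1) := by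
    intro j
    induction j with
    | zero => simp
    | succ j ih =>
      have h2 := hstep (M ^ j * r1) ((le_max_left r0 1).trans
        (Nat.le_mul_of_pos_left _ (Nat.pow_pos hMp)))
      have h3 : M ^ (j + 1) * r1 = M * (M ^ j * r1) := by ring
      rw [h3]
      refine le_trans ?_ h2
      calc ((M : ℝ) ^ (j + 1)) ^ (-θ) * p r1
          = (M : ℝ) ^ (-θ) * (((M : ℝ) ^ j) ^ (-θ) * p r1) := by
            rw [pow_succ, Real.mul_rpow (by positivity) hMr.le]; ring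
        _ ≤ β * p (M ^ j * r1) :=
            mul_le_mul hβθ ih (mul_nonneg (Real.rpow_nonneg (by positivity) _) (h0 _).le) hβ
  set C : ℝ := ((M : ℝ)) ^ (-θ) * p r1
  have hC : 0 < C := mul_pos (Real.rpow_pos_of_pos hMr _) (h0 _)
  have h4 : ∀ n : ℕ, r1 ≤ n → C * (n : ℝ) ^ (-θ) ≤ p n := by
    intro n hn
    set j := Nat.log M n
    have hn0 : (0 : ℝ) < n := by exact_mod_cast hr1p.trans_le hn
    have h5 : M ^ j ≤ n := Nat.pow_log_le_self M (by omega)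
    have h6 : n < M ^ (j + 1) := Nat.lt_pow_succ_log_self (by omega) _
    have h7 : n ≤ M ^ (j + 1) * r1 := h6.le.trans (Nat.le_mul_of_pos_right _ hr1p)
    have h8 : (M : ℝ) ^ (j + 1) ≤ M * n := by
      have : (M : ℝ) ^ j ≤ n := by exact_mod_cast h5
      rw [pow_succ]
      nlinarith
    calc C * (n : ℝ) ^ (-θ) = ((M : ℝ) * n) ^ (-θ) * p r1 := by
          rw [Real.mul_rpow hMr.le hn0.le]; ring
      _ ≤ ((M : ℝ) ^ (j + 1)) ^ (-θ) * p r1 := by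
          refine mul_le_mul_of_nonneg_right ?_ (h0 _).le
          exact Real.rpow_le_rpow_of_nonpos (by positivity) h8 (by linarith)
      _ ≤ p (M ^ (j + 1) * r1) := h1 _
      _ ≤ p n := anti h7
  have h10 : ∀ᶠ n : ℕ in atTop, C⁻¹ ≤ (n : ℝ) ^ ε :=
    ((tendsto_rpow_atTop hε).comp tendsto_natCast_atTop_atTop).eventually_ge_atTop _
  filter_upwards [h10, eventually_ge_atTop r1] with n hn1 hn2
  have hn0 : (0 : ℝ) < n := by exact_mod_cast hr1p.trans_le hn2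
  refine le_trans ?_ (h4 n hn2)
  have h11 : (n : ℝ) ^ (-θ - ε) = (n : ℝ) ^ (-θ) * ((n : ℝ) ^ ε)⁻¹ := by
    rw [← Real.rpow_neg hn0.le, ← Real.rpow_add hn0]; ring_nf
  rw [h11, mul_comm]
  refine mul_le_mul_of_nonneg_right ?_ (Real.rpow_nonneg hn0.le _)
  rw [inv_le_comm₀ (by positivity) hC]
  exact hn1

end Crest.Agent.R158.Wh109
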