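import Crest.Agent.R158.Wb1_290
import Crest.Agent.R158.Sk3_656

/-!
R158 (helper290): the triangle `1, om, om²` and the boundary estimate on one domain.

`lam`, `Tri`, formulas for `sd1, sd2, sd3`, affine real functionals `Aff`,
`side_bound`: the weak Beurling estimate for affine functionals of (anti)holomorphic functions.
-/

set_option autoImplicit false
open Complex Metric Set Topology Filter

namespace Crest.Agent.R158.Wl290

open Crest.Agent.R158.Cd83
open Crest.Agent.R158.Sk656 (sd1 sd2 sd3 sd1_cont sd2_cont sd3_cont)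

/-- coordinate along the first side -/
noncomputable def lam (w : ℂ) : ℝ := ((w - 1) / (om - 1)).re

/-- the closed triangle `1, om, om²` -/
def Tri : Set ℂ := {w | 0 ≤ sd1 w ∧ 0 ≤ sd2 w ∧ 0 ≤ sd3 w}

theorem sqrt3_pos : 0 < Real.sqrt 3 := Real.sqrt_pos.mpr (by norm_num)

theorem sqrt3_sq : Real.sqrt 3 * Real.sqrt 3 = 3 := Real.mul_self_sqrt (by norm_num)

theorem sqrt3_lt : Real.sqrt 3 < 2 := by
  nlinarith [sqrt3_sq, sqrt3_pos]

theorem om_sq_eq : om ^ 2 = ⟨-1/2, -(Real.sqrt 3 / 2)⟩ := by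
  have h3 := sqrt3_sq
  rw [om_eq, sq]
  apply Complex.ext
  · simp only [mul_re]; nlinarith
  · simp only [mul_im]; ring

theorem inv_om_sub : (om - 1)⁻¹ = ⟨-1/2, -(Real.sqrt 3 / 6)⟩ := by
  have h3 := sqrt3_sq
  apply inv_eq_of_mul_eq_one_right
  rw [om_eq]
  apply Complex.ext
  · simp only [mul_re, sub_re, one_re, sub_im, one_im]; nlinarith
  · simp only [mul_im, sub_re, one_re, sub_im, one_im]; ring

theorem om_ne : om ≠ 0 := by
  intro h
  have := om_cube
  rw [h] at this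
  norm_num at this

theorem om_sub_ne : om - 1 ≠ 0 := by
  intro h
  have := inv_om_sub
  rw [h, inv_zero] at this
  have := congrArg Complex.re this
  norm_num at this

theorem lam_eq (w : ℂ) : lam w = -(w.re - 1) / 2 + w.im * (Real.sqrt 3 / 6) := by
  unfold lam
  rw [div_eq_mul_inv, inv_om_sub]
  simp only [mul_re, sub_re, one_re, sub_im, one_im]
  ring

theorem sd1_eq (w : ℂ) : sd1 w = -(w.re - 1) * (Real.sqrt 3 / 6) - w.im / 2 := by
  unfold sd1
  rw [div_eq_mul_inv, inv_om_sub]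
  simp only [mul_im, sub_re, one_re, sub_im, one_im]
  ring

theorem om_inv : om⁻¹ = om ^ 2 := by
  apply inv_eq_of_mul_eq_one_right
  rw [← pow_succ']
  exact om_cube

theorem om_sq_inv : (om ^ 2)⁻¹ = om := by
  apply inv_eq_of_mul_eq_one_right
  rw [← pow_succ]
  exact om_cube

theorem sd2_eq (w : ℂ) : sd2 w = Real.sqrt 3 / 2 * (1 - lam w) - sd1 w / 2 := by
  have e : (w - om) / (om * (om - 1)) = ((w - 1) / (om - 1) - 1) * om ^ 2 := by
    have h1 := om_sub_ne
    have h2 := om_ne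
    have h3 := om_cube
    field_simp
    linear_combination (-(w - om)) * h3
  have h : sd2 w = (((w - 1) / (om - 1) - 1) * om ^ 2).im := by
    unfold sd2; rw [e]
  rw [h, om_sq_eq, mul_im, sub_re, sub_im, one_re, one_im]
  unfold lam sd1
  ring

theorem sd3_eq (w : ℂ) : sd3 w = Real.sqrt 3 / 2 * lam w - sd1 w / 2 := by
  have e : (w - om ^ 2) / (om ^ 2 * (om - 1)) = ((w - 1) / (om - 1)) * om + 1 := by
    have h1 := om_sub_ne
    have h2 := om_ne
    have h3 := om_cube
    field_simp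
    linear_combination (-w) * h3
  have h : sd3 w = (((w - 1) / (om - 1)) * om + 1).im := by
    unfold sd3; rw [e]
  have hre : om.re = -1/2 := by rw [om_eq]
  have him : om.im = Real.sqrt 3 / 2 := by rw [om_eq]
  rw [h, add_im, one_im, mul_im, hre, him]
  unfold lam sd1
  ring

theorem Tri_closed : IsClosed Tri := by
  unfold Tri
  exact (isClosed_le continuous_const sd1_cont).inter
    ((isClosed_le continuous_const sd2_cont).inter (isClosed_le continuous_const sd3_cont))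

theorem Tri_lam {w : ℂ} (h : w ∈ Tri) : 0 ≤ lam w ∧ lam w ≤ 1 := by
  obtain ⟨h1, h2, h3⟩ := h
  rw [sd2_eq] at h2
  rw [sd3_eq] at h3
  have := sqrt3_pos
  constructor
  · by_contra hc
    push Not at hc
    nlinarith
  · by_contra hc
    push Not at hc
    nlinarith

theorem Tri_sd {w : ℂ} (h : w ∈ Tri) : sd1 w ≤ 1 ∧ sd2 w ≤ 1 ∧ sd3 w ≤ 1 := by
  obtain ⟨l0, l1⟩ := Tri_lam h
  obtain ⟨h1, h2, h3⟩ := h
  have e2 := sd2_eq w
  have e3 := sd3_eq w
  have := sqrt3_pos
  have := sqrt3_lt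
  have hsum : sd1 w + sd2 w + sd3 w = Real.sqrt 3 / 2 := by rw [e2, e3]; ring
  refine ⟨by linarith, by linarith, by linarith⟩

theorem Tri_norm {w : ℂ} (h : w ∈ Tri) : ‖w‖ ≤ 5 := by
  obtain ⟨l0, l1⟩ := Tri_lam h
  obtain ⟨s1, -, -⟩ := Tri_sd h
  have s0 := h.1
  have hX : ‖(w - 1) / (om - 1)‖ ≤ 2 := by
    refine (norm_le_abs_re_add_abs_im _).trans ?_
    have h1 : |((w - 1) / (om - 1)).re| ≤ 1 := by
      rw [abs_le]; constructor
      · have : 0 ≤ ((w - 1) / (om - 1)).re := l0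
        linarith
      · exact l1
    have h2 : |((w - 1) / (om - 1)).im| ≤ 1 := by
      rw [abs_le]; constructor
      · have : 0 ≤ ((w - 1) / (om - 1)).im := s0
        linarith
      · exact s1
    linarith
  have hom : ‖om‖ = 1 := by
    unfold om
    rw [norm_exp_ofReal_mul_I]
  have hom1 : ‖om - 1‖ ≤ 2 := by
    have := norm_sub_le om 1
    rw [hom, norm_one] at this
    linarith
  have e : w = (w - 1) / (om - 1) * (om - 1) + 1 := by
    rw [div_mul_cancel₀ _ om_sub_ne]; ring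
  calc ‖w‖ = ‖(w - 1) / (om - 1) * (om - 1) + 1‖ := by rw [← e]
    _ ≤ ‖(w - 1) / (om - 1)‖ * ‖om - 1‖ + 1 := by
        refine (norm_add_le _ _).trans ?_
        rw [norm_mul, norm_one]
    _ ≤ 2 * 2 + 1 := by
        have := mul_le_mul hX hom1 (norm_nonneg _) (by norm_num)
        linarith
    _ = 5 := by norm_num

theorem lam_point (X : ℝ) : lam (1 + (om - 1) * (X : ℂ)) = X := by
  unfold lam
  rw [add_sub_cancel_left, mul_div_cancel_left₀ _ om_sub_ne, ofReal_re]

theorem lam_cont : Continuous lam := by unfold lam; fun_prop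

/-- real affine functionals -/
def Aff (u : ℂ → ℝ) : Prop := ∃ α β : ℂ, ∀ w, u w = (α * w + β).re

theorem Aff.sub_const {u : ℂ → ℝ} (h : Aff u) (c : ℝ) : Aff fun w => u w - c := by
  obtain ⟨α, β, h⟩ := h
  refine ⟨α, β - c, fun w => ?_⟩
  simp only [h w, add_re, sub_re, ofReal_re]
  ring

theorem Aff.const_sub {u : ℂ → ℝ} (h : Aff u) (c : ℝ) : Aff fun w => c - u w := by
  obtain ⟨α, β, h⟩ := h
  refine ⟨-α, c - β, fun w => ?_⟩
  simp only [h w, add_re, sub_re, ofReal_re, neg_mul, neg_re]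
  ring

theorem aff_lam : Aff lam := by
  refine ⟨(om - 1)⁻¹, -(om - 1)⁻¹, fun w => ?_⟩
  unfold lam
  congr 1
  rw [div_eq_mul_inv]; ring

theorem aff_sd1 : Aff sd1 := by
  refine ⟨-I * (om - 1)⁻¹, I * (om - 1)⁻¹, fun w => ?_⟩
  unfold sd1
  have : -I * (om - 1)⁻¹ * w + I * (om - 1)⁻¹ = -I * ((w - 1) / (om - 1)) := by
    rw [div_eq_mul_inv]; ring
  rw [this]
  simp

theorem Aff.comb {u v : ℂ → ℝ} (hu : Aff u) (hv : Aff v) (a b c : ℝ) :
    Aff fun w => a * u w + b * v w + c := by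
  obtain ⟨α, β, hu⟩ := hu
  obtain ⟨α', β', hv⟩ := hv
  refine ⟨a * α + b * α', a * β + b * β' + c, fun w => ?_⟩
  have : (a * α + b * α') * w + (a * β + b * β' + c) =
      a * (α * w + β) + b * (α' * w + β') + c := by ring
  simp only [hu w, hv w, this, add_re, re_ofReal_mul, ofReal_re]

theorem aff_sd2 : Aff sd2 := by
  have := aff_lam.comb aff_sd1 (-(Real.sqrt 3 / 2)) (-(1/2)) (Real.sqrt 3 / 2)
  refine (funext fun w => ?_ : sd2 = _) ▸ this
  rw [sd2_eq]; ring

theorem aff_sd3 : Aff sd3 := by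
  have := aff_lam.comb aff_sd1 (Real.sqrt 3 / 2) (-(1/2)) 0
  refine (funext fun w => ?_ : sd3 = _) ▸ this
  rw [sd3_eq]; ring

theorem Aff.cont {u : ℂ → ℝ} (h : Aff u) : Continuous u := by
  obtain ⟨α, β, h⟩ := h
  have : u = fun w => (α * w + β).re := funext h
  rw [this]; fun_prop

theorem Aff.convex {u : ℂ → ℝ} (h : Aff u) (c : ℝ) : Convex ℝ {w | u w ≤ c} := by
  obtain ⟨α, β, h⟩ := h
  intro x hx y hy a b ha hb hab
  simp only [mem_ofPred_eq, h] at hx hy ⊢
  have e : α * (a • x + b • y) + β = a • (α * x + β) + b • (α * y + β) := by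
    simp only [real_smul]
    have : (a : ℂ) + b = 1 := by exact_mod_cast hab
    linear_combination (-β) * this
  rw [e, add_re, real_smul, real_smul, re_ofReal_mul, re_ofReal_mul]
  calc a * (α * x + β).re + b * (α * y + β).re ≤ a * c + b * c := by gcongr
    _ = c := by rw [← add_mul, hab, one_mul]

theorem Aff.convex' {u : ℂ → ℝ} (h : Aff u) (c : ℝ) : Convex ℝ {w | c ≤ u w} := by
  have := (h.const_sub 0).convex (-c)
  refine (Set.ext fun w => ?_ : {w | c ≤ u w} = _) ▸ this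
  simp only [mem_ofPred_eq]
  constructor <;> intro h <;> linarith

theorem Tri_convex : Convex ℝ Tri := by
  unfold Tri
  exact (aff_sd1.convex' 0).inter ((aff_sd2.convex' 0).inter (aff_sd3.convex' 0))

/-- circles meet the complement -/
theorem circ_meets {Ω : Set ℂ} (hbd : Bornology.IsBounded Ω) (hcon : IsPreconnected Ωᶜ) {b : ℂ}
    {s : ℝ} {w0 : ℂ} (hw0 : w0 ∉ Ω) (hs : ‖w0 - b‖ ≤ s) :
    ∀ ρ ∈ Icc s (2 * s), ∃ w : ℂ, ‖w - b‖ = ρ ∧ w ∉ Ω := by
  intro ρ hρ
  obtain ⟨C, hC⟩ := hbd.subset_closedBall b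
  set T : ℝ := max C 0 + |ρ| + 1 with hT
  have hTpos : 0 < T := by positivity
  have hfar : b + (T : ℂ) ∉ Ω := by
    intro h
    have h1 := hC h
    rw [mem_closedBall, dist_eq_norm, add_sub_cancel_left, Complex.norm_real, Real.norm_eq_abs,
      abs_of_pos hTpos] at h1
    have := le_max_left C 0
    have := abs_nonneg ρ
    linarith
  have hcont : ContinuousOn (fun w : ℂ => ‖w - b‖) Ωᶜ := by fun_prop
  have h1 := hcon.intermediate_value (a := w0) (b := b + (T : ℂ)) hw0 hfar hcont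
  have h2 : ρ ∈ Icc (‖w0 - b‖) (‖b + (T : ℂ) - b‖) := by
    refine ⟨hs.trans hρ.1, ?_⟩
    rw [add_sub_cancel_left, Complex.norm_real, Real.norm_eq_abs, abs_of_pos hTpos]
    have := le_abs_self ρ
    have := le_max_right C 0
    linarith
  obtain ⟨w, hw, hw2⟩ := h1 h2
  exact ⟨w, hw2, hw⟩

/-- conjugation if `an` -/
noncomputable def cj (an : Bool) (w : ℂ) : ℂ := bif an then (starRingEnd ℂ) w else w

/-- holomorphic (`an = false`) or antiholomorphic (`an = true`) -/
def HA (an : Bool) (h : ℂ → ℂ) (Ω : Set ℂ) : Prop := DifferentiableOn ℂ (fun z => cj an (h z)) Ω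

/-- **Boundary estimate on one domain.** -/
theorem side_bound {Ω : Set ℂ} (hΩ : IsOpen Ω) (hcone : Cone Ω) (hbd : Bornology.IsBounded Ω)
    (hcon : IsPreconnected Ωᶜ) {b : ℂ} {s R : ℝ} (hs : 0 < s) (hR : 4 * s ≤ R)
    {w0 : ℂ} (hw0 : w0 ∉ Ω) (hw0b : ‖w0 - b‖ ≤ s) {an : Bool} {h : ℂ → ℂ} (hh : HA an h Ω)
    {u : ℂ → ℝ} (hu : Aff u) (h1 : ∀ z ∈ Ω, u (h z) ≤ 1) (E : Finset ℂ)
    (hE : ∀ e ∈ E, e ∉ Ω)
    (hb : ∀ ζ ∈ frontier Ω, ‖ζ - b‖ < R → ζ ∉ E → ∀ ε > 0, ∀ᶠ z in 𝓝[Ω] ζ, u (h z) ≤ ε)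
    {z : ℂ} (hz : z ∈ Ω) (hzb : ‖z - b‖ ≤ s) : u (h z) ≤ 5 / Real.log (R / s) := by
  obtain ⟨α, β, hu⟩ := hu
  have hw := circ_meets hbd hcon hw0 hw0b
  unfold HA cj at hh
  cases an
  · simp only [cond_false] at hh
    have key := weak_beurling hΩ hcone hs hR hw (f := fun z => α * h z + β)
      ((hh.const_mul α).add_const β) (fun z hz => by
        have := h1 z hz; rw [hu] at this; exact this) E hE
      (fun ζ h2 h3 h4 ε hε => by
        have := hb ζ h2 h3 h4 ε hε
        simp only [hu] at this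
        exact this) hz hzb
    rw [hu]
    exact key
  · simp only [cond_true] at hh
    have e : ∀ w : ℂ, (α * w + β).re =
        ((starRingEnd ℂ) α * (starRingEnd ℂ) w + (starRingEnd ℂ) β).re := by
      intro w
      rw [← map_mul, ← map_add, conj_re]
    have key := weak_beurling hΩ hcone hs hR hw
      (f := fun z => (starRingEnd ℂ) α * (starRingEnd ℂ) (h z) + (starRingEnd ℂ) β)
      ((hh.const_mul _).add_const _) (fun z hz => by
        have := h1 z hz; rw [hu, e] at this; exact this) E hE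
      (fun ζ h2 h3 h4 ε hε => by
        have := hb ζ h2 h3 h4 ε hε
        simp only [hu, e] at this
        exact this) hz hzb
    rw [hu, e]
    exact key

end Crest.Agent.R158.Wl290
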