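import Mathlib
import Crest.Agent.R158.Wl1_290

/-!
R158 (helper290), part 2: the weak limit along an ultrafilter is holomorphic, and closed convex
constraints pass to it.
-/

set_option autoImplicit false
open Complex MeasureTheory Metric Set Topology Filter
open scoped Interval

namespace Crest.Agent.R158.Wl290

open Crest.Agent.R158.Pv470

variable {ι : Type*}

/-- limit along an ultrafilter -/
noncomputable def ulim (U : Ultrafilter ι) (g : ι → ℂ) : ℂ := limUnder (U : Filter ι) g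

theorem tendsto_ulim {U : Ultrafilter ι} {g : ι → ℂ} {C : ℝ} (h : ∀ᶠ n in (U : Filter ι), ‖g n‖ ≤ C) :
    Tendsto g U (𝓝 (ulim U g)) := by
  have hc : IsCompact (closedBall (0:ℂ) C) := isCompact_closedBall _ _
  have hm : closedBall (0:ℂ) C ∈ (U.map g : Filter ℂ) := by
    change ∀ᶠ n in (U : Filter ι), g n ∈ closedBall (0:ℂ) C
    filter_upwards [h] with n hn
    simpa using hn
  obtain ⟨z, -, hz⟩ := hc.ultrafilter_le_nhds' (U.map g) hm
  have hz' : Tendsto g U (𝓝 z) := hz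
  unfold ulim
  rw [hz'.limUnder_eq]
  exact hz'

section lims

variable (U : Ultrafilter ι) (d : ι → ℝ) (H : ι → ℤ → ℤ → ℂ)

noncomputable def Al (x1 x2 y : ℝ) : ℂ := ulim U fun n => An (d n) (H n) x1 x2 y

noncomputable def Sl (x1 x2 y1 y2 : ℝ) : ℂ := ulim U fun n => Sn (d n) (H n) x1 x2 y1 y2

end lims

variable {U : Ultrafilter ι} {d : ι → ℝ} {H : ι → ℤ → ℤ → ℂ}

theorem Al_tendsto (hd : ∀ n, 0 < d n) (hd0 : Tendsto d U (𝓝 0)) (hH : ∀ n i j, ‖H n i j‖ ≤ 1)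
    {x1 x2 : ℝ} (h : x1 ≤ x2) (y : ℝ) :
    Tendsto (fun n => An (d n) (H n) x1 x2 y) U (𝓝 (Al U d H x1 x2 y)) := by
  have h1 : ∀ᶠ n in (U : Filter ι), d n < 1 := hd0.eventually (gt_mem_nhds one_pos)
  refine tendsto_ulim (C := x2 - x1 + 1) ?_
  filter_upwards [h1] with n hn
  exact (An_norm (hd n) (hH n) h y).trans (by linarith)

theorem Al_norm (hd : ∀ n, 0 < d n) (hd0 : Tendsto d U (𝓝 0)) (hH : ∀ n i j, ‖H n i j‖ ≤ 1)
    {x1 x2 : ℝ} (h : x1 ≤ x2) (y : ℝ) : ‖Al U d H x1 x2 y‖ ≤ x2 - x1 := by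
  have t1 := (Al_tendsto hd hd0 hH h y).norm
  have t2 : Tendsto (fun n => x2 - x1 + d n) U (𝓝 (x2 - x1 + 0)) := hd0.const_add _
  rw [add_zero] at t2
  exact le_of_tendsto_of_tendsto t1 t2 (Eventually.of_forall fun n => An_norm (hd n) (hH n) h y)

theorem Al_add (hd : ∀ n, 0 < d n) (hd0 : Tendsto d U (𝓝 0)) (hH : ∀ n i j, ‖H n i j‖ ≤ 1)
    {x1 x2 x3 : ℝ} (h1 : x1 ≤ x2) (h2 : x2 ≤ x3) (y : ℝ) :
    Al U d H x1 x2 y + Al U d H x2 x3 y = Al U d H x1 x3 y := by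
  have t1 := (Al_tendsto hd hd0 hH h1 y).add (Al_tendsto hd hd0 hH h2 y)
  have t2 := Al_tendsto hd hd0 hH (h1.trans h2) y
  refine tendsto_nhds_unique t1 (t2.congr fun n => ?_)
  exact (An_add (hd n) (H n) h1 h2 y).symm

theorem Sn_norm {d : ℝ} (hd : 0 < d) {H : ℤ → ℤ → ℂ} (hH : ∀ i j, ‖H i j‖ ≤ 1) {x1 x2 y1 y2 : ℝ}
    (hx : x1 ≤ x2) (hy : y1 ≤ y2) :
    ‖Sn d H x1 x2 y1 y2‖ ≤ (y2 - y1 + d) * (x2 - x1 + d) := by
  unfold Sn
  have hdn : ‖(d:ℂ)‖ = d := by simp [abs_of_nonneg hd.le]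
  rw [norm_mul, hdn]
  have hcard : ((Finset.Ico (fl d y1) (fl d y2)).card : ℝ) = (fl d y2 : ℝ) - fl d y1 := by
    rw [Int.card_Ico]
    have m12 := fl_mono hd hy
    have : ((fl d y2 - fl d y1).toNat : ℤ) = fl d y2 - fl d y1 := Int.toNat_of_nonneg (by omega)
    have h2 : (((fl d y2 - fl d y1).toNat : ℤ) : ℝ) = ((fl d y2 - fl d y1 : ℤ) : ℝ) := by rw [this]
    push_cast at h2
    exact_mod_cast h2
  have hr : ∀ j, ‖row d H (fl d x1) (fl d x2) j‖ ≤ x2 - x1 + d := fun j =>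
    (row_norm hd.le hH (fl_mono hd hx) _).trans (fl_sub_le hd)
  have b1 : ‖∑ j ∈ Finset.Ico (fl d y1) (fl d y2), row d H (fl d x1) (fl d x2) j‖ ≤
      ((fl d y2 : ℝ) - fl d y1) * (x2 - x1 + d) := by
    refine (norm_sum_le _ _).trans ((Finset.sum_le_sum fun j _ => hr j).trans ?_)
    rw [Finset.sum_const, nsmul_eq_mul, hcard]
  calc _ ≤ d * (((fl d y2 : ℝ) - fl d y1) * (x2 - x1 + d)) := mul_le_mul_of_nonneg_left b1 hd.le
    _ = (d * ((fl d y2 : ℝ) - fl d y1)) * (x2 - x1 + d) := by ring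
    _ ≤ _ := mul_le_mul_of_nonneg_right (fl_sub_le hd) (by linarith)

theorem Sl_tendsto (hd : ∀ n, 0 < d n) (hd0 : Tendsto d U (𝓝 0)) (hH : ∀ n i j, ‖H n i j‖ ≤ 1)
    {x1 x2 y1 y2 : ℝ} (hx : x1 ≤ x2) (hy : y1 ≤ y2) :
    Tendsto (fun n => Sn (d n) (H n) x1 x2 y1 y2) U (𝓝 (Sl U d H x1 x2 y1 y2)) := by
  have h1 : ∀ᶠ n in (U : Filter ι), d n < 1 := hd0.eventually (gt_mem_nhds one_pos)
  refine tendsto_ulim (C := (y2 - y1 + 1) * (x2 - x1 + 1)) ?_
  filter_upwards [h1] with n hn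
  have := hd n
  refine (Sn_norm (hd n) (hH n) hx hy).trans ?_
  apply mul_le_mul <;> linarith

theorem Sl_add (hd : ∀ n, 0 < d n) (hd0 : Tendsto d U (𝓝 0)) (hH : ∀ n i j, ‖H n i j‖ ≤ 1)
    {x1 x2 y1 y2 y3 : ℝ} (hx : x1 ≤ x2) (h1 : y1 ≤ y2) (h2 : y2 ≤ y3) :
    Sl U d H x1 x2 y1 y2 + Sl U d H x1 x2 y2 y3 = Sl U d H x1 x2 y1 y3 := by
  have t1 := (Sl_tendsto hd hd0 hH hx h1).add (Sl_tendsto hd hd0 hH hx h2)
  have t2 := Sl_tendsto hd hd0 hH hx (h1.trans h2)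
  refine tendsto_nhds_unique t1 (t2.congr fun n => ?_)
  exact (Sn_add (hd n) (H n) x1 x2 h1 h2).symm

theorem Sl_swap (x1 x2 y1 y2 : ℝ) :
    Sl U d (fun n i j => H n j i) y1 y2 x1 x2 = Sl U d H x1 x2 y1 y2 := by
  unfold Sl
  congr 1
  funext n
  exact Sn_swap (d n) (H n) x1 x2 y1 y2

/-- block estimate in the limit -/
theorem Sl_block (hd : ∀ n, 0 < d n) (hd0 : Tendsto d U (𝓝 0)) (hH : ∀ n i j, ‖H n i j‖ ≤ 1)
    {s : ℂ} (hs : ‖s‖ = 1) {a b c e : ℝ} (hCS : CSr (U : Filter ι) s d H a b c e)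
    {x1 x2 y1 y2 y : ℝ} (hx1 : a < x1) (hx : x1 ≤ x2) (hx2 : x2 ≤ b) (hy1 : c < y1)
    (hy2 : y2 ≤ e) (h1 : y1 ≤ y) (h2 : y ≤ y2) :
    ‖Sl U d H x1 x2 y1 y2 - ((y2 - y1 : ℝ) : ℂ) * Al U d H x1 x2 y‖ ≤ 2 * (y2 - y1) ^ 2 := by
  have t1 := (Sl_tendsto hd hd0 hH hx (h1.trans h2)).sub
    ((Al_tendsto hd hd0 hH hx y).const_mul ((y2 - y1 : ℝ) : ℂ))
  have t1' := t1.norm
  refine le_of_forall_pos_le_add fun η hη => ?_
  -- bound with ε
  have key : ∀ ε > 0, ‖Sl U d H x1 x2 y1 y2 - ((y2 - y1 : ℝ) : ℂ) * Al U d H x1 x2 y‖ ≤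
      (y2 - y1 + 0) * (ε + 2 * (y2 - y1 + 0)) + 0 * (x2 - x1 + 0) := by
    intro ε hε
    have t2 : Tendsto (fun n => (y2 - y1 + d n) * (ε + 2 * (y2 - y1 + d n)) + d n * (x2 - x1 + d n)) U
        (𝓝 ((y2 - y1 + 0) * (ε + 2 * (y2 - y1 + 0)) + 0 * (x2 - x1 + 0))) := by
      refine Tendsto.add (Tendsto.mul (hd0.const_add _) ?_) (hd0.mul (hd0.const_add _))
      exact ((hd0.const_add _).const_mul 2).const_add ε
    refine le_of_tendsto_of_tendsto t1' t2 ?_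
    have s1 : ∀ᶠ n in (U : Filter ι), d n < x1 - a := hd0.eventually (gt_mem_nhds (by linarith))
    have s2 : ∀ᶠ n in (U : Filter ι), d n < y1 - c := hd0.eventually (gt_mem_nhds (by linarith))
    filter_upwards [s1, s2, hCS ε hε] with n n1 n2 n3
    refine Sn_block hs (hd n) (hH n) hx h1 h2 ?_ hε.le
    intro j1 j2 k1 k2 k3
    refine n3 _ _ _ _ (fl_mono (hd n) hx) k2 ?_ ?_ ?_ ?_
    · have := lt_fl (x := x1) (hd n); linarith
    · exact (fl_le (hd n)).trans hx2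
    · have w1 := lt_fl (x := y1) (hd n)
      have w2 : d n * (fl (d n) y1 : ℝ) ≤ d n * (j1 : ℝ) :=
        mul_le_mul_of_nonneg_left (by exact_mod_cast k1) (hd n).le
      linarith
    · have w1 := fl_le (x := y2) (hd n)
      have w2 : d n * (j2 : ℝ) ≤ d n * (fl (d n) y2 : ℝ) :=
        mul_le_mul_of_nonneg_left (by exact_mod_cast k3) (hd n).le
      linarith
  have hlen : 0 ≤ y2 - y1 := by linarith
  rcases eq_or_lt_of_le hlen with h0 | h0
  · have := key 1 one_pos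
    rw [← h0] at this ⊢
    nlinarith
  · have := key (η / (y2 - y1)) (div_pos hη h0)
    have e1 : (y2 - y1 + 0) * (η / (y2 - y1) + 2 * (y2 - y1 + 0)) + 0 * (x2 - x1 + 0) =
        η + 2 * (y2 - y1) ^ 2 := by
      field_simp
      ring
    rw [e1] at this
    linarith

theorem Al_lip (hd : ∀ n, 0 < d n) (hd0 : Tendsto d U (𝓝 0)) (hH : ∀ n i j, ‖H n i j‖ ≤ 1)
    {s : ℂ} (hs : ‖s‖ = 1) {a b c e : ℝ} (hCS : CSr (U : Filter ι) s d H a b c e)
    {x1 x2 y1 y2 : ℝ} (hx1 : a < x1) (hx : x1 ≤ x2) (hx2 : x2 ≤ b) (hy1 : c < y1)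
    (hy2 : y2 ≤ e) (h1 : y1 ≤ y2) :
    ‖Al U d H x1 x2 y2 - Al U d H x1 x2 y1‖ ≤ 4 * (y2 - y1) := by
  rcases eq_or_lt_of_le h1 with h | h
  · subst h; simp
  have p1 := Sl_block hd hd0 hH hs hCS hx1 hx hx2 hy1 hy2 le_rfl h1
  have p2 := Sl_block hd hd0 hH hs hCS hx1 hx hx2 hy1 hy2 h1 le_rfl
  have hpos : 0 < y2 - y1 := by linarith
  have e1 : ((y2 - y1 : ℝ) : ℂ) * (Al U d H x1 x2 y2 - Al U d H x1 x2 y1) =
      (Sl U d H x1 x2 y1 y2 - ((y2 - y1 : ℝ) : ℂ) * Al U d H x1 x2 y1) -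
      (Sl U d H x1 x2 y1 y2 - ((y2 - y1 : ℝ) : ℂ) * Al U d H x1 x2 y2) := by ring
  have e2 : (y2 - y1) * ‖Al U d H x1 x2 y2 - Al U d H x1 x2 y1‖ ≤ 4 * (y2 - y1) ^ 2 := by
    have : (y2 - y1) * ‖Al U d H x1 x2 y2 - Al U d H x1 x2 y1‖ =
        ‖((y2 - y1 : ℝ) : ℂ) * (Al U d H x1 x2 y2 - Al U d H x1 x2 y1)‖ := by
      rw [norm_mul, Complex.norm_real, Real.norm_eq_abs, abs_of_pos hpos]
    rw [this, e1]
    refine (norm_sub_le _ _).trans ?_
    linarith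
  have : (y2 - y1) * ‖Al U d H x1 x2 y2 - Al U d H x1 x2 y1‖ ≤ (y2 - y1) * (4 * (y2 - y1)) := by
    calc _ ≤ 4 * (y2 - y1) ^ 2 := e2
      _ = _ := by ring
  exact le_of_mul_le_mul_left this hpos

/-- a function whose increments are second-order close to `g` is a primitive of `g` -/
theorem integral_of_block {S : ℝ → ℝ → ℂ} {g : ℝ → ℂ} {c e C : ℝ}
    (hadd : ∀ y1 y2 y3, c ≤ y1 → y1 ≤ y2 → y2 ≤ y3 → y3 ≤ e → S y1 y2 + S y2 y3 = S y1 y3)
    (hbl1 : ∀ y1 y2, c ≤ y1 → y1 ≤ y2 → y2 ≤ e → ‖S y1 y2 - ((y2 - y1 : ℝ) : ℂ) * g y1‖ ≤ C * (y2 - y1) ^ 2)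
    (hlip : ∀ y1 y2, c ≤ y1 → y1 ≤ y2 → y2 ≤ e → ‖g y2 - g y1‖ ≤ C * (y2 - y1))
    (hce : c ≤ e) : S c e = ∫ y in c..e, g y := by
  have hC : ∀ y1 y2, c ≤ y1 → y1 < y2 → y2 ≤ e → 0 ≤ C := by
    intro y1 y2 h1 h2 h3
    have := (norm_nonneg _).trans (hlip y1 y2 h1 h2.le h3)
    by_contra hneg
    rw [not_le] at hneg
    nlinarith
  rcases eq_or_lt_of_le hce with h | h
  · subst h
    have := hbl1 c c le_rfl le_rfl le_rfl
    simp at this
    simp [this]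
  have hC0 := hC c e le_rfl h le_rfl
  have hcont : ContinuousOn g (Icc c e) := by
    have : LipschitzOnWith (Real.toNNReal C) g (Icc c e) := by
      refine LipschitzOnWith.of_dist_le_mul fun x hx y hy => ?_
      rw [Real.coe_toNNReal _ hC0, dist_eq_norm, Real.dist_eq]
      rcases le_total x y with hxy | hxy
      · rw [norm_sub_rev, abs_sub_comm, abs_of_nonneg (by linarith : 0 ≤ y - x)]
        exact hlip x y hx.1 hxy hy.2
      · rw [abs_of_nonneg (by linarith : 0 ≤ x - y)]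
        exact hlip y x hy.1 hxy hx.2
    exact this.continuousOn
  have hint : IntervalIntegrable g volume c e := (hcont.mono (by rw [uIcc_of_le hce])).intervalIntegrable
  have hSc : ContinuousOn (fun y => S c y) (Icc c e) := by
    have hb : ∀ y1 y2, c ≤ y1 → y1 ≤ y2 → y2 ≤ e →
        ‖S c y2 - S c y1‖ ≤ (C * (e - c) + (‖g c‖ + C * (e - c))) * (y2 - y1) := by
      intro y1 y2 h1 h2 h3
      have e1 : S c y2 - S c y1 = S y1 y2 := by
        rw [← hadd c y1 y2 le_rfl h1 h2 h3]; ring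
      rw [e1]
      have b1 := hbl1 y1 y2 h1 h2 h3
      have b2 := hlip c y1 le_rfl h1 (h2.trans h3)
      have b3 : ‖g y1‖ ≤ ‖g c‖ + C * (e - c) := by
        have : ‖g y1‖ ≤ ‖g c‖ + ‖g y1 - g c‖ := by
          have := norm_add_le (g c) (g y1 - g c); simpa using this
        have h5 : C * (y1 - c) ≤ C * (e - c) := mul_le_mul_of_nonneg_left (by linarith) hC0
        linarith
      have b4 : ‖S y1 y2‖ ≤ ‖S y1 y2 - ((y2 - y1 : ℝ) : ℂ) * g y1‖ + ‖((y2 - y1 : ℝ) : ℂ) * g y1‖ := by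
        have := norm_add_le (S y1 y2 - ((y2 - y1 : ℝ) : ℂ) * g y1) (((y2 - y1 : ℝ) : ℂ) * g y1)
        simpa using this
      have b5 : ‖((y2 - y1 : ℝ) : ℂ) * g y1‖ ≤ (y2 - y1) * (‖g c‖ + C * (e - c)) := by
        rw [norm_mul, Complex.norm_real, Real.norm_eq_abs, abs_of_nonneg (by linarith : 0 ≤ y2 - y1)]
        exact mul_le_mul_of_nonneg_left b3 (by linarith)
      have b6 : C * (y2 - y1) ^ 2 ≤ C * (e - c) * (y2 - y1) := by
        have : (y2 - y1) ^ 2 ≤ (e - c) * (y2 - y1) := by nlinarith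
        calc _ ≤ C * ((e - c) * (y2 - y1)) := mul_le_mul_of_nonneg_left this hC0
          _ = _ := by ring
      linarith
    set K := C * (e - c) + (‖g c‖ + C * (e - c)) with hK
    have hK0 : 0 ≤ K := by
      have := norm_nonneg (g c)
      have : 0 ≤ C * (e - c) := mul_nonneg hC0 (by linarith)
      linarith
    have : LipschitzOnWith (Real.toNNReal K) (fun y => S c y) (Icc c e) := by
      refine LipschitzOnWith.of_dist_le_mul fun x hx y hy => ?_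
      rw [Real.coe_toNNReal _ hK0, dist_eq_norm, Real.dist_eq]
      rcases le_total x y with hxy | hxy
      · rw [norm_sub_rev, abs_sub_comm, abs_of_nonneg (by linarith : 0 ≤ y - x)]
        exact hb x y hx.1 hxy hy.2
      · rw [abs_of_nonneg (by linarith : 0 ≤ x - y)]
        exact hb y x hy.1 hxy hx.2
    exact this.continuousOn
  have hderiv : ∀ y ∈ Ioo c e, HasDerivWithinAt (fun y => S c y) (g y) (Ioi y) y := by
    intro y hy
    rw [hasDerivWithinAt_iff_isLittleO]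
    rw [Asymptotics.isLittleO_iff]
    intro η hη
    have hmem : Ioo y (min e (y + η / (C + 1))) ∈ 𝓝[>] y := by
      apply Ioo_mem_nhdsGT
      apply lt_min hy.2
      have : 0 < η / (C + 1) := div_pos hη (by linarith)
      linarith
    filter_upwards [hmem] with t ht
    have ht1 := ht.1
    have ht2 : t < e := ht.2.trans_le (min_le_left _ _)
    have ht3 : t < y + η / (C + 1) := ht.2.trans_le (min_le_right _ _)
    have e1 : S c t - S c y = S y t := by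
      rw [← hadd c y t le_rfl hy.1.le ht1.le ht2.le]; ring
    have b1 := hbl1 y t hy.1.le ht1.le ht2.le
    have : S c t - S c y - (t - y) • g y = S y t - ((t - y : ℝ) : ℂ) * g y := by
      rw [e1]; simp
    rw [this, Real.norm_eq_abs, abs_of_pos (by linarith : 0 < t - y)]
    refine b1.trans ?_
    have h5 : C * (t - y) ≤ η := by
      have h6 : (t - y) ≤ η / (C + 1) := by linarith
      calc C * (t - y) ≤ (C + 1) * (t - y) := by nlinarith
        _ ≤ (C + 1) * (η / (C + 1)) := mul_le_mul_of_nonneg_left h6 (by linarith)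
        _ = η := by field_simp
    nlinarith
  have := intervalIntegral.integral_eq_sub_of_hasDeriv_right_of_le hce hSc hderiv hint
  rw [this]
  have hcc : S c c = 0 := by
    have := hbl1 c c le_rfl le_rfl hce
    simpa using this
  rw [hcc, sub_zero]

end Crest.Agent.R158.Wl290
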