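import Mathlib
import Crest.Agent.R158.Wl2_290

/-!
R158 (helper290), part 3: the weak limit is holomorphic; closed convex constraints pass to it.
-/

set_option autoImplicit false
open Complex MeasureTheory Metric Set Topology Filter
open scoped Interval

namespace Crest.Agent.R158.Wl290

open Crest.Agent.R158.Pv470

variable {ι : Type*} {U : Ultrafilter ι} {d : ι → ℝ} {H : ι → ℤ → ℤ → ℂ}

/-- `S = ∫ A dy` -/
theorem Sl_eq_integral (hd : ∀ n, 0 < d n) (hd0 : Tendsto d U (𝓝 0)) (hH : ∀ n i j, ‖H n i j‖ ≤ 1)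
    {s : ℂ} (hs : ‖s‖ = 1) {a b c e : ℝ} (hCS : CSr (U : Filter ι) s d H a b c e)
    {x1 x2 y1 y2 : ℝ} (hx1 : a < x1) (hx : x1 ≤ x2) (hx2 : x2 ≤ b) (hy1 : c < y1)
    (hy2 : y2 ≤ e) (hy : y1 ≤ y2) :
    Sl U d H x1 x2 y1 y2 = ∫ y in y1..y2, Al U d H x1 x2 y := by
  refine integral_of_block (S := fun p q => Sl U d H x1 x2 p q) (C := 4) ?_ ?_ ?_ hy
  · intro p q r _ h2 h3 _
    exact Sl_add hd hd0 hH hx h2 h3
  · intro p q h1 h2 h3
    have := Sl_block hd hd0 hH hs hCS hx1 hx hx2 (hy1.trans_le h1) (h3.trans hy2) le_rfl h2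
    refine this.trans ?_
    nlinarith [sq_nonneg (q - p)]
  · intro p q h1 h2 h3
    exact Al_lip hd hd0 hH hs hCS hx1 hx hx2 (hy1.trans_le h1) (h3.trans hy2) h2

theorem swapH (hH : ∀ n i j, ‖H n i j‖ ≤ 1) : ∀ n i j, ‖(fun n i j => H n j i) n i j‖ ≤ 1 :=
  fun n i j => hH n j i

theorem norm_inv_one {s : ℂ} (hs : ‖s‖ = 1) : ‖s⁻¹‖ = 1 := by rw [norm_inv, hs]; simp

/-- the contour relation in the limit -/
theorem Al_contour (hd : ∀ n, 0 < d n) (hd0 : Tendsto d U (𝓝 0)) (hH : ∀ n i j, ‖H n i j‖ ≤ 1)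
    {s : ℂ} {a b c e : ℝ} (hCS : CSr (U : Filter ι) s d H a b c e)
    {x1 x2 y1 y2 : ℝ} (hx1 : a < x1) (hx : x1 ≤ x2) (hx2 : x2 ≤ b) (hy1 : c < y1)
    (hy2 : y2 ≤ e) (hy : y1 ≤ y2) :
    Al U d H x1 x2 y2 - Al U d H x1 x2 y1 =
      s * (Al U d (fun n i j => H n j i) y1 y2 x2 - Al U d (fun n i j => H n j i) y1 y2 x1) := by
  have t1 := (Al_tendsto hd hd0 hH hx y2).sub (Al_tendsto hd hd0 hH hx y1)
  have t2 := ((Al_tendsto hd hd0 (swapH hH) hy x2).sub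
    (Al_tendsto hd hd0 (swapH hH) hy x1)).const_mul s
  have t3 := t1.sub t2
  have t4 : Tendsto (fun n => An (d n) (H n) x1 x2 y2 - An (d n) (H n) x1 x2 y1 -
      s * (An (d n) (fun i j => H n j i) y1 y2 x2 - An (d n) (fun i j => H n j i) y1 y2 x1)) U
      (𝓝 0) := by
    rw [tendsto_zero_iff_norm_tendsto_zero]
    rw [Metric.tendsto_nhds]
    intro ε hε
    have s1 : ∀ᶠ n in (U : Filter ι), d n < x1 - a := hd0.eventually (gt_mem_nhds (by linarith))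
    have s2 : ∀ᶠ n in (U : Filter ι), d n < y1 - c := hd0.eventually (gt_mem_nhds (by linarith))
    filter_upwards [s1, s2, hCS (ε / 2) (half_pos hε)] with n n1 n2 n3
    have h5 := n3 (fl (d n) x1) (fl (d n) x2) (fl (d n) y1) (fl (d n) y2) (fl_mono (hd n) hx)
      (fl_mono (hd n) hy) (by have := lt_fl (x := x1) (hd n); linarith)
      ((fl_le (hd n)).trans hx2) (by have := lt_fl (x := y1) (hd n); linarith)
      ((fl_le (hd n)).trans hy2)
    have e1 : An (d n) (H n) x1 x2 y2 - An (d n) (H n) x1 x2 y1 -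
      s * (An (d n) (fun i j => H n j i) y1 y2 x2 - An (d n) (fun i j => H n j i) y1 y2 x1) =
      (d n : ℂ) * csum s (H n) (fl (d n) x1) (fl (d n) x2) (fl (d n) y1) (fl (d n) y2) := by
      unfold An row csum
      rw [Finset.sum_sub_distrib, Finset.sum_sub_distrib]
      ring
    rw [e1, norm_mul, Complex.norm_real, Real.norm_eq_abs, abs_of_pos (hd n), dist_zero_right,
      Real.norm_eq_abs, abs_of_nonneg (mul_nonneg (hd n).le (norm_nonneg _))]
    linarith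
  have := tendsto_nhds_unique t3 t4
  linear_combination this

/-- local primitive -/
noncomputable def Fp (U : Ultrafilter ι) (d : ι → ℝ) (H : ι → ℤ → ℤ → ℂ) (x0 y0 : ℝ) (z : ℂ) : ℂ :=
  Al U d H x0 z.re z.im + I * Al U d (fun n i j => H n j i) y0 z.im x0

theorem Fp_re (hd : ∀ n, 0 < d n) (hd0 : Tendsto d U (𝓝 0)) (hH : ∀ n i j, ‖H n i j‖ ≤ 1)
    {x0 x1 x2 y0 y : ℝ} (h1 : x0 ≤ x1) (h2 : x1 ≤ x2) :
    Fp U d H x0 y0 (x2 + y * I) - Fp U d H x0 y0 (x1 + y * I) = Al U d H x1 x2 y := by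
  unfold Fp
  simp only [add_re, ofReal_re, mul_re, I_re, mul_zero, ofReal_im, I_im, mul_one, sub_self,
    add_zero, add_im, mul_im, zero_add]
  rw [← Al_add hd hd0 hH h1 h2 y]
  ring

theorem Fp_im (hd : ∀ n, 0 < d n) (hd0 : Tendsto d U (𝓝 0)) (hH : ∀ n i j, ‖H n i j‖ ≤ 1)
    {a b c e : ℝ} (hCS : CSr (U : Filter ι) I d H a b c e)
    {x0 x y0 y1 y2 : ℝ} (h0 : a < x0) (h1 : x0 ≤ x) (hxb : x ≤ b) (hy0 : c < y0) (h2 : y0 ≤ y1)
    (h3 : y1 ≤ y2) (h4 : y2 ≤ e) :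
    Fp U d H x0 y0 (x + y2 * I) - Fp U d H x0 y0 (x + y1 * I) =
      I * Al U d (fun n i j => H n j i) y1 y2 x := by
  unfold Fp
  simp only [add_re, ofReal_re, mul_re, I_re, mul_zero, ofReal_im, I_im, mul_one, sub_self,
    add_zero, add_im, mul_im, zero_add]
  have e1 := Al_contour hd hd0 hH hCS h0 h1 hxb (hy0.trans_le h2) h4 h3
  have e2 := Al_add hd hd0 (swapH hH) h2 h3 x0
  linear_combination e1 - I * e2

theorem Fp_cont (hd : ∀ n, 0 < d n) (hd0 : Tendsto d U (𝓝 0)) (hH : ∀ n i j, ‖H n i j‖ ≤ 1)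
    {a b c e : ℝ} (hCS : CSr (U : Filter ι) I d H a b c e)
    {x0 y0 : ℝ} (h0 : a < x0) (hy0 : c < y0) :
    ContinuousOn (Fp U d H x0 y0) (Rc x0 b y0 e) := by
  have key : ∀ z ∈ Rc x0 b y0 e, ∀ w ∈ Rc x0 b y0 e,
      ‖Fp U d H x0 y0 z - Fp U d H x0 y0 w‖ ≤ |z.re - w.re| + |z.im - w.im| := by
    intro z hz w hw
    rw [mem_Rc] at hz hw
    have ez : z = (z.re : ℂ) + (z.im : ℂ) * I := (re_add_im z).symm
    have ew : w = (w.re : ℂ) + (w.im : ℂ) * I := (re_add_im w).symm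
    have p1 : ‖Fp U d H x0 y0 (z.re + z.im * I) - Fp U d H x0 y0 (w.re + z.im * I)‖ ≤
        |z.re - w.re| := by
      rcases le_total z.re w.re with h | h
      · rw [norm_sub_rev, Fp_re hd hd0 hH hz.1.1 h, abs_sub_comm, abs_of_nonneg (by linarith)]
        exact Al_norm hd hd0 hH h _
      · rw [Fp_re hd hd0 hH hw.1.1 h, abs_of_nonneg (by linarith)]
        exact Al_norm hd hd0 hH h _
    have p2 : ‖Fp U d H x0 y0 (w.re + z.im * I) - Fp U d H x0 y0 (w.re + w.im * I)‖ ≤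
        |z.im - w.im| := by
      rcases le_total z.im w.im with h | h
      · rw [norm_sub_rev, Fp_im hd hd0 hH hCS h0 hw.1.1 hw.1.2 hy0 hz.2.1 h hw.2.2, abs_sub_comm,
          abs_of_nonneg (by linarith), norm_mul, norm_I, one_mul]
        exact Al_norm hd hd0 (swapH hH) h _
      · rw [Fp_im hd hd0 hH hCS h0 hw.1.1 hw.1.2 hy0 hw.2.1 h hz.2.2,
          abs_of_nonneg (by linarith), norm_mul, norm_I, one_mul]
        exact Al_norm hd hd0 (swapH hH) h _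
    rw [ez, ew]
    simp only [add_re, ofReal_re, mul_re, I_re, mul_zero, ofReal_im, I_im, mul_one, sub_self,
      add_zero, add_im, mul_im, zero_add]
    calc _ = ‖(Fp U d H x0 y0 (z.re + z.im * I) - Fp U d H x0 y0 (w.re + z.im * I)) +
          (Fp U d H x0 y0 (w.re + z.im * I) - Fp U d H x0 y0 (w.re + w.im * I))‖ := by
          congr 1; ring
      _ ≤ _ := (norm_add_le _ _).trans (add_le_add p1 p2)
  have : LipschitzOnWith 2 (Fp U d H x0 y0) (Rc x0 b y0 e) := by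
    refine LipschitzOnWith.of_dist_le_mul fun z hz w hw => ?_
    rw [dist_eq_norm, dist_eq_norm]
    refine (key z hz w hw).trans ?_
    have h1 : |z.re - w.re| ≤ ‖z - w‖ := by
      rw [← sub_re]; exact abs_re_le_norm _
    have h2 : |z.im - w.im| ≤ ‖z - w‖ := by
      rw [← sub_im]; exact abs_im_le_norm _
    push_cast
    linarith
  exact this.continuousOn

/-- Morera for the primitive -/
theorem Fp_holo (hd : ∀ n, 0 < d n) (hd0 : Tendsto d U (𝓝 0)) (hH : ∀ n i j, ‖H n i j‖ ≤ 1)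
    {a b c e : ℝ} (hCS : CSr (U : Filter ι) I d H a b c e)
    {x0 y0 : ℝ} (h0 : a < x0) (hy0 : c < y0) :
    DifferentiableOn ℂ (Fp U d H x0 y0) (Ioo x0 b ×ℂ Ioo y0 e) := by
  have hsub : Ioo x0 b ×ℂ Ioo y0 e ⊆ Rc x0 b y0 e := by
    intro z hz
    rw [mem_reProdIm] at hz
    rw [mem_Rc]
    exact ⟨⟨hz.1.1.le, hz.1.2.le⟩, hz.2.1.le, hz.2.2.le⟩
  refine morera (isOpen_Ioo.reProdIm isOpen_Ioo) ((Fp_cont hd hd0 hH hCS h0 hy0).mono hsub) ?_
  intro a' b' c' e' hab hce hR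
  have m1 : ((a' : ℂ) + c' * I) ∈ Ioo x0 b ×ℂ Ioo y0 e :=
    hR (by rw [mem_Rc]; simp [hab, hce])
  have m2 : ((b' : ℂ) + e' * I) ∈ Ioo x0 b ×ℂ Ioo y0 e :=
    hR (by rw [mem_Rc]; simp [hab, hce])
  rw [mem_reProdIm] at m1 m2
  simp only [add_re, ofReal_re, mul_re, I_re, mul_zero, ofReal_im, I_im, mul_one, sub_self,
      add_zero, add_im, mul_im, zero_add] at m1 m2
  obtain ⟨⟨q1, q2⟩, q3, q4⟩ := m1
  obtain ⟨⟨q5, q6⟩, q7, q8⟩ := m2
  have hFc := Fp_cont hd hd0 hH hCS h0 hy0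
  have hRs : Rc a' b' c' e' ⊆ Rc x0 b y0 e := hR.trans hsub
  have hFr := hFc.mono hRs
  have I1 : IntervalIntegrable (fun x : ℝ => Fp U d H x0 y0 (x + c' * I)) volume a' b' := by
    refine ContinuousOn.intervalIntegrable ?_
    rw [uIcc_of_le hab]
    exact cont_hor hFr ⟨le_rfl, hce⟩
  have I2 : IntervalIntegrable (fun x : ℝ => Fp U d H x0 y0 (x + e' * I)) volume a' b' := by
    refine ContinuousOn.intervalIntegrable ?_
    rw [uIcc_of_le hab]
    exact cont_hor hFr ⟨hce, le_rfl⟩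
  have I3 : IntervalIntegrable (fun y : ℝ => Fp U d H x0 y0 (b' + y * I)) volume c' e' := by
    refine ContinuousOn.intervalIntegrable ?_
    rw [uIcc_of_le hce]
    exact cont_ver hFr ⟨hab, le_rfl⟩
  have I4 : IntervalIntegrable (fun y : ℝ => Fp U d H x0 y0 (a' + y * I)) volume c' e' := by
    refine ContinuousOn.intervalIntegrable ?_
    rw [uIcc_of_le hce]
    exact cont_ver hFr ⟨le_rfl, hab⟩
  have J1 : (∫ x : ℝ in a'..b', Fp U d H x0 y0 (x + c' * I)) -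
      (∫ x : ℝ in a'..b', Fp U d H x0 y0 (x + e' * I)) =
      - (I * Sl U d H a' b' c' e') := by
    rw [← intervalIntegral.integral_sub I1 I2]
    have : ∀ x ∈ uIcc a' b', Fp U d H x0 y0 (x + c' * I) - Fp U d H x0 y0 (x + e' * I) =
        - (I * Al U d (fun n i j => H n j i) c' e' x) := by
      intro x hx
      rw [uIcc_of_le hab] at hx
      have := Fp_im hd hd0 hH hCS h0 (q1.le.trans hx.1) (hx.2.trans q6.le) hy0 q3.le hce q8.le
      rw [← this]; ring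
    rw [intervalIntegral.integral_congr this, intervalIntegral.integral_neg,
      intervalIntegral.integral_const_mul]
    have hsw := Sl_eq_integral hd hd0 (swapH hH) (norm_inv_one norm_I)
      (CSr.swap norm_I hCS) (x1 := c') (x2 := e') (y1 := a') (y2 := b')
      (hy0.trans q3) hce q8.le (h0.trans q1) q6.le hab
    rw [← hsw]
    rw [Sl_swap (U := U) (d := d) (H := H) a' b' c' e']
  have J2 : (∫ y : ℝ in c'..e', Fp U d H x0 y0 (b' + y * I)) -
      (∫ y : ℝ in c'..e', Fp U d H x0 y0 (a' + y * I)) = Sl U d H a' b' c' e' := by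
    rw [← intervalIntegral.integral_sub I3 I4]
    have : ∀ y ∈ uIcc c' e', Fp U d H x0 y0 (b' + y * I) - Fp U d H x0 y0 (a' + y * I) =
        Al U d H a' b' y := by
      intro y hy
      exact Fp_re hd hd0 hH q1.le hab
    rw [intervalIntegral.integral_congr this]
    exact (Sl_eq_integral hd hd0 hH norm_I hCS (h0.trans q1) hab q6.le (hy0.trans q3) q8.le hce).symm
  unfold per
  have : I • (∫ y : ℝ in c'..e', Fp U d H x0 y0 (b' + y * I)) -
      I • (∫ y : ℝ in c'..e', Fp U d H x0 y0 (a' + y * I)) = I * Sl U d H a' b' c' e' := by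
    rw [← J2, smul_eq_mul, smul_eq_mul]; ring
  calc _ = ((∫ x : ℝ in a'..b', Fp U d H x0 y0 (x + c' * I)) -
      (∫ x : ℝ in a'..b', Fp U d H x0 y0 (x + e' * I))) +
      (I • (∫ y : ℝ in c'..e', Fp U d H x0 y0 (b' + y * I)) -
      I • (∫ y : ℝ in c'..e', Fp U d H x0 y0 (a' + y * I))) := by ring
    _ = 0 := by rw [J1, this]; ring

/-- the weak limit at a point -/
noncomputable def wlim (U : Ultrafilter ι) (d : ι → ℝ) (H : ι → ℤ → ℤ → ℂ) (z : ℂ) : ℂ :=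
  limUnder (𝓝[>] (0:ℝ)) fun r => ((r:ℂ))⁻¹ * Al U d H z.re (z.re + r) z.im

theorem wlim_tendsto (hd : ∀ n, 0 < d n) (hd0 : Tendsto d U (𝓝 0)) (hH : ∀ n i j, ‖H n i j‖ ≤ 1)
    {a b c e : ℝ} (hCS : CSr (U : Filter ι) I d H a b c e)
    {x0 y0 : ℝ} (h0 : a < x0) (hy0 : c < y0) {z : ℂ} (hz : z ∈ Ioo x0 b ×ℂ Ioo y0 e) :
    Tendsto (fun r : ℝ => ((r:ℂ))⁻¹ * Al U d H z.re (z.re + r) z.im) (𝓝[>] (0:ℝ))
      (𝓝 (deriv (Fp U d H x0 y0) z)) := by
  have hopen : IsOpen (Ioo x0 b ×ℂ Ioo y0 e) := isOpen_Ioo.reProdIm isOpen_Ioo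
  have hD := (Fp_holo hd hd0 hH hCS h0 hy0).differentiableAt (hopen.mem_nhds hz)
  have hder := hD.hasDerivAt
  have h1 : HasDerivAt (fun r : ℝ => Fp U d H x0 y0 (z + (r:ℂ))) (deriv (Fp U d H x0 y0) z) 0 := by
    have h2 : HasDerivAt (fun r : ℝ => z + (r:ℂ)) 1 0 := by
      simpa using (ofRealCLM.hasDerivAt (x := (0:ℝ))).const_add z
    have h3 : HasDerivAt (Fp U d H x0 y0) (deriv (Fp U d H x0 y0) z) (z + ((0:ℝ):ℂ)) := by
      simpa using hder
    have h5 := h3.comp_of_eq (0:ℝ) h2 rfl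
    rw [mul_one] at h5
    exact h5
  have h4 := h1.hasDerivWithinAt (s := Ioi (0:ℝ))
  rw [hasDerivWithinAt_iff_tendsto_slope' (by simp)] at h4
  refine h4.congr' ?_
  filter_upwards [self_mem_nhdsWithin] with r hr
  rw [slope_def_module]
  rw [mem_reProdIm] at hz
  have hr' : (0:ℝ) < r := hr
  have e1 := Fp_re (U := U) (d := d) (H := H) hd hd0 hH (x0 := x0) (x1 := z.re) (x2 := z.re + r)
    (y0 := y0) (y := z.im) hz.1.1.le (by linarith)
  have e2 : ((z.re + r : ℝ) : ℂ) + (z.im : ℂ) * I = z + (r:ℂ) := by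
    push_cast
    rw [add_right_comm, re_add_im]
  have e3 : (z.re : ℂ) + (z.im : ℂ) * I = z := re_add_im z
  rw [e2, e3] at e1
  simp only [sub_zero, ofReal_zero, add_zero]
  rw [e1]
  simp

theorem wlim_eq (hd : ∀ n, 0 < d n) (hd0 : Tendsto d U (𝓝 0)) (hH : ∀ n i j, ‖H n i j‖ ≤ 1)
    {a b c e : ℝ} (hCS : CSr (U : Filter ι) I d H a b c e)
    {x0 y0 : ℝ} (h0 : a < x0) (hy0 : c < y0) {z : ℂ} (hz : z ∈ Ioo x0 b ×ℂ Ioo y0 e) :
    wlim U d H z = deriv (Fp U d H x0 y0) z :=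
  (wlim_tendsto hd hd0 hH hCS h0 hy0 hz).limUnder_eq

/-- every point of an open set is the centre of a closed square in it -/
theorem exists_square {V : Set ℂ} (hV : IsOpen V) {z : ℂ} (hz : z ∈ V) :
    ∃ r > 0, Rc (z.re - r) (z.re + r) (z.im - r) (z.im + r) ⊆ V := by
  obtain ⟨δ, hδ, hb⟩ := Metric.isOpen_iff.mp hV z hz
  refine ⟨δ / 4, by positivity, fun w hw => hb ?_⟩
  rw [mem_Rc] at hw
  rw [mem_ball, dist_eq_norm]
  have h1 := norm_le_abs_re_add_abs_im (w - z)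
  have h2 : |(w - z).re| ≤ δ / 4 := by
    rw [sub_re, abs_le]; constructor <;> linarith [hw.1.1, hw.1.2]
  have h3 : |(w - z).im| ≤ δ / 4 := by
    rw [sub_im, abs_le]; constructor <;> linarith [hw.2.1, hw.2.2]
  linarith

/-- **Weak limits are holomorphic.** -/
theorem wlim_holo (hd : ∀ n, 0 < d n) (hd0 : Tendsto d U (𝓝 0)) (hH : ∀ n i j, ‖H n i j‖ ≤ 1)
    {V : Set ℂ} (hV : IsOpen V)
    (hCS : ∀ a b c e : ℝ, a ≤ b → c ≤ e → Rc a b c e ⊆ V → CSr (U : Filter ι) I d H a b c e) :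
    DifferentiableOn ℂ (wlim U d H) V := by
  intro z hz
  obtain ⟨r, hr, hR⟩ := exists_square hV hz
  have hCS' := hCS _ _ _ _ (by linarith) (by linarith) hR
  have h0 : z.re - r < z.re - r / 2 := by linarith
  have h1 : z.im - r < z.im - r / 2 := by linarith
  have hopen : IsOpen (Ioo (z.re - r / 2) (z.re + r) ×ℂ Ioo (z.im - r / 2) (z.im + r)) :=
    isOpen_Ioo.reProdIm isOpen_Ioo
  have hzm : z ∈ Ioo (z.re - r / 2) (z.re + r) ×ℂ Ioo (z.im - r / 2) (z.im + r) := by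
    rw [mem_reProdIm]
    exact ⟨⟨by linarith, by linarith⟩, by linarith, by linarith⟩
  have hF := Fp_holo hd hd0 hH hCS' h0 h1
  have hdF : DifferentiableOn ℂ (deriv (Fp U d H (z.re - r / 2) (z.im - r / 2)))
      (Ioo (z.re - r / 2) (z.re + r) ×ℂ Ioo (z.im - r / 2) (z.im + r)) := hF.deriv hopen
  have h2 : DifferentiableAt ℂ (deriv (Fp U d H (z.re - r / 2) (z.im - r / 2))) z :=
    hdF.differentiableAt (hopen.mem_nhds hzm)
  have h3 : wlim U d H =ᶠ[𝓝 z] deriv (Fp U d H (z.re - r / 2) (z.im - r / 2)) := by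
    filter_upwards [hopen.mem_nhds hzm] with w hw
    exact wlim_eq hd hd0 hH hCS' h0 h1 hw
  exact (h3.differentiableAt_iff.mpr h2).differentiableWithinAt

/-- convex averages -/
theorem avg_mem {K : Set ℂ} (hK : Convex ℝ K) {f : ℤ → ℂ} {i1 i2 : ℤ} (h : i1 < i2)
    (hf : ∀ i ∈ Finset.Ico i1 i2, f i ∈ K) :
    (((i2 - i1 : ℝ) : ℂ))⁻¹ * ∑ i ∈ Finset.Ico i1 i2, f i ∈ K := by
  have hcard : ((Finset.Ico i1 i2).card : ℝ) = (i2 : ℝ) - i1 := by
    rw [Int.card_Ico]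
    have : ((i2 - i1).toNat : ℤ) = i2 - i1 := Int.toNat_of_nonneg (by omega)
    have h2 : (((i2 - i1).toNat : ℤ) : ℝ) = ((i2 - i1 : ℤ) : ℝ) := by rw [this]
    push_cast at h2
    exact_mod_cast h2
  have hpos : (0:ℝ) < (i2:ℝ) - i1 := by
    have : (i1:ℝ) < i2 := by exact_mod_cast h
    linarith
  have hw : ∑ _i ∈ Finset.Ico i1 i2, ((i2:ℝ) - i1)⁻¹ = 1 := by
    rw [Finset.sum_const, nsmul_eq_mul, hcard]
    field_simp
  have := hK.sum_mem (t := Finset.Ico i1 i2) (w := fun _ => ((i2:ℝ) - i1)⁻¹) (z := f)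
    (fun i _ => by positivity) hw hf
  have e : (((i2 - i1 : ℝ) : ℂ))⁻¹ * ∑ i ∈ Finset.Ico i1 i2, f i =
      ∑ i ∈ Finset.Ico i1 i2, ((i2:ℝ) - i1)⁻¹ • f i := by
    rw [Finset.mul_sum]
    refine Finset.sum_congr rfl fun i _ => ?_
    rw [Complex.real_smul]
    push_cast
    ring
  rw [e]
  exact this

/-- **Closed convex constraints pass to the weak limit.** -/
theorem wlim_mem (hd : ∀ n, 0 < d n) (hd0 : Tendsto d U (𝓝 0)) (hH : ∀ n i j, ‖H n i j‖ ≤ 1)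
    {V : Set ℂ} (hV : IsOpen V)
    (hCS : ∀ a b c e : ℝ, a ≤ b → c ≤ e → Rc a b c e ⊆ V → CSr (U : Filter ι) I d H a b c e)
    {W K : Set ℂ} (hW : IsOpen W) (hWV : W ⊆ V) (hK : Convex ℝ K) (hKc : IsClosed K)
    (hHK : ∀ᶠ n in (U : Filter ι), ∀ i j : ℤ, ((d n * i : ℝ) : ℂ) + ((d n * j : ℝ) : ℂ) * I ∈ W →
      H n i j ∈ K) {z : ℂ} (hz : z ∈ W) : wlim U d H z ∈ K := by
  obtain ⟨r, hr, hR⟩ := exists_square hW hz
  have hCS' := hCS _ _ _ _ (by linarith) (by linarith) (hR.trans hWV)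
  have h0 : z.re - r < z.re - r / 2 := by linarith
  have h1 : z.im - r < z.im - r / 2 := by linarith
  have hzm : z ∈ Ioo (z.re - r / 2) (z.re + r) ×ℂ Ioo (z.im - r / 2) (z.im + r) := by
    rw [mem_reProdIm]
    exact ⟨⟨by linarith, by linarith⟩, by linarith, by linarith⟩
  have t := wlim_tendsto hd hd0 hH hCS' h0 h1 hzm
  rw [← wlim_eq hd hd0 hH hCS' h0 h1 hzm] at t
  refine hKc.mem_of_tendsto t ?_
  have hmem : Ioo (0:ℝ) (r / 2) ∈ 𝓝[>] (0:ℝ) := Ioo_mem_nhdsGT (by linarith)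
  filter_upwards [hmem] with ρ hρ
  -- limit of averages
  have hA := Al_tendsto hd hd0 hH (x1 := z.re) (x2 := z.re + ρ) (by linarith [hρ.1]) z.im
  have hA2 := hA.const_mul ((ρ:ℂ))⁻¹
  -- compare with exact averages
  have hlen : Tendsto (fun n => (d n : ℝ) * ((fl (d n) (z.re + ρ) : ℝ) - fl (d n) z.re)) U (𝓝 ρ) := by
    have l1 : Tendsto (fun n => ρ - d n) U (𝓝 ρ) := by simpa using hd0.const_sub ρ
    have l2 : Tendsto (fun n => ρ + d n) U (𝓝 ρ) := by simpa using hd0.const_add ρ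
    refine tendsto_of_tendsto_of_tendsto_of_le_of_le l1 l2 (fun n => ?_) (fun n => ?_)
    · have := le_fl_sub (x := z.re) (y := z.re + ρ) (hd n)
      simp only [add_sub_cancel_left] at this
      exact this
    · have := fl_sub_le (x := z.re) (y := z.re + ρ) (hd n)
      simp only [add_sub_cancel_left] at this
      exact this
  have hρ0 : (ρ:ℂ) ≠ 0 := by
    have : ρ ≠ 0 := hρ.1.ne'
    exact_mod_cast this
  have hlenC : Tendsto (fun n => ((d n : ℝ) : ℂ) * (((fl (d n) (z.re + ρ) : ℝ) - fl (d n) z.re : ℝ) : ℂ))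
      U (𝓝 (ρ:ℂ)) := by
    have := (Complex.continuous_ofReal.tendsto ρ).comp hlen
    refine this.congr fun n => ?_
    simp
  have hquot : Tendsto (fun n => (((d n : ℝ) : ℂ) *
      (((fl (d n) (z.re + ρ) : ℝ) - fl (d n) z.re : ℝ) : ℂ))⁻¹ * An (d n) (H n) z.re (z.re + ρ) z.im)
      U (𝓝 ((ρ:ℂ)⁻¹ * Al U d H z.re (z.re + ρ) z.im)) := (hlenC.inv₀ hρ0).mul hA
  refine hKc.mem_of_tendsto hquot ?_
  have s1 : ∀ᶠ n in (U : Filter ι), d n < r / 2 := hd0.eventually (gt_mem_nhds (by linarith))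
  have s2 : ∀ᶠ n in (U : Filter ι), d n < ρ := hd0.eventually (gt_mem_nhds hρ.1)
  filter_upwards [s1, s2, hHK] with n n1 n2 n3
  have hdn := hd n
  have hlt : fl (d n) z.re < fl (d n) (z.re + ρ) := by
    have := le_fl_sub (x := z.re) (y := z.re + ρ) hdn
    simp only [add_sub_cancel_left] at this
    have h5 : 0 < d n * ((fl (d n) (z.re + ρ) : ℝ) - fl (d n) z.re) := by linarith
    have h6 : (0:ℝ) < (fl (d n) (z.re + ρ) : ℝ) - fl (d n) z.re :=
      (mul_pos_iff_of_pos_left hdn).mp h5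
    have : (fl (d n) z.re : ℝ) < fl (d n) (z.re + ρ) := by linarith
    exact_mod_cast this
  have hav := avg_mem hK hlt (f := fun i => H n i (fl (d n) z.im)) ?_
  · have hd0' : ((d n : ℝ) : ℂ) ≠ 0 := by exact_mod_cast hdn.ne'
    have e : (((d n : ℝ) : ℂ) * (((fl (d n) (z.re + ρ) : ℝ) - fl (d n) z.re : ℝ) : ℂ))⁻¹ *
        An (d n) (H n) z.re (z.re + ρ) z.im =
        ((((fl (d n) (z.re + ρ) : ℝ) - fl (d n) z.re : ℝ) : ℂ))⁻¹ *
          ∑ i ∈ Finset.Ico (fl (d n) z.re) (fl (d n) (z.re + ρ)), H n i (fl (d n) z.im) := by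
      unfold An row
      rw [mul_inv]
      field_simp
    rw [e]
    exact hav
  · intro i hi
    rw [Finset.mem_Ico] at hi
    refine n3 i _ (hR ?_)
    rw [mem_Rc]
    simp only [add_re, ofReal_re, mul_re, I_re, mul_zero, ofReal_im, I_im, mul_one, sub_self,
      add_zero, add_im, mul_im, zero_add]
    have g1 := lt_fl (x := z.re) hdn
    have g2 := fl_le (x := z.re + ρ) hdn
    have g3 := lt_fl (x := z.im) hdn
    have g4 := fl_le (x := z.im) hdn
    have g5 : d n * (fl (d n) z.re : ℝ) ≤ d n * (i:ℝ) :=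
      mul_le_mul_of_nonneg_left (by exact_mod_cast hi.1) hdn.le
    have g6 : d n * (i:ℝ) ≤ d n * (fl (d n) (z.re + ρ) : ℝ) :=
      mul_le_mul_of_nonneg_left (by exact_mod_cast hi.2.le) hdn.le
    have g7 := hρ.2
    refine ⟨⟨by linarith, by linarith⟩, by linarith, by linarith⟩

end Crest.Agent.R158.Wl290
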