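import Crest.Agent.R158.Wk1_290
import Crest.Agent.R158.Wl3_290

/-!
R158 (helper290): from lattice functions on one domain to an (anti)holomorphic function.
-/

set_option autoImplicit false
open Complex Metric Set Topology Filter

namespace Crest.Agent.R158.Wl290

open Crest.Agent.R158.Cd83 Crest.Agent.R158.Pv470

theorem cj_cj (an : Bool) (w : ℂ) : cj an (cj an w) = w := by
  cases an <;> simp [cj]

theorem norm_cj (an : Bool) (w : ℂ) : ‖cj an w‖ = ‖w‖ := by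
  cases an <;> simp [cj]

theorem cj_zero (an : Bool) : cj an 0 = 0 := by
  cases an <;> simp [cj]

theorem cj_add (an : Bool) (w z : ℂ) : cj an (w + z) = cj an w + cj an z := by
  cases an <;> simp [cj]

theorem cj_smul (an : Bool) (r : ℝ) (w : ℂ) : cj an (r * w) = r * cj an w := by
  cases an <;> simp [cj]

theorem cj_cont (an : Bool) : Continuous (cj an) := by
  cases an
  · exact continuous_id
  · exact continuous_conj

theorem cj_sub (an : Bool) (w z : ℂ) : cj an (w - z) = cj an w - cj an z := by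
  cases an <;> simp [cj]

/-- the sign: `I` for holomorphic, `-I` for antiholomorphic -/
noncomputable def sg (an : Bool) : ℂ := bif an then -I else I

theorem cj_sg (an : Bool) (w : ℂ) : cj an (sg an * w) = I * cj an w := by
  cases an <;> simp [cj, sg]

theorem cj_sum (an : Bool) {α : Type*} (s : Finset α) (f : α → ℂ) :
    cj an (∑ i ∈ s, f i) = ∑ i ∈ s, cj an (f i) := by
  cases an <;> simp [cj]

theorem csum_cj (an : Bool) (H : ℤ → ℤ → ℂ) (i1 i2 j1 j2 : ℤ) :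
    csum I (fun i j => ((1/5 : ℝ) : ℂ) * cj an (H i j)) i1 i2 j1 j2 =
      ((1/5 : ℝ) : ℂ) * cj an (csum (sg an) H i1 i2 j1 j2) := by
  unfold csum
  rw [cj_sub, cj_sg, cj_sum, cj_sum]
  simp only [cj_sub, ← mul_sub, ← Finset.mul_sum]
  ring

theorem csum_congr {s : ℂ} {H H' : ℤ → ℤ → ℂ} {i1 i2 j1 j2 : ℤ} (hi : i1 ≤ i2) (hj : j1 ≤ j2)
    (h : ∀ i j, i1 ≤ i → i ≤ i2 → j1 ≤ j → j ≤ j2 → H' i j = H i j) :
    csum s H' i1 i2 j1 j2 = csum s H i1 i2 j1 j2 := by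
  unfold csum
  congr 1
  · refine Finset.sum_congr rfl fun i hi' => ?_
    rw [Finset.mem_Ico] at hi'
    rw [h i j2 hi'.1 hi'.2.le hj le_rfl, h i j1 hi'.1 hi'.2.le le_rfl hj]
  · congr 1
    refine Finset.sum_congr rfl fun j hj' => ?_
    rw [Finset.mem_Ico] at hj'
    rw [h i2 j hi le_rfl hj'.1 hj'.2.le, h i1 j le_rfl hi hj'.1 hj'.2.le]

/-- position of a lattice point -/
noncomputable def pos (c a : ℂ) (d : ℝ) (i j : ℤ) : ℂ :=
  c + a * (((d * i : ℝ) : ℂ) + ((d * j : ℝ) : ℂ) * I)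

/-- **Lattice functions to an (anti)holomorphic function on one domain.** -/
theorem disc_lim {Ω : Set ℂ} (hΩ : IsOpen Ω) (U : Ultrafilter ℕ) {d : ℕ → ℝ}
    (hd : ∀ᶠ n in (U : Filter ℕ), 0 < d n) (hd0 : Tendsto d U (𝓝 0)) {c a : ℂ} (ha : a ≠ 0)
    {H : ℕ → ℤ → ℤ → ℂ}
    (hT : ∀ᶠ n in (U : Filter ℕ), ∀ i j : ℤ, pos c a (d n) i j ∈ Ω → ‖H n i j‖ ≤ 5) (an : Bool)
    (hCS : ∀ x1 x2 y1 y2 : ℝ, x1 ≤ x2 → y1 ≤ y2 →
      (∀ x ∈ Icc x1 x2, ∀ y ∈ Icc y1 y2, c + a * ((x : ℂ) + (y : ℂ) * I) ∈ Ω) →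
      CSr (U : Filter ℕ) (sg an) d H x1 x2 y1 y2) :
    ∃ h : ℂ → ℂ, HA an h Ω ∧ ∀ W K : Set ℂ, IsOpen W → W ⊆ Ω → Convex ℝ K → IsClosed K →
      (∀ᶠ n in (U : Filter ℕ), ∀ i j : ℤ, pos c a (d n) i j ∈ W → H n i j ∈ K) →
      ∀ z ∈ W, h z ∈ K := by
  classical
  set d' : ℕ → ℝ := fun n => if 0 < d n then d n else 1 with hd'
  have hd'pos : ∀ n, 0 < d' n := by
    intro n
    simp only [hd']
    split_ifs with h
    · exact h
    · exact one_pos
  have hdd : ∀ᶠ n in (U : Filter ℕ), d' n = d n := by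
    filter_upwards [hd] with n hn
    simp only [hd', if_pos hn]
  have hd'0 : Tendsto d' U (𝓝 0) := hd0.congr' (hdd.mono fun n hn => hn.symm)
  set H' : ℕ → ℤ → ℤ → ℂ := fun n i j =>
    if pos c a (d' n) i j ∈ Ω ∧ ‖H n i j‖ ≤ 5 then ((1/5 : ℝ) : ℂ) * cj an (H n i j) else 0 with hH'
  have hH'1 : ∀ n i j, ‖H' n i j‖ ≤ 1 := by
    intro n i j
    simp only [hH']
    split_ifs with h
    · rw [norm_mul, norm_cj, Complex.norm_real]
      have := h.2
      norm_num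
      linarith
    · simp
  set f : ℂ → ℂ := fun w => c + a * w with hf
  have hfc : Continuous f := by fun_prop
  set V : Set ℂ := f ⁻¹' Ω with hV
  have hVo : IsOpen V := hΩ.preimage hfc
  have hfpos : ∀ (e : ℝ) (i j : ℤ), f (((e * i : ℝ) : ℂ) + ((e * j : ℝ) : ℂ) * I) = pos c a e i j :=
    fun e i j => rfl
  have hCS' : ∀ x1 x2 y1 y2 : ℝ, x1 ≤ x2 → y1 ≤ y2 → Rc x1 x2 y1 y2 ⊆ V →
      CSr (U : Filter ℕ) I d' H' x1 x2 y1 y2 := by
    intro x1 x2 y1 y2 hx hy hR ε hε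
    have hin : ∀ x ∈ Icc x1 x2, ∀ y ∈ Icc y1 y2, c + a * ((x : ℂ) + (y : ℂ) * I) ∈ Ω := by
      intro x hx y hy
      refine hR (?_ : ((x : ℂ) + (y : ℂ) * I) ∈ Rc x1 x2 y1 y2)
      rw [mem_Rc]
      simp [hx.1, hx.2, hy.1, hy.2]
    filter_upwards [hCS x1 x2 y1 y2 hx hy hin ε hε, hdd, hT] with n h1 h2 h3 i1 i2 j1 j2 hi hj g1
      g2 g3 g4
    rw [h2] at g1 g2 g3 g4 ⊢
    have hdn : 0 < d n := by rw [← h2]; exact hd'pos n
    have key := h1 i1 i2 j1 j2 hi hj g1 g2 g3 g4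
    have e1 : csum I (H' n) i1 i2 j1 j2 =
        csum I (fun i j => ((1/5 : ℝ) : ℂ) * cj an (H n i j)) i1 i2 j1 j2 := by
      refine csum_congr hi hj fun i j k1 k2 k3 k4 => ?_
      have hmem : pos c a (d n) i j ∈ Ω := by
        have a1 : d n * (i1 : ℝ) ≤ d n * (i : ℝ) :=
          mul_le_mul_of_nonneg_left (by exact_mod_cast k1) hdn.le
        have a2 : d n * (i : ℝ) ≤ d n * (i2 : ℝ) :=
          mul_le_mul_of_nonneg_left (by exact_mod_cast k2) hdn.le
        have a3 : d n * (j1 : ℝ) ≤ d n * (j : ℝ) :=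
          mul_le_mul_of_nonneg_left (by exact_mod_cast k3) hdn.le
        have a4 : d n * (j : ℝ) ≤ d n * (j2 : ℝ) :=
          mul_le_mul_of_nonneg_left (by exact_mod_cast k4) hdn.le
        exact hin (d n * i) ⟨by linarith, by linarith⟩ (d n * j) ⟨by linarith, by linarith⟩
      simp only [hH', h2]
      rw [if_pos ⟨hmem, h3 i j hmem⟩]
    rw [e1, csum_cj, norm_mul, norm_cj, Complex.norm_real]
    have h5 : ‖(1/5 : ℝ)‖ = 1/5 := by norm_num
    rw [h5]
    have h6 : 0 ≤ d n * ‖csum (sg an) (H n) i1 i2 j1 j2‖ := by positivity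
    nlinarith
  set g : ℂ → ℂ := wlim U d' H' with hg
  have hgh : DifferentiableOn ℂ g V := wlim_holo hd'pos hd'0 hH'1 hVo hCS'
  refine ⟨fun z => ((5 : ℝ) : ℂ) * cj an (g ((z - c) / a)), ?_, ?_⟩
  · unfold HA
    have e : (fun z => cj an (((5 : ℝ) : ℂ) * cj an (g ((z - c) / a)))) =
        fun z => ((5 : ℝ) : ℂ) * g ((z - c) / a) := by
      funext z
      rw [cj_smul, cj_cj]
    rw [e]
    refine DifferentiableOn.const_mul ?_ _
    refine hgh.comp (by fun_prop) ?_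
    intro z hz
    simp only [hV, mem_preimage, hf]
    rw [mul_div_cancel₀ _ ha, add_sub_cancel]
    exact hz
  · intro W K hW hWΩ hK hKc hHK z hz
    set K' : Set ℂ := {w | ((5 : ℝ) : ℂ) * cj an w ∈ K} with hK'
    have hc5 : Continuous fun w : ℂ => ((5 : ℝ) : ℂ) * cj an w := continuous_const.mul (cj_cont an)
    have hK'c : IsClosed K' := hKc.preimage hc5
    have hK'v : Convex ℝ K' := by
      intro x hx y hy p q hp hq hpq
      simp only [hK', mem_ofPred_eq] at hx hy ⊢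
      have e : ((5 : ℝ) : ℂ) * cj an (p • x + q • y) =
          p • (((5 : ℝ) : ℂ) * cj an x) + q • (((5 : ℝ) : ℂ) * cj an y) := by
        simp only [real_smul]
        rw [cj_add, cj_smul, cj_smul]; ring
      rw [e]
      exact hK hx hy hp hq hpq
    have hW'o : IsOpen (f ⁻¹' W) := hW.preimage hfc
    have hW'V : f ⁻¹' W ⊆ V := preimage_mono hWΩ
    have hz' : (z - c) / a ∈ f ⁻¹' W := by
      simp only [mem_preimage, hf]
      rw [mul_div_cancel₀ _ ha, add_sub_cancel]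
      exact hz
    refine wlim_mem hd'pos hd'0 hH'1 hVo hCS' hW'o hW'V hK'v hK'c ?_ hz'
    filter_upwards [hHK, hdd, hT] with n h1 h2 h3 i j hij
    have hij' : pos c a (d n) i j ∈ W := by rw [← h2]; exact hij
    have h4 := h1 i j hij'
    have h5 := h3 i j (hWΩ hij')
    simp only [hK', mem_ofPred_eq, hH', h2]
    rw [if_pos ⟨hWΩ hij', h5⟩, cj_smul, cj_cj, ← mul_assoc]
    have : ((5 : ℝ) : ℂ) * ((1/5 : ℝ) : ℂ) = 1 := by norm_num
    rw [this, one_mul]
    exact h4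

end Crest.Agent.R158.Wl290
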