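import Crest.Agent.R158.Wk2_290
import Crest.Agent.R158.Un4_434
import Crest.Agent.R158.Cd10_83

/-!
R158 (helper290): section 5 of S0237 — from lattice functions on approximating domains to Cardy's
formula.

* `Geo γ` : a sequence of domains with labelled boundary converging to the Jordan domain;
* `Obs G p up` : lattice functions on them (contour sums vanish, values in the triangle, one-sided
  boundary values), one-sided comparison with `p n` near the arc before / after `γ (1/4)`;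
* `cardy_of_obs` : one family of each kind gives `p n → cardyRatio`.
-/

set_option autoImplicit false
open Complex Metric Set Topology Filter

namespace Crest.Agent.R158.Wl290

open Crest.Agent.R158.Cd83 Crest.Agent.R158.Un434
open Crest.ProbabilityR.Percolation
open Crest.Agent.R158.Sk656 (sd1 sd2 sd3 sd1_cont sd2_cont sd3_cont)

/-- approximating domains `Ω k` with exceptional boundary points `E k` and boundary arcs `A k j`,
label `j` near `γ '' [j/4, (j+1)/4]` -/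
structure Geo (γ : ℝ → ℂ) where
  /-- domains -/
  Ω : ℕ → Set ℂ
  /-- exceptional boundary points -/
  E : ℕ → Finset ℂ
  /-- boundary arcs -/
  A : ℕ → Fin 4 → Set ℂ
  opn : ∀ k, IsOpen (Ω k)
  bdd : ∀ k, Bornology.IsBounded (Ω k)
  con : ∀ k, IsPreconnected (Ω k)ᶜ
  cone : ∀ k, Cone (Ω k)
  Enot : ∀ k, ∀ e ∈ E k, e ∉ Ω k
  exh : ∀ K : Set ℂ, IsCompact K → K ⊆ jordanInterior γ → ∀ᶠ k in atTop, K ⊆ Ω k
  cover : ∀ k, ∀ ζ ∈ frontier (Ω k), ζ ∉ E k → ∃ j, ζ ∈ A k j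
  near : ∀ j : Fin 4, ∀ ε > 0, ∀ᶠ k in atTop, ∀ ζ ∈ A k j,
    ∃ t ∈ Icc (((j : ℕ) : ℝ) / 4) ((((j : ℕ) : ℝ) + 1) / 4), ‖ζ - γ t‖ < ε
  app : ∀ t ∈ Icc (0 : ℝ) 1, ∀ ε > 0, ∀ᶠ k in atTop, ∃ w, w ∉ Ω k ∧ ‖w - γ t‖ < ε

/-- one-sided boundary value of lattice functions at the boundary point `ζ` -/
def NearB (Ω : Set ℂ) (c a : ℂ) (d : ℕ → ℝ) (H : ℕ → ℤ → ℤ → ℂ) (ζ : ℂ) (u : ℕ → ℂ → ℝ) : Prop :=
  ∀ ε > 0, ∃ r > 0, ∀ᶠ n in atTop, ∀ i j : ℤ, pos c a (d n) i j ∈ Ω →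
    ‖pos c a (d n) i j - ζ‖ < r → u n (H n i j) ≤ ε

/-- lattice functions on the domains of `G`; `up = false`: `lam ≤ p` near the arc `0`,
`up = true`: `lam ≥ p` near the arc `1` -/
structure Obs {γ : ℝ → ℂ} (G : Geo γ) (p : ℕ → ℝ) (up : Bool) where
  /-- antiholomorphic -/
  an : Bool
  /-- translation -/
  c : ℕ → ℂ
  /-- scale and rotation -/
  a : ℕ → ℂ
  /-- mesh -/
  d : ℕ → ℕ → ℝ
  /-- lattice functions -/
  H : ℕ → ℕ → ℤ → ℤ → ℂ
  a0 : ∀ k, a k ≠ 0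
  dpos : ∀ k, ∀ᶠ n in atTop, 0 < d k n
  dlim : ∀ k, Tendsto (d k) atTop (𝓝 0)
  tri : ∀ k, ∀ᶠ n in atTop, ∀ i j : ℤ, pos (c k) (a k) (d k n) i j ∈ G.Ω k → H k n i j ∈ Tri
  cs : ∀ k, ∀ x1 x2 y1 y2 : ℝ, x1 ≤ x2 → y1 ≤ y2 →
    (∀ x ∈ Icc x1 x2, ∀ y ∈ Icc y1 y2, c k + a k * ((x : ℂ) + (y : ℂ) * I) ∈ G.Ω k) →
    CSr atTop (sg an) (d k) (H k) x1 x2 y1 y2
  b0 : ∀ k, ∀ ζ ∈ frontier (G.Ω k), ζ ∉ G.E k → ζ ∈ G.A k 0 →
    NearB (G.Ω k) (c k) (a k) (d k) (H k) ζ fun _ => sd1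
  b1 : ∀ k, ∀ ζ ∈ frontier (G.Ω k), ζ ∉ G.E k → ζ ∈ G.A k 1 →
    NearB (G.Ω k) (c k) (a k) (d k) (H k) ζ fun _ => sd1
  b2 : ∀ k, ∀ ζ ∈ frontier (G.Ω k), ζ ∉ G.E k → ζ ∈ G.A k 2 →
    NearB (G.Ω k) (c k) (a k) (d k) (H k) ζ fun _ => sd2
  b3 : ∀ k, ∀ ζ ∈ frontier (G.Ω k), ζ ∉ G.E k → ζ ∈ G.A k 3 →
    NearB (G.Ω k) (c k) (a k) (d k) (H k) ζ fun _ => sd3
  lo : up = false → ∀ k, ∀ ζ ∈ frontier (G.Ω k), ζ ∉ G.E k → ζ ∈ G.A k 0 →
    NearB (G.Ω k) (c k) (a k) (d k) (H k) ζ fun n w => lam w - p n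
  hi : up = true → ∀ k, ∀ ζ ∈ frontier (G.Ω k), ζ ∉ G.E k → ζ ∈ G.A k 1 →
    NearB (G.Ω k) (c k) (a k) (d k) (H k) ζ fun n w => p n - lam w

/-- distance of a point to a compact arc -/
theorem arc_pos {γ : ℝ → ℂ} (hγ : ContinuousOn γ (Icc 0 1)) {b : ℂ} (l : Fin 4)
    (hb : ∀ t ∈ Icc (((l : ℕ) : ℝ) / 4) ((((l : ℕ) : ℝ) + 1) / 4), γ t ≠ b) :
    ∃ R > 0, ∀ t ∈ Icc (((l : ℕ) : ℝ) / 4) ((((l : ℕ) : ℝ) + 1) / 4), 2 * R ≤ ‖γ t - b‖ := by
  have hl : ((l : ℕ) : ℝ) ≤ 3 := by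
    have : (l : ℕ) ≤ 3 := by omega
    exact_mod_cast this
  have hl0 : (0 : ℝ) ≤ ((l : ℕ) : ℝ) := Nat.cast_nonneg _
  have hsub : Icc (((l : ℕ) : ℝ) / 4) ((((l : ℕ) : ℝ) + 1) / 4) ⊆ Icc (0 : ℝ) 1 :=
    Icc_subset_Icc (by positivity) (by linarith)
  have hc : ContinuousOn (fun t => ‖γ t - b‖) (Icc (((l : ℕ) : ℝ) / 4) ((((l : ℕ) : ℝ) + 1) / 4)) :=
    ((hγ.mono hsub).sub continuousOn_const).norm
  obtain ⟨t0, ht0, hmin⟩ := isCompact_Icc.exists_isMinOn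
    ⟨((l : ℕ) : ℝ) / 4, ⟨le_rfl, by linarith⟩⟩ hc
  have hpos : 0 < ‖γ t0 - b‖ := norm_pos_iff.mpr (sub_ne_zero.mpr (hb t0 ht0))
  refine ⟨‖γ t0 - b‖ / 2, by linarith, fun t ht => ?_⟩
  have := hmin ht
  simp only [mem_ofPred_eq] at this
  linarith

/-- separation of the arcs -/
theorem sep {γ : ℝ → ℂ} (hγ : ContinuousOn γ (Icc 0 1)) (G : Geo γ) (J : Set (Fin 4)) {b : ℂ}
    (hb : ∀ l, l ∉ J → ∀ t ∈ Icc (((l : ℕ) : ℝ) / 4) ((((l : ℕ) : ℝ) + 1) / 4), γ t ≠ b) :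
    ∃ R > 0, ∀ᶠ k in atTop, ∀ ζ ∈ frontier (G.Ω k), ζ ∉ G.E k → ‖ζ - b‖ < R →
      ∃ j ∈ J, ζ ∈ G.A k j := by
  have h1 : ∀ l : Fin 4, ∃ R > 0, l ∉ J →
      ∀ t ∈ Icc (((l : ℕ) : ℝ) / 4) ((((l : ℕ) : ℝ) + 1) / 4), 2 * R ≤ ‖γ t - b‖ := by
    intro l
    by_cases hl : l ∈ J
    · exact ⟨1, one_pos, fun h => absurd hl h⟩
    · obtain ⟨R, hR, h⟩ := arc_pos hγ l (hb l hl)
      exact ⟨R, hR, fun _ => h⟩
  choose R hR hRl using h1
  have hne : (Finset.univ : Finset (Fin 4)).Nonempty := ⟨0, Finset.mem_univ _⟩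
  refine ⟨Finset.univ.inf' hne R, (Finset.lt_inf'_iff hne).mpr fun l _ => hR l, ?_⟩
  set R0 := Finset.univ.inf' hne R with hR0
  have hR0p : 0 < R0 := (Finset.lt_inf'_iff hne).mpr fun l _ => hR l
  have hle : ∀ l, R0 ≤ R l := fun l => Finset.inf'_le R (Finset.mem_univ l)
  have hnear : ∀ᶠ k in atTop, ∀ l : Fin 4, ∀ ζ ∈ G.A k l,
      ∃ t ∈ Icc (((l : ℕ) : ℝ) / 4) ((((l : ℕ) : ℝ) + 1) / 4), ‖ζ - γ t‖ < R0 :=
    Filter.eventually_all.mpr fun l => G.near l R0 hR0p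
  filter_upwards [hnear] with k hk ζ hζ hζE hζb
  obtain ⟨j, hj⟩ := G.cover k ζ hζ hζE
  refine ⟨j, ?_, hj⟩
  by_contra hjJ
  obtain ⟨t, ht, hζt⟩ := hk j ζ hj
  have h2 := hRl j hjJ t ht
  have h3 := hle j
  have h4 : ‖γ t - b‖ ≤ ‖ζ - γ t‖ + ‖ζ - b‖ := by
    have h5 := norm_add_le (γ t - ζ) (ζ - b)
    rw [norm_sub_rev (γ t) ζ] at h5
    simpa using h5
  linarith

/-- boundary values of the limit function of one domain -/
theorem bdry {Ω : Set ℂ} (hΩ : IsOpen Ω) {U : Ultrafilter ℕ} (hU : (U : Filter ℕ) ≤ atTop)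
    {c a : ℂ} {d : ℕ → ℝ} {H : ℕ → ℤ → ℤ → ℂ} {h : ℂ → ℂ}
    (hh : ∀ W K : Set ℂ, IsOpen W → W ⊆ Ω → Convex ℝ K → IsClosed K →
      (∀ᶠ n in (U : Filter ℕ), ∀ i j : ℤ, pos c a (d n) i j ∈ W → H n i j ∈ K) →
      ∀ z ∈ W, h z ∈ K) {ζ : ℂ} {v : ℂ → ℝ} (hv : Aff v) {e : ℕ → ℝ} {x : ℝ}
    (he : Tendsto e U (𝓝 x)) (hN : NearB Ω c a d H ζ fun n w => v w + e n) :
    ∀ ε > 0, ∀ᶠ z in 𝓝[Ω] ζ, v (h z) + x ≤ ε := by
  intro ε hε
  obtain ⟨r, hr, hN⟩ := hN (ε / 2) (half_pos hε)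
  have hmem : ball ζ r ∩ Ω ∈ 𝓝[Ω] ζ :=
    inter_mem (mem_nhdsWithin_of_mem_nhds (ball_mem_nhds ζ hr)) self_mem_nhdsWithin
  filter_upwards [hmem] with z hz
  have h1 : h z ∈ {w | v w ≤ ε - x} := by
    refine hh (ball ζ r ∩ Ω) _ (isOpen_ball.inter hΩ) inter_subset_right (hv.convex _)
      (isClosed_le hv.cont continuous_const) ?_ z hz
    have h2 : ∀ᶠ n in (U : Filter ℕ), x - ε / 2 < e n :=
      he.eventually (lt_mem_nhds (by linarith))
    filter_upwards [hU hN, h2] with n h3 h4 i j hij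
    have h5 := h3 i j hij.2 (by have := hij.1; rwa [mem_ball, dist_eq_norm] at this)
    show v (H n i j) ≤ ε - x
    linarith
  have h1' : v (h z) ≤ ε - x := h1
  linarith

/-- **Uniform boundary estimate**, passed to the limit function. -/
theorem k_bound {γ : ℝ → ℂ} (G : Geo γ) {V : Ultrafilter ℕ} (hV : (V : Filter ℕ) ≤ atTop)
    {an : Bool} {h : ℕ → ℂ → ℂ} (hh : ∀ k, HA an (h k) (G.Ω k))
    (hT : ∀ k, ∀ z ∈ G.Ω k, h k z ∈ Tri) {g : ℂ → ℂ}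
    (hg : ∀ z ∈ jordanInterior γ, Tendsto (fun k => h k z) V (𝓝 (g z))) {J : Set (Fin 4)} {t : ℝ}
    (ht : t ∈ Icc (0 : ℝ) 1)
    (hsep : ∃ R > 0, ∀ᶠ k in atTop, ∀ ζ ∈ frontier (G.Ω k), ζ ∉ G.E k → ‖ζ - γ t‖ < R →
      ∃ j ∈ J, ζ ∈ G.A k j)
    {u : ℂ → ℝ} (hu : Aff u) (hu1 : ∀ w ∈ Tri, u w ≤ 1)
    (hbd : ∀ k, ∀ j ∈ J, ∀ ζ ∈ frontier (G.Ω k), ζ ∉ G.E k → ζ ∈ G.A k j →
      ∀ ε > 0, ∀ᶠ z in 𝓝[G.Ω k] ζ, u (h k z) ≤ ε) :
    ∀ ε > 0, ∀ᶠ z in 𝓝[jordanInterior γ] (γ t), u (g z) ≤ ε := by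
  intro ε hε
  obtain ⟨R, hR, hsep⟩ := hsep
  set s : ℝ := min (R / 4) (R * Real.exp (-(5 / ε))) with hs
  have hs0 : 0 < s := lt_min (by positivity) (by positivity)
  have hs4 : 4 * s ≤ R := by
    have := min_le_left (R / 4) (R * Real.exp (-(5 / ε)))
    rw [← hs] at this
    linarith
  have hlog : 5 / ε ≤ Real.log (R / s) := by
    rw [Real.le_log_iff_exp_le (by positivity), le_div_iff₀ hs0]
    have := min_le_right (R / 4) (R * Real.exp (-(5 / ε)))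
    rw [← hs] at this
    calc Real.exp (5 / ε) * s ≤ Real.exp (5 / ε) * (R * Real.exp (-(5 / ε))) := by gcongr
      _ = R * (Real.exp (5 / ε) * Real.exp (-(5 / ε))) := by ring
      _ = R := by rw [← Real.exp_add]; simp
  have hbound : 5 / Real.log (R / s) ≤ ε := by
    have hpos : 0 < 5 / ε := by positivity
    rw [div_le_iff₀ (hpos.trans_le hlog)]
    have := (div_le_iff₀ hε).mp hlog
    linarith
  have hmem : ball (γ t) s ∩ jordanInterior γ ∈ 𝓝[jordanInterior γ] (γ t) :=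
    inter_mem (mem_nhdsWithin_of_mem_nhds (ball_mem_nhds _ hs0)) self_mem_nhdsWithin
  filter_upwards [hmem] with z hz
  have hzs : ‖z - γ t‖ ≤ s := by
    have := hz.1
    rw [mem_ball, dist_eq_norm] at this
    exact this.le
  have hlim : Tendsto (fun k => u (h k z)) V (𝓝 (u (g z))) :=
    (hu.cont.tendsto _).comp (hg z hz.2)
  refine le_of_tendsto hlim ?_
  have e1 : ∀ᶠ k in (V : Filter ℕ), ({z} : Set ℂ) ⊆ G.Ω k :=
    hV (G.exh {z} isCompact_singleton (singleton_subset_iff.mpr hz.2))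
  filter_upwards [e1, hV hsep, hV (G.app t ht s hs0)] with k k1 k2 k3
  obtain ⟨w0, hw0, hw0b⟩ := k3
  refine (side_bound (G.opn k) (G.cone k) (G.bdd k) (G.con k) hs0 hs4 hw0 hw0b.le (hh k) hu
    (fun z hz => hu1 _ (hT k z hz)) (G.E k) (G.Enot k) ?_ (singleton_subset_iff.mp k1) hzs).trans
    hbound
  intro ζ hζ hζR hζE ε' hε'
  obtain ⟨j, hj, hζA⟩ := k2 ζ hζ hζE hζR
  exact hbd k j hj ζ hζ hζE hζA ε' hε'

theorem tend0 {α : Type*} {l : Filter α} {f : α → ℝ} (h0 : ∀ᶠ x in l, 0 ≤ f x)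
    (h : ∀ ε > 0, ∀ᶠ x in l, f x ≤ ε) : Tendsto f l (𝓝 0) := by
  rw [Metric.tendsto_nhds]
  intro ε hε
  filter_upwards [h0, h (ε / 2) (half_pos hε)] with x h1 h2
  rw [Real.dist_eq, sub_zero, abs_of_nonneg h1]
  linarith

theorem jinj {γ : ℝ → ℂ} (hγ : IsJordanCurve γ) {t t' : ℝ} (ht : t ∈ Ioo (0 : ℝ) 1)
    (ht' : t' ∈ Icc (0 : ℝ) 1) (h : γ t' = γ t) : t' = t := by
  rcases ht'.2.lt_or_eq with h1 | h1
  · exact hγ.2.1 ⟨ht'.1, h1⟩ ⟨ht.1.le, ht.2⟩ h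
  · rw [h1, ← hγ.2.2] at h
    have := hγ.2.1 ⟨le_rfl, zero_lt_one⟩ ⟨ht.1.le, ht.2⟩ h
    exact absurd this ht.1.ne

/-- **The limit of one family.** -/
theorem fam_lim {γ : ℝ → ℂ} (hγ : IsJordanCurve γ) (hD : IsOpen (jordanInterior γ)) {G : Geo γ}
    {p : ℕ → ℝ} {up : Bool} (O : Obs G p up) {U : Ultrafilter ℕ} (hU : (U : Filter ℕ) ≤ atTop)
    {P : ℝ} (hP : Tendsto p U (𝓝 P)) (hP0 : 0 ≤ P) (hP1 : P ≤ 1) :
    ∃ g : ℂ → ℂ, HA O.an g (jordanInterior γ) ∧ (∀ z ∈ jordanInterior γ, g z ∈ Tri) ∧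
      (∀ t ∈ Ioo (0 : ℝ) (1/2), ∀ ε > 0, ∀ᶠ z in 𝓝[jordanInterior γ] (γ t), sd1 (g z) ≤ ε) ∧
      (∀ t ∈ Ioo (1/2 : ℝ) (3/4), ∀ ε > 0, ∀ᶠ z in 𝓝[jordanInterior γ] (γ t), sd2 (g z) ≤ ε) ∧
      (∀ t ∈ Ioo (3/4 : ℝ) 1, ∀ ε > 0, ∀ᶠ z in 𝓝[jordanInterior γ] (γ t), sd3 (g z) ≤ ε) ∧
      (up = false → ∀ t ∈ Ioo (0 : ℝ) (1/4), ∀ ε > 0, ∀ᶠ z in 𝓝[jordanInterior γ] (γ t),
        lam (g z) - P ≤ ε) ∧
      (up = true → ∀ t ∈ Ioo (1/4 : ℝ) (1/2), ∀ ε > 0, ∀ᶠ z in 𝓝[jordanInterior γ] (γ t),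
        P - lam (g z) ≤ ε) := by
  have hfix : ∀ k, ∃ h : ℂ → ℂ, HA O.an h (G.Ω k) ∧ ∀ W K : Set ℂ, IsOpen W → W ⊆ G.Ω k →
      Convex ℝ K → IsClosed K →
      (∀ᶠ n in (U : Filter ℕ), ∀ i j : ℤ, pos (O.c k) (O.a k) (O.d k n) i j ∈ W →
        O.H k n i j ∈ K) → ∀ z ∈ W, h z ∈ K := by
    intro k
    refine disc_lim (G.opn k) U (hU (O.dpos k)) ((O.dlim k).mono_left hU) (O.a0 k) ?_ O.an ?_
    · filter_upwards [hU (O.tri k)] with n hn i j hij
      exact Tri_norm (hn i j hij)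
    · intro x1 x2 y1 y2 hx hy hin
      exact (O.cs k x1 x2 y1 y2 hx hy hin).mono hU le_rfl le_rfl le_rfl le_rfl
  choose h hHA hconv using hfix
  have hT : ∀ k, ∀ z ∈ G.Ω k, h k z ∈ Tri := by
    intro k
    exact hconv k (G.Ω k) Tri (G.opn k) subset_rfl Tri_convex Tri_closed (hU (O.tri k))
  set V : Ultrafilter ℕ := Ultrafilter.of atTop with hVdef
  have hV : (V : Filter ℕ) ≤ atTop := Ultrafilter.of_le atTop
  obtain ⟨g0, hg0, -, hg0lim⟩ := ultra_hol (D := jordanInterior γ) hD V (Om := G.Ω)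
    (h := fun k z => cj O.an (h k z)) (B := 5) (fun K hK hKD => hV (G.exh K hK hKD)) hHA
    (fun k z hz => by simp only [norm_cj]; exact Tri_norm (hT k z hz))
  have hglim : ∀ z ∈ jordanInterior γ, Tendsto (fun k => h k z) V (𝓝 (cj O.an (g0 z))) := by
    intro z hz
    have := ((cj_cont O.an).tendsto _).comp (hg0lim z hz)
    refine this.congr fun k => ?_
    simp only [Function.comp, cj_cj]
  have hgT : ∀ z ∈ jordanInterior γ, cj O.an (g0 z) ∈ Tri := by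
    intro z hz
    refine Tri_closed.mem_of_tendsto (hglim z hz) ?_
    filter_upwards [hV (G.exh {z} isCompact_singleton (singleton_subset_iff.mpr hz))] with k hk
    exact hT k z (singleton_subset_iff.mp hk)
  have hc0 : Tendsto (fun _ : ℕ => (0 : ℝ)) (U : Filter ℕ) (𝓝 0) := tendsto_const_nhds
  have hfin : ∀ l : Fin 4, l = 0 ∨ l = 1 ∨ l = 2 ∨ l = 3 := by decide
  -- boundary values on the domains
  have B : ∀ {u : ℂ → ℝ} (_ : Aff u) (k : ℕ) (ζ : ℂ),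
      NearB (G.Ω k) (O.c k) (O.a k) (O.d k) (O.H k) ζ (fun _ => u) →
      ∀ ε > 0, ∀ᶠ z in 𝓝[G.Ω k] ζ, u (h k z) ≤ ε := by
    intro u hu k ζ hN ε hε
    have := bdry (G.opn k) hU (hconv k) hu hc0 (by simpa using hN) ε hε
    simpa using this
  refine ⟨fun z => cj O.an (g0 z), ?_, hgT, ?_, ?_, ?_, ?_, ?_⟩
  · unfold HA
    simp only [cj_cj]
    exact hg0
  · intro t ht
    refine k_bound G hV hHA hT hglim (J := {0, 1}) (t := t) ⟨ht.1.le, by linarith [ht.2]⟩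
      (sep hγ.1 G {0, 1} ?_) aff_sd1 (fun w hw => (Tri_sd hw).1) ?_
    · intro l hl t' ht' he
      have hl2 : 2 ≤ (l : ℕ) := by
        rcases hfin l with h | h | h | h <;> subst h <;> simp_all
      have hl2' : (2 : ℝ) ≤ ((l : ℕ) : ℝ) := by exact_mod_cast hl2
      have hl3 : ((l : ℕ) : ℝ) ≤ 3 := by
        have : (l : ℕ) ≤ 3 := by omega
        exact_mod_cast this
      have h1 := jinj hγ (t := t) (t' := t') ⟨ht.1, by linarith [ht.2]⟩
        ⟨by linarith [ht'.1], by linarith [ht'.2]⟩ he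
      have := ht'.1
      have := ht.2
      linarith
    · intro k j hj ζ hζ hζE hζA
      rcases hj with rfl | hj
      · exact B aff_sd1 k ζ (O.b0 k ζ hζ hζE hζA)
      · rw [mem_singleton_iff] at hj
        subst hj
        exact B aff_sd1 k ζ (O.b1 k ζ hζ hζE hζA)
  · intro t ht
    refine k_bound G hV hHA hT hglim (J := {2}) (t := t)
      ⟨by linarith [ht.1], by linarith [ht.2]⟩
      (sep hγ.1 G {2} ?_) aff_sd2 (fun w hw => (Tri_sd hw).2.1) ?_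
    · intro l hl t' ht' he
      have ht0 : t ∈ Ioo (0 : ℝ) 1 := ⟨by linarith [ht.1], by linarith [ht.2]⟩
      have h3 := ht'.1
      have h4 := ht'.2
      have h5 := ht.1
      have h6 := ht.2
      rcases hfin l with h | h | h | h <;> subst h
      · norm_num at h3 h4
        have := jinj hγ ht0 ⟨by linarith, by linarith⟩ he
        linarith
      · norm_num at h3 h4
        have := jinj hγ ht0 ⟨by linarith, by linarith⟩ he
        linarith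
      · simp at hl
      · norm_num at h3 h4
        have := jinj hγ ht0 ⟨by linarith, by linarith⟩ he
        linarith
    · intro k j hj ζ hζ hζE hζA
      rw [mem_singleton_iff] at hj
      subst hj
      exact B aff_sd2 k ζ (O.b2 k ζ hζ hζE hζA)
  · intro t ht
    refine k_bound G hV hHA hT hglim (J := {3}) (t := t)
      ⟨by linarith [ht.1], by linarith [ht.2]⟩
      (sep hγ.1 G {3} ?_) aff_sd3 (fun w hw => (Tri_sd hw).2.2) ?_
    · intro l hl t' ht' he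
      have ht0 : t ∈ Ioo (0 : ℝ) 1 := ⟨by linarith [ht.1], by linarith [ht.2]⟩
      have h3 := ht'.1
      have h4 := ht'.2
      have h5 := ht.1
      have h6 := ht.2
      rcases hfin l with h | h | h | h <;> subst h
      · norm_num at h3 h4
        have := jinj hγ ht0 ⟨by linarith, by linarith⟩ he
        linarith
      · norm_num at h3 h4
        have := jinj hγ ht0 ⟨by linarith, by linarith⟩ he
        linarith
      · norm_num at h3 h4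
        have := jinj hγ ht0 ⟨by linarith, by linarith⟩ he
        linarith
      · simp at hl
    · intro k j hj ζ hζ hζE hζA
      rw [mem_singleton_iff] at hj
      subst hj
      exact B aff_sd3 k ζ (O.b3 k ζ hζ hζE hζA)
  · intro hup t ht
    refine k_bound G hV hHA hT hglim (J := {0}) (t := t)
      ⟨by linarith [ht.1], by linarith [ht.2]⟩
      (sep hγ.1 G {0} ?_) (aff_lam.sub_const P) (fun w hw => by linarith [(Tri_lam hw).2]) ?_
    · intro l hl t' ht' he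
      have ht0 : t ∈ Ioo (0 : ℝ) 1 := ⟨by linarith [ht.1], by linarith [ht.2]⟩
      have h3 := ht'.1
      have h4 := ht'.2
      have h5 := ht.1
      have h6 := ht.2
      rcases hfin l with h | h | h | h <;> subst h
      · simp at hl
      · norm_num at h3 h4
        have := jinj hγ ht0 ⟨by linarith, by linarith⟩ he
        linarith
      · norm_num at h3 h4
        have := jinj hγ ht0 ⟨by linarith, by linarith⟩ he
        linarith
      · norm_num at h3 h4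
        have := jinj hγ ht0 ⟨by linarith, by linarith⟩ he
        linarith
    · intro k j hj ζ hζ hζE hζA ε hε
      rw [mem_singleton_iff] at hj
      subst hj
      have := bdry (G.opn k) hU (hconv k) aff_lam hP.neg (e := fun n => -p n)
        (by simpa [sub_eq_add_neg] using O.lo hup k ζ hζ hζE hζA) ε hε
      simpa [sub_eq_add_neg] using this
  · intro hup t ht
    refine k_bound G hV hHA hT hglim (J := {1}) (t := t)
      ⟨by linarith [ht.1], by linarith [ht.2]⟩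
      (sep hγ.1 G {1} ?_) (aff_lam.const_sub P) (fun w hw => by linarith [(Tri_lam hw).1]) ?_
    · intro l hl t' ht' he
      have ht0 : t ∈ Ioo (0 : ℝ) 1 := ⟨by linarith [ht.1], by linarith [ht.2]⟩
      have h3 := ht'.1
      have h4 := ht'.2
      have h5 := ht.1
      have h6 := ht.2
      rcases hfin l with h | h | h | h <;> subst h
      · norm_num at h3 h4
        have := jinj hγ ht0 ⟨by linarith, by linarith⟩ he
        linarith
      · simp at hl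
      · norm_num at h3 h4
        have := jinj hγ ht0 ⟨by linarith, by linarith⟩ he
        linarith
      · norm_num at h3 h4
        have := jinj hγ ht0 ⟨by linarith, by linarith⟩ he
        linarith
    · intro k j hj ζ hζ hζE hζA ε hε
      rw [mem_singleton_iff] at hj
      subst hj
      have hN : NearB (G.Ω k) (O.c k) (O.a k) (O.d k) (O.H k) ζ
          (fun n w => (0 - lam w) + p n) := by
        have := O.hi hup k ζ hζ hζE hζA
        have e : (fun (n : ℕ) (w : ℂ) => (0 - lam w) + p n) = fun n w => p n - lam w := by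
          funext n w; ring
        rw [e]
        exact this
      have := bdry (G.opn k) hU (hconv k) (aff_lam.const_sub 0) hP hN ε hε
      filter_upwards [this] with z hz
      linarith

end Crest.Agent.R158.Wl290
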