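import Crest.Agent.R158.Q3a_331
import Crest.Agent.R158.Cb7_771

/-!
R158, (Q2) of the frozen interface (helper290), part 1: **`q2_of : Geo2 → Q2`** (over 771's core2).

* `Sec j` : the end lies in the sector of the arc `j`
* `Geo2` : the macroscopic input: near a flat boundary point of the arc `j` every free end within
  `ρ L` lies in the sector `j` (same shape as 331's `Geo3m`, `Geo3p`)
-/

set_option autoImplicit false

namespace Crest.Agent.R158.Wq290

open Filter Topology Set Metric MeasureTheory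
open Complex (I)
open Crest.Agent.R158.Tj656
open Crest.Agent.R158.Cd83 (om om_eq)
open Crest.Agent.R158.Env664 (D beD mark)
open Crest.Agent.R158.Ob664 (GW HW HV Sect VO)
open Crest.Agent.R158.Cb771 (LegBox core2)
open Crest.Agent.R158.Sw300 (Port Wd)
open Crest.Agent.R158.Al194 (Tri)
open Crest.Agent.R158.Q331 (nearE mk eps_scale)

noncomputable section

/-- the end `q` lies in the sector of the arc `j` -/
def Sec (j : Fin 4) (pos : Port (ℤ × ℤ) → ℤ) (m1 m2 m3 q : Port (ℤ × ℤ)) : Prop :=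
  if j = 0 ∨ j = 1 then Sect pos m3 m1 q
  else if j = 2 then ¬ Sect pos m3 m1 q ∧ ¬ Sect pos m1 m2 q
  else ¬ Sect pos m3 m1 q ∧ Sect pos m1 m2 q

/-- macroscopic input of `(Q2)` -/
def Geo2 : Prop := ∀ (P : P4) (jj : Fin 4), ∀ b ∈ P.hA jj, ∃ ρ : ℝ, 0 < ρ ∧ ∃ L0 : ℤ, ∀ Ln : ℤ,
  L0 ≤ Ln → Even Ln → ∀ i j : ℤ, mpos Ln (2 * i) (2 * j) ∈ P.Om →
  ‖mpos Ln (2 * i) (2 * j) - b‖ < ρ →
  ∃ (xr : ℤ) (w : Wd (ℤ × ℤ)), GW (D P.F Ln) (beD (D P.F Ln) (2 * i) (2 * j) xr) w ∧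
    P.HD Ln (2 * i) (2 * j) = HW w (mk P Ln 0) (mk P Ln 1) (mk P Ln 2) ∧
    (∀ s : ℕ, Ln * ‖mpos Ln (2 * i) (2 * j) - b‖ + 2 ≤ s →
      LegBox (D P.F Ln) (2 * i) (2 * j) xr s) ∧
    ∀ Rd : ℕ, (Rd : ℝ) ≤ ρ * Ln → ∀ q ∈ Sw300.L w, nearE (2 * i) (2 * j) Rd q →
      Sec jj (Sw300.pos w) (mk P Ln 0) (mk P Ln 1) (mk P Ln 2) q

/-! ### values on the segments -/

theorem im_nonpos_seg {a b z : ℂ} {u v : ℂ} (hz : z ∈ segment ℝ a b) (ha : (u * a + v).im ≤ 0)
    (hb : (u * b + v).im ≤ 0) : (u * z + v).im ≤ 0 := by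
  obtain ⟨s, t, hs, ht, hst, rfl⟩ := hz
  have e : u * (s • a + t • b) + v = (s : ℂ) * (u * a + v) + (t : ℂ) * (u * b + v) := by
    rw [Complex.real_smul, Complex.real_smul]
    have : (s : ℂ) + (t : ℂ) = 1 := by exact_mod_cast hst
    calc _ = (s : ℂ) * (u * a) + (t : ℂ) * (u * b) + v * ((s : ℂ) + t) := by rw [this]; ring
      _ = _ := by ring
  rw [e, Complex.add_im, Complex.im_ofReal_mul, Complex.im_ofReal_mul]
  nlinarith

theorem v2_eq' : Vt300.v2 = 1 + om := by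
  rw [Vt300.v2_eq, om_eq]
  apply Complex.ext <;> simp
  norm_num

theorem om_sq : om ^ 2 = -1 - om := by
  have := Cd83.om_sum
  linear_combination this

/-- affine form of the arc `j` -/
def al (j : Fin 4) : ℂ := if j = 0 ∨ j = 1 then 1 else if j = 2 then om ^ 2 else om

/-- affine form of the arc `j` -/
def be (j : Fin 4) : ℂ := if j = 0 ∨ j = 1 then 0 else if j = 2 then -om ^ 2 else -om * (1 + om)

theorem om_v2 : om * (1 + om) = -1 := by
  have := Cd83.om_sum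
  linear_combination this

theorem seg_val {j : Fin 4} {A : Port (ℤ × ℤ) → Prop} {pos : Port (ℤ × ℤ) → ℤ}
    {M : Port (ℤ × ℤ) → Port (ℤ × ℤ)} {S : Port (ℤ × ℤ) → Bool} {q m1 m2 m3 : Port (ℤ × ℤ)}
    (h : Sec j pos m1 m2 m3 q) : (al j * VO A pos M S q m1 m2 m3 + be j).im ≤ 0 := by
  unfold Sec at h
  unfold al be
  split_ifs at h ⊢ with h1 h2
  · refine im_nonpos_seg (Ob664.VO_31 h) ?_ ?_ <;> simp
  · refine im_nonpos_seg (Ob664.VO_23 h.1 h.2) ?_ ?_
    · rw [v2_eq']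
      have : om ^ 2 * (1 + om) + -om ^ 2 = 1 := by linear_combination Cd83.om_cube
      rw [this]; simp
    · simp
  · refine im_nonpos_seg (Ob664.VO_12 h.1 h.2) ?_ ?_
    · rw [mul_zero, zero_add, neg_mul, om_v2]; simp
    · rw [v2_eq']
      have : om * (1 + om) + -om * (1 + om) = 0 := by ring
      rw [this]; simp

theorem norm_om : ‖om‖ = 1 := by
  unfold om
  exact Complex.norm_exp_ofReal_mul_I _

theorem norm_al (j : Fin 4) : ‖al j‖ = 1 := by
  unfold al
  split_ifs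
  · simp
  · rw [norm_pow, norm_om, one_pow]
  · exact norm_om

theorem norm_be (j : Fin 4) : ‖be j‖ ≤ 1 := by
  unfold be
  split_ifs
  · simp
  · rw [norm_neg, norm_pow, norm_om, one_pow]
  · rw [neg_mul, om_v2]; simp

theorem im_le_two (j : Fin 4) {z : ℂ} (hz : z ∈ Tri) : (al j * z + be j).im ≤ 2 := by
  have h1 : (al j * z + be j).im ≤ ‖al j * z + be j‖ :=
    (le_abs_self _).trans (Complex.abs_im_le_norm _)
  have h2 : ‖al j * z + be j‖ ≤ ‖al j‖ * ‖z‖ + ‖be j‖ := by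
    rw [← norm_mul]; exact norm_add_le _ _
  have h3 := Ob664.norm_le_of_Tri hz
  have h4 := norm_al j
  have h5 := norm_be j
  rw [h4, one_mul] at h2
  linarith

/-- the leg end is a free end -/
theorem u_mem {A : Finset (ℤ × ℤ)} {b : Port (ℤ × ℤ) → Port (ℤ × ℤ)} {w : Wd (ℤ × ℤ)}
    (h : GW A b w) (ξ : ℤ × ℤ → Bool) : Sw300.u ξ w ∈ Sw300.L w :=
  (Sw300.Ok.inv ξ w h.word.1).um

/-- **the one-sided bound on the arc `j`** -/
theorem nb_of (hg : Geo2) (P : P4) (jj : Fin 4) (b : ℂ) (hb : b ∈ P.hA jj) :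
    NB P b fun _ w => (al jj * w + be jj).im := by
  obtain ⟨C, a, hC, ha, hcore⟩ := core2
  obtain ⟨ρ, hρ, L1, hgeo⟩ := hg P jj b hb
  intro ε hε
  obtain ⟨r, hr, hrρ, L2, hsc⟩ := eps_scale hC ha hρ hε
  refine ⟨r, hr, max (max L1 L2) 1, fun Ln hLn hev i j hOm hnear => ?_⟩
  obtain ⟨xr, w, hGW, hHD, hLB, hH⟩ := hgeo Ln (by omega) hev i j hOm (hnear.trans_le hrρ)
  obtain ⟨s, Rd, h1, h2, h3, h4⟩ := hsc Ln (by omega)
  have hLp : (0 : ℝ) < Ln := by
    have : 0 < Ln := by omega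
    exact_mod_cast this
  have hbox := hLB s (by nlinarith)
  have hfin := hcore (D P.F Ln) (2 * i) (2 * j) xr s w Rd (mk P Ln 0) (mk P Ln 1) (mk P Ln 2)
    (al jj) (be jj) 2 hbox hGW h3 (by norm_num) (fun z hz => im_le_two jj hz)
    (fun ξ hξ => seg_val (hH Rd h2 _ (u_mem hGW ξ) hξ))
  rw [← hHD] at hfin
  exact hfin.trans h4

/-- **`(Q2)`** from the core estimate and the macroscopic geometry -/
theorem q2_of (hg : Geo2) : Q2 := by
  intro P
  refine ⟨fun b hb => ?_, fun b hb => ?_, fun b hb => ?_, fun b hb => ?_⟩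
  · have := nb_of hg P 0 b hb
    simpa [al, be] using this
  · have := nb_of hg P 1 b hb
    simpa [al, be] using this
  · have := nb_of hg P 2 b hb
    have e : (fun (_ : ℤ) (w : ℂ) => (al 2 * w + be 2).im) =
        fun (_ : ℤ) (w : ℂ) => (om ^ 2 * (w - 1)).im := by
      funext _ w
      have e1 : al 2 = om ^ 2 := by simp [al]
      have e2 : be 2 = -om ^ 2 := by simp [be]
      rw [e1, e2]; congr 1; ring
    rw [e] at this
    exact this
  · have := nb_of hg P 3 b hb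
    have e : (fun (_ : ℤ) (w : ℂ) => (al 3 * w + be 3).im) =
        fun (_ : ℤ) (w : ℂ) => (om * (w - (1 + om))).im := by
      funext _ w
      have e1 : al 3 = om := by simp [al]
      have e2 : be 3 = -om * (1 + om) := by simp [be]
      rw [e1, e2]; congr 1; ring
    rw [e] at this
    exact this

end

end Crest.Agent.R158.Wq290
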