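import Crest.Agent.R158.Wq1_290
import Crest.Agent.R158.Mg3_949

/-!
R158, (Q2) of the frozen interface (helper290), part 2: **`geo2 : Geo2`** and **`q2 : Q2`** (no open
input), over 949's `exists_WD`, `near_idx`, `sect31`, `sect12`.
-/

set_option autoImplicit false

namespace Crest.Agent.R158.Wq290

open Crest.Agent.R158.Tj656
open Crest.Agent.R158.Env664 (D beD mark)
open Crest.Agent.R158.Ob664 (GW HW HV Sect VO)
open Crest.Agent.R158.Cb771 (LegBox)
open Crest.Agent.R158.Sw300 (Port Wd L Ok)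
open Crest.Agent.R158.Q331 (nearE mk)
open Crest.Agent.R158.Sp896 (V)
open Crest.Agent.R158.Bl802 (nN)
open Crest.Agent.R158.Mg949

/-- the sector of an end from its index -/
theorem sec_of {P : P4} {k : ℕ} {x y xr : ℤ} {q : ℕ} {w : Wd V} (h : WD P k x y xr q w) (jj : Fin 4)
    {u : Port V} {i : ℕ} (hu : AtE (sU P k) (nn P k) q (nN xr y) u i)
    (h1 : ja P jj * (2 * k) + 8 ≤ i) (h2 : i + 8 ≤ jb P jj * (2 * k)) :
    Sec jj (Sw300.pos w) (sU P k (nn P k - 1)) (sU P k (P.md * (2 * k) - 1))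
      (sU P k (P.mc * (2 * k) - 1)) u := by
  have hk := h.hk
  have c1 : 1 * (2 * k) ≤ P.mc * (2 * k) :=
    Nat.mul_le_mul_right _ (by have := P.h1; have := P.h2; omega)
  have c2 : P.mb * (2 * k) ≤ P.mc * (2 * k) :=
    Nat.mul_le_mul_right _ (by have := P.h1; have := P.h2; omega)
  have c3 : (P.mc + 1) * (2 * k) ≤ P.md * (2 * k) :=
    Nat.mul_le_mul_right _ (by have := P.h3; omega)
  have c4 : (P.md + 1) * (2 * k) ≤ nn P k := Nat.mul_le_mul_right _ (by have := P.h4; omega)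
  have e3 : (P.mc + 1) * (2 * k) = P.mc * (2 * k) + 2 * k := by ring
  have e4 : (P.md + 1) * (2 * k) = P.md * (2 * k) + 2 * k := by ring
  have s31 := sect31 h.ok h.hL h.hq hu (e := P.mc * (2 * k) - 1) (by omega)
  have s12 := sect12 h.ok h.hL h.hq hu (e := P.md * (2 * k) - 1) (by omega)
  unfold Sec
  rw [s31, s12]
  have key : jj = 0 ∨ jj = 1 ∨ jj = 2 ∨ jj = 3 := by
    fin_cases jj <;> decide
  rcases key with rfl | rfl | rfl | rfl
  · rw [ja_0] at h1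
    rw [jb_0] at h2
    rw [if_pos (Or.inl rfl)]
    omega
  · rw [ja_1] at h1
    rw [jb_1] at h2
    rw [if_pos (Or.inr rfl)]
    omega
  · rw [ja_2] at h1
    rw [jb_2] at h2
    rw [if_neg (by decide), if_pos rfl]
    omega
  · rw [ja_3] at h1
    rw [jb_3] at h2
    rw [if_neg (by decide), if_neg (by decide)]
    omega

/-- **the macroscopic input of `(Q2)`** -/
theorem geo2 : Geo2 := by
  intro P jj b hb
  obtain ⟨ρ1, hρ1, hWD⟩ := exists_WD P hb
  obtain ⟨ρ2, hρ2, k0, hidx⟩ := near_idx P hb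
  refine ⟨min ρ1 ρ2, lt_min hρ1 hρ2, 2 * (k0 : ℤ) + 2, fun Ln hLn hev i j hOm hnear => ?_⟩
  obtain ⟨c, hc⟩ := hev
  obtain ⟨k, hk⟩ : ∃ k : ℕ, (k : ℤ) = c := ⟨c.toNat, Int.toNat_of_nonneg (by omega)⟩
  have hLk : Ln = Lz k := by unfold Lz; push_cast; omega
  subst hLk
  have hk0 : 0 < k := by omega
  have hkk : k0 ≤ k := by omega
  obtain ⟨xr, q, w, hw, hbox⟩ := hWD k hk0 (2 * i) (2 * j) hOm (hnear.trans_le (min_le_left _ _))
  have hLr : (0 : ℝ) < (Lz k : ℝ) := by exact_mod_cast Lz_pos hk0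
  have m0 : mk P (Lz k) 0 = sU P k (nn P k - 1) := mark0 P hk0
  have m1 : mk P (Lz k) 1 = sU P k (P.md * (2 * k) - 1) := markD P hk0
  have m2 : mk P (Lz k) 2 = sU P k (P.mc * (2 * k) - 1) := markC P hk0
  rw [m0, m1, m2]
  refine ⟨xr, w, hw.gw, hw.hd, hbox, fun Rd hRd u hu hun => ?_⟩
  obtain ⟨e, he⟩ := (mem_L hw.ok hw.hL hw.hq).1 hu
  obtain ⟨t, d, hut, g1, g2⟩ := hun
  obtain ⟨t', d', hut', g3, g4, -⟩ := hw.at_Nr he
  rw [hut, Option.some.injEq, Prod.mk.injEq] at hut'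
  obtain ⟨rfl, -⟩ := hut'
  rw [abs_le] at g1 g2 g3 g4
  have hRd2 : (Rd : ℝ) ≤ ρ2 * Lz k :=
    hRd.trans (mul_le_mul_of_nonneg_right (min_le_right _ _) hLr.le)
  obtain ⟨h1, h2⟩ := hidx k hk0 hkk (2 * i) (2 * j) (hnear.trans_le (min_le_right _ _)) Rd hRd2 e
    he.1.le (by rw [abs_le]; omega) (by rw [abs_le]; omega)
  exact sec_of hw jj he h1 h2

/-- **`(Q2)` of the frozen interface** -/
theorem q2 : Q2 := q2_of geo2

end Crest.Agent.R158.Wq290
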