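import Crest.Agent.R158.Wt1_290
import Crest.Agent.R158.Tj2_656

/-!
R158 (helper290): J2 part (C): `Obs` from the frozen interface `Tj2_656`.

`obs_lo`, `obs_up`: for a `Geo` whose domains are the polygons `P k` at scale `s k` in the frame `ww`,
the inputs `Q1 an`, `Q2`, `Q3m` / `Q3p` and `Sm` / `Sp` give `Obs G p false` / `Obs G p true`.
-/

set_option autoImplicit false
open Complex Metric Set Topology Filter

namespace Crest.Agent.R158.Wl290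

open Crest.Agent.R158.Cd83
open Crest.Agent.R158.Sp896
open Crest.Agent.R158.Tj656 (P4 NB Q1 Q2 Q3m Q3p Sm Sp Ls ww mpos)
open Crest.Agent.R158.Vt300 (v2 v2_eq)
open Crest.Agent.R158.Sk656 (sd1 sd2 sd3)

theorem ww_norm : ‖ww‖ = 1 := by
  unfold Crest.Agent.R158.Tj656.ww
  exact norm_exp_ofReal_mul_I _

theorem ww_ne : ww ≠ 0 := by
  intro h; have := ww_norm; rw [h] at this; simp at this

theorem pos_mpos (s : ℝ) (L : ℤ) (i j : ℤ) :
    pos 0 (s * ww⁻¹) (2 / (L : ℝ)) i j = s * ww⁻¹ * mpos L (2 * i) (2 * j) := by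
  have e : mpos L (2 * i) (2 * j) = ((2 * (i : ℝ) / L : ℝ) : ℂ) + ((2 * (j : ℝ) / L : ℝ) : ℂ) * I := by
    unfold Crest.Agent.R158.Tj656.mpos
    apply Complex.ext
    · simp
    · simp
  rw [e]
  unfold pos
  push_cast
  ring

theorem Ls_even (s d : ℝ) : Even (Ls s d) := by
  unfold Crest.Agent.R158.Tj656.Ls
  exact even_two_mul _

theorem Ls_tendsto {s : ℝ} (hs : 0 < s) {δ : ℕ → ℝ} (hδ : ∀ n, 0 < δ n)
    (hδ0 : Tendsto δ atTop (𝓝 0)) : Tendsto (fun n => Ls s (δ n)) atTop atTop := by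
  have h1 : Tendsto (fun n => Real.sqrt 2 * δ n) atTop (𝓝[>] 0) := by
    rw [tendsto_nhdsWithin_iff]
    constructor
    · simpa using hδ0.const_mul (Real.sqrt 2)
    · exact Eventually.of_forall fun n => mul_pos (by positivity) (hδ n)
  have h2 : Tendsto (fun n => s / (Real.sqrt 2 * δ n)) atTop atTop := by
    have := (tendsto_inv_nhdsGT_zero.comp h1).const_mul_atTop hs
    refine this.congr fun n => ?_
    simp [div_eq_mul_inv]
  have h3 : Tendsto (fun n => ⌊s / (Real.sqrt 2 * δ n)⌋) atTop atTop :=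
    tendsto_floor_atTop.comp h2
  have h4 : Tendsto (fun n => 2 * ⌊s / (Real.sqrt 2 * δ n)⌋) atTop atTop :=
    h3.const_mul_atTop' (by norm_num)
  exact h4

theorem near_tj {P : P4} {s : ℝ} (hs : 0 < s) {Ln : ℕ → ℤ} (hev : ∀ n, Even (Ln n))
    (hL : Tendsto Ln atTop atTop) {ζ b : ℂ} (hb : ww * ζ = s * b) {u : ℤ → ℂ → ℝ} (h : NB P b u)
    {v : ℕ → ℂ → ℝ} {e : ℕ → ℝ} (he : ∀ ε > 0, ∀ᶠ n in atTop, e n ≤ ε)
    (hv : ∀ n H, v n (1 + (om - 1) * H) ≤ u (Ln n) H + e n) :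
    NearB {z | ww * z ∈ Crest.Agent.R158.Tj656.Om s (↑P.F)} 0 (s * ww⁻¹)
      (fun n => 2 / (Ln n : ℝ)) (fun n i j => 1 + (om - 1) * P.HD (Ln n) (2 * i) (2 * j)) ζ v := by
  have hs0 : (s : ℂ) ≠ 0 := by exact_mod_cast hs.ne'
  intro ε hε
  obtain ⟨r, hr, L0, h⟩ := h (ε / 2) (half_pos hε)
  refine ⟨s * r, by positivity, ?_⟩
  filter_upwards [hL.eventually_ge_atTop L0, he (ε / 2) (half_pos hε)] with n hn hen i j hij hd
  rw [pos_mpos] at hij hd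
  have h1 : mpos (Ln n) (2 * i) (2 * j) ∈ P.Om := by
    have h1 : ww * (s * ww⁻¹ * mpos (Ln n) (2 * i) (2 * j)) ∈
      Crest.Agent.R158.Tj656.Om s (↑P.F) := hij
    rw [w_pos ww_ne, om_scale hs] at h1
    exact h1
  have h2 : ‖mpos (Ln n) (2 * i) (2 * j) - b‖ < r := by
    have hζ : ζ = s * ww⁻¹ * b := by
      have := ww_ne
      field_simp
      linear_combination hb
    have e : s * ww⁻¹ * mpos (Ln n) (2 * i) (2 * j) - ζ =
        s * ww⁻¹ * (mpos (Ln n) (2 * i) (2 * j) - b) := by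
      rw [hζ]; ring
    rw [e, norm_mul, norm_mul, norm_inv, ww_norm, inv_one, mul_one, Complex.norm_real,
      Real.norm_of_nonneg hs.le] at hd
    exact lt_of_mul_lt_mul_left hd hs.le
  have h3 := h (Ln n) hn (hev n) i j h1 h2
  have h4 := hv n (P.HD (Ln n) (2 * i) (2 * j))
  linarith

section

variable {γ : ℝ → ℂ} {G : Geo γ} {s : ℕ → ℝ} {P : ℕ → P4}

/-- the common part of the two families -/
theorem obs_aux (hs : ∀ k, 0 < s k)
    (hΩ : ∀ k, G.Ω k = {z | ww * z ∈ Crest.Agent.R158.Tj656.Om (s k) (↑(P k).F)})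
    (hA : ∀ k j, ∀ z ∈ G.A k j, ∃ b ∈ (P k).hA j, ww * z = s k * b)
    {δ : ℕ → ℝ} (hδ : ∀ n, 0 < δ n) (hδ0 : Tendsto δ atTop (𝓝 0)) {p : ℕ → ℝ} {an : Bool}
    (h1 : Q1 an) (h2 : Q2) (up : Bool)
    (lo : up = false → ∀ k, ∀ ζ ∈ frontier (G.Ω k), ζ ∉ G.E k → ζ ∈ G.A k 0 →
      NearB (G.Ω k) 0 (s k * ww⁻¹) (fun n => 2 / (Ls (s k) (δ n) : ℝ))
        (fun n i j => 1 + (om - 1) * (P k).HD (Ls (s k) (δ n)) (2 * i) (2 * j)) ζ
        fun n w => lam w - p n)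
    (hi : up = true → ∀ k, ∀ ζ ∈ frontier (G.Ω k), ζ ∉ G.E k → ζ ∈ G.A k 1 →
      NearB (G.Ω k) 0 (s k * ww⁻¹) (fun n => 2 / (Ls (s k) (δ n) : ℝ))
        (fun n i j => 1 + (om - 1) * (P k).HD (Ls (s k) (δ n)) (2 * i) (2 * j)) ζ
        fun n w => p n - lam w) :
    Nonempty (Obs G p up) := by
  have hLt : ∀ k, Tendsto (fun n => Ls (s k) (δ n)) atTop atTop := fun k =>
    Ls_tendsto (hs k) hδ hδ0
  have hLe : ∀ k n, Even (Ls (s k) (δ n)) := fun k n => Ls_even _ _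
  have hLr : ∀ k, Tendsto (fun n => (Ls (s k) (δ n) : ℝ)) atTop atTop := fun k =>
    tendsto_intCast_atTop_atTop.comp (hLt k)
  have hpos : ∀ k, ∀ᶠ n in atTop, 0 < 2 / (Ls (s k) (δ n) : ℝ) := fun k => by
    filter_upwards [(hLr k).eventually_gt_atTop 0] with n hn
    positivity
  have side : ∀ (k : ℕ) (j : Fin 4) (v : ℂ → ℝ) (u : ℂ → ℝ) (_ : ∀ H, v (1 + (om - 1) * H) = u H)
      (_ : ∀ b ∈ (P k).hA j, NB (P k) b fun _ w => u w) (ζ : ℂ) (_ : ζ ∈ G.A k j),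
      NearB (G.Ω k) 0 (s k * ww⁻¹) (fun n => 2 / (Ls (s k) (δ n) : ℝ))
        (fun n i j => 1 + (om - 1) * (P k).HD (Ls (s k) (δ n)) (2 * i) (2 * j)) ζ fun _ => v := by
    intro k j v u hvu hN ζ hζ
    obtain ⟨b, hb, hb2⟩ := hA k j ζ hζ
    rw [hΩ]
    exact near_tj (hs k) (hLe k) (hLt k) hb2 (hN b hb) (e := fun _ => 0)
      (fun ε hε => Eventually.of_forall fun _ => hε.le) (fun n H => by rw [hvu]; simp)
  refine ⟨{
    an := an
    c := fun _ => 0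
    a := fun k => s k * ww⁻¹
    d := fun k n => 2 / (Ls (s k) (δ n) : ℝ)
    H := fun k n i j => 1 + (om - 1) * (P k).HD (Ls (s k) (δ n)) (2 * i) (2 * j)
    a0 := fun k => mul_ne_zero (by exact_mod_cast (hs k).ne') (inv_ne_zero ww_ne)
    dpos := hpos
    dlim := fun k => (hLr k).const_div_atTop 2
    tri := fun k => Eventually.of_forall fun n i j _ =>
      W_tri (Crest.Agent.R158.Ob664.HD_mem _ _ _ _ _)
    cs := fun k x1 x2 y1 y2 hx hy hin => by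
      refine CSr.affine ((hpos k).mono fun n hn => hn.le)
        (h1 (P k) x1 x2 y1 y2 hx hy (fun x hx' y hy' => ?_) _ (hLe k) (hLt k)) 1 (om - 1)
      have g1 := hin x hx' y hy'
      rw [hΩ, zero_add] at g1
      have g2 : ww * (s k * ww⁻¹ * ((x : ℂ) + (y : ℂ) * I)) ∈
        Crest.Agent.R158.Tj656.Om (s k) (↑(P k).F) := g1
      rw [w_pos ww_ne, om_scale (hs k)] at g2
      exact g2
    b0 := fun k ζ _ _ h5 => side k 0 sd1 _ sd1_W (h2 (P k)).1 ζ h5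
    b1 := fun k ζ _ _ h5 => side k 1 sd1 _ sd1_W (h2 (P k)).2.1 ζ h5
    b2 := fun k ζ _ _ h5 => side k 2 sd2 _ sd2_W (h2 (P k)).2.2.1 ζ h5
    b3 := fun k ζ _ _ h5 => side k 3 sd3 _ (fun H => by rw [sd3_W, v2_val]) (h2 (P k)).2.2.2 ζ h5
    lo := lo
    hi := hi }⟩

/-- **(C), lower family** -/
theorem obs_lo (hs : ∀ k, 0 < s k)
    (hΩ : ∀ k, G.Ω k = {z | ww * z ∈ Crest.Agent.R158.Tj656.Om (s k) (↑(P k).F)})
    (hA : ∀ k j, ∀ z ∈ G.A k j, ∃ b ∈ (P k).hA j, ww * z = s k * b)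
    {δ : ℕ → ℝ} (hδ : ∀ n, 0 < δ n) (hδ0 : Tendsto δ atTop (𝓝 0)) {p : ℕ → ℝ} {an : Bool}
    (h1 : Q1 an) (h2 : Q2) (h3 : Q3m) (hS : ∀ k, Sm (s k) (P k) δ p) :
    Nonempty (Obs G p false) := by
  refine obs_aux hs hΩ hA hδ hδ0 h1 h2 false (fun _ k ζ _ _ h5 => ?_) (fun h => by simp at h)
  obtain ⟨kk, h3⟩ := h3
  obtain ⟨b, hb, hb2⟩ := hA k 0 ζ h5
  rw [hΩ]
  refine near_tj (hs k) (fun n => Ls_even _ _) (Ls_tendsto (hs k) hδ hδ0) hb2 (h3 (P k) b hb)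
    (e := fun n => (P k).pm kk (Ls (s k) (δ n)) - p n) (fun ε hε => ?_) (fun n H => ?_)
  · filter_upwards [hS k kk] with n hn
    linarith
  · simp only [lam_W]; linarith

/-- **(C), upper family** -/
theorem obs_up (hs : ∀ k, 0 < s k)
    (hΩ : ∀ k, G.Ω k = {z | ww * z ∈ Crest.Agent.R158.Tj656.Om (s k) (↑(P k).F)})
    (hA : ∀ k j, ∀ z ∈ G.A k j, ∃ b ∈ (P k).hA j, ww * z = s k * b)
    {δ : ℕ → ℝ} (hδ : ∀ n, 0 < δ n) (hδ0 : Tendsto δ atTop (𝓝 0)) {p : ℕ → ℝ} {an : Bool}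
    (h1 : Q1 an) (h2 : Q2) (h3 : Q3p) (hS : ∀ k, Sp (s k) (P k) δ p) :
    Nonempty (Obs G p true) := by
  refine obs_aux hs hΩ hA hδ hδ0 h1 h2 true (fun h => by simp at h) (fun _ k ζ _ _ h5 => ?_)
  obtain ⟨kk, h3⟩ := h3
  obtain ⟨b, hb, hb2⟩ := hA k 1 ζ h5
  rw [hΩ]
  refine near_tj (hs k) (fun n => Ls_even _ _) (Ls_tendsto (hs k) hδ hδ0) hb2 (h3 (P k) b hb)
    (e := fun n => (P k).pp kk (Ls (s k) (δ n)) - (1 - p n)) (fun ε hε => ?_) (fun n H => ?_)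
  · filter_upwards [hS k kk] with n hn
    linarith
  · simp only [lam_W]; linarith

end

end Crest.Agent.R158.Wl290
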