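import Crest.Agent.R158.Xs4_932
import Crest.Agent.R158.Xd2_841
import Crest.Agent.R158.Hw2_949
import Crest.Agent.R158.Hb1_656
import Crest.Agent.R158.Lr8_158

/-!
# R158, block Q1d, XAll (helper932), part 1: marks of `P4`, distances, location of the planar points

* `mkG_eq`, `mt_freeG`, `mks_JP` : the marks are free ends of `G^(z)`
* `FarT L xl xr y1 D t` : the tile `t` is far from the macroscopic vertices and from the mouth corners
* `farT_mark`, `farT_e`, `farT_rz`
* `oth_XP` : the planar points of XM are far from the corners of the second copy (841's `Oth`)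
-/

set_option autoImplicit false

noncomputable section

namespace Crest.Agent.R158.Xa932

open Crest.Agent.R158.Nm211
open Crest.Agent.R158.Ka470
open Crest.Agent.R158.Ka470.Half
open Crest.Agent.R158.Nz399
open Crest.Agent.R158.Lr158
open Crest.Agent.R158.Xs932
open Crest.Agent.R158.Sw300 (Port)
open Crest.Agent.R158.Env664 (TG Mac D Band Run lowT upT mark mem_D div_iff nbc)
open Crest.Agent.R158.Rf896 (rB rA rz rp)
open Crest.Agent.R158.Fm857 (freeG mem_Jd JP DelP mkG mkP mouth SpP vertP mouthC mem_SpP mem_vertP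
  mem_mouthC)
open Crest.Agent.R158.Pt266 (dir FFree)
open Crest.Agent.R158.Tj656 (P4)
open Crest.Agent.R158.Hb656 (mt mk2)
open Crest.Agent.R158.Xp612 (V pg q0 q1 mir gF gT eF eT ga nxt XE XP q_near)
open Crest.Agent.R158.Xd841 (FarV Oth)

/-- band in a macroscopic row, far from its lines and from the middle height -/
structure NV {A : Finset (ℤ × ℤ)} (B : Band A) (L c D : ℤ) : Prop where
  D1 : 1 ≤ D
  hL : 2 * D + 8 ≤ L
  lo : c * L + D ≤ B.y1
  hi : B.y2 + D ≤ c * L + L
  hy : B.y1 < B.y2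
  half : B.y2 + D ≤ c * L + L / 2 ∨ c * L + L / 2 + D ≤ B.y1

/-! ### the marks -/

theorem mkG_eq (P : P4) (L : ℤ) (j : Fin 3) :
    mkG P L j = some (Sum.inl (mt P L j).1, (mt P L j).2) := by
  unfold mkG mkP
  rw [Hb656.mark_eq]
  rfl

theorem nbc_dir (t : ℤ × ℤ) (d : ZMod 4) : nbc t d = t + dir d := by
  obtain ⟨x, y⟩ := t
  rcases Lr158.z4 d with rfl | rfl | rfl | rfl
  · rw [dir0]; simp [nbc, sub_eq_add_neg]
  · rw [dir1, nbc, if_neg (by decide), if_pos rfl]; simp
  · rw [dir2, nbc, if_neg (by decide), if_neg (by decide), if_pos rfl]; simp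
  · rw [dir3, nbc, if_neg (by decide), if_neg (by decide), if_neg (by decide)]
    simp [sub_eq_add_neg]

/-- rows of the marks -/
theorem mt_row {P : P4} {L : ℤ} {A : Finset (ℤ × ℤ)} {B : Band A} {c D : ℤ} (hN : NV B L c D)
    (hev : Even L) (j : Fin 3) :
    (mt P L j).1.2 + D ≤ B.y1 ∨ B.y2 + D - 1 ≤ (mt P L j).1.2 := by
  obtain ⟨h1, h2, h3, h4, h5, h6⟩ := hN
  obtain ⟨m, rfl⟩ := hev
  have e2 : (m + m) / 2 = m := by omega
  rw [e2] at h6
  unfold Hb656.mt mk2
  rw [e2]
  generalize P.cc j = q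
  obtain ⟨⟨u, v⟩, d⟩ := q
  have key : (v * (m + m) + (m + m) ≤ c * (m + m)) ∨ v = c ∨ c * (m + m) + (m + m) ≤ v * (m + m) := by
    rcases lt_trichotomy v c with h | h | h
    · left; nlinarith
    · right; left; exact h
    · right; right; nlinarith
  simp only
  rcases key with h | rfl | h
  · left; split_ifs <;> simp only <;> omega
  · split_ifs <;> simp only <;> omega
  · right; split_ifs <;> simp only <;> omega

/-- **the marks are free ends of `G^(z)`** -/
theorem mt_freeG {P : P4} {L : ℤ} {B : Band (D P.F L)} {c D' : ℤ} (hN : NV B L c D') (hev : Even L)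
    (j : Fin 3) : (some (Sum.inl (mt P L j).1, (mt P L j).2) : Port TG) ∈ freeG B := by
  have hL := hN.hL
  have hD := hN.D1
  obtain ⟨h1, h2⟩ := Hw949.mt_out (P := P) (L := L) (by omega) hev j
  refine mem_freeG'.2 (Or.inl ⟨_, _, rfl, ⟨h1, ?_⟩, ?_⟩)
  · have : (mt P L j).1 + dir (mt P L j).2 = Hw949.nt (mt P L j) := (nbc_dir _ _).symm
    rw [this]
    exact h2
  · rintro ⟨⟨h3, h4⟩, -⟩
    have key : ∀ t : ℤ × ℤ, (t.2 + D' ≤ B.y1 ∨ B.y2 + D' - 1 ≤ t.2) → B.y1 ≤ t.2 →
        t.2 + 1 ≤ B.y2 → False := by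
      intro t
      omega
    exact key _ (mt_row (P := P) hN hev j) h3 h4

theorem mkG_free {P : P4} {L : ℤ} {B : Band (D P.F L)} {c D' : ℤ} (hN : NV B L c D')
    (hev : Even L) (j : Fin 3) : mkG P L j ∈ freeG B := by
  rw [mkG_eq]
  exact mt_freeG hN hev j

/-- **158's `Mks` for the literal family** -/
theorem mks_JP {P : P4} {L : ℤ} {δ : ℝ} {B : Band (D P.F L)} {c D' : ℤ} (hN : NV B L c D')
    (hev : Even L) {e : Option (Port TG)} (he : e ∈ Finset.insertNone (JP P L δ B)) :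
    Mks B (mkG P L 0) (mkG P L 1) e :=
  ⟨mkG_free hN hev 0, mkG_free hN hev 1, free_JP he⟩

theorem pla_mkG (P : P4) (L : ℤ) (j : Fin 3) : Pla (mkG P L j) := ⟨_, _, mkG_eq P L j⟩

/-! ### distances -/

/-- the tile `t` is far from the macroscopic vertices and from the mouth corners -/
def FarT (L xl xr y1 D : ℤ) (t : ℤ × ℤ) : Prop :=
  (∀ i j : ℤ, D ≤ |t.1 - L * i| ∨ D ≤ |t.2 - L * j|) ∧
    (D ≤ |t.1 - xl| ∨ D ≤ |t.2 - y1|) ∧ (D ≤ |t.1 - (xr + 1)| ∨ D ≤ |t.2 - y1|)

theorem le_abs_iff {a b : ℤ} : a ≤ |b| ↔ a ≤ b ∨ a ≤ -b := le_abs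

/-- small changes -/
theorem FarT.near {L xl xr y1 D : ℤ} {t t' : ℤ × ℤ} (h : FarT L xl xr y1 (D + 1) t)
    (h1 : |t'.1 - t.1| ≤ 1) (h2 : |t'.2 - t.2| ≤ 1) : FarT L xl xr y1 D t' := by
  rw [abs_le] at h1 h2
  obtain ⟨a1, a2, a3⟩ := h
  refine ⟨fun i j => ?_, ?_, ?_⟩
  · have := a1 i j
    generalize L * i = u at *
    generalize L * j = v at *
    simp only [le_abs_iff] at this ⊢
    omega
  · simp only [le_abs_iff] at a2 ⊢
    omega
  · simp only [le_abs_iff] at a3 ⊢
    omega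

/-- reflection -/
theorem farT_rz {L xl xr y2 D : ℤ} {t : ℤ × ℤ} (h : FarT L xl xr y2 (D + 1) t) :
    FarT L xl xr (-y2) D (rz t) := by
  obtain ⟨a1, a2, a3⟩ := h
  have e1 : (rz t).1 = t.1 := rfl
  have e2 : (rz t).2 = -t.2 - 1 := rfl
  unfold FarT
  rw [e1, e2]
  refine ⟨fun i j => ?_, ?_, ?_⟩
  · have := a1 i (-j)
    rw [mul_neg] at this
    generalize L * i = u at *
    generalize L * j = v at *
    simp only [le_abs_iff] at this ⊢
    omega
  · simp only [le_abs_iff] at a2 ⊢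
    omega
  · simp only [le_abs_iff] at a3 ⊢
    omega

/-- **the marks are far from the vertices and from the mouths** -/
theorem farT_mark {P : P4} {L : ℤ} {A : Finset (ℤ × ℤ)} {B : Band A} {c D : ℤ} (hN : NV B L c D)
    (hev : Even L) (j : Fin 3) {xl xr y : ℤ} (hy : y = B.y1 ∨ y = B.y2) :
    FarT L xl xr y (D - 1) (mt P L j).1 := by
  have h0 := mt_row (P := P) hN hev j
  obtain ⟨h1, h2, h3, h4, h5, h6⟩ := hN
  refine ⟨fun i k => ?_, Or.inr ?_, Or.inr ?_⟩
  · obtain ⟨m, rfl⟩ := hev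
    have e2 : (m + m) / 2 = m := by omega
    unfold Hb656.mt mk2
    rw [e2]
    generalize P.cc j = q
    obtain ⟨⟨u, v⟩, d⟩ := q
    have key : ∀ w i : ℤ, m - 1 ≤ |w * (m + m) + m - (m + m) * i| ∧
        m - 1 ≤ |w * (m + m) + m - 1 - (m + m) * i| := by
      intro w i
      simp only [le_abs_iff]
      rcases lt_or_ge w i with h | h
      · constructor <;> right <;> nlinarith
      · constructor <;> left <;> nlinarith
    obtain ⟨k1, k2⟩ := key u i
    obtain ⟨k3, k4⟩ := key v k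
    split_ifs
    · right; simp only; omega
    · left; simp only; omega
    · right; simp only; omega
    · left; simp only; omega
  · rw [le_abs_iff]; rcases hy with rfl | rfl <;> omega
  · rw [le_abs_iff]; rcases hy with rfl | rfl <;> omega

/-- **the planar members are far from the vertices and from the mouths** -/
theorem farT_e {P : P4} {L : ℤ} {δ : ℝ} {B : Band (D P.F L)} {D' : ℤ} (h0 : 0 ≤ D')
    (hL : D' + 1 ≤ L) (hD : D' + 1 ≤ DelP L δ) {t : ℤ × ℤ} {d : ZMod 4}
    (he : (some (Sum.inl t, d) : Port TG) ∈ JP P L δ B) {y : ℤ} (hy : y = B.y1 ∨ y = B.y2) :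
    FarT L B.xl B.xr y D' t := by
  obtain ⟨h1, -, h2⟩ := (mem_Jd B).1 he
  have hL0 : 0 < L := by omega
  have ht : t ∈ D P.F L := by
    rcases mem_freeG'.1 h1 with ⟨t', d', k1, k2, -⟩ | ⟨i, -, -, k1⟩ | ⟨i, -, -, k1⟩
    · simp only [Option.some.injEq, Prod.mk.injEq, Sum.inl.injEq] at k1
      rw [k1.1]
      exact k2.1
    · simp at k1
    · simp at k1
  have h3 : ∀ v ∈ SpP P L B, DelP L δ ≤ |t.1 - v.1| ∨ DelP L δ ≤ |t.2 - v.2| := h2
  refine ⟨fun i k => ?_, ?_, ?_⟩
  · rw [mem_D hL0] at ht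
    obtain ⟨a1, a2⟩ := (div_iff hL0 t.1 (t.1 / L)).1 rfl
    obtain ⟨a3, a4⟩ := (div_iff hL0 t.2 (t.2 / L)).1 rfl
    by_contra hcon
    push Not at hcon
    obtain ⟨c1, c2⟩ := hcon
    rw [abs_lt] at c1 c2
    have i1 : i = t.1 / L ∨ i = t.1 / L + 1 := by
      have b1 : t.1 / L - 1 < i := by
        by_contra hh
        have : i ≤ t.1 / L - 1 := by omega
        nlinarith
      have b2 : i < t.1 / L + 2 := by
        by_contra hh
        have : t.1 / L + 2 ≤ i := by omega
        nlinarith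
      omega
    have k1 : k = t.2 / L ∨ k = t.2 / L + 1 := by
      have b1 : t.2 / L - 1 < k := by
        by_contra hh
        have : k ≤ t.2 / L - 1 := by omega
        nlinarith
      have b2 : k < t.2 / L + 2 := by
        by_contra hh
        have : t.2 / L + 2 ≤ k := by omega
        nlinarith
      omega
    have hv : (i * L, k * L) ∈ SpP P L B := by
      refine mem_SpP.2 (Or.inl (mem_vertP.2 ⟨_, ht, ?_⟩))
      rcases i1 with rfl | rfl <;> rcases k1 with rfl | rfl
      · exact Or.inl rfl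
      · exact Or.inr (Or.inr (Or.inl rfl))
      · exact Or.inr (Or.inl rfl)
      · exact Or.inr (Or.inr (Or.inr rfl))
    have h4 := h3 _ hv
    have e1 : L * i = i * L := mul_comm _ _
    have e2 : L * k = k * L := mul_comm _ _
    simp only [le_abs_iff] at h4
    omega
  · rcases hy with rfl | rfl
    · have h4 := h3 (B.xl, B.y1) (mem_SpP.2 (Or.inr (Or.inr (mem_mouthC.2 (Or.inl rfl)))))
      simp only [le_abs_iff] at h4 ⊢
      omega
    · have h4 := h3 (B.xl, B.y2 - 1)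
        (mem_SpP.2 (Or.inr (Or.inr (mem_mouthC.2 (Or.inr (Or.inl rfl))))))
      simp only [le_abs_iff] at h4 ⊢
      omega
  · rcases hy with rfl | rfl
    · have h4 := h3 (B.xr, B.y1)
        (mem_SpP.2 (Or.inr (Or.inr (mem_mouthC.2 (Or.inr (Or.inr (Or.inl rfl)))))))
      simp only [le_abs_iff] at h4 ⊢
      omega
    · have h4 := h3 (B.xr, B.y2 - 1)
        (mem_SpP.2 (Or.inr (Or.inr (mem_mouthC.2 (Or.inr (Or.inr (Or.inr rfl)))))))
      simp only [le_abs_iff] at h4 ⊢
      omega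

/-! ### location of the planar points -/

/-- vertices of the mirrored ends -/
theorem farV_of {A : Half} {L : ℤ} {ρ : ℕ} {X : V × ZMod 4}
    (h : FarT L A.xl A.xr A.y1 (8 * ρ + 1) X.1) : FarV A L (8 * ρ) (q0 (mir A X)) := by
  obtain ⟨⟨⟨n1, n2⟩, n3, n4⟩, -⟩ := q_near (mir A X)
  obtain ⟨a1, a2, a3⟩ := h
  have e1 : (mir A X).1.1 = X.1.1 := rfl
  have e2 : (mir A X).1.2 = 2 * A.y0 - 1 - X.1.2 := rfl
  rw [e1] at n1 n2
  rw [e2] at n3 n4
  refine ⟨?_, ?_⟩
  · rintro ⟨p1, p2⟩ ⟨⟨i, hi⟩, k, hk⟩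
    simp only at hi hk
    have := a1 i k
    rw [← hi, ← hk] at this
    simp only [le_abs_iff] at this ⊢
    omega
  · rintro p (rfl | rfl)
    · simp only [le_abs_iff] at a2 ⊢
      omega
    · simp only [le_abs_iff] at a3 ⊢
      omega

theorem ga_near (u : Bool) (X : V × ZMod 4) :
    |(ga u X).1.1 - X.1.1| ≤ 1 ∧ |(ga u X).1.2 - X.1.2| ≤ 1 := by
  cases u
  · simp [ga]
  · have e1 : (ga true X).1.1 = X.1.1 + (dir (X.2 + 1)).1 := rfl
    have e2 : (ga true X).1.2 = X.1.2 + (dir (X.2 + 1)).2 := rfl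
    have hd := dir_bd (X.2 + 1)
    rw [e1, e2, abs_le, abs_le]
    omega

/-- **location of the planar points of XM** -/
theorem oth_XP {A : Half} {L : ℤ} {ρ : ℕ} {u : Bool} {X1 X2 : V × ZMod 4} {e : Option (Port TG)}
    (h1 : FarT L A.xl A.xr A.y1 (8 * ρ + 2) X1.1) (h2 : FarT L A.xl A.xr A.y1 (8 * ρ + 2) X2.1)
    (he : ∀ t d, e = some (some (Sum.inl t, d)) → FarT L A.xl A.xr A.y1 (8 * ρ + 1) t) :
    ∀ x ∈ XP A u X1 X2 e, Oth A L ρ x := by
  have key : ∀ X : V × ZMod 4, FarT L A.xl A.xr A.y1 (8 * ρ + 2) X.1 →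
      Oth A L ρ (gT A (ga u X)) := by
    intro X hX
    refine Or.inr (Or.inl ⟨Or.inl rfl, farV_of ?_⟩)
    have h3 := ga_near u X
    refine FarT.near (t := X.1) ?_ h3.1 h3.2
    have : (8 * (ρ : ℤ) + 1 + 1) = 8 * ρ + 2 := by ring
    rw [this]
    exact hX
  intro x hx
  unfold XP at hx
  rw [Finset.mem_union, Finset.mem_union] at hx
  rcases hx with hx | hx | hx
  · split_ifs at hx
    · rw [Finset.mem_singleton.1 hx]; exact key _ h1
    · exact absurd hx (Finset.notMem_empty _)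
  · split_ifs at hx
    · rw [Finset.mem_singleton.1 hx]; exact Or.inl rfl
    · rw [Finset.mem_singleton.1 hx]; exact key _ h2
    · exact absurd hx (Finset.notMem_empty _)
  · rcases e with _ | _ | ⟨t | ⟨j, y⟩, d⟩
    · exact absurd hx (Finset.notMem_empty _)
    · exact absurd hx (Finset.notMem_empty _)
    · simp only [XE] at hx
      split_ifs at hx
      · rw [Finset.mem_insert, Finset.mem_singleton] at hx
        rcases hx with rfl | rfl
        · exact Or.inl rfl
        · exact Or.inr (Or.inl ⟨Or.inl rfl, farV_of (he t d rfl)⟩)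
      · exact absurd hx (Finset.notMem_empty _)
    · exact absurd hx (Finset.notMem_empty _)

end Crest.Agent.R158.Xa932
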