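import Crest.Agent.R158.Xp3_612
import Crest.Agent.R158.Xd2_841

/-!
# R158, NormP (helper612): planar special points of the marks, part 4

* `Pts F L B r s X1 X2 e` : the two marks and the end are far from the corners and from one another
* **`ok_low`, `ok_up`** : the planar special points are admissible (`SpOk`)
* **`dis_XP`, `dis_low`, `dis_up`** : their supports are disjoint
-/

set_option autoImplicit false

noncomputable section

namespace Crest.Agent.R158.Xp612

open Crest.Agent.R158.Nm211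
open Crest.Agent.R158.Ka470
open Crest.Agent.R158.Nz399
open Crest.Agent.R158.Lr158
open Crest.Agent.R158.Xd841
open Crest.Agent.R158.Pt266 (dir FFree nx_flat)
open Crest.Agent.R158.Env664 (TG Mac D mem_D div_iff Run CutAdj Adj4 lowT upT Band)
open Crest.Agent.R158.Sw300 (Port)
open Crest.Agent.R158.Fm857 (freeG mouthC mem_mouthC)
open Crest.Agent.R158.Rf896 (rA rB rz rp)

/-- sup-distance of two tiles -/
def Ds (s : ℤ) (t u : V) : Prop := s ≤ |t.1 - u.1| ∨ s ≤ |t.2 - u.2|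

theorem Ds.symm {s : ℤ} {t u : V} (h : Ds s t u) : Ds s u t := by
  unfold Ds at *
  rwa [abs_sub_comm u.1, abs_sub_comm u.2]

theorem Ds.mono {s s' : ℤ} {t u : V} (h : Ds s t u) (hs : s' ≤ s) : Ds s' t u := by
  unfold Ds at *
  omega

theorem Ds.rz {s : ℤ} {t u : V} (h : Ds s t u) : Ds s (rz t) (rz u) := by
  unfold Ds Rf896.rz at *
  simp only
  have e1 : -t.2 - 1 - (-u.2 - 1) = -(t.2 - u.2) := by ring
  rwa [e1, abs_neg]

/-- **positions of the marks and of the end** -/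
structure Pts (F : Finset V) (L : ℤ) (B : Band (D F L)) (r s : ℤ) (X1 X2 : V × ZMod 4)
    (e : Option (Port TG)) : Prop where
  f1 : FarX F L B r X1
  f2 : FarX F L B r X2
  fe : ∀ t d, e = some (some (Sum.inl t, d)) → FarX F L B r (t, d)
  ge : ∀ e' ∈ e, e' ∈ freeG B
  d12 : Ds s X1.1 X2.1
  d1 : ∀ t d, e = some (some (Sum.inl t, d)) → Ds s X1.1 t
  d2 : ∀ t d, e = some (some (Sum.inl t, d)) → Ds s X2.1 t

theorem off_of {n s : ℤ} {X Y : V × ZMod 4} (h : Ds s X.1 Y.1) (hn : n < s) : Off n X (pD Y) := by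
  intro i hi hc
  have h1 := pD_inj hc
  obtain ⟨k1, k2⟩ := near_wp X i
  rw [← h1, abs_sub_comm] at k1 k2
  rcases h with h | h <;> omega

theorem off_e {n s : ℤ} {X : V × ZMod 4} {e' : Port TG}
    (h : ∀ t d, e' = some (Sum.inl t, d) → Ds s X.1 t) (hn : n < s) : Off n X e' := by
  intro i hi hc
  have h1 := h _ _ hc
  obtain ⟨k1, k2⟩ := near_wp X i
  rw [abs_sub_comm] at k1 k2
  rcases h1 with h1 | h1 <;> omega

section

variable {M : Mac} {L a b c : ℤ} {B : Band (D M.F L)} {b' : ℤ} {r s : ℤ}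
  {X1 X2 : V × ZMod 4} {e : Option (Port TG)}

theorem freeG_of {A : Finset V} {B : Band A} {r : ℤ} {X : V × ZMod 4} (h : FlatD B r X)
    (hr : 1 ≤ r) : pD X ∈ freeG B := by
  have := (h.free (j := 0) (by simpa using hr)).1
  rwa [wp_zero] at this

/-- **the planar special points of the lower half are admissible** -/
theorem ok_low (m : MB M L a b c B) {y0 : ℤ} (h1 : B.y1 < y0) (h2 : y0 ≤ B.y2) {ρ : ℕ}
    (h : (lowHalf (lb_low m h1 h2).d).Sz ρ) (hr : 5 * (ρ : ℤ) + 1 ≤ r)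
    (g1 : c * L + r < B.y1) (g2 : B.y2 + r < c * L + L) (hs : 3 * (ρ : ℤ) < s)
    (P : Pts M.F L B r s X1 X2 e) (cl : ℤ) :
    ∀ x ∈ XP (lowHalf (lb_low m h1 h2).d) false X1 X2 e,
      SpOk h (Cg (ccF B b' (pD X1) (pD X2) e) cl h) x := by
  obtain ⟨w, l, hw⟩ := mb_bw m
  have hy : B.y1 < B.y2 := by omega
  have hr1 : 1 ≤ r := by omega
  have F1 := flatD_of m hr1 g1 g2 P.f1
  have F2 := flatD_of m hr1 g1 g2 P.f2
  have G1 := freeG_of F1 hr1
  have G2 := freeG_of F2 hr1
  intro x hx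
  unfold XP at hx
  rw [Finset.mem_union, Finset.mem_union] at hx
  rcases hx with hx | hx | hx
  · split_ifs at hx with hH
    · rw [Finset.mem_singleton.1 hx]
      exact gT_ok hr (flatW_low m h1 h2 F1 hH) (prof_m1 hw hy F1 (by omega) G2 P.ge
        (off_of P.d12 hs) (fun e' he' => off_e (fun t d ht => P.d1 t d (by
          rw [Option.mem_def] at he'; rw [he', ht])) hs) G1)
    · exact absurd hx (Finset.notMem_empty _)
  · split_ifs at hx with hH he
    · rw [Finset.mem_singleton.1 hx]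
      subst he
      exact gF_ok hr (flatW_low m h1 h2 F2 hH) (prof_none hw hy F2 (by omega) G1
        (off_of P.d12.symm hs) G2)
    · rw [Finset.mem_singleton.1 hx]
      obtain ⟨e', rfl⟩ := Option.ne_none_iff_exists'.1 he
      exact gT_ok hr (flatW_low m h1 h2 F2 hH) (prof_m2 hw hy F2 (by omega) G1
        (P.ge e' rfl) (off_of P.d12.symm hs) (off_e (fun t d ht => P.d2 t d (by rw [ht])) hs) G2)
    · exact absurd hx (Finset.notMem_empty _)
  · rcases e with _ | _ | ⟨t | ⟨j, y⟩, d⟩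
    · exact absurd hx (Finset.notMem_empty _)
    · exact absurd hx (Finset.notMem_empty _)
    · simp only [XE] at hx
      split_ifs at hx with hH
      · have F3 := flatD_of m hr1 g1 g2 (P.fe t d rfl)
        have G3 := freeG_of F3 hr1
        have Pe := prof_e (b' := b') (n := 3 * (ρ : ℤ)) hw hy F3 (by omega) G1 G2
          (off_of (Y := X1) (P.d1 t d rfl).symm hs) (off_of (Y := X2) (P.d2 t d rfl).symm hs) G3
        have W3 := flatW_low m h1 h2 F3 hH
        rw [Finset.mem_insert, Finset.mem_singleton] at hx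
        rcases hx with rfl | rfl
        · exact eF_ok hr W3 Pe
        · exact eT_ok hr W3 Pe
      · exact absurd hx (Finset.notMem_empty _)
    · exact absurd hx (Finset.notMem_empty _)

theorem map_rp_eq {t : V} {d : ZMod 4} (h : e.map rp = some (some (Sum.inl t, d))) :
    e = some (some (Sum.inl (rz t), -d)) := by
  rcases e with _ | _ | ⟨t' | ⟨j, y⟩, d'⟩
  · exact absurd h (by simp)
  · have : (some none : Option (Port TG)) = some (some (Sum.inl t, d)) := h
    simp at this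
  · have h' : (some (some (Sum.inl (rz t'), -d')) : Option (Port TG)) =
      some (some (Sum.inl t, d)) := h
    simp only [Option.some.injEq, Prod.mk.injEq, Sum.inl.injEq] at h'
    obtain ⟨rfl, rfl⟩ := h'
    rw [Rf896.rz_rz, neg_neg]
  · have h' : (some (some (Sum.inr _, -d')) : Option (Port TG)) = some (some (Sum.inl t, d)) := h
    simp at h'

/-- **the planar special points of the reflected upper half are admissible** -/
theorem ok_up (m : MB M L a b c B) {y0 : ℤ} (h1 : -B.y2 < y0) (h2 : y0 ≤ -B.y1) {ρ : ℕ}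
    (h : (lowHalf (lb_up m h1 h2).d).Sz ρ) (hr : 5 * (ρ : ℤ) + 2 ≤ r)
    (g1 : c * L + r < B.y1) (g2 : B.y2 + r < c * L + L) (hs : 3 * (ρ : ℤ) + 1 < s)
    (P : Pts M.F L B r s X1 X2 e) (cl : ℤ) :
    ∀ x ∈ XP (lowHalf (lb_up m h1 h2).d) true (rX X1) (rX X2) (e.map rp),
      SpOk h (Cg (ccU B b' (pD X1) (pD X2) e) cl h) x := by
  obtain ⟨w, l, hw⟩ := mb_bw m
  have hy : B.y1 < B.y2 := by omega
  have hr1 : 1 ≤ r := by omega
  have F1 := flatD_of m hr1 g1 g2 P.f1
  have F2 := flatD_of m hr1 g1 g2 P.f2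
  have G1 := freeG_of F1 hr1
  have G2 := freeG_of F2 hr1
  have sh : ∀ X : V × ZMod 4, FlatD B r X → (rX X).1 ∈ (lowHalf (lb_up m h1 h2).d).H →
      FlatW (lowHalf (lb_up m h1 h2).d) (5 * ρ + 1) (nxt (rX X)) := by
    intro X F hH
    have := (flatW_up m h1 h2 F hH).shift 1
    rw [wp_one] at this
    exact this.mono (by simp; omega)
  intro x hx
  unfold XP at hx
  rw [Finset.mem_union, Finset.mem_union] at hx
  rcases hx with hx | hx | hx
  · split_ifs at hx with hH
    · rw [Finset.mem_singleton.1 hx]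
      exact gT_ok le_rfl (sh X1 F1 hH) (prof_up (by positivity)
        (prof_m1 hw hy F1 (by omega) G2 P.ge
        (off_of P.d12 hs) (fun e' he' => off_e (fun t d ht => P.d1 t d (by
          rw [Option.mem_def] at he'; rw [he', ht])) hs) G1))
    · exact absurd hx (Finset.notMem_empty _)
  · split_ifs at hx with hH he
    · rw [Finset.mem_singleton.1 hx]
      rw [Option.map_eq_none_iff] at he
      subst he
      exact gF_ok le_rfl (sh X2 F2 hH) (prof_up (by positivity)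
        (prof_none hw hy F2 (by omega) G1 (off_of P.d12.symm hs) G2))
    · rw [Finset.mem_singleton.1 hx]
      rw [Option.map_eq_none_iff] at he
      obtain ⟨e', rfl⟩ := Option.ne_none_iff_exists'.1 he
      exact gT_ok le_rfl (sh X2 F2 hH) (prof_up (by positivity)
        (prof_m2 hw hy F2 (by omega) G1
        (P.ge e' rfl) (off_of P.d12.symm hs) (off_e (fun t d ht => P.d2 t d (by rw [ht])) hs) G2))
    · exact absurd hx (Finset.notMem_empty _)
  · rcases e with _ | _ | ⟨t | ⟨j, y⟩, d⟩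
    · exact absurd hx (Finset.notMem_empty _)
    · exact absurd hx (Finset.notMem_empty _)
    · have hx' : x ∈ (if (rX (t, d)).1 ∈ (lowHalf (lb_up m h1 h2).d).H then
          {eF (rX (t, d)), eT (lowHalf (lb_up m h1 h2).d) (rX (t, d))} else ∅ : Finset Sp) := hx
      split_ifs at hx' with hH
      · have F3 := flatD_of m hr1 g1 g2 (P.fe t d rfl)
        have G3 := freeG_of F3 hr1
        have Pe := prof_e (b' := b') (n := 3 * (ρ : ℤ)) hw hy F3 (by omega) G1 G2
          (off_of (Y := X1) (P.d1 t d rfl).symm (by omega))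
          (off_of (Y := X2) (P.d2 t d rfl).symm (by omega)) G3
        have W3 := flatW_up m h1 h2 F3 hH
        rw [Finset.mem_insert, Finset.mem_singleton] at hx'
        rcases hx' with rfl | rfl
        · exact eF_ok (by omega) W3 (prof_e_up Pe)
        · exact eT_ok (by omega) W3 (prof_e_up Pe)
      · exact absurd hx' (Finset.notMem_empty _)
    · exact absurd hx (Finset.notMem_empty _)

end

/-! ### disjoint supports -/

theorem sep01 {A : Half} {N : ℤ} {i j : Fin 4} {p q : V} (hi : i = 0 ∨ i = 1) (hj : j = 0 ∨ j = 1)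
    (h : i = j → Apart N p q) : Sep A N i j p q := by
  rcases hi with rfl | rfl <;> rcases hj with rfl | rfl
  · exact h rfl
  · trivial
  · trivial
  · exact h rfl

theorem ga_close (u : Bool) (X : V × ZMod 4) :
    |(ga u X).1.1 - X.1.1| ≤ 1 ∧ |(ga u X).1.2 - X.1.2| ≤ 1 := by
  cases u
  · simp [ga]
  · have := near_wp X 1
    rw [wp_one] at this
    simpa [ga] using this

theorem Ds.ga {s : ℤ} {X : V × ZMod 4} {t : V} (h : Ds s X.1 t) (u : Bool) :
    Ds (s - 1) (ga u X).1 t := by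
  obtain ⟨k1, k2⟩ := ga_close u X
  unfold Ds at *
  rw [abs_le] at k1 k2
  rw [le_abs, le_abs] at *
  omega

theorem apart_F {s N : ℤ} {X Y : V × ZMod 4} (h : Ds s X.1 Y.1) (hN : 2 * N + 1 ≤ s) :
    Apart N (q0 X) (q0 Y) := by
  obtain ⟨⟨a1, a2⟩, -⟩ := q_near X
  obtain ⟨⟨b1, b2⟩, -⟩ := q_near Y
  unfold Ds at h
  unfold Apart
  rw [le_abs, le_abs] at *
  omega

theorem apart_T {A : Half} {s N : ℤ} {X Y : V × ZMod 4} (h : Ds s X.1 Y.1)
    (hN : 2 * N + 1 ≤ s) : Apart N (q0 (mir A X)) (q0 (mir A Y)) := by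
  refine apart_F (s := s) ?_ hN
  have e1 : (mir A X).1.1 = X.1.1 := rfl
  have e2 : (mir A X).1.2 = 2 * A.y0 - 1 - X.1.2 := rfl
  have e3 : (mir A Y).1.1 = Y.1.1 := rfl
  have e4 : (mir A Y).1.2 = 2 * A.y0 - 1 - Y.1.2 := rfl
  unfold Ds at *
  rw [e1, e2, e3, e4]
  have e5 : 2 * A.y0 - 1 - X.1.2 - (2 * A.y0 - 1 - Y.1.2) = -(X.1.2 - Y.1.2) := by ring
  rwa [e5, abs_neg]

/-- members of `XP` -/
theorem XP_cases {A : Half} {u : Bool} {X1 X2 : V × ZMod 4} {e : Option (Port TG)} {x : Sp}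
    (hx : x ∈ XP A u X1 X2 e) : x = gT A (ga u X1) ∨ (e = none ∧ x = gF (ga u X2)) ∨
      (e ≠ none ∧ x = gT A (ga u X2)) ∨
      ∃ t d, e = some (some (Sum.inl t, d)) ∧ (x = eF (t, d) ∨ x = eT A (t, d)) := by
  unfold XP at hx
  rw [Finset.mem_union, Finset.mem_union] at hx
  rcases hx with hx | hx | hx
  · split_ifs at hx
    · exact Or.inl (Finset.mem_singleton.1 hx)
    · exact absurd hx (Finset.notMem_empty _)
  · split_ifs at hx with _ he
    · exact Or.inr (Or.inl ⟨he, Finset.mem_singleton.1 hx⟩)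
    · exact Or.inr (Or.inr (Or.inl ⟨he, Finset.mem_singleton.1 hx⟩))
    · exact absurd hx (Finset.notMem_empty _)
  · rcases e with _ | _ | ⟨t | ⟨j, y⟩, d⟩
    · exact absurd hx (Finset.notMem_empty _)
    · exact absurd hx (Finset.notMem_empty _)
    · simp only [XE] at hx
      split_ifs at hx
      · rw [Finset.mem_insert, Finset.mem_singleton] at hx
        exact Or.inr (Or.inr (Or.inr ⟨t, d, rfl, hx⟩))
      · exact absurd hx (Finset.notMem_empty _)
    · exact absurd hx (Finset.notMem_empty _)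

/-- **the supports of the planar special points are disjoint** -/
theorem dis_XP {A : Half} {ρ : ℕ} (h : A.Sz ρ) {u : Bool} {X1 X2 : V × ZMod 4}
    {e : Option (Port TG)} {s : ℤ} (hs : 6 * (ρ : ℤ) + 8 ≤ s)
    (hin : ∀ x ∈ XP A u X1 X2 e, x.In h (3 * ρ)) (d12 : Ds s X1.1 X2.1)
    (d1 : ∀ t d, e = some (some (Sum.inl t, d)) → Ds s X1.1 t)
    (d2 : ∀ t d, e = some (some (Sum.inl t, d)) → Ds s X2.1 t) :
    ∀ x ∈ XP A u X1 X2 e, ∀ y ∈ XP A u X1 X2 e, x ≠ y →
      Disjoint (x.sup h (3 * ρ)) (y.sup h (3 * ρ)) := by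
  have k12 : Apart (3 * (ρ : ℤ) + 1) (q0 (mir A (ga u X1))) (q0 (mir A (ga u X2))) := by
    refine apart_T (s := s - 1 - 1) ?_ (by omega)
    exact ((d12.ga u).symm.ga u).symm
  have k1 : ∀ t d, e = some (some (Sum.inl t, d)) →
      Apart (3 * (ρ : ℤ) + 1) (q0 (mir A (ga u X1))) (q0 (mir A (t, d))) := fun t d ht =>
    apart_T (s := s - 1) ((d1 t d ht).ga u) (by omega)
  have k2 : ∀ t d, e = some (some (Sum.inl t, d)) →
      Apart (3 * (ρ : ℤ) + 1) (q0 (mir A (ga u X2))) (q0 (mir A (t, d))) := fun t d ht =>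
    apart_T (s := s - 1) ((d2 t d ht).ga u) (by omega)
  intro x hx y hy hne
  refine dis_gen' h (hin x hx) (hin y hy) ?_
  have e3 : (((3 * ρ : ℕ) : ℤ) + 1) = 3 * (ρ : ℤ) + 1 := by push_cast; ring
  rw [e3]
  have n01 : (0 : Fin 4) ≠ 1 := by decide
  rcases XP_cases hx with rfl | ⟨he, rfl⟩ | ⟨he, rfl⟩ | ⟨t, d, ht, rfl | rfl⟩ <;>
    rcases XP_cases hy with rfl | ⟨he', rfl⟩ | ⟨he', rfl⟩ | ⟨t', d', ht', rfl | rfl⟩
  -- gT X1
  · exact absurd rfl hne
  · exact sep01 (Or.inr rfl) (Or.inl rfl) fun hc => absurd hc n01.symm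
  · exact sep01 (Or.inr rfl) (Or.inr rfl) fun _ => k12
  · exact sep01 (Or.inr rfl) (Or.inl rfl) fun hc => absurd hc n01.symm
  · exact sep01 (Or.inr rfl) (Or.inr rfl) fun _ => k1 _ _ ht'
  -- gF X2
  · exact sep01 (Or.inl rfl) (Or.inr rfl) fun hc => absurd hc n01
  · exact absurd rfl hne
  · exact absurd he he'
  · rw [he] at ht'; exact absurd ht' (by simp)
  · rw [he] at ht'; exact absurd ht' (by simp)
  -- gT X2
  · exact sep01 (Or.inr rfl) (Or.inr rfl) fun _ => k12.symm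
  · exact absurd he' he
  · exact absurd rfl hne
  · exact sep01 (Or.inr rfl) (Or.inl rfl) fun hc => absurd hc n01.symm
  · exact sep01 (Or.inr rfl) (Or.inr rfl) fun _ => k2 _ _ ht'
  -- eF
  · exact sep01 (Or.inl rfl) (Or.inr rfl) fun hc => absurd hc n01
  · rw [he'] at ht; exact absurd ht (by simp)
  · exact sep01 (Or.inl rfl) (Or.inr rfl) fun hc => absurd hc n01
  · rw [ht] at ht'
    simp only [Option.some.injEq, Prod.mk.injEq, Sum.inl.injEq] at ht'
    obtain ⟨rfl, rfl⟩ := ht'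
    exact absurd rfl hne
  · exact sep01 (Or.inl rfl) (Or.inr rfl) fun hc => absurd hc n01
  -- eT
  · exact sep01 (Or.inr rfl) (Or.inr rfl) fun _ => (k1 _ _ ht).symm
  · rw [he'] at ht; exact absurd ht (by simp)
  · exact sep01 (Or.inr rfl) (Or.inr rfl) fun _ => (k2 _ _ ht).symm
  · exact sep01 (Or.inr rfl) (Or.inl rfl) fun hc => absurd hc n01.symm
  · rw [ht] at ht'
    simp only [Option.some.injEq, Prod.mk.injEq, Sum.inl.injEq] at ht'
    obtain ⟨rfl, rfl⟩ := ht'
    exact absurd rfl hne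

section

variable {M : Mac} {L a b c : ℤ} {B : Band (D M.F L)} {b' : ℤ} {r s : ℤ}
  {X1 X2 : V × ZMod 4} {e : Option (Port TG)}

/-- **disjoint supports, lower half** -/
theorem dis_low (m : MB M L a b c B) {y0 : ℤ} (h1 : B.y1 < y0) (h2 : y0 ≤ B.y2) {ρ : ℕ}
    (h : (lowHalf (lb_low m h1 h2).d).Sz ρ) (hr : 5 * (ρ : ℤ) + 1 ≤ r)
    (g1 : c * L + r < B.y1) (g2 : B.y2 + r < c * L + L) (hs : 6 * (ρ : ℤ) + 8 ≤ s)
    (P : Pts M.F L B r s X1 X2 e) :
    ∀ x ∈ XP (lowHalf (lb_low m h1 h2).d) false X1 X2 e,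
      ∀ y ∈ XP (lowHalf (lb_low m h1 h2).d) false X1 X2 e, x ≠ y →
      Disjoint (x.sup h (3 * ρ)) (y.sup h (3 * ρ)) :=
  dis_XP h hs (fun x hx => (ok_low (b' := 0) m h1 h2 h hr g1 g2 (by omega) P 0 x hx).in)
    P.d12 P.d1 P.d2

/-- **disjoint supports, reflected upper half** -/
theorem dis_up (m : MB M L a b c B) {y0 : ℤ} (h1 : -B.y2 < y0) (h2 : y0 ≤ -B.y1) {ρ : ℕ}
    (h : (lowHalf (lb_up m h1 h2).d).Sz ρ) (hr : 5 * (ρ : ℤ) + 2 ≤ r)
    (g1 : c * L + r < B.y1) (g2 : B.y2 + r < c * L + L) (hs : 6 * (ρ : ℤ) + 8 ≤ s)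
    (P : Pts M.F L B r s X1 X2 e) :
    ∀ x ∈ XP (lowHalf (lb_up m h1 h2).d) true (rX X1) (rX X2) (e.map rp),
      ∀ y ∈ XP (lowHalf (lb_up m h1 h2).d) true (rX X1) (rX X2) (e.map rp), x ≠ y →
      Disjoint (x.sup h (3 * ρ)) (y.sup h (3 * ρ)) := by
  refine dis_XP h hs (fun x hx => (ok_up (b' := 0) m h1 h2 h hr g1 g2 (by omega) P 0 x hx).in)
    P.d12.rz (fun t d ht => ?_) (fun t d ht => ?_)
  · have := (P.d1 _ _ (map_rp_eq ht)).rz
    rwa [Rf896.rz_rz] at this
  · have := (P.d2 _ _ (map_rp_eq ht)).rz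
    rwa [Rf896.rz_rz] at this

end

end Crest.Agent.R158.Xp612
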