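import Crest.Agent.R158.Xa2_932
import Crest.Agent.R158.Xp4_612

/-!
# R158, block Q1d, XAll (helper932), part 3: positions of the marks and of the member

* `pts_nums` : 612's `Pts` for the literal family
* `plAll` : `PlAll P`
-/

set_option autoImplicit false

noncomputable section

namespace Crest.Agent.R158.Xa932

open Crest.Agent.R158.Nm211
open Crest.Agent.R158.Ka470
open Crest.Agent.R158.Ka470.Half
open Crest.Agent.R158.Nz399
open Crest.Agent.R158.Lr158
open Crest.Agent.R158.Xs932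
open Crest.Agent.R158.Sw300 (Port)
open Crest.Agent.R158.Env664 (TG Mac D Band Run lowT upT mark mem_D div_iff nbc)
open Crest.Agent.R158.Rf896 (rB rA rz rp)
open Crest.Agent.R158.Fm857 (freeG mem_Jd JP DelP mkG mkP clow mouth mouthC mem_mouthC mem_SpP)
open Crest.Agent.R158.Pt266 (dir FFree)
open Crest.Agent.R158.Tj656 (P4)
open Crest.Agent.R158.Xp612 (V XP FarX Pts Ds)
open Crest.Agent.R158.Nn857 (Nums)

/-- planar members of `freeG` -/
theorem free_inv {A : Finset (ℤ × ℤ)} {B : Band A} {X : V × ZMod 4}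
    (h : (some (Sum.inl X.1, X.2) : Port TG) ∈ freeG B) : FFree A X ∧ ¬ mouth B (some X) := by
  rcases mem_freeG'.1 h with ⟨t, d, k1, k2, k3⟩ | ⟨i, -, -, k1⟩ | ⟨i, -, -, k1⟩
  · simp only [Option.some.injEq, Prod.mk.injEq, Sum.inl.injEq] at k1
    obtain ⟨rfl, rfl⟩ := k1
    exact ⟨k2, k3⟩
  · simp at k1
  · simp at k1

/-- `FarT` gives the distances of `FarX` -/
theorem farT_v {L xl xr y1 D r : ℤ} {t : V} (h : FarT L xl xr y1 D t) (hr : r < D) (p q : ℤ) :
    r < |t.1 - p * L| ∨ r < |t.2 - q * L| := by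
  have h1 := h.1 p q
  rw [mul_comm L p, mul_comm L q] at h1
  exact h1.imp (lt_of_lt_of_le hr) (lt_of_lt_of_le hr)

variable {P : P4} {a b c L : ℤ} {δ : ℝ} {B : Band (D P.F L)} {ρ κ : ℕ} {yl yu p z0 : ℤ} {a1 b1 : ℕ}

/-- the marks -/
theorem farX_mark (N : Nums P a b c L δ B ρ κ yl yu p z0 a1 b1) (hev : Even L) (j : Fin 3) :
    FarX P.F L B (5 * ρ + 2) (Hb656.mt P L j) := by
  have hV := nv_nums N
  obtain ⟨f1, f2⟩ := free_inv (mt_freeG (P := P) hV hev j)
  have h1 : (1 : ℤ) ≤ ρ := by exact_mod_cast N.ρ1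
  refine ⟨f1, f2, fun p q _ _ => farT_v (farT_mark (P := P) hV hev j (xl := B.xl) (xr := B.xr)
    (Or.inl rfl)) (by omega) p q, fun v hv => Or.inr ?_⟩
  have h2 := mt_row (P := P) hV hev j
  have h3 := hV.hy
  rw [lt_abs]
  rcases mem_mouthC.1 hv with rfl | rfl | rfl | rfl <;> simp only <;> omega

/-- the member -/
theorem farX_e (N : Nums P a b c L δ B ρ κ yl yu p z0 a1 b1) {t : V} {d : ZMod 4}
    (he : (some (Sum.inl t, d) : Port TG) ∈ JP P L δ B) : FarX P.F L B (5 * ρ + 2) (t, d) := by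
  have h1 : (1 : ℤ) ≤ ρ := by exact_mod_cast N.ρ1
  have h2 := N.L64
  have h3 := N.D64
  obtain ⟨k1, -, k2⟩ := (mem_Jd B).1 he
  obtain ⟨f1, f2⟩ := free_inv (X := (t, d)) k1
  have k3 : ∀ v ∈ Fm857.SpP P L B, DelP L δ ≤ |t.1 - v.1| ∨ DelP L δ ≤ |t.2 - v.2| := k2
  refine ⟨f1, f2, fun p q _ _ => farT_v (farT_e (D' := 8 * ρ) (by omega) (by omega) (by omega) he
    (Or.inl rfl)) (by omega) p q, fun v hv => ?_⟩
  have k4 := k3 v (mem_SpP.2 (Or.inr (Or.inr hv)))
  rcases k4 with k4 | k4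
  · left; simp only; omega
  · right; simp only; omega

/-- distance of the member to the marks -/
theorem ds_e (N : Nums P a b c L δ B ρ κ yl yu p z0 a1 b1) {t : V} {d : ZMod 4}
    (he : (some (Sum.inl t, d) : Port TG) ∈ JP P L δ B) (j : Fin 3) :
    Ds (6 * ρ + 8) (Hb656.mt P L j).1 t := by
  have h1 : (1 : ℤ) ≤ ρ := by exact_mod_cast N.ρ1
  have h3 := N.D64
  obtain ⟨-, -, k2⟩ := (mem_Jd B).1 he
  have k3 : ∀ v ∈ Fm857.SpP P L B, DelP L δ ≤ |t.1 - v.1| ∨ DelP L δ ≤ |t.2 - v.2| := k2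
  have e1 : (Hb656.mt P L j).1 = Fm857.tlP (mkP P L j) := by
    unfold mkP
    rw [Hb656.mark_eq]
    rfl
  have k4 := k3 _ (mem_SpP.2 (Or.inr (Or.inl ⟨j, rfl⟩)))
  rw [← e1] at k4
  refine Ds.symm ?_
  unfold Ds
  rcases k4 with k4 | k4
  · left; omega
  · right; omega

/-- **positions** -/
theorem pts_nums (N : Nums P a b c L δ B ρ κ yl yu p z0 a1 b1) (hev : Even L)
    {e : Option (Port TG)} (he : e ∈ Finset.insertNone (JP P L δ B)) :
    Pts P.F L B (5 * ρ + 2) (6 * ρ + 8) (Hb656.mt P L 0) (Hb656.mt P L 1) e := by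
  have h1 : (1 : ℤ) ≤ ρ := by exact_mod_cast N.ρ1
  have h2 := N.L64
  refine ⟨farX_mark N hev 0, farX_mark N hev 1, ?_, free_JP he, ?_, ?_, ?_⟩
  · rintro t d rfl
    exact farX_e N (Finset.some_mem_insertNone.1 he)
  · have h3 := Hw949.mt_dist P (L := L) (by omega) hev (i := 0) (j := 1) (by decide)
    refine Ds.mono (s := L / 2) ?_ (by omega)
    exact h3
  · rintro t d rfl
    exact ds_e N (Finset.some_mem_insertNone.1 he) 0
  · rintro t d rfl
    exact ds_e N (Finset.some_mem_insertNone.1 he) 1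

/-- **planar points of the literal family** -/
theorem plAll (P : P4) : PlAll P := by
  intro a b c L δ B ρ κ yl yu p z0 a1 b1 N hev e he
  have h1 : (1 : ℤ) ≤ ρ := by exact_mod_cast N.ρ1
  have h2 := N.L64
  have g1 : c * L + (5 * ρ + 2) < B.y1 := by
    have := N.c1
    omega
  have g2 : B.y2 + (5 * ρ + 2) < c * L + L := by
    have := N.c2
    omega
  have hP := pts_nums N hev he
  have e0 := mkG_eq P L 0
  have e1 := mkG_eq P L 1
  rw [e0, e1]
  refine ⟨⟨?_, ?_⟩, ⟨?_, ?_⟩⟩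
  · exact Xp612.ok_low (M := Mg949.mac P) N.mb N.l1 N.l2 N.szl.1 (by omega) g1 g2 (by omega) hP _
  · exact Xp612.dis_low (M := Mg949.mac P) N.mb N.l1 N.l2 N.szl.1 (by omega) g1 g2 (by omega) hP
  · exact Xp612.ok_up (M := Mg949.mac P) N.mb N.u1 N.u2 N.szu.1 (by omega) g1 g2 (by omega) hP _
  · exact Xp612.dis_up (M := Mg949.mac P) N.mb N.u1 N.u2 N.szu.1 (by omega) g1 g2 (by omega) hP

end Crest.Agent.R158.Xa932
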