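import Crest.Agent.R158.Xa3_932
import Crest.Agent.R158.Lr16_874

/-!
# R158, block Q1d, XAll (helper932), part 4: the special points of the literal family
-/

set_option autoImplicit false

namespace Crest.Agent.R158.Xa932

/-- **special points of the literal family** -/
theorem xall (P : Tj656.P4) : Nz399.XAll P := xall_of (Lr874.vc_all P) (plAll P)

end Crest.Agent.R158.Xa932
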