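import Crest.Agent.R158.Xa4_932
import Crest.Agent.R158.Nj5_107

/-!
# R158, block Q1d (helper932): **the norm bound for the literal family**
-/

set_option autoImplicit false

namespace Crest.Agent.R158.Xa932

/-- **NormP** -/
theorem normP (P : Tj656.P4) : Cs410.NormP Fm857.fz P := Nj107.normP_all xall P

end Crest.Agent.R158.Xa932
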