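import Crest.Agent.R158.Xp1_612
import Crest.Agent.R158.Lr7_158

/-!
# R158, NormP (helper612): planar special points of the marks, part 2

* `FlatD B r X` : near the end `X` the domain is a half plane, no tile of the band
* `flatW_of` : `FlatW` for `lowHalf`
* `cp_flat` : step of the charges along a flat wall
* `prof_m1`, `prof_m2`, `prof_none`, `prof_e` : profiles of the charges around the marks and the end
* `*_up` : the same for the reflected upper half
-/

set_option autoImplicit false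

noncomputable section

namespace Crest.Agent.R158.Xp612

open Crest.Agent.R158.Nm211
open Crest.Agent.R158.Ka470
open Crest.Agent.R158.Nz399
open Crest.Agent.R158.Lr158
open Crest.Agent.R158.Pt266 (dir FFree nx_flat)
open Crest.Agent.R158.Env664 (TG Mac D mem_D div_iff Run CutAdj Adj4 lowT upT Band)
open Crest.Agent.R158.Sw300 (Port)
open Crest.Agent.R158.Xr249 (full mem_lowT low_step)
open Crest.Agent.R158.Fm857 (freeG pG cp cb isLS)
open Crest.Agent.R158.Rf896 (rA rB rz rp mem_rA rz_rz)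

/-- **near the end `X` the domain is a half plane that contains no tile of the band** -/
structure FlatD {A : Finset V} (B : Band A) (r : ℤ) (X : V × ZMod 4) : Prop where
  p : ∀ u : V, |u.1 - X.1.1| ≤ r → |u.2 - X.1.2| ≤ r → (u ∈ A ↔ inner X u)
  nb : ∀ u : V, |u.1 - X.1.1| ≤ r → |u.2 - X.1.2| ≤ r →
    ¬ ((B.xl ≤ u.1 ∧ u.1 ≤ B.xr) ∧ B.y1 ≤ u.2 ∧ u.2 < B.y2)

theorem FlatD.mono {A : Finset V} {B : Band A} {r r' : ℤ} {X : V × ZMod 4} (h : FlatD B r X)
    (hr : r' ≤ r) : FlatD B r' X := ⟨fun u h1 h2 => h.p u (h1.trans hr) (h2.trans hr),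
  fun u h1 h2 => h.nb u (h1.trans hr) (h2.trans hr)⟩

/-! ### `FlatW` for the lower half -/

section

variable {M : Mac} {L a b c y1 y0 R : ℤ}

/-- **flat walls of `lowHalf`** -/
theorem flatW_of (d : LD M L a b c y1 y0 R) {r : ℤ} {X : V × ZMod 4}
    (hp : ∀ u : V, |u.1 - X.1.1| ≤ r → |u.2 - X.1.2| ≤ r → (u ∈ D M.F L ↔ inner X u))
    (hnb : ∀ u : V, |u.1 - X.1.1| ≤ r → |u.2 - X.1.2| ≤ r →
      ¬ ((a * L ≤ u.1 ∧ u.1 ≤ b * L + L - 1) ∧ y1 ≤ u.2 ∧ u.2 < y0))
    (hH : X.1 ∈ (lowHalf d).H) : FlatW (lowHalf d) r X := by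
  have h1 := d.h1
  have hXD : X.1 ∈ D M.F L := (mem_lowT.1 hH).1
  refine ⟨fun u k1 k2 hm => hnb u k1 k2 ⟨hm.1.1, hm.1.2⟩, fun u k1 k2 => ?_⟩
  constructor
  · intro hu
    exact (hp u k1 k2).1 (mem_lowT.1 hu).1
  · intro hu
    obtain ⟨⟨x, y⟩, e⟩ := X
    obtain ⟨u1, u2⟩ := u
    simp only at k1 k2 hXD
    have k1' := abs_le.1 k1
    have k2' := abs_le.1 k2
    have hr : 0 ≤ r := (abs_nonneg _).trans k1
    -- horizontal segment, then vertical segment
    have hh : (u1, y) ∈ lowT (D M.F L) (a * L) (b * L + L - 1) y0 := by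
      refine hseg (fun s t => low_step) (x := x) (fun z hz => ?_) hH
      refine (hp (z, y) (by simp only; rw [abs_le]; omega) (by simp [hr])).2 ?_
      unfold inner at hu ⊢
      simp only at hu ⊢
      rcases Lr158.z4 e with rfl | rfl | rfl | rfl
      · rw [dir0] at hu ⊢; simp only at hu ⊢; omega
      · rw [dir1] at hu ⊢; simp only at hu ⊢; omega
      · rw [dir2] at hu ⊢; simp only at hu ⊢; omega
      · rw [dir3] at hu ⊢; simp only at hu ⊢; omega
    refine vseg (fun s t => low_step) (y := y) (fun z hz => ?_) (fun g1 g2 => ?_) hh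
    · refine (hp (u1, z) (by simpa using k1) (by simp only; rw [abs_le]; omega)).2 ?_
      unfold inner at hu ⊢
      simp only at hu ⊢
      rcases Lr158.z4 e with rfl | rfl | rfl | rfl
      · rw [dir0] at hu ⊢; simp only at hu ⊢; omega
      · rw [dir1] at hu ⊢; simp only at hu ⊢; omega
      · rw [dir2] at hu ⊢; simp only at hu ⊢; omega
      · rw [dir3] at hu ⊢; simp only at hu ⊢; omega
    · by_contra hc
      refine hnb (u1, y0 - 1) (by simpa using k1) ?_ ⟨⟨g1, g2⟩, by simp only; omega,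
        by simp only; omega⟩
      simp only
      rw [abs_le]
      omega

/-- the neighbour along the wall belongs to the same half -/
theorem FlatW.mem_iff {A : Half} {r : ℤ} {X : V × ZMod 4} (h : FlatW A r X) (j : ℤ)
    (hj : |j| ≤ r) : (wp X j).1 ∈ A.H := by
  obtain ⟨⟨x, y⟩, e⟩ := X
  have hd := dir_bd (e + 1)
  have key2 : ∀ f : ℤ, -1 ≤ f → f ≤ 1 → |j * f| ≤ r := by
    intro f k1 k2
    rw [abs_mul]
    have : |f| ≤ 1 := abs_le.2 ⟨k1, k2⟩
    nlinarith [abs_nonneg j, abs_nonneg f]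
  have e1 : (wp ((x, y), e) j).1.1 - x = j * (dir (e + 1)).1 := by simp [wp]
  have e2 : (wp ((x, y), e) j).1.2 - y = j * (dir (e + 1)).2 := by simp [wp]
  refine (h.p _ (by show |_ - x| ≤ r; rw [e1]; exact key2 _ hd.1.1 hd.1.2)
    (by show |_ - y| ≤ r; rw [e2]; exact key2 _ hd.2.1 hd.2.2)).2 ?_
  have h3 : inner (wp ((x, y), e) j) (wp ((x, y), e) j).1 := by
    unfold inner; simp
  exact (inner_wp _ _ _).1 h3

end

/-! ### charges along a flat wall -/

section

variable {A : Finset V} {B : Band A} {b' : ℤ}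

/-- port of `G^(z)` of an end of the domain -/
def pD (X : V × ZMod 4) : Port TG := some (Sum.inl X.1, X.2)

theorem pD_inj {X Y : V × ZMod 4} (h : pD X = pD Y) : X = Y := by
  unfold pD at h
  simp only [Option.some.injEq, Prod.mk.injEq, Sum.inl.injEq] at h
  exact Prod.ext h.1 h.2

theorem near_wp (X : V × ZMod 4) (j : ℤ) : |(wp X j).1.1 - X.1.1| ≤ |j| ∧
    |(wp X j).1.2 - X.1.2| ≤ |j| := by
  obtain ⟨⟨x, y⟩, e⟩ := X
  have hd := dir_bd (e + 1)
  have key2 : ∀ f : ℤ, -1 ≤ f → f ≤ 1 → |j * f| ≤ |j| := by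
    intro f k1 k2
    rw [abs_mul]
    have : |f| ≤ 1 := abs_le.2 ⟨k1, k2⟩
    nlinarith [abs_nonneg j, abs_nonneg f]
  have e1 : (wp ((x, y), e) j).1.1 - x = j * (dir (e + 1)).1 := by simp [wp]
  have e2 : (wp ((x, y), e) j).1.2 - y = j * (dir (e + 1)).2 := by simp [wp]
  constructor
  · show |_ - x| ≤ |j|; rw [e1]; exact key2 _ hd.1.1 hd.1.2
  · show |_ - y| ≤ |j|; rw [e2]; exact key2 _ hd.2.1 hd.2.2

theorem wp_far (X : V × ZMod 4) (j : ℤ) : |(wp X j).1.1 - X.1.1| = |j| ∨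
    |(wp X j).1.2 - X.1.2| = |j| := by
  obtain ⟨⟨x, y⟩, e⟩ := X
  have e1 : (wp ((x, y), e) j).1.1 - x = j * (dir (e + 1)).1 := by simp [wp]
  have e2 : (wp ((x, y), e) j).1.2 - y = j * (dir (e + 1)).2 := by simp [wp]
  show |_ - x| = |j| ∨ |_ - y| = |j|
  rw [e1, e2, abs_mul, abs_mul]
  rcases Lr158.z4 e with rfl | rfl | rfl | rfl
  · right; rw [show (0 : ZMod 4) + 1 = 1 by decide, dir1]; simp
  · left; rw [show (1 : ZMod 4) + 1 = 2 by decide, dir2]; simp
  · right; rw [show (2 : ZMod 4) + 1 = 3 by decide, dir3]; simp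
  · left; rw [show (3 : ZMod 4) + 1 = 0 by decide, dir0]; simp

theorem wp_inj {X : V × ZMod 4} {i j : ℤ} (h : wp X i = wp X j) : i = j := by
  have h1 : wp (wp X i) (j - i) = wp X i := by rw [wp_wp, add_sub_cancel, h]
  have h2 := wp_far (wp X i) (j - i)
  rw [h1] at h2
  simp only [sub_self, abs_zero] at h2
  have h3 : |j - i| = 0 := by rcases h2 with h2 | h2 <;> exact h2.symm
  have := abs_eq_zero.1 h3
  omega

theorem not_inner_out (X : V × ZMod 4) : ¬ inner X (X.1 + dir X.2) := by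
  obtain ⟨⟨x, y⟩, e⟩ := X
  unfold inner
  rcases Lr158.z4 e with rfl | rfl | rfl | rfl
  · simp only [dir0]; simp
  · simp only [dir1]; simp
  · simp only [dir2]; simp
  · simp only [dir3]; simp

/-- the ends of the wall are free ends of `G^(z)` -/
theorem FlatD.free {r : ℤ} {X : V × ZMod 4} (h : FlatD B r X) {j : ℤ} (hj : |j| + 1 ≤ r) :
    pD (wp X j) ∈ freeG B ∧ FFree A (wp X j) := by
  obtain ⟨k1, k2⟩ := near_wp X j
  have hd := dir_bd (wp X j).2
  have hr0 : 0 ≤ |j| := abs_nonneg j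
  have h1 : (wp X j).1 ∈ A := by
    refine (h.p _ (by linarith) (by linarith)).2 ((inner_wp X j _).1 ?_)
    unfold inner; simp
  have h2 : (wp X j).1 + dir (wp X j).2 ∉ A := by
    intro hc
    have h3 := (h.p _ (by
      rw [abs_le] at k1 ⊢
      simp only [Prod.fst_add]
      constructor <;> linarith [hd.1.1, hd.1.2]) (by
      rw [abs_le] at k2 ⊢
      simp only [Prod.snd_add]
      constructor <;> linarith [hd.2.1, hd.2.2])).1 hc
    rw [← inner_wp X j] at h3
    exact not_inner_out _ h3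
  have hf : FFree A (wp X j) := ⟨h1, h2⟩
  refine ⟨mem_freeG'.2 (Or.inl ⟨_, _, rfl, hf, ?_⟩), hf⟩
  intro hm
  have h3 := h.nb (wp X j).1 (by linarith) (by linarith)
  unfold Fm857.mouth at hm
  obtain ⟨k3, ⟨-, k4⟩ | ⟨-, k4⟩⟩ := hm
  · have hle : B.xl ≤ B.xr := (B.run _ k3.1 k3.2).le
    have k5 : (wp X j).1.1 = B.xl := k4
    exact h3 ⟨⟨k5.ge, by rw [k5]; exact hle⟩, k3⟩
  · have hle : B.xl ≤ B.xr := (B.run _ k3.1 k3.2).le
    have k5 : (wp X j).1.1 = B.xr := k4
    exact h3 ⟨⟨by rw [k5]; exact hle, k5.le⟩, k3⟩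

theorem cp_inl {m1 m2 : Port TG} {e : Option (Port TG)} (X : V × ZMod 4) :
    cp B b' m1 m2 e (pD X) = cb B b' m1 m2 e (pD X) := by
  unfold Fm857.cp
  rw [if_neg (show ¬ isLS b' (pD X) from fun h => h), sub_zero]

/-- **step of the charges along a flat wall** -/
theorem cp_flat {w : Sw300.Wd V} {l : List (Port V)}
    (hw : Psi664.BW (full A) B.xl B.y1 w l) (hy : B.y1 < B.y2) {r : ℤ} {X : V × ZMod 4}
    (h : FlatD B r X) {m1 m2 : Port TG} {e : Option (Port TG)} (h1 : m1 ∈ freeG B)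
    (h2 : m2 ∈ freeG B) (he : ∀ e' ∈ e, e' ∈ freeG B) {j : ℤ} (hj : |j| + 1 ≤ r)
    (hj' : |j + 1| + 1 ≤ r) :
    cp B b' m1 m2 e (pD (wp X (j + 1))) = cp B b' m1 m2 e (pD (wp X j)) +
      Jn m1 m2 e (pD (wp X j)) (pD (wp X (j + 1))) := by
  obtain ⟨f1, g1⟩ := h.free hj
  obtain ⟨f2, g2⟩ := h.free hj'
  rw [cp_inl, cp_inl]
  refine cb_suc ?_ h1 h2 he
  have hrun := B.run B.y1 le_rfl hy
  have hle := hrun.le
  have e1 : wp X (j + 1) = ((wp X j).1 + dir ((wp X j).2 + 1), (wp X j).2) := by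
    rw [← wp_wp, wp_one]; rfl
  have hn : Pt266.NxT (full A).gl (some (wp X j)) (some (wp X (j + 1))) 0 := by
    rw [e1]
    refine nx_flat g1.1 ?_ ?_
    · have := g2.1; rw [e1] at this; exact this
    · have := g2.2; rw [e1] at this; exact this
  obtain ⟨k1, k2⟩ := near_wp X j
  obtain ⟨k1', k2'⟩ := near_wp X (j + 1)
  refine suc_D hw ⟨hrun.mem _ hle le_rfl, ?_⟩ f1 f2 hn ?_ ?_
  · show (B.xr, B.y1) + dir 2 ∉ A
    rw [dir2]
    simpa using hrun.right
  · intro hc
    have h3 := h.nb (wp X (j + 1)).1 (by linarith) (by linarith)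
    apply h3
    rw [hc]
    exact ⟨⟨le_rfl, hle⟩, le_rfl, hy⟩
  · intro hc
    have h3 := h.nb (wp X j).1 (by linarith) (by linarith)
    apply h3
    rw [hc]
    exact ⟨⟨hle, le_rfl⟩, le_rfl, hy⟩

end

/-! ### profiles -/

theorem prof_gen {cc : TG × ZMod 4 → ℤ} {n q : ℤ} {X : V × ZMod 4}
    (hs : ∀ j : ℤ, -n ≤ j → j < n → cc (Sum.inl (wp X (j + 1)).1, X.2) =
      cc (Sum.inl (wp X j).1, X.2) + if j + 1 = 0 then q else 0) : Prof cc n X q := by
  have hr : ∀ k : ℕ, (k : ℤ) ≤ n → cc (Sum.inl (wp X k).1, X.2) = cc (Sum.inl X.1, X.2) := by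
    intro k
    induction k with
    | zero => intro _; rw [Nat.cast_zero, wp_zero]
    | succ k ih =>
      intro hk
      push_cast at hk ⊢
      rw [hs k (by omega) (by omega), ih (by omega), if_neg (by omega), add_zero]
  have hl : ∀ k : ℕ, (k : ℤ) + 1 ≤ n → cc (Sum.inl X.1, X.2) =
      cc (Sum.inl (wp X (-((k : ℤ) + 1))).1, X.2) + q := by
    intro k
    induction k with
    | zero =>
      intro hk
      have h1 := hs (-1) (by omega) (by omega)
      rw [if_pos (by norm_num), show (-1 : ℤ) + 1 = 0 by norm_num, wp_zero] at h1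
      simpa using h1
    | succ k ih =>
      intro hk
      push_cast at hk
      rw [ih (by omega)]
      have h1 := hs (-((k : ℤ) + 1 + 1)) (by omega) (by omega)
      rw [if_neg (by omega), show -((k : ℤ) + 1 + 1) + 1 = -((k : ℤ) + 1) by ring, add_zero] at h1
      rw [h1]
      push_cast
      rfl
  refine ⟨fun j h1 h2 => ?_, fun j h1 h2 => ?_⟩
  · obtain ⟨k, rfl⟩ := Int.eq_ofNat_of_zero_le h1
    have := hr k h2
    rw [this]; simp
  · obtain ⟨k, hk⟩ := Int.eq_ofNat_of_zero_le (show 0 ≤ j - 1 by omega)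
    have h3 := hl k (by omega)
    have e1 : (k : ℤ) + 1 = j := by omega
    rw [e1] at h3
    rw [h3]; simp

theorem prof_gen2 {cc : TG × ZMod 4 → ℤ} {n : ℤ} {X : V × ZMod 4}
    (hs : ∀ j : ℤ, -n ≤ j → j < n → cc (Sum.inl (wp X (j + 1)).1, X.2) =
      cc (Sum.inl (wp X j).1, X.2) + ((if j + 1 = 0 then -1 else 0) + if j = 0 then -1 else 0)) :
    ∀ j : ℤ, 0 < j → j ≤ n →
      (cc (Sum.inl (wp X j).1, X.2) - cc (Sum.inl X.1, X.2) + 1) % 3 = 0 ∧
      (cc (Sum.inl X.1, X.2) - cc (Sum.inl (wp X (-j)).1, X.2) + 1) % 3 = 0 := by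
  have hr : ∀ k : ℕ, (k : ℤ) + 1 ≤ n → cc (Sum.inl (wp X ((k : ℤ) + 1)).1, X.2) =
      cc (Sum.inl X.1, X.2) - 1 := by
    intro k
    induction k with
    | zero =>
      intro hk
      have h1 := hs 0 (by omega) (by omega)
      rw [if_neg (by omega), if_pos rfl, wp_zero] at h1
      simp only [Nat.cast_zero]
      rw [h1]; ring
    | succ k ih =>
      intro hk
      push_cast at hk ⊢
      rw [hs _ (by omega) (by omega), ih (by omega), if_neg (by omega), if_neg (by omega)]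
      ring
  have hl : ∀ k : ℕ, (k : ℤ) + 1 ≤ n → cc (Sum.inl X.1, X.2) =
      cc (Sum.inl (wp X (-((k : ℤ) + 1))).1, X.2) - 1 := by
    intro k
    induction k with
    | zero =>
      intro hk
      have h1 := hs (-1) (by omega) (by omega)
      rw [if_pos (by norm_num), if_neg (by norm_num), show (-1 : ℤ) + 1 = 0 by norm_num,
        wp_zero] at h1
      simp only [Nat.cast_zero]
      rw [h1]
      norm_num
      ring
    | succ k ih =>
      intro hk
      push_cast at hk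
      rw [ih (by omega)]
      have h1 := hs (-((k : ℤ) + 1 + 1)) (by omega) (by omega)
      rw [if_neg (by omega), if_neg (by omega),
        show -((k : ℤ) + 1 + 1) + 1 = -((k : ℤ) + 1) by ring] at h1
      rw [h1]
      push_cast
      ring
  intro j h1 h2
  obtain ⟨k, hk⟩ := Int.eq_ofNat_of_zero_le (show 0 ≤ j - 1 by omega)
  have e1 : (k : ℤ) + 1 = j := by omega
  have h3 := hl k (by omega)
  have h4 := hr k (by omega)
  rw [e1] at h3 h4
  refine ⟨?_, ?_⟩
  · rw [h4]; ring_nf; simp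
  · omega

section

variable {A : Finset V} {B : Band A} {b' : ℤ}

/-- `q` is not one of the ends `wp X i`, `|i| ≤ n` -/
def Off (n : ℤ) (X : V × ZMod 4) (q : Port TG) : Prop := ∀ i : ℤ, |i| ≤ n → q ≠ pD (wp X i)

theorem Off.ind {n : ℤ} {X : V × ZMod 4} {q : Port TG} (h : Off n X q) {i : ℤ} (hi : |i| ≤ n) :
    ind q (pD (wp X i)) = 0 := if_neg (h i hi)

theorem ind_wp (X : V × ZMod 4) (i : ℤ) : ind (pD X) (pD (wp X i)) = if i = 0 then 1 else 0 := by
  unfold ind
  refine if_congr ?_ rfl rfl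
  constructor
  · intro h
    have h1 := pD_inj h
    have h2 : wp X 0 = wp X i := by rw [wp_zero]; exact h1
    exact (wp_inj h2).symm
  · rintro rfl
    rw [wp_zero]

/-- charges as a function of the ports of `TG` -/
def ccF (B : Band A) (b' : ℤ) (m1 m2 : Port TG) (e : Option (Port TG)) (q : TG × ZMod 4) : ℤ :=
  cp B b' m1 m2 e (some q)

variable {w : Sw300.Wd V} {l : List (Port V)}

/-- **profile at the first mark** -/
theorem prof_m1 (hw : Psi664.BW (full A) B.xl B.y1 w l) (hy : B.y1 < B.y2) {r n : ℤ}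
    {X : V × ZMod 4} (h : FlatD B r X) (hn : n + 1 ≤ r) {m2 : Port TG} {e : Option (Port TG)}
    (h2 : m2 ∈ freeG B) (he : ∀ e' ∈ e, e' ∈ freeG B) (o2 : Off n X m2)
    (oe : ∀ e' ∈ e, Off n X e') (h1 : pD X ∈ freeG B) :
    Prof (ccF B b' (pD X) m2 e) n X 1 := by
  refine prof_gen fun j k1 k2 => ?_
  have j1 : |j| ≤ n := abs_le.2 ⟨k1, by omega⟩
  have j2 : |j + 1| ≤ n := abs_le.2 ⟨by omega, by omega⟩
  have h3 := cp_flat (b' := b') hw hy h h1 h2 he (j := j) (by omega) (by omega)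
  show cp B b' (pD X) m2 e (pD (wp X (j + 1))) = cp B b' (pD X) m2 e (pD (wp X j)) + _
  rw [h3]
  congr 1
  unfold Jn
  rw [ind_wp, o2.ind j2]
  cases e with
  | none => simp
  | some e' =>
    have oe' := oe e' rfl
    simp only
    rw [oe'.ind j1, oe'.ind j2]
    simp

/-- **profile at the second mark** -/
theorem prof_m2 (hw : Psi664.BW (full A) B.xl B.y1 w l) (hy : B.y1 < B.y2) {r n : ℤ}
    {X : V × ZMod 4} (h : FlatD B r X) (hn : n + 1 ≤ r) {m1 e : Port TG}
    (h1 : m1 ∈ freeG B) (he : e ∈ freeG B) (o1 : Off n X m1)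
    (oe : Off n X e) (h2 : pD X ∈ freeG B) :
    Prof (ccF B b' m1 (pD X) (some e)) n X 1 := by
  refine prof_gen fun j k1 k2 => ?_
  have j1 : |j| ≤ n := abs_le.2 ⟨k1, by omega⟩
  have j2 : |j + 1| ≤ n := abs_le.2 ⟨by omega, by omega⟩
  have h3 := cp_flat (b' := b') hw hy h h1 h2 (e := some e) (fun e' he' => by
    rw [Option.mem_some_iff] at he'; rw [← he']; exact he) (j := j) (by omega) (by omega)
  show cp B b' m1 (pD X) (some e) (pD (wp X (j + 1))) =
    cp B b' m1 (pD X) (some e) (pD (wp X j)) + _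
  rw [h3]
  congr 1
  unfold Jn
  rw [ind_wp, o1.ind j2]
  simp only
  rw [oe.ind j1, oe.ind j2]
  simp

/-- **profile at the second mark, member `none`** -/
theorem prof_none (hw : Psi664.BW (full A) B.xl B.y1 w l) (hy : B.y1 < B.y2) {r n : ℤ}
    {X : V × ZMod 4} (h : FlatD B r X) (hn : n + 1 ≤ r) {m1 : Port TG}
    (h1 : m1 ∈ freeG B) (o1 : Off n X m1) (h2 : pD X ∈ freeG B) :
    Prof (ccF B b' m1 (pD X) none) n X (-1) := by
  refine prof_gen fun j k1 k2 => ?_
  have j1 : |j| ≤ n := abs_le.2 ⟨k1, by omega⟩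
  have j2 : |j + 1| ≤ n := abs_le.2 ⟨by omega, by omega⟩
  have h3 := cp_flat (b' := b') hw hy h h1 h2 (e := none) (fun e' he' => by simp at he')
    (j := j) (by omega) (by omega)
  show cp B b' m1 (pD X) none (pD (wp X (j + 1))) = cp B b' m1 (pD X) none (pD (wp X j)) + _
  rw [h3]
  congr 1
  unfold Jn
  rw [ind_wp, o1.ind j2]
  simp only
  split_ifs <;> simp

/-- **profile at the end `e`** -/
theorem prof_e (hw : Psi664.BW (full A) B.xl B.y1 w l) (hy : B.y1 < B.y2) {r n : ℤ}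
    {X : V × ZMod 4} (h : FlatD B r X) (hn : n + 1 ≤ r) {m1 m2 : Port TG}
    (h1 : m1 ∈ freeG B) (h2 : m2 ∈ freeG B) (o1 : Off n X m1)
    (o2 : Off n X m2) (he : pD X ∈ freeG B) :
    ∀ j : ℤ, 0 < j → j ≤ n →
      (ccF B b' m1 m2 (some (pD X)) (Sum.inl (wp X j).1, X.2) -
        ccF B b' m1 m2 (some (pD X)) (Sum.inl X.1, X.2) + 1) % 3 = 0 ∧
      (ccF B b' m1 m2 (some (pD X)) (Sum.inl X.1, X.2) -
        ccF B b' m1 m2 (some (pD X)) (Sum.inl (wp X (-j)).1, X.2) + 1) % 3 = 0 := by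
  refine prof_gen2 fun j k1 k2 => ?_
  have j1 : |j| ≤ n := abs_le.2 ⟨k1, by omega⟩
  have j2 : |j + 1| ≤ n := abs_le.2 ⟨by omega, by omega⟩
  have h3 := cp_flat (b' := b') hw hy h h1 h2 (e := some (pD X)) (fun e' he' => by
    rw [Option.mem_some_iff] at he'; rw [← he']; exact he) (j := j) (by omega) (by omega)
  show cp B b' m1 m2 (some (pD X)) (pD (wp X (j + 1))) =
    cp B b' m1 m2 (some (pD X)) (pD (wp X j)) + _
  rw [h3]
  congr 1
  unfold Jn
  rw [o1.ind j2, o2.ind j2]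
  simp only
  rw [ind_wp, ind_wp]
  split_ifs <;> simp

end

end Crest.Agent.R158.Xp612
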