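import Crest.Agent.R158.Xp2_612
import Crest.Agent.R158.Fm2_857

/-!
# R158, NormP (helper612): planar special points of the marks, part 3

* `rX`, `flatW_up`, `prof_up`, `prof_e_up` : the reflected upper half
* `FarX M L B r X` : `X` is a free end at distance more than `r` from the vertices of its cell and from
  the mouth corners
* **`flatD_of`** : `FarX → FlatD`
-/

set_option autoImplicit false

noncomputable section

namespace Crest.Agent.R158.Xp612

open Crest.Agent.R158.Nm211
open Crest.Agent.R158.Ka470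
open Crest.Agent.R158.Nz399
open Crest.Agent.R158.Lr158
open Crest.Agent.R158.Pt266 (dir FFree nx_flat)
open Crest.Agent.R158.Env664 (TG Mac D mem_D div_iff Run CutAdj Adj4 lowT upT Band)
open Crest.Agent.R158.Sw300 (Port)
open Crest.Agent.R158.Xr249 (full mem_lowT low_step)
open Crest.Agent.R158.Fm857 (freeG pG cb isLS mouthC mem_mouthC clow)
open Crest.Agent.R158.Rf896 (rA rB rz rp mem_rA rz_rz)

/-! ### reflection -/

/-- reflected end -/
def rX (X : V × ZMod 4) : V × ZMod 4 := (rz X.1, -X.2)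

theorem rX_rX (X : V × ZMod 4) : rX (rX X) = X := by
  unfold rX
  rw [rz_rz, neg_neg]

theorem inner_rX (X : V × ZMod 4) (u : V) : inner (rX X) u ↔ inner X (rz u) := by
  obtain ⟨⟨a, b⟩, d⟩ := X
  obtain ⟨x, y⟩ := u
  unfold inner rX rz
  rw [dir_neg]
  simp only
  constructor <;> intro h <;> nlinarith [h]

theorem wp_rX (X : V × ZMod 4) (j : ℤ) : wp (rX X) j = rX (wp X (-j)) := by
  obtain ⟨⟨a, b⟩, d⟩ := X
  unfold wp rX
  have e1 : ∀ d : ZMod 4, dir (-d + 1) = (-(dir (d + 1)).1, (dir (d + 1)).2) := by decide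
  rw [e1]
  simp [rz]
  ring

theorem rz_near {X u : V} {r : ℤ} (h1 : |u.1 - (rz X).1| ≤ r) (h2 : |u.2 - (rz X).2| ≤ r) :
    |(rz u).1 - X.1| ≤ r ∧ |(rz u).2 - X.2| ≤ r := by
  unfold rz at *
  simp only at *
  refine ⟨h1, ?_⟩
  rw [abs_le] at h2 ⊢
  omega

section

variable {M : Mac} {L a b c : ℤ} {B : Band (D M.F L)}

/-- **flat walls of the lower half** -/
theorem flatW_low (m : MB M L a b c B) {y0 : ℤ} (h1 : B.y1 < y0) (h2 : y0 ≤ B.y2) {r : ℤ}
    {X : V × ZMod 4} (h : FlatD B r X) (hH : X.1 ∈ (lowHalf (lb_low m h1 h2).d).H) :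
    FlatW (lowHalf (lb_low m h1 h2).d) r X := by
  have e1 := m.xl
  have e2 := m.xr
  refine flatW_of _ h.p (fun u k1 k2 hc => h.nb u k1 k2 ?_) hH
  omega

/-- **flat walls of the reflected upper half** -/
theorem flatW_up (m : MB M L a b c B) {y0 : ℤ} (h1 : -B.y2 < y0) (h2 : y0 ≤ -B.y1) {r : ℤ}
    {X : V × ZMod 4} (h : FlatD B r X) (hH : (rX X).1 ∈ (lowHalf (lb_up m h1 h2).d).H) :
    FlatW (lowHalf (lb_up m h1 h2).d) r (rX X) := by
  have e1 := m.xl
  have e2 := m.xr
  have hDr : D M.rf.F L = rA (D M.F L) := Rf896.D_rA m.hL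
  refine flatW_of _ (fun u k1 k2 => ?_) (fun u k1 k2 hc => ?_) hH
  · obtain ⟨k3, k4⟩ := rz_near k1 k2
    rw [hDr, mem_rA, h.p _ k3 k4, inner_rX]
  · obtain ⟨k3, k4⟩ := rz_near k1 k2
    have hc' : (a * L ≤ u.1 ∧ u.1 ≤ b * L + L - 1) ∧ -B.y2 ≤ u.2 ∧ u.2 < y0 := hc
    refine h.nb _ k3 k4 ?_
    unfold rz
    simp only
    omega

/-- charges of the reflected half at a reflected end -/
theorem ccU_rX (b' : ℤ) (m1 m2 : Port TG) (e : Option (Port TG)) (X : V × ZMod 4) :
    ccU B b' m1 m2 e (Sum.inl (rX X).1, (rX X).2) =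
      1 - ccF B b' m1 m2 e (Sum.inl X.1, X.2) := by
  have e1 : rp (some (Sum.inl (rX X).1, (rX X).2)) = (some (Sum.inl X.1, X.2) : Port TG) := by
    show (some (Sum.inl (rz (rX X).1), -(rX X).2) : Port TG) = _
    unfold rX
    simp only
    rw [rz_rz, neg_neg]
  show 1 - Fm857.cp B b' m1 m2 e (rp (some (Sum.inl (rX X).1, (rX X).2))) = _
  rw [e1]
  rfl

/-- **profile of a gap in the reflected half** -/
theorem prof_up {b' : ℤ} {m1 m2 : Port TG} {e : Option (Port TG)} {X : V × ZMod 4} {n q : ℤ}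
    (hn : 0 ≤ n) (h : Prof (ccF B b' m1 m2 e) (n + 1) X q) :
    Prof (ccU B b' m1 m2 e) n (nxt (rX X)) q := by
  have key : ∀ j : ℤ, ccU B b' m1 m2 e (Sum.inl (wp (nxt (rX X)) j).1, (nxt (rX X)).2) =
      1 - ccF B b' m1 m2 e (Sum.inl (wp X (-(j + 1))).1, X.2) := by
    intro j
    have e1 : wp (nxt (rX X)) j = rX (wp X (-(j + 1))) := by rw [wp_nxt, wp_rX]
    have e2 : (nxt (rX X)).2 = (rX (wp X (-(j + 1)))).2 := rfl
    rw [e1, e2, ccU_rX]
    rfl
  have key0 : ccU B b' m1 m2 e (Sum.inl (nxt (rX X)).1, (nxt (rX X)).2) =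
      1 - ccF B b' m1 m2 e (Sum.inl (wp X (-1)).1, X.2) := by
    have := key 0
    rwa [wp_zero, zero_add] at this
  have k0 := h.l 1 (by norm_num) (by omega)
  refine ⟨fun j h1 h2 => ?_, fun j h1 h2 => ?_⟩
  · have k1 := h.l (j + 1) (by omega) (by omega)
    rw [key, key0]
    omega
  · have k1 := h.r (j - 1) (by omega) (by omega)
    have e3 : -(-j + 1) = j - 1 := by ring
    rw [key, key0, e3]
    omega

/-- **profile of the end in the reflected half** -/
theorem prof_e_up {b' : ℤ} {m1 m2 : Port TG} {e : Option (Port TG)} {X : V × ZMod 4} {n : ℤ}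
    (h : ∀ j : ℤ, 0 < j → j ≤ n →
      (ccF B b' m1 m2 e (Sum.inl (wp X j).1, X.2) - ccF B b' m1 m2 e (Sum.inl X.1, X.2) + 1) % 3 = 0 ∧
      (ccF B b' m1 m2 e (Sum.inl X.1, X.2) -
        ccF B b' m1 m2 e (Sum.inl (wp X (-j)).1, X.2) + 1) % 3 = 0) :
    ∀ j : ℤ, 0 < j → j ≤ n →
      (ccU B b' m1 m2 e (Sum.inl (wp (rX X) j).1, (rX X).2) -
        ccU B b' m1 m2 e (Sum.inl (rX X).1, (rX X).2) + 1) % 3 = 0 ∧
      (ccU B b' m1 m2 e (Sum.inl (rX X).1, (rX X).2) -
        ccU B b' m1 m2 e (Sum.inl (wp (rX X) (-j)).1, (rX X).2) + 1) % 3 = 0 := by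
  have key : ∀ j : ℤ, ccU B b' m1 m2 e (Sum.inl (wp (rX X) j).1, (rX X).2) =
      1 - ccF B b' m1 m2 e (Sum.inl (wp X (-j)).1, X.2) := by
    intro j
    have e1 : wp (rX X) j = rX (wp X (-j)) := wp_rX X j
    have e2 : (rX X).2 = (rX (wp X (-j))).2 := rfl
    rw [e1, e2, ccU_rX]
    rfl
  intro j h1 h2
  obtain ⟨k1, k2⟩ := h j h1 h2
  rw [key, key, ccU_rX, neg_neg]
  constructor <;> omega

end

/-! ### geometry -/

/-- `X` is a free end, not in the mouths, at distance more than `r` from the vertices of its cell and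
from the mouth corners -/
structure FarX (F : Finset V) (L : ℤ) (B : Band (D F L)) (r : ℤ) (X : V × ZMod 4) : Prop where
  free : FFree (D F L) X
  nm : ¬ Fm857.mouth B (some X)
  v : ∀ p q : ℤ, (p = X.1.1 / L ∨ p = X.1.1 / L + 1) → (q = X.1.2 / L ∨ q = X.1.2 / L + 1) →
    r < |X.1.1 - p * L| ∨ r < |X.1.2 - q * L|
  mc : ∀ v ∈ mouthC B, r < |X.1.1 - v.1| ∨ r < |X.1.2 - v.2|

theorem FarX.mono {F : Finset V} {L : ℤ} {B : Band (D F L)} {r r' : ℤ} {X : V × ZMod 4}
    (h : FarX F L B r X) (hr : r' ≤ r) : FarX F L B r' X :=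
  ⟨h.free, h.nm, fun p q h1 h2 => (h.v p q h1 h2).imp (lt_of_le_of_lt hr) (lt_of_le_of_lt hr),
    fun v hv => (h.mc v hv).imp (lt_of_le_of_lt hr) (lt_of_le_of_lt hr)⟩

/-- position of a free end in its cell -/
theorem FarX.cell {F : Finset V} {L : ℤ} (hL : 0 < L) {B : Band (D F L)} {r : ℤ} (hr : 1 ≤ r)
    {X : V × ZMod 4} (h : FarX F L B r X) : ∃ i j : ℤ, (i, j) ∈ F ∧
      ((X.2 = 0 ∧ X.1.1 = i * L ∧ (i - 1, j) ∉ F ∧ j * L + r < X.1.2 ∧ X.1.2 + r < j * L + L) ∨
      (X.2 = 2 ∧ X.1.1 = i * L + L - 1 ∧ (i + 1, j) ∉ F ∧ j * L + r < X.1.2 ∧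
        X.1.2 + r < j * L + L) ∨
      (X.2 = 3 ∧ X.1.2 = j * L ∧ (i, j - 1) ∉ F ∧ i * L + r < X.1.1 ∧ X.1.1 + r < i * L + L) ∨
      (X.2 = 1 ∧ X.1.2 = j * L + L - 1 ∧ (i, j + 1) ∉ F ∧ i * L + r < X.1.1 ∧
        X.1.1 + r < i * L + L)) := by
  obtain ⟨⟨x, y⟩, d⟩ := X
  obtain ⟨⟨h1, h2⟩, -, hv, -⟩ := h
  simp only at hv h1 h2 ⊢
  rw [mem_D hL] at h1
  simp only at h1
  set i := x / L with hi
  set j := y / L with hj
  obtain ⟨a1, a2⟩ := (div_iff hL x i).1 hi.symm
  obtain ⟨a3, a4⟩ := (div_iff hL y j).1 hj.symm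
  have key : ∀ (p q : ℤ) (u : V), p * L ≤ u.1 → u.1 < p * L + L → q * L ≤ u.2 →
      u.2 < q * L + L → (u ∈ D F L ↔ (p, q) ∈ F) := by
    intro p q u k1 k2 k3 k4
    rw [mem_D hL, (div_iff hL _ _).2 ⟨k1, k2⟩, (div_iff hL _ _).2 ⟨k3, k4⟩]
  have e1 : (i + 1) * L = i * L + L := by ring
  have e2 : (j + 1) * L = j * L + L := by ring
  have e3 : (i - 1) * L = i * L - L := by ring
  have e4 : (j - 1) * L = j * L - L := by ring
  have v00 := hv i j (Or.inl rfl) (Or.inl rfl)
  have v01 := hv i (j + 1) (Or.inl rfl) (Or.inr rfl)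
  have v10 := hv (i + 1) j (Or.inr rfl) (Or.inl rfl)
  have v11 := hv (i + 1) (j + 1) (Or.inr rfl) (Or.inr rfl)
  rw [e1] at v10 v11
  rw [e2] at v01 v11
  rw [lt_abs, lt_abs] at v00 v01 v10 v11
  refine ⟨i, j, h1, ?_⟩
  rcases Lr158.z4 d with rfl | rfl | rfl | rfl
  · left
    rw [dir0] at h2
    simp only [Prod.mk_add_mk, add_zero] at h2
    have hx : x = i * L := by
      by_contra hne
      exact h2 ((key i j _ (by simp only; omega) (by simp only; omega) a3 a4).2 h1)
    have h3 : (i - 1, j) ∉ F := by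
      rw [← key (i - 1) j (x + -1, y) (by simp only; omega) (by simp only; omega) a3 a4]
      exact h2
    refine ⟨rfl, hx, h3, ?_, ?_⟩ <;> omega
  · right; right; right
    rw [dir1] at h2
    simp only [Prod.mk_add_mk, add_zero] at h2
    have hx : y = j * L + L - 1 := by
      by_contra hne
      exact h2 ((key i j _ a1 a2 (by simp only; omega) (by simp only; omega)).2 h1)
    have h3 : (i, j + 1) ∉ F := by
      rw [← key i (j + 1) (x, y + 1) a1 a2 (by simp only; omega) (by simp only; omega)]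
      exact h2
    refine ⟨rfl, hx, h3, ?_, ?_⟩ <;> omega
  · right; left
    rw [dir2] at h2
    simp only [Prod.mk_add_mk, add_zero] at h2
    have hx : x = i * L + L - 1 := by
      by_contra hne
      exact h2 ((key i j _ (by simp only; omega) (by simp only; omega) a3 a4).2 h1)
    have h3 : (i + 1, j) ∉ F := by
      rw [← key (i + 1) j (x + 1, y) (by simp only; omega) (by simp only; omega) a3 a4]
      exact h2
    refine ⟨rfl, hx, h3, ?_, ?_⟩ <;> omega
  · right; right; left
    rw [dir3] at h2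
    simp only [Prod.mk_add_mk, add_zero] at h2
    have hx : y = j * L := by
      by_contra hne
      exact h2 ((key i j _ a1 a2 (by simp only; omega) (by simp only; omega)).2 h1)
    have h3 : (i, j - 1) ∉ F := by
      rw [← key i (j - 1) (x, y + -1) a1 a2 (by simp only; omega) (by simp only; omega)]
      exact h2
    refine ⟨rfl, hx, h3, ?_, ?_⟩ <;> omega

/-- **free ends far from the vertices and the mouth corners are on flat walls** -/
theorem flatD_of {M : Mac} {L a b c : ℤ} {B : Band (D M.F L)} (m : MB M L a b c B) {r : ℤ}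
    (hr : 1 ≤ r) (g1 : c * L + r < B.y1) (g2 : B.y2 + r < c * L + L) {X : V × ZMod 4}
    (h : FarX M.F L B r X) : FlatD B r X := by
  have hL := m.hL
  obtain ⟨i, j, hF, hX⟩ := h.cell hL hr
  obtain ⟨-, hnm, -, hmc⟩ := h
  obtain ⟨⟨x, y⟩, d⟩ := X
  simp only at hX hmc
  have key : ∀ (p q : ℤ) (u : V), p * L ≤ u.1 → u.1 < p * L + L → q * L ≤ u.2 →
      u.2 < q * L + L → (u ∈ D M.F L ↔ (p, q) ∈ M.F) := by
    intro p q u k1 k2 k3 k4
    rw [mem_D hL, (div_iff hL _ _).2 ⟨k1, k2⟩, (div_iff hL _ _).2 ⟨k3, k4⟩]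
  have e1 : (i + 1) * L = i * L + L := by ring
  have e2 : (j + 1) * L = j * L + L := by ring
  have e3 : (i - 1) * L = i * L - L := by ring
  have e4 : (j - 1) * L = j * L - L := by ring
  constructor
  · rintro ⟨u1, u2⟩ k1 k2
    simp only at k1 k2
    rw [abs_le] at k1 k2
    unfold inner
    simp only
    rcases hX with ⟨rfl, hx, hn, h3, h4⟩ | ⟨rfl, hx, hn, h3, h4⟩ | ⟨rfl, hx, hn, h3, h4⟩ |
      ⟨rfl, hx, hn, h3, h4⟩
    · rw [dir0]
      simp only
      by_cases hu : i * L ≤ u1
      · rw [key i j _ (by simp only; omega) (by simp only; omega) (by simp only; omega)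
          (by simp only; omega)]
        exact iff_of_true hF (by omega)
      · rw [key (i - 1) j _ (by simp only; omega) (by simp only; omega) (by simp only; omega)
          (by simp only; omega)]
        exact iff_of_false hn (by omega)
    · rw [dir2]
      simp only
      by_cases hu : u1 < i * L + L
      · rw [key i j _ (by simp only; omega) (by simp only; omega) (by simp only; omega)
          (by simp only; omega)]
        exact iff_of_true hF (by omega)
      · rw [key (i + 1) j _ (by simp only; omega) (by simp only; omega) (by simp only; omega)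
          (by simp only; omega)]
        exact iff_of_false hn (by omega)
    · rw [dir3]
      simp only
      by_cases hu : j * L ≤ u2
      · rw [key i j _ (by simp only; omega) (by simp only; omega) (by simp only; omega)
          (by simp only; omega)]
        exact iff_of_true hF (by omega)
      · rw [key i (j - 1) _ (by simp only; omega) (by simp only; omega) (by simp only; omega)
          (by simp only; omega)]
        exact iff_of_false hn (by omega)
    · rw [dir1]
      simp only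
      by_cases hu : u2 < j * L + L
      · rw [key i j _ (by simp only; omega) (by simp only; omega) (by simp only; omega)
          (by simp only; omega)]
        exact iff_of_true hF (by omega)
      · rw [key i (j + 1) _ (by simp only; omega) (by simp only; omega) (by simp only; omega)
          (by simp only; omega)]
        exact iff_of_false hn (by omega)
  · rintro ⟨u1, u2⟩ k1 k2 ⟨⟨k3, k4⟩, k5, k6⟩
    simp only at k1 k2 k3 k4 k5 k6
    rw [abs_le] at k1 k2
    have exl := m.xl
    have exr := m.xr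
    have hrun := m.run
    -- the macroscopic row
    have hlt : ∀ p q : ℤ, p * L < q * L → p < q := fun p q hpq => by
      by_contra hcon
      have : q * L ≤ p * L := by nlinarith
      omega
    have hc1 : (c + 1) * L = c * L + L := by ring
    have hrow : ∀ q : ℤ, q * L ≤ y → y < q * L + L → q = c := by
      intro q q1 q2
      have s1 := hlt q (c + 1) (by rw [hc1]; omega)
      have s2 := hlt c (q + 1) (by rw [add_mul, one_mul]; omega)
      omega
    have hmem : ∀ p : ℤ, a ≤ p → p ≤ b → (p, c) ∈ M.F := fun p p1 p2 => hrun.mem p p1 p2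
    rcases hX with ⟨rfl, hx, hn, h3, h4⟩ | ⟨rfl, hx, hn, h3, h4⟩ | ⟨rfl, hx, hn, h3, h4⟩ |
      ⟨rfl, hx, hn, h3, h4⟩
    · obtain rfl := hrow j (by omega) (by omega)
      have ha : a ≤ i := by
        have := hlt (a - 1) i (by rw [sub_mul, one_mul]; omega)
        omega
      have hb : i ≤ b := by
        have h5 := hlt i (b + 2) (by rw [add_mul]; omega)
        rcases eq_or_ne i (b + 1) with h6 | h6
        · rw [h6] at hF; exact absurd hF hrun.right
        · omega
      have hia : i = a := by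
        by_contra hne
        exact hn (hmem _ (by omega) (by omega))
      have hxl : x = B.xl := by rw [hx, hia, exl]
      have hmo : ¬ (B.y1 ≤ y ∧ y < B.y2) := fun hm => hnm ⟨hm, Or.inl ⟨rfl, hxl⟩⟩
      have m1 := hmc (B.xl, B.y1) (mem_mouthC.2 (Or.inl rfl))
      have m2 := hmc (B.xl, B.y2 - 1) (mem_mouthC.2 (Or.inr (Or.inl rfl)))
      simp only at m1 m2
      rw [lt_abs, lt_abs] at m1 m2
      omega
    · obtain rfl := hrow j (by omega) (by omega)
      have ha : a ≤ i := by
        have := hlt (a - 2) i (by rw [sub_mul]; omega)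
        rcases eq_or_ne i (a - 1) with h6 | h6
        · rw [h6] at hF; exact absurd hF hrun.left
        · omega
      have hb : i ≤ b := by
        have h5 := hlt i (b + 1) (by rw [add_mul, one_mul]; omega)
        omega
      have hia : i = b := by
        by_contra hne
        exact hn (hmem _ (by omega) (by omega))
      have hxl : x = B.xr := by rw [hx, hia, exr]
      have hmo : ¬ (B.y1 ≤ y ∧ y < B.y2) := fun hm => hnm ⟨hm, Or.inr ⟨rfl, hxl⟩⟩
      have m1 := hmc (B.xr, B.y1) (mem_mouthC.2 (Or.inr (Or.inr (Or.inl rfl))))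
      have m2 := hmc (B.xr, B.y2 - 1) (mem_mouthC.2 (Or.inr (Or.inr (Or.inr rfl))))
      simp only at m1 m2
      rw [lt_abs, lt_abs] at m1 m2
      omega
    · obtain rfl := hrow j (by omega) (by omega)
      omega
    · obtain rfl := hrow j (by omega) (by omega)
      omega

end Crest.Agent.R158.Xp612
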