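import Crest.Agent.R158.Xp4_612
import Crest.Agent.R158.Xa1_932
import Crest.Agent.R158.Nn2_857

/-!
# R158, NormP (helper612): planar special points of the marks, part 5

* `farX_mark`, `farX_e` : the marks and the members of the family are far from the corners
* **`pts_nums`** : `Pts` for the literal family, from 857's `Nums`
-/

set_option autoImplicit false

noncomputable section

namespace Crest.Agent.R158.Xp612

open Crest.Agent.R158.Nm211
open Crest.Agent.R158.Ka470
open Crest.Agent.R158.Nz399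
open Crest.Agent.R158.Lr158
open Crest.Agent.R158.Xd841
open Crest.Agent.R158.Pt266 (dir FFree)
open Crest.Agent.R158.Env664 (TG Mac D mem_D div_iff Run Band nbc)
open Crest.Agent.R158.Sw300 (Port)
open Crest.Agent.R158.Fm857 (freeG mouthC mem_mouthC mem_Jd JP DelP mkG mkP SpP vertP mem_SpP
  mem_vertP tlP)
open Crest.Agent.R158.Rf896 (rA rB rz rp)
open Crest.Agent.R158.Tj656 (P4)
open Crest.Agent.R158.Xa932 (NV mt_row farT_mark mkG_eq mt_freeG nbc_dir)
open Crest.Agent.R158.Nn857 (Nums)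

variable {P : P4} {L : ℤ} {B : Band (D P.F L)}

/-- **the marks are far from the corners** -/
theorem farX_mark {c r : ℤ} (hN : NV B L c (r + 2)) (hev : Even L) (j : Fin 3) :
    FarX P.F L B r (Hb656.mt P L j) := by
  have hL := hN.hL
  have hD := hN.D1
  have hy := hN.hy
  have hrow := mt_row (P := P) hN hev j
  have hfar := farT_mark (P := P) (xl := B.xl) (xr := B.xr) hN hev j (Or.inl rfl)
  obtain ⟨h1, h2⟩ := Hw949.mt_out (P := P) (L := L) (by omega) hev j
  have h3 : (Hb656.mt P L j).1 + dir (Hb656.mt P L j).2 = Hw949.nt (Hb656.mt P L j) :=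
    (nbc_dir _ _).symm
  refine ⟨⟨h1, by rw [h3]; exact h2⟩, ?_, fun p q _ _ => ?_, fun v hv => ?_⟩
  · rintro ⟨⟨h4, h5⟩, -⟩
    have h4' : B.y1 ≤ (Hb656.mt P L j).1.2 := h4
    have h5' : (Hb656.mt P L j).1.2 < B.y2 := h5
    omega
  · have := hfar.1 p q
    rw [mul_comm p, mul_comm q]
    omega
  · right
    have hv2 : v.2 = B.y1 ∨ v.2 = B.y2 - 1 := by
      rcases mem_mouthC.1 hv with rfl | rfl | rfl | rfl
      · exact Or.inl rfl
      · exact Or.inr rfl
      · exact Or.inl rfl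
      · exact Or.inr rfl
    rw [lt_abs]
    omega

/-- **the members of the family are far from the corners** -/
theorem farX_e {δ : ℝ} {r : ℤ} (hL : 0 < L) (hr : r < DelP L δ) {t : V} {d : ZMod 4}
    (he : (some (Sum.inl t, d) : Port TG) ∈ JP P L δ B) : FarX P.F L B r (t, d) := by
  obtain ⟨h1, -, h2⟩ := (mem_Jd B).1 he
  have ht : FFree (D P.F L) (t, d) ∧ ¬ Fm857.mouth B (some (t, d)) := by
    rcases mem_freeG'.1 h1 with ⟨t', d', k1, k2, k3⟩ | ⟨i, -, -, k1⟩ | ⟨i, -, -, k1⟩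
    · simp only [Option.some.injEq, Prod.mk.injEq, Sum.inl.injEq] at k1
      obtain ⟨rfl, rfl⟩ := k1
      exact ⟨k2, k3⟩
    · simp at k1
    · simp at k1
  have h3 : ∀ v ∈ SpP P L B, DelP L δ ≤ |t.1 - v.1| ∨ DelP L δ ≤ |t.2 - v.2| := h2
  refine ⟨ht.1, ht.2, fun p q hp hq => ?_, fun v hv => ?_⟩
  · have hm : (t.1 / L, t.2 / L) ∈ P.F := (mem_D hL _).1 ht.1.1
    have hv : (p * L, q * L) ∈ SpP P L B := by
      refine mem_SpP.2 (Or.inl (mem_vertP.2 ⟨_, hm, ?_⟩))
      have hp' : p = t.1 / L ∨ p = t.1 / L + 1 := hp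
      have hq' : q = t.2 / L ∨ q = t.2 / L + 1 := hq
      rcases hp' with rfl | rfl <;> rcases hq' with rfl | rfl
      · exact Or.inl rfl
      · exact Or.inr (Or.inr (Or.inl rfl))
      · exact Or.inr (Or.inl rfl)
      · exact Or.inr (Or.inr (Or.inr rfl))
    have := h3 _ hv
    simp only at this ⊢
    omega
  · have := h3 v (mem_SpP.2 (Or.inr (Or.inr hv)))
    simp only
    omega

theorem tl_mark (j : Fin 3) : tlP (mkP P L j) = (Hb656.mt P L j).1 := by
  unfold mkP
  rw [Hb656.mark_eq]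
  rfl

/-- **positions of the marks and of the members of the literal family** -/
theorem pts_nums {a b c : ℤ} {δ : ℝ} {ρ κ : ℕ} {yl yu p z0 : ℤ} {a1 b1 : ℕ}
    (N : Nums P a b c L δ B ρ κ yl yu p z0 a1 b1) (hev : Even L) {e : Option (Port TG)}
    (he : e ∈ Finset.insertNone (JP P L δ B)) :
    Pts P.F L B (5 * ρ + 2) (6 * ρ + 8) (Hb656.mt P L 0) (Hb656.mt P L 1) e := by
  have n1 : (1 : ℤ) ≤ ρ := by exact_mod_cast N.ρ1
  have n2 := N.L64
  have n3 := N.c1
  have n4 := N.c2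
  have n5 := N.half
  have n6 := N.mb.hy
  have n7 := N.D64
  have n8 := N.Dle
  have hV : NV B L c (5 * ρ + 2 + 2) :=
    ⟨by omega, by omega, by omega, by omega, n6, by omega⟩
  have hd : ∀ (j : Fin 3) t d, e = some (some (Sum.inl t, d)) →
      Ds (6 * ρ + 8) (Hb656.mt P L j).1 t := by
    intro j t d ht
    rw [ht] at he
    have h1 := ((mem_Jd B).1 (Finset.some_mem_insertNone.1 he)).2.2
    have h3 : ∀ v ∈ SpP P L B, DelP L δ ≤ |t.1 - v.1| ∨ DelP L δ ≤ |t.2 - v.2| := h1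
    have h4 := h3 _ (mem_SpP.2 (Or.inr (Or.inl ⟨j, (tl_mark j).symm⟩)))
    refine Ds.symm ?_
    unfold Ds
    omega
  refine ⟨farX_mark hV hev 0, farX_mark hV hev 1, fun t d ht => ?_, Xs932.free_JP he, ?_, hd 0,
    hd 1⟩
  · rw [ht] at he
    exact farX_e N.hL (by omega) (Finset.some_mem_insertNone.1 he)
  · have h5 : L / 2 ≤ |(Hb656.mt P L 0).1.1 - (Hb656.mt P L 1).1.1| ∨
        L / 2 ≤ |(Hb656.mt P L 0).1.2 - (Hb656.mt P L 1).1.2| :=
      Hw949.mt_dist P (by omega) hev (by decide)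
    unfold Ds
    omega

end Crest.Agent.R158.Xp612
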