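import Crest.Agent.R158.Xp5_612
import Crest.Agent.R158.Xa2_932

/-!
# R158, NormP (helper612): planar special points of the marks, part 6

* **`plAll`** : the planar points of the literal family are admissible with disjoint supports
-/

set_option autoImplicit false

noncomputable section

namespace Crest.Agent.R158.Xp612

open Crest.Agent.R158.Nm211
open Crest.Agent.R158.Ka470
open Crest.Agent.R158.Nz399
open Crest.Agent.R158.Lr158
open Crest.Agent.R158.Tj656 (P4)
open Crest.Agent.R158.Fm857 (JP DelP mkG)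
open Crest.Agent.R158.Xa932 (PlAll PlOk mkG_eq)

/-- **the planar points of the literal family** -/
theorem plAll (P : P4) : PlAll P := by
  intro a b c L δ B ρ κ yl yu p z0 a1 b1 N hev e he
  have hP := pts_nums N hev he
  have n1 : (1 : ℤ) ≤ ρ := by exact_mod_cast N.ρ1
  have n3 := N.c1
  have n4 := N.c2
  have g1 : c * L + (5 * (ρ : ℤ) + 2) < B.y1 := by omega
  have g2 : B.y2 + (5 * (ρ : ℤ) + 2) < c * L + L := by omega
  have e0 : mkG P L 0 = pD (Hb656.mt P L 0) := mkG_eq P L 0
  have e1 : mkG P L 1 = pD (Hb656.mt P L 1) := mkG_eq P L 1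
  rw [e0, e1]
  exact ⟨⟨ok_low N.mb N.l1 N.l2 N.szl.1 (by omega) g1 g2 (by omega) hP _,
      dis_low N.mb N.l1 N.l2 N.szl.1 (by omega) g1 g2 (by omega) hP⟩,
    ⟨ok_up N.mb N.u1 N.u2 N.szu.1 (by omega) g1 g2 (by omega) hP _,
      dis_up N.mb N.u1 N.u2 N.szu.1 (by omega) g1 g2 (by omega) hP⟩⟩

end Crest.Agent.R158.Xp612
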