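import Crest.Agent.R158.Xr1_249
import Crest.Agent.R158.Xr2_249

/-!
# R158, block XR (helper249), file Xr3: adding a whole row of tiles

* `Row τ i j` : the tiles `τ x`, `i ≤ x ≤ j`
* `St.attach_row` : a row of tiles glued to the built part along one interval of one side
-/

set_option autoImplicit false
set_option linter.unusedVariables false

namespace Crest.Agent.R158.Xr249

variable {T : Type*} {b : Option T} {Gl : Port T → Port T → Prop}

lemma Nx.mono {G G' : Port T → Port T → Prop} (hG : ∀ a b, G a b → G' a b) {p r : Port T}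
    (h : Nx G p r) (hr : ∀ q, ¬ G' r q) : Nx G' p r := by
  induction h with
  | stop h => exact .stop hr
  | go h1 _ ih => exact .go (hG _ _ h1) (ih hr)

lemma Nx.ext {G G' : Port T → Port T → Prop} (hG : ∀ a b, G a b → G' a b) {p r q w : Port T}
    (h : Nx G p r) (hr : G' r q) (h2 : Nx G' q w) : Nx G' p w := by
  induction h with
  | stop h => exact .go hr h2
  | go h1 _ ih => exact .go (hG _ _ h1) (ih hr)

lemma GA_mono {A A' : Set (Option T)} (h : A ⊆ A') (x y : Port T) (hxy : GA Gl A x y) :
    GA Gl A' x y := ⟨hxy.1, h hxy.2.1, h hxy.2.2⟩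

/-- a row of tiles -/
def Row (τ : ℤ → T) (i j : ℤ) : Set (Option T) := {o | ∃ x, i ≤ x ∧ x ≤ j ∧ o = some (τ x)}

lemma Row_succ (τ : ℤ → T) {i j : ℤ} (h : i ≤ j + 1) :
    Row τ i (j + 1) = insert (some (τ (j + 1))) (Row τ i j) := by
  ext o
  simp only [Row, Set.mem_setOf_eq, Set.mem_insert_iff]
  constructor
  · rintro ⟨x, h1, h2, rfl⟩
    rcases eq_or_lt_of_le h2 with rfl | h3
    · exact Or.inl rfl
    · exact Or.inr ⟨x, h1, by omega, rfl⟩
  · rintro (rfl | ⟨x, h1, h2, rfl⟩)
    · exact ⟨_, h, le_refl _, rfl⟩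
    · exact ⟨x, h1, by omega, rfl⟩

lemma Row_pred (τ : ℤ → T) {i j : ℤ} (h : i - 1 ≤ j) :
    Row τ (i - 1) j = insert (some (τ (i - 1))) (Row τ i j) := by
  ext o
  simp only [Row, Set.mem_setOf_eq, Set.mem_insert_iff]
  constructor
  · rintro ⟨x, h1, h2, rfl⟩
    rcases eq_or_lt_of_le h1 with rfl | h3
    · exact Or.inl rfl
    · exact Or.inr ⟨x, by omega, h2, rfl⟩
  · rintro (rfl | ⟨x, h1, h2, rfl⟩)
    · exact ⟨_, le_refl _, h, rfl⟩
    · exact ⟨x, by omega, h2, rfl⟩

lemma Row_self (τ : ℤ → T) (i : ℤ) : Row τ i i = {some (τ i)} := by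
  ext o
  simp only [Row, Set.mem_setOf_eq, Set.mem_singleton_iff]
  constructor
  · rintro ⟨x, h1, h2, rfl⟩
    rw [le_antisymm h2 h1]
  · rintro rfl
    exact ⟨i, le_refl _, le_refl _, rfl⟩

/-- data of a row to be attached -/
structure RowData (Gl : Port T → Port T → Prop) (A0 : Set (Option T)) (τ : ℤ → T) (i j u v : ℤ)
    (s : ZMod 4) (c : ℤ → Port T) : Prop where
  hs : s = 1 ∨ s = 3
  iu : i ≤ u
  uv : u ≤ v
  vj : v ≤ j
  inj : ∀ x y, i ≤ x → x ≤ j → i ≤ y → y ≤ j → τ x = τ y → x = y
  new : ∀ x, i ≤ x → x ≤ j → some (τ x) ∉ A0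
  hor : ∀ x, i ≤ x → x < j → Gl (some (τ x, 2)) (some (τ (x + 1), 0))
  west : ∀ q, Gl (some (τ i, 0)) q → tl q ∉ A0 ∪ Row τ i j
  east : ∀ q, Gl (some (τ j, 2)) q → tl q ∉ A0 ∪ Row τ i j
  free : ∀ x, i ≤ x → x ≤ j → ∀ q, Gl (some (τ x, s + 2)) q → tl q ∉ A0 ∪ Row τ i j
  con : ∀ x, u ≤ x → x ≤ v → Gl (some (τ x, s)) (c x) ∧ tl (c x) ∈ A0
  out : ∀ x, i ≤ x → x ≤ j → ¬ (u ≤ x ∧ x ≤ v) → ∀ q, Gl (some (τ x, s)) q → tl q ∉ A0 ∪ Row τ i j
  nx3 : s = 3 → ∀ x, u ≤ x → x < v → Nx (GA Gl A0) (c x) (c (x + 1))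
  nx1 : s = 1 → ∀ x, u ≤ x → x < v → Nx (GA Gl A0) (c (x + 1)) (c x)

variable {A0 : Set (Option T)} {τ : ℤ → T} {i j u v : ℤ} {s : ZMod 4} {c : ℤ → Port T}

lemma RowData.new' (hd : RowData Gl A0 τ i j u v s c) {x k l : ℤ} (h1 : i ≤ x) (h2 : x ≤ j)
    (hk : i ≤ k) (hl : l ≤ j) (h3 : x < k ∨ l < x) : some (τ x) ∉ A0 ∪ Row τ k l := by
  rintro (h | ⟨y, h4, h5, h6⟩)
  · exact hd.new x h1 h2 h
  · have := hd.inj x y h1 h2 (by omega) (by omega) (by simpa using h6)
    omega

lemma RowData.sub (hd : RowData Gl A0 τ i j u v s c) {k l : ℤ} (hk : i ≤ k) (hl : l ≤ j) :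
    A0 ∪ Row τ k l ⊆ A0 ∪ Row τ i j := by
  rintro o (h | ⟨y, h4, h5, h6⟩)
  · exact Or.inl h
  · exact Or.inr ⟨y, by omega, by omega, h6⟩

/-- the east side of a tile of the row is not glued to the part `k..l` unless `x + 1` is there -/
lemma RowData.east' (hG : Glue Gl) (hd : RowData Gl A0 τ i j u v s c) {x k l : ℤ} (h1 : i ≤ x)
    (h2 : x ≤ j) (hk : i ≤ k) (hl : l ≤ j) (h3 : x + 1 < k ∨ l < x + 1) :
    ∀ q, Gl (some (τ x, 2)) q → tl q ∉ A0 ∪ Row τ k l := by
  intro q hq
  rcases eq_or_lt_of_le h2 with rfl | h4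
  · exact fun h => hd.east q hq (hd.sub hk hl h)
  · have h5 := hG.fn _ _ _ hq (hd.hor x h1 h4)
    subst h5
    exact hd.new' (by omega) (by omega) hk hl h3

lemma RowData.west' (hG : Glue Gl) (hd : RowData Gl A0 τ i j u v s c) {x k l : ℤ} (h1 : i ≤ x)
    (h2 : x ≤ j) (hk : i ≤ k) (hl : l ≤ j) (h3 : x - 1 < k ∨ l < x - 1) :
    ∀ q, Gl (some (τ x, 0)) q → tl q ∉ A0 ∪ Row τ k l := by
  intro q hq
  rcases eq_or_lt_of_le h1 with rfl | h4
  · exact fun h => hd.west q hq (hd.sub hk hl h)
  · have h6 := hd.hor (x - 1) (by omega) (by omega)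
    rw [sub_add_cancel] at h6
    have h5 := hG.fn _ _ _ hq (hG.sym _ _ h6)
    subst h5
    exact hd.new' (by omega) (by omega) hk hl h3

lemma z4s {s : ZMod 4} (hs : s = 1 ∨ s = 3) : ∀ e : ZMod 4, e = 0 ∨ e = 2 ∨ e = s ∨ e = s + 2 := by
  rcases hs with rfl | rfl <;> decide

/-- **adding a row** -/
theorem St.attach_row (hG : Glue Gl) (h : St b Gl A0) (hd : RowData Gl A0 τ i j u v s c) :
    St b Gl (A0 ∪ Row τ i j) := by
  have hs02 : s ≠ 0 ∧ s ≠ 2 ∧ s + 2 ≠ 0 ∧ s + 2 ≠ 2 ∧ s + 2 ≠ s ∧ (s = 3 → s + 1 = 0) ∧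
      (s = 1 → s = 0 + 1) := by
    rcases hd.hs with rfl | rfl <;> decide
  obtain ⟨t1, t2, t3, t4, t5, t6, t7⟩ := hs02
  have hi := hd.iu
  have hu := hd.uv
  have hv := hd.vj
  -- the first tile
  have S0 : St b Gl (A0 ∪ Row τ u u) := by
    rw [Row_self, Set.union_singleton]
    refine h.add_one hG (hd.new u hi (by omega)) s (hd.con u (le_refl _) hu).1
      (hd.con u (le_refl _) hu).2 ?_
    intro e he q hq hqA
    rcases z4s hd.hs e with rfl | rfl | rfl | rfl
    · exact hd.west' hG (x := u) (k := u + 1) (l := u) hi (by omega) (by omega) (by omega) (by omega)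
        q hq (Or.inl hqA)
    · exact hd.east' hG (x := u) (k := u + 2) (l := u) hi (by omega) (by omega) (by omega) (by omega)
        q hq (Or.inl hqA)
    · exact he rfl
    · exact hd.free u hi (by omega) q hq (Or.inl hqA)
  -- to the right
  have S1 : ∀ n : ℕ, u + n ≤ j → St b Gl (A0 ∪ Row τ u (u + n)) := by
    intro n
    induction n with
    | zero => intro _; simpa using S0
    | succ n ih =>
      intro hn
      push_cast at hn
      have ih' := ih (by omega)
      set y : ℤ := u + n with hy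
      have e1 : u + ((n + 1 : ℕ) : ℤ) = y + 1 := by push_cast; omega
      have hsub : A0 ∪ Row τ u y ⊆ A0 ∪ Row τ i j := hd.sub (by omega) (by omega)
      rw [e1, Row_succ τ (by omega), Set.union_insert]
      have hnew : some (τ (y + 1)) ∉ A0 ∪ Row τ u y :=
        hd.new' (by omega) (by omega) (by omega) (by omega) (Or.inr (by omega))
      have hW : Gl (some (τ (y + 1), 0)) (some (τ y, 2)) := hG.sym _ _ (hd.hor y (by omega) (by omega))
      have hWA : tl (some (τ y, (2 : ZMod 4))) ∈ A0 ∪ Row τ u y := Or.inr ⟨y, by omega, le_refl _, rfl⟩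
      have hE := hd.east' hG (x := y + 1) (k := u) (l := y) (by omega) (by omega) (by omega) (by omega)
        (Or.inr (by omega))
      have hF : ∀ q, Gl (some (τ (y + 1), s + 2)) q → tl q ∉ A0 ∪ Row τ u y := fun q hq h =>
        hd.free (y + 1) (by omega) (by omega) q hq (hsub h)
      by_cases hX : y + 1 ≤ v
      · -- glued along two sides
        have hc := hd.con (y + 1) (by omega) hX
        have hc0 := hd.con y (by omega) (by omega)
        have hsubA : A0 ⊆ A0 ∪ Row τ u y := Set.subset_union_left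
        rcases hd.hs with rfl | rfl
        · -- parent above: `s = 1`, `d = 0`
          refine ih'.add_two hG hnew 0 (p0 := some (τ y, 2)) (p1 := c (y + 1)) hW
            (by simpa using hc.1) hWA (hsubA hc.2) ?_ ?_
          · have n1 := hd.nx1 rfl y (by omega) (by omega)
            refine n1.ext (GA_mono hsubA) (q := some (τ y, 1)) ⟨hG.sym _ _ hc0.1, hsubA hc0.2,
              Or.inr ⟨y, by omega, le_refl _, rfl⟩⟩ ?_
            have e : (some (τ y, 2) : Port T) = rot (some (τ y, 1)) := by
              rw [rot_some]; rfl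
            rw [e]
            refine .stop fun q hq => ?_
            rw [rot_some] at hq
            have hq1 : Gl (some (τ y, 2)) q := by
              have := hq.1
              rwa [show (1 : ZMod 4) + 1 = 2 by decide] at this
            have := hG.fn _ _ _ hq1 (hd.hor y (by omega) (by omega))
            subst this
            exact hnew hq.2.2
          · intro e he0 he1 q hq
            rcases z4s hd.hs e with rfl | rfl | rfl | rfl
            · exact absurd rfl he0
            · exact hE q hq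
            · exact absurd rfl he1
            · exact hF q hq
        · -- parent below: `s = 3`, `d = 3`
          refine ih'.add_two hG hnew 3 (p0 := c (y + 1)) (p1 := some (τ y, 2)) hc.1
            (by rw [show (3 : ZMod 4) + 1 = 0 by decide]; exact hW) (hsubA hc.2) hWA ?_ ?_
          · have n1 := hd.nx3 rfl y (by omega) (by omega)
            refine .go (q := c y) ⟨?_, Or.inr ⟨y, by omega, le_refl _, rfl⟩, hsubA hc0.2⟩ ?_
            · rw [rot_some, show (2 : ZMod 4) + 1 = 3 by decide]
              exact hc0.1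
            · refine n1.mono (GA_mono hsubA) fun q hq => ?_
              have := hG.fn _ _ _ hq.1 (hG.sym _ _ hc.1)
              subst this
              exact hnew hq.2.2
          · intro e he0 he1 q hq
            rcases z4s hd.hs e with rfl | rfl | rfl | rfl
            · exact absurd (by decide) he1
            · exact hE q hq
            · exact absurd rfl he0
            · exact hF q hq
      · -- glued along the west side only
        refine ih'.add_one hG hnew 0 hW hWA ?_
        intro e he q hq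
        rcases z4s hd.hs e with rfl | rfl | rfl | rfl
        · exact absurd rfl he
        · exact hE q hq
        · exact fun h => hd.out (y + 1) (by omega) (by omega) (by omega) q hq (hsub h)
        · exact hF q hq
  have S2 : St b Gl (A0 ∪ Row τ u j) := by
    have := S1 (j - u).toNat (by omega)
    rwa [Int.toNat_of_nonneg (by omega), add_sub_cancel] at this
  -- to the left
  have S3 : ∀ n : ℕ, i ≤ u - n → St b Gl (A0 ∪ Row τ (u - n) j) := by
    intro n
    induction n with
    | zero => intro _; simpa using S2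
    | succ n ih =>
      intro hn
      push_cast at hn
      have ih' := ih (by omega)
      set y : ℤ := u - n with hy
      have e1 : u - ((n + 1 : ℕ) : ℤ) = y - 1 := by push_cast; omega
      have hsub : A0 ∪ Row τ y j ⊆ A0 ∪ Row τ i j := hd.sub (by omega) (by omega)
      rw [e1, Row_pred τ (by omega), Set.union_insert]
      have hnew : some (τ (y - 1)) ∉ A0 ∪ Row τ y j :=
        hd.new' (by omega) (by omega) (by omega) (by omega) (Or.inl (by omega))
      have hEg : Gl (some (τ (y - 1), 2)) (some (τ y, 0)) := by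
        have := hd.hor (y - 1) (by omega) (by omega)
        rwa [sub_add_cancel] at this
      refine ih'.add_one hG hnew 2 hEg (Or.inr ⟨y, le_refl _, by omega, rfl⟩) ?_
      intro e he q hq
      rcases z4s hd.hs e with rfl | rfl | rfl | rfl
      · exact hd.west' hG (x := y - 1) (by omega) (by omega) (by omega) (le_refl _) (Or.inl (by omega))
          q hq
      · exact absurd rfl he
      · exact fun h => hd.out (y - 1) (by omega) (by omega) (by omega) q hq (hsub h)
      · exact fun h => hd.free (y - 1) (by omega) (by omega) q hq (hsub h)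
  have := S3 (u - i).toNat (by omega)
  rwa [Int.toNat_of_nonneg (by omega), sub_sub_cancel] at this

end Crest.Agent.R158.Xr249
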