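import Crest.Agent.R158.Xr3_249

/-!
# R158, block XR (helper249), file Xr4: growth of a hole-free region by horizontal runs

* `Reg.Below`, `Reg.Above` : contact data of a new run
* `Reg.grow_step` : one step, `Reg.grow` : induction principle (root run, then one run at a time, each
  glued to the built part along one interval on one side)
* `Reg.gl` : the glueing relation on ports; **`Reg.st`** : `R.SC`, `R` connected ⟹ there is a word with
  exactly the tiles `R.P` and exactly the glued pairs of `R`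
-/

set_option autoImplicit false
set_option linter.unusedVariables false

namespace Crest.Agent.R158.Xr249

namespace Reg

variable {R : Reg}

/-- the new run touches `Q` below, along the columns `u..v` -/
structure Below (R : Reg) (Q : Set (ℤ × ℤ)) (a b t u v : ℤ) : Prop where
  au : a ≤ u
  uv : u ≤ v
  vb : v ≤ b
  con : ∀ x, u ≤ x → x ≤ v → R.v (x, t - 1) ∧ (x, t - 1) ∈ Q
  hor : ∀ x, u ≤ x → x < v → R.h (x, t - 1)
  out : ∀ x, a ≤ x → x ≤ b → ¬ (u ≤ x ∧ x ≤ v) → ¬ (R.v (x, t - 1) ∧ (x, t - 1) ∈ Q)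
  free : ∀ x, a ≤ x → x ≤ b → ¬ (R.v (x, t) ∧ (x, t + 1) ∈ Q)

/-- the new run touches `Q` above, along the columns `u..v` -/
structure Above (R : Reg) (Q : Set (ℤ × ℤ)) (a b t u v : ℤ) : Prop where
  au : a ≤ u
  uv : u ≤ v
  vb : v ≤ b
  con : ∀ x, u ≤ x → x ≤ v → R.v (x, t) ∧ (x, t + 1) ∈ Q
  hor : ∀ x, u ≤ x → x < v → R.h (x, t + 1)
  out : ∀ x, a ≤ x → x ≤ b → ¬ (u ≤ x ∧ x ≤ v) → ¬ (R.v (x, t) ∧ (x, t + 1) ∈ Q)
  free : ∀ x, a ≤ x → x ≤ b → ¬ (R.v (x, t - 1) ∧ (x, t - 1) ∈ Q)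

/-- a good part: closed under horizontal glueing and connected -/
structure Good (R : Reg) (Q : Set (ℤ × ℤ)) : Prop where
  sub : Q ⊆ R.P
  clo : ∀ x y, R.h (x, y) → ((x, y) ∈ Q ↔ (x + 1, y) ∈ Q)
  conn : ∀ p ∈ Q, ∀ q ∈ Q, ∃ N, R.WN Q p q N

/-- connected by glueing -/
def Conn (R : Reg) : Prop := ∀ p ∈ R.P, ∀ q ∈ R.P, ∃ N, R.WN (R.P : Set (ℤ × ℤ)) p q N

/-- the cells of a run -/
def cells (a b t : ℤ) : Set (ℤ × ℤ) := {p | a ≤ p.1 ∧ p.1 ≤ b ∧ p.2 = t}

lemma exists_run {x0 t : ℤ} (h : (x0, t) ∈ R.P) : ∃ a b, a ≤ x0 ∧ x0 ≤ b ∧ R.IsRun a b t := by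
  -- the right end
  obtain ⟨m, hm⟩ : ∃ m : ℤ, ∀ p ∈ R.P, p.1 < m := by
    obtain ⟨m, hm⟩ := (R.P.image Prod.fst).bddAbove
    exact ⟨m + 1, fun p hp => Int.lt_add_one_iff.2 (hm (by simpa using ⟨p.2, hp⟩))⟩
  obtain ⟨l, hl⟩ : ∃ l : ℤ, ∀ p ∈ R.P, l ≤ p.1 := by
    obtain ⟨m, hm⟩ := (R.P.image Prod.fst).bddBelow
    exact ⟨m, fun p hp => hm (by simpa using ⟨p.2, hp⟩)⟩
  obtain ⟨b, ⟨hb1, hb2⟩, hb3⟩ := Int.exists_least_of_bdd (P := fun z => x0 ≤ z ∧ ¬ R.h (z, t))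
    ⟨x0, fun z hz => hz.1⟩ ⟨max x0 m, le_max_left _ _, fun hz => by
      have := hm _ (R.hP _ _ hz).1
      have := le_max_right x0 m
      simp only at *
      omega⟩
  obtain ⟨a, ⟨ha1, ha2⟩, ha3⟩ := Int.exists_greatest_of_bdd (P := fun z => z ≤ x0 ∧ ¬ R.h (z - 1, t))
    ⟨x0, fun z hz => hz.1⟩ ⟨min x0 l, min_le_left _ _, fun hz => by
      have := hl _ (R.hP _ _ hz).1
      have := min_le_right x0 l
      simp only at *
      omega⟩
  have hg : ∀ x, a ≤ x → x < b → R.h (x, t) := by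
    intro x h1 h2
    by_contra h3
    rcases le_or_gt x0 x with h4 | h4
    · have := hb3 x ⟨h4, h3⟩
      omega
    · have := ha3 (x + 1) ⟨by omega, by rwa [add_sub_cancel_right]⟩
      omega
  refine ⟨a, b, ha1, hb1, ⟨by omega, ?_, hg, ha2, hb2⟩⟩
  rcases eq_or_lt_of_le ha1 with rfl | h1
  · exact h
  · exact (R.hP _ _ (hg a (le_refl _) (by omega))).1

lemma Good.run_disj {Q : Set (ℤ × ℤ)} (hQ : R.Good Q) {a b t x0 : ℤ} (hr : R.IsRun a b t)
    (h1 : a ≤ x0) (h2 : x0 ≤ b) (h : (x0, t) ∉ Q) : ∀ x, a ≤ x → x ≤ b → (x, t) ∉ Q := by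
  have key : ∀ n : ℕ, ∀ x, a ≤ x → x + n ≤ b → ((x, t) ∈ Q ↔ (x + n, t) ∈ Q) := by
    intro n
    induction n with
    | zero => intro x _ _; simp
    | succ n ih =>
      intro x h3 h4
      push_cast at h4 ⊢
      rw [ih x h3 (by omega), hQ.clo _ _ (hr.gl (x + n) (by omega) (by omega)), add_assoc]
  intro x h3 h4 h5
  rcases le_total x x0 with h6 | h6
  · have := (key (x0 - x).toNat x h3 (by omega)).1 h5
    rw [Int.toNat_of_nonneg (by omega), add_sub_cancel] at this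
    exact h this
  · have := (key (x - x0).toNat x0 h1 (by omega)).2
    rw [Int.toNat_of_nonneg (by omega), add_sub_cancel] at this
    exact h (this h5)

lemma exists_interval {X : ℤ → Prop} {a b x0 : ℤ} (h0 : X x0) (h1 : a ≤ x0) (h2 : x0 ≤ b)
    (hb : ∀ x1 x2, a ≤ x1 → x1 < x2 → x2 ≤ b → X x1 → X x2 → ∀ x, x1 ≤ x → x ≤ x2 → X x) :
    ∃ u v, a ≤ u ∧ u ≤ v ∧ v ≤ b ∧ (∀ x, u ≤ x → x ≤ v → X x) ∧
      (∀ x, a ≤ x → x ≤ b → ¬ (u ≤ x ∧ x ≤ v) → ¬ X x) := by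
  obtain ⟨u, ⟨hu1, hu2, hu3⟩, hu4⟩ := Int.exists_least_of_bdd (P := fun z => a ≤ z ∧ z ≤ b ∧ X z)
    ⟨a, fun z hz => hz.1⟩ ⟨x0, h1, h2, h0⟩
  obtain ⟨v, ⟨hv1, hv2, hv3⟩, hv4⟩ := Int.exists_greatest_of_bdd (P := fun z => a ≤ z ∧ z ≤ b ∧ X z)
    ⟨b, fun z hz => hz.2.1⟩ ⟨x0, h1, h2, h0⟩
  have huv : u ≤ v := hu4 v ⟨hv1, hv2, hv3⟩
  refine ⟨u, v, hu1, huv, hv2, fun x h3 h4 => ?_, fun x h3 h4 h5 h6 => ?_⟩
  · rcases eq_or_lt_of_le huv with rfl | h5
    · rw [le_antisymm h4 h3]; exact hu3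
    · exact hb u v hu1 h5 hv2 hu3 hv3 x h3 h4
  · exact h5 ⟨hu4 x ⟨h3, h4, h6⟩, hv4 x ⟨h3, h4, h6⟩⟩

/-- **one step of the growth** -/
theorem grow_step (hsc : R.SC) (hc : R.Conn) {Q : Set (ℤ × ℤ)} (hQ : R.Good Q) (hne : Q.Nonempty)
    (hn : ¬ (R.P : Set (ℤ × ℤ)) ⊆ Q) :
    ∃ a b t, R.IsRun a b t ∧ (∀ x, a ≤ x → x ≤ b → (x, t) ∉ Q) ∧
      ((∃ u v, R.Below Q a b t u v) ∨ (∃ u v, R.Above Q a b t u v)) := by
  classical
  -- a step out of `Q`
  obtain ⟨p0, hp0⟩ := hne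
  obtain ⟨q0, hq0, hq0'⟩ := Set.not_subset.1 hn
  obtain ⟨p, q, M, hp, hq, hs⟩ : ∃ p q M, p ∈ Q ∧ q ∉ Q ∧ R.Stp p q M := by
    obtain ⟨N, hN⟩ := hc p0 (hQ.sub hp0) q0 hq0
    clear hq0 hn
    induction hN with
    | nil _ => exact absurd hp0 hq0'
    | @cons q r N M h1 h2 h3 ih =>
      by_cases h4 : q ∈ Q
      · exact ⟨_, _, _, h4, hq0', h2⟩
      · exact ih h4
  -- the step is vertical
  have hcontact : ∀ {a b t x1 x2 : ℤ}, R.IsRun a b t → a ≤ x1 → x1 ≤ b → a ≤ x2 → x2 ≤ b →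
      (∀ x, a ≤ x → x ≤ b → (x, t) ∉ Q) → (x1, t - 1) ∈ Q → (x2, t + 1) ∈ Q →
      R.v (x1, t - 1) → R.v (x2, t) → False := by
    intro a b t x1 x2 hr h1 h2 h3 h4 h5 h6 h7 h8 h9
    obtain ⟨N, hN⟩ := hQ.conn _ h6 _ h7
    exact below_above hsc hr hQ.sub h5 h1 h2 h3 h4 hN h8 h9
  cases hs with
  | @right x y h => exact absurd ((hQ.clo _ _ h).1 hp) hq
  | @left x y h => exact absurd ((hQ.clo _ _ h).2 hp) hq
  | @up x y h =>
    -- parent below
    obtain ⟨a, b, h1, h2, hr⟩ := exists_run (R.vP _ _ h).2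
    have hd := hQ.run_disj hr h1 h2 hq
    obtain ⟨u, v, k1, k2, k3, k4, k5⟩ := exists_interval
      (X := fun z => R.v (z, y) ∧ (z, y) ∈ Q) ⟨h, hp⟩ h1 h2 (by
        intro x1 x2 g1 g2 g3 g4 g5
        obtain ⟨N, hN⟩ := hQ.conn _ g4.2 _ g5.2
        have key := fun z g6 g7 => below_below hsc hr hQ.sub hd g1 g2 g3
          (by rw [add_sub_cancel_right]; exact hN) (by rw [add_sub_cancel_right]; exact g4.1)
          (by rw [add_sub_cancel_right]; exact g5.1) (x := z) g6 g7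
        simp only [add_sub_cancel_right] at key
        have mem : ∀ n : ℕ, x1 + n ≤ x2 → (x1 + n, y) ∈ Q := by
          intro n
          induction n with
          | zero => intro _; simpa using g4.2
          | succ n ih =>
            intro g6
            push_cast at g6 ⊢
            have := (hQ.clo _ _ (key (x1 + n) (by omega) (by omega)).1).1 (ih (by omega))
            rwa [add_assoc] at this
        intro z g6 g7
        have hz : (z, y) ∈ Q := by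
          have := mem (z - x1).toNat (by omega)
          rwa [Int.toNat_of_nonneg (by omega), add_sub_cancel] at this
        rcases eq_or_lt_of_le g7 with rfl | g8
        · exact g5
        · exact ⟨(key z g6 g8).2.1, hz⟩)
    refine ⟨a, b, y + 1, hr, hd, Or.inl ⟨u, v, k1, k2, k3, ?_, ?_, ?_, ?_⟩⟩
    · intro z g1 g2
      rw [add_sub_cancel_right]
      exact k4 z g1 g2
    · intro z g1 g2
      obtain ⟨N, hN⟩ := hQ.conn _ (k4 u (le_refl _) k2).2 _ (k4 v k2 (le_refl _)).2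
      have := below_below hsc hr hQ.sub hd k1 (by omega) k3
        (by rw [add_sub_cancel_right]; exact hN)
        (by rw [add_sub_cancel_right]; exact (k4 u (le_refl _) k2).1)
        (by rw [add_sub_cancel_right]; exact (k4 v k2 (le_refl _)).1) (x := z) g1 g2
      exact this.1
    · intro z g1 g2 g3
      rw [add_sub_cancel_right]
      exact k5 z g1 g2 g3
    · rintro z g1 g2 ⟨g3, g4⟩
      exact hcontact hr h1 h2 g1 g2 hd (by rw [add_sub_cancel_right]; exact hp) g4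
        (by rw [add_sub_cancel_right]; exact h) g3
  | @down x y h =>
    -- parent above
    obtain ⟨a, b, h1, h2, hr⟩ := exists_run (R.vP _ _ h).1
    have hd := hQ.run_disj hr h1 h2 hq
    obtain ⟨u, v, k1, k2, k3, k4, k5⟩ := exists_interval
      (X := fun z => R.v (z, y) ∧ (z, y + 1) ∈ Q) ⟨h, hp⟩ h1 h2 (by
        intro x1 x2 g1 g2 g3 g4 g5
        obtain ⟨N, hN⟩ := hQ.conn _ g4.2 _ g5.2
        have key := fun z g6 g7 => above_above hsc hr hQ.sub hd g1 g2 g3 hN g4.1 g5.1 (x := z) g6 g7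
        have mem : ∀ n : ℕ, x1 + n ≤ x2 → (x1 + n, y + 1) ∈ Q := by
          intro n
          induction n with
          | zero => intro _; simpa using g4.2
          | succ n ih =>
            intro g6
            push_cast at g6 ⊢
            have := (hQ.clo _ _ (key (x1 + n) (by omega) (by omega)).1).1 (ih (by omega))
            rwa [add_assoc] at this
        intro z g6 g7
        have hz : (z, y + 1) ∈ Q := by
          have := mem (z - x1).toNat (by omega)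
          rwa [Int.toNat_of_nonneg (by omega), add_sub_cancel] at this
        rcases eq_or_lt_of_le g7 with rfl | g8
        · exact g5
        · exact ⟨(key z g6 g8).2.1, hz⟩)
    refine ⟨a, b, y, hr, hd, Or.inr ⟨u, v, k1, k2, k3, k4, ?_, k5, ?_⟩⟩
    · intro z g1 g2
      obtain ⟨N, hN⟩ := hQ.conn _ (k4 u (le_refl _) k2).2 _ (k4 v k2 (le_refl _)).2
      exact (above_above hsc hr hQ.sub hd k1 (by omega) k3 hN (k4 u (le_refl _) k2).1
        (k4 v k2 (le_refl _)).1 (x := z) g1 g2).1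
    · rintro z g1 g2 ⟨g3, g4⟩
      exact hcontact hr g1 g2 h1 h2 hd g4 hp g3 h

/-- a walk along a run inside a set -/
lemma IsRun.walk_in {a b t : ℤ} (hr : R.IsRun a b t) {Q : Set (ℤ × ℤ)} (hQ : cells a b t ⊆ Q)
    {x1 x2 : ℤ} (h1 : a ≤ x1) (h12 : x1 ≤ b) (h2 : a ≤ x2) (h22 : x2 ≤ b) :
    ∃ N, R.WN Q (x1, t) (x2, t) N := by
  have key : ∀ n : ℕ, ∀ y, a ≤ y → y + n ≤ b → ∃ N, R.WN Q (y, t) (y + n, t) N := by
    intro n
    induction n with
    | zero => intro y h3 h4; exact ⟨0, by simpa using WN.nil (hQ ⟨h3, by simpa using h4, rfl⟩)⟩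
    | succ n ih =>
      intro y h3 h4
      push_cast at h4 ⊢
      obtain ⟨N, hN⟩ := ih y h3 (by omega)
      have hs : R.Stp (y + n, t) (y + (n + 1), t)
          (fun f => if f.1 = y + n ∧ f.2 + 1 ≤ t then 1 else 0) := by
        rw [← add_assoc]
        exact .right (hr.gl _ (by omega) (by omega))
      exact ⟨_, hN.cons hs (hQ ⟨by simp only; omega, by simp only; omega, rfl⟩)⟩
  rcases le_total x1 x2 with h3 | h3
  · obtain ⟨N, hN⟩ := key (x2 - x1).toNat x1 h1 (by omega)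
    rw [Int.toNat_of_nonneg (by omega), add_sub_cancel] at hN
    exact ⟨N, hN⟩
  · obtain ⟨N, hN⟩ := key (x1 - x2).toNat x2 h2 (by omega)
    rw [Int.toNat_of_nonneg (by omega), add_sub_cancel] at hN
    exact ⟨N, hN.symm⟩

lemma good_run {a b t : ℤ} (hr : R.IsRun a b t) : R.Good (cells a b t) := by
  refine ⟨?_, ?_, ?_⟩
  · rintro ⟨x, y⟩ ⟨h1, h2, h3⟩
    simp only at h1 h2 h3
    subst h3
    exact_mod_cast hr.mem h1 h2
  · intro x y h
    simp only [cells, Set.mem_setOf_eq]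
    constructor
    · rintro ⟨h1, h2, rfl⟩
      refine ⟨by omega, ?_, rfl⟩
      by_contra h3
      have : x = b := by omega
      subst this
      exact hr.lb h
    · rintro ⟨h1, h2, rfl⟩
      refine ⟨?_, by omega, rfl⟩
      by_contra h3
      have : x = a - 1 := by omega
      subst this
      exact hr.la h
  · rintro ⟨x, y⟩ ⟨h1, h2, h3⟩ ⟨x', y'⟩ ⟨h1', h2', h3'⟩
    simp only at h1 h2 h3 h1' h2' h3'
    subst h3 h3'
    exact hr.walk_in subset_rfl h1 h2 h1' h2'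

lemma Good.add_run {Q : Set (ℤ × ℤ)} (hQ : R.Good Q) {a b t : ℤ} (hr : R.IsRun a b t)
    (hc : ∃ p ∈ Q, ∃ x, a ≤ x ∧ x ≤ b ∧ ∃ M, R.Stp p (x, t) M) : R.Good (Q ∪ cells a b t) := by
  have hg := good_run hr
  obtain ⟨p, hp, x, hx1, hx2, M, hM⟩ := hc
  refine ⟨Set.union_subset hQ.sub hg.sub, ?_, ?_⟩
  · intro x y h
    rw [Set.mem_union, Set.mem_union, hQ.clo _ _ h, hg.clo _ _ h]
  · have key : ∀ q ∈ Q ∪ cells a b t, ∃ N, R.WN (Q ∪ cells a b t) p q N := by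
      rintro q (hq | hq)
      · obtain ⟨N, hN⟩ := hQ.conn p hp q hq
        exact ⟨N, hN.mono Set.subset_union_left⟩
      · obtain ⟨N, hN⟩ := hg.conn (x, t) ⟨hx1, hx2, rfl⟩ q hq
        have h1 := (WN.nil (R := R) (Set.mem_union_left (cells a b t) hp)).cons hM
          (Or.inr ⟨hx1, hx2, rfl⟩)
        exact ⟨_, h1.trans (hN.mono Set.subset_union_right)⟩
    intro q hq r hr'
    obtain ⟨N, hN⟩ := key q hq
    obtain ⟨N', hN'⟩ := key r hr'
    exact ⟨_, hN.symm.trans hN'⟩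

/-- **growth induction**: root run, then one run at a time -/
theorem grow (hsc : R.SC) (hc : R.Conn) {a0 b0 t0 : ℤ} (hr0 : R.IsRun a0 b0 t0)
    (F : Set (ℤ × ℤ) → Prop) (h0 : F (cells a0 b0 t0))
    (hstep : ∀ (Q : Set (ℤ × ℤ)) (a b t : ℤ), F Q → R.Good Q → cells a0 b0 t0 ⊆ Q → R.IsRun a b t →
      (∀ x, a ≤ x → x ≤ b → (x, t) ∉ Q) →
      ((∃ u v, R.Below Q a b t u v) ∨ (∃ u v, R.Above Q a b t u v)) → F (Q ∪ cells a b t)) :
    F (R.P : Set (ℤ × ℤ)) := by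
  classical
  have key : ∀ n : ℕ, ∀ Q : Set (ℤ × ℤ), F Q → R.Good Q → cells a0 b0 t0 ⊆ Q →
      ((R.P : Set (ℤ × ℤ)) \ Q).ncard ≤ n → F (R.P : Set (ℤ × ℤ)) := by
    intro n
    induction n with
    | zero =>
      intro Q hF hQ h1 h2
      have h3 : ((R.P : Set (ℤ × ℤ)) \ Q).ncard = 0 := by omega
      rw [Set.ncard_eq_zero (R.P.finite_toSet.subset Set.diff_subset), Set.diff_eq_empty] at h3
      rw [Set.Subset.antisymm h3 hQ.sub]
      exact hF
    | succ n ih =>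
      intro Q hF hQ h1 h2
      by_cases h3 : (R.P : Set (ℤ × ℤ)) ⊆ Q
      · rw [Set.Subset.antisymm h3 hQ.sub]
        exact hF
      · obtain ⟨a, b, t, g1, g2, g3⟩ := grow_step hsc hc hQ
          ⟨(a0, t0), h1 ⟨le_refl _, hr0.hab, rfl⟩⟩ h3
        refine ih (Q ∪ cells a b t) (hstep Q a b t hF hQ h1 g1 g2 g3) (hQ.add_run g1 ?_)
          (h1.trans Set.subset_union_left) ?_
        · rcases g3 with ⟨u, v, g3⟩ | ⟨u, v, g3⟩
          · have g4 := g3.con u (le_refl _) g3.uv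
            have g5 : R.Stp (u, t - 1) (u, t) (fun _ => 0) := by
              have := Stp.up g4.1
              rwa [sub_add_cancel] at this
            exact ⟨_, g4.2, u, g3.au, g3.uv.trans g3.vb, _, g5⟩
          · have g4 := g3.con u (le_refl _) g3.uv
            exact ⟨_, g4.2, u, g3.au, g3.uv.trans g3.vb, _, .down g4.1⟩
        · have h4 : (a, t) ∈ (R.P : Set (ℤ × ℤ)) \ Q :=
            ⟨by exact_mod_cast g1.memP, g2 a (le_refl _) g1.hab⟩
          have h5 : (R.P : Set (ℤ × ℤ)) \ (Q ∪ cells a b t) ⊂ (R.P : Set (ℤ × ℤ)) \ Q := by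
            refine ⟨Set.diff_subset_diff_right Set.subset_union_left, fun h => ?_⟩
            exact (h h4).2 (Or.inr ⟨le_refl _, g1.hab, rfl⟩)
          have := Set.ncard_lt_ncard h5 (R.P.finite_toSet.subset Set.diff_subset)
          omega
  exact key _ _ h0 (good_run hr0) subset_rfl (le_refl _)

end Reg

end Crest.Agent.R158.Xr249
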