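import Crest.Agent.R158.Xr4_249

/-!
# R158, block XR (helper249), file Xr5: a hole-free region is a word

* `Reg.gl R` : the glueing relation of the region on the ports `Port (ℤ × ℤ)`
* `Reg.gl_glue` : symmetric, functional
* **`Reg.st`** : `R.SC`, `R.Conn`, root run `a0..b0` in row `t0` ⟹
  `St (some (a0, t0)) R.gl (some '' R.P)`: there is a word from the tile `(a0, t0)` with exactly the
  tiles `R.P` and exactly the glued pairs of `R`; the port `W` of the base tile is not glued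
-/

set_option autoImplicit false
set_option linter.unusedVariables false

namespace Crest.Agent.R158.Xr249

namespace Reg

variable {R : Reg}

/-- the glueing relation on ports, sides `W = 0, N = 1, E = 2, S = 3` -/
def gl (R : Reg) : Port (ℤ × ℤ) → Port (ℤ × ℤ) → Prop
  | none, _ => False
  | some (t, d), q =>
      (d = 0 ∧ R.h (t.1 - 1, t.2) ∧ q = some ((t.1 - 1, t.2), 2)) ∨
      (d = 1 ∧ R.v (t.1, t.2) ∧ q = some ((t.1, t.2 + 1), 3)) ∨
      (d = 2 ∧ R.h (t.1, t.2) ∧ q = some ((t.1 + 1, t.2), 0)) ∨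
      (d = 3 ∧ R.v (t.1, t.2 - 1) ∧ q = some ((t.1, t.2 - 1), 1))

lemma gl_0 {x y : ℤ} {q : Port (ℤ × ℤ)} :
    R.gl (some ((x, y), 0)) q ↔ R.h (x - 1, y) ∧ q = some ((x - 1, y), 2) := by
  simp only [gl]
  constructor
  · rintro (⟨-, h⟩ | ⟨h, -⟩ | ⟨h, -⟩ | ⟨h, -⟩)
    · exact h
    · exact absurd h (by decide)
    · exact absurd h (by decide)
    · exact absurd h (by decide)
  · intro h; exact Or.inl ⟨trivial, h⟩

lemma gl_1 {x y : ℤ} {q : Port (ℤ × ℤ)} :
    R.gl (some ((x, y), 1)) q ↔ R.v (x, y) ∧ q = some ((x, y + 1), 3) := by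
  simp only [gl]
  constructor
  · rintro (⟨h, -⟩ | ⟨-, h⟩ | ⟨h, -⟩ | ⟨h, -⟩)
    · exact absurd h (by decide)
    · exact h
    · exact absurd h (by decide)
    · exact absurd h (by decide)
  · intro h; exact Or.inr (Or.inl ⟨trivial, h⟩)

lemma gl_2 {x y : ℤ} {q : Port (ℤ × ℤ)} :
    R.gl (some ((x, y), 2)) q ↔ R.h (x, y) ∧ q = some ((x + 1, y), 0) := by
  simp only [gl]
  constructor
  · rintro (⟨h, -⟩ | ⟨h, -⟩ | ⟨-, h⟩ | ⟨h, -⟩)
    · exact absurd h (by decide)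
    · exact absurd h (by decide)
    · exact h
    · exact absurd h (by decide)
  · intro h; exact Or.inr (Or.inr (Or.inl ⟨trivial, h⟩))

lemma gl_3 {x y : ℤ} {q : Port (ℤ × ℤ)} :
    R.gl (some ((x, y), 3)) q ↔ R.v (x, y - 1) ∧ q = some ((x, y - 1), 1) := by
  simp only [gl]
  constructor
  · rintro (⟨h, -⟩ | ⟨h, -⟩ | ⟨h, -⟩ | ⟨-, h⟩)
    · exact absurd h (by decide)
    · exact absurd h (by decide)
    · exact absurd h (by decide)
    · exact h
  · intro h; exact Or.inr (Or.inr (Or.inr ⟨trivial, h⟩))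

lemma d4 (d : ZMod 4) : d = 0 ∨ d = 1 ∨ d = 2 ∨ d = 3 := by
  revert d; decide

theorem gl_glue (R : Reg) : Glue R.gl := by
  refine ⟨?_, ?_, ?_⟩
  · rintro (- | ⟨⟨x, y⟩, d⟩) q h
    · exact h.elim
    · rcases d4 d with rfl | rfl | rfl | rfl
      · obtain ⟨h1, rfl⟩ := gl_0.1 h
        exact gl_2.2 ⟨h1, by rw [sub_add_cancel]⟩
      · obtain ⟨h1, rfl⟩ := gl_1.1 h
        exact gl_3.2 ⟨by rwa [add_sub_cancel_right], by rw [add_sub_cancel_right]⟩
      · obtain ⟨h1, rfl⟩ := gl_2.1 h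
        exact gl_0.2 ⟨by rwa [add_sub_cancel_right], by rw [add_sub_cancel_right]⟩
      · obtain ⟨h1, rfl⟩ := gl_3.1 h
        exact gl_1.2 ⟨h1, by rw [sub_add_cancel]⟩
  · rintro (- | ⟨⟨x, y⟩, d⟩) q q' h h'
    · exact h.elim
    · rcases d4 d with rfl | rfl | rfl | rfl
      · rw [(gl_0.1 h).2, (gl_0.1 h').2]
      · rw [(gl_1.1 h).2, (gl_1.1 h').2]
      · rw [(gl_2.1 h).2, (gl_2.1 h').2]
      · rw [(gl_3.1 h).2, (gl_3.1 h').2]
  · rintro (- | ⟨⟨x, y⟩, d⟩) q h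
    · exact h.elim
    · rcases d4 d with rfl | rfl | rfl | rfl
      · rw [(gl_0.1 h).2]; simp; omega
      · rw [(gl_1.1 h).2]; simp
      · rw [(gl_2.1 h).2]; simp
      · rw [(gl_3.1 h).2]; simp; omega

/-- the tiles of a row -/
def rw_ (t : ℤ) : ℤ → ℤ × ℤ := fun x => (x, t)

lemma Row_eq (a b t : ℤ) : Row (rw_ t) a b = some '' cells a b t := by
  ext o
  constructor
  · rintro ⟨x, h1, h2, rfl⟩
    exact ⟨(x, t), ⟨h1, h2, rfl⟩, rfl⟩
  · rintro ⟨⟨x, y⟩, ⟨h1, h2, h3⟩, rfl⟩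
    simp only at h1 h2 h3
    exact ⟨x, h1, h2, by rw [h3]; rfl⟩

lemma mem_some {Q : Set (ℤ × ℤ)} {p : ℤ × ℤ} : some p ∈ some '' Q ↔ p ∈ Q := by
  simp

lemma mem_cells {a b t x y : ℤ} : (x, y) ∈ cells a b t ↔ a ≤ x ∧ x ≤ b ∧ y = t := Iff.rfl

/-- attaching a run that touches `Q` below -/
lemma rowBelow {Q : Set (ℤ × ℤ)} (hQ : R.Good Q) {a b t u v : ℤ} (hr : R.IsRun a b t)
    (hd : ∀ x, a ≤ x → x ≤ b → (x, t) ∉ Q) (hb : R.Below Q a b t u v) :
    RowData R.gl (some '' Q) (rw_ t) a b u v 3 (fun x => some ((x, t - 1), 1)) := by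
  have hmem : ∀ q : ℤ × ℤ, some q ∈ some '' Q ∪ Row (rw_ t) a b ↔ q ∈ Q ∨ q ∈ cells a b t := by
    intro q
    rw [Row_eq, Set.mem_union, mem_some, mem_some]
  refine ⟨Or.inr rfl, hb.au, hb.uv, hb.vb, ?_, ?_, ?_, ?_, ?_, ?_, ?_, ?_, ?_, ?_⟩
  · intro x y _ _ _ _ h
    exact (Prod.mk.injEq _ _ _ _ ▸ h : x = y ∧ t = t).1
  · intro x h1 h2 h3
    exact hd x h1 h2 (mem_some.1 h3)
  · intro x h1 h2
    exact gl_2.2 ⟨hr.gl x h1 h2, rfl⟩
  · intro q hq
    exact absurd (gl_0.1 hq).1 hr.la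
  · intro q hq
    exact absurd (gl_2.1 hq).1 hr.lb
  · intro x h1 h2 q hq hm
    obtain ⟨h3, rfl⟩ := gl_1.1 (show R.gl (some ((x, t), 1)) q from hq)
    rcases (hmem _).1 hm with h4 | h4
    · exact hb.free x h1 h2 ⟨h3, h4⟩
    · have := h4.2.2; simp only at this; omega
  · intro x h1 h2
    exact ⟨gl_3.2 ⟨(hb.con x h1 h2).1, rfl⟩, mem_some.2 (hb.con x h1 h2).2⟩
  · intro x h1 h2 h3 q hq hm
    obtain ⟨h4, rfl⟩ := gl_3.1 (show R.gl (some ((x, t), 3)) q from hq)
    rcases (hmem _).1 hm with h5 | h5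
    · exact hb.out x h1 h2 h3 ⟨h4, h5⟩
    · have := h5.2.2; simp only at this; omega
  · intro _ x h1 h2
    have c1 := hb.con x h1 (by omega)
    have c2 := hb.con (x + 1) (by omega) (by omega)
    refine .go (q := some ((x + 1, t - 1), 0)) ⟨?_, mem_some.2 c1.2, mem_some.2 c2.2⟩ ?_
    · rw [rot_some]
      exact gl_2.2 ⟨hb.hor x h1 h2, rfl⟩
    · refine .stop (p := some ((x + 1, t - 1), 0)) fun q hq => ?_
      rw [rot_some] at hq
      obtain ⟨h4, h5⟩ := gl_1.1 (show R.gl (some ((x + 1, t - 1), 1)) q from hq.1)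
      rw [sub_add_cancel] at h5
      rw [h5] at hq
      have h6 := hb.au
      have h7 := hb.vb
      exact hd (x + 1) (by omega) (by omega) (mem_some.1 hq.2.2)
  · intro h; exact absurd h (by decide)

/-- attaching a run that touches `Q` above -/
lemma rowAbove {Q : Set (ℤ × ℤ)} (hQ : R.Good Q) {a b t u v : ℤ} (hr : R.IsRun a b t)
    (hd : ∀ x, a ≤ x → x ≤ b → (x, t) ∉ Q) (hb : R.Above Q a b t u v) :
    RowData R.gl (some '' Q) (rw_ t) a b u v 1 (fun x => some ((x, t + 1), 3)) := by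
  have hmem : ∀ q : ℤ × ℤ, some q ∈ some '' Q ∪ Row (rw_ t) a b ↔ q ∈ Q ∨ q ∈ cells a b t := by
    intro q
    rw [Row_eq, Set.mem_union, mem_some, mem_some]
  refine ⟨Or.inl rfl, hb.au, hb.uv, hb.vb, ?_, ?_, ?_, ?_, ?_, ?_, ?_, ?_, ?_, ?_⟩
  · intro x y _ _ _ _ h
    exact (Prod.mk.injEq _ _ _ _ ▸ h : x = y ∧ t = t).1
  · intro x h1 h2 h3
    exact hd x h1 h2 (mem_some.1 h3)
  · intro x h1 h2
    exact gl_2.2 ⟨hr.gl x h1 h2, rfl⟩
  · intro q hq
    exact absurd (gl_0.1 hq).1 hr.la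
  · intro q hq
    exact absurd (gl_2.1 hq).1 hr.lb
  · intro x h1 h2 q hq hm
    obtain ⟨h3, rfl⟩ := gl_3.1 (show R.gl (some ((x, t), 3)) q from hq)
    rcases (hmem _).1 hm with h4 | h4
    · exact hb.free x h1 h2 ⟨h3, h4⟩
    · have := h4.2.2; simp only at this; omega
  · intro x h1 h2
    exact ⟨gl_1.2 ⟨(hb.con x h1 h2).1, rfl⟩, mem_some.2 (hb.con x h1 h2).2⟩
  · intro x h1 h2 h3 q hq hm
    obtain ⟨h4, rfl⟩ := gl_1.1 (show R.gl (some ((x, t), 1)) q from hq)
    rcases (hmem _).1 hm with h5 | h5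
    · exact hb.out x h1 h2 h3 ⟨h4, h5⟩
    · have := h5.2.2; simp only at this; omega
  · intro h; exact absurd h (by decide)
  · intro _ x h1 h2
    have c1 := hb.con x h1 (by omega)
    have c2 := hb.con (x + 1) (by omega) (by omega)
    refine .go (q := some ((x, t + 1), 2)) ⟨?_, mem_some.2 c2.2, mem_some.2 c1.2⟩ ?_
    · rw [rot_some, show (3 : ZMod 4) + 1 = 0 by decide]
      refine gl_0.2 ⟨?_, ?_⟩
      · rw [add_sub_cancel_right]; exact hb.hor x h1 h2
      · rw [add_sub_cancel_right]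
    · refine .stop (p := some ((x, t + 1), 2)) fun q hq => ?_
      rw [rot_some] at hq
      obtain ⟨h4, h5⟩ := gl_3.1 (show R.gl (some ((x, t + 1), 3)) q from hq.1)
      rw [add_sub_cancel_right] at h5
      rw [h5] at hq
      have h6 := hb.au
      have h7 := hb.vb
      exact hd x (by omega) (by omega) (mem_some.1 hq.2.2)

/-- the root run is a word -/
lemma st_run {a b t : ℤ} (hr : R.IsRun a b t) : St (some (a, t)) R.gl (some '' cells a b t) := by
  have key : ∀ n : ℕ, a + n ≤ b → St (some (a, t)) R.gl (some '' cells a (a + n) t) := by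
    intro n
    induction n with
    | zero =>
      intro _
      have e : (some '' cells a (a + ((0 : ℕ) : ℤ)) t : Set (Option (ℤ × ℤ))) = {some (a, t)} := by
        rw [← Row_eq]
        have := Row_self (rw_ t) a
        simpa [rw_] using this
      rw [e]
      exact St.base (gl_glue R)
    | succ n ih =>
      intro hn
      push_cast at hn
      have ih' := ih (by omega)
      have e : (some '' cells a (a + ((n + 1 : ℕ) : ℤ)) t : Set (Option (ℤ × ℤ))) =
          insert (some (a + n + 1, t)) (some '' cells a (a + n) t) := by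
        rw [← Row_eq, ← Row_eq, show a + ((n + 1 : ℕ) : ℤ) = a + n + 1 by push_cast; ring,
          Row_succ (rw_ t) (by omega)]
        rfl
      rw [e]
      have hW : R.gl (some ((a + n + 1, t), 0)) (some ((a + n, t), 2)) :=
        gl_0.2 ⟨by rw [add_sub_cancel_right]; exact hr.gl _ (by omega) (by omega),
          by rw [add_sub_cancel_right]⟩
      refine ih'.add_one (gl_glue R) ?_ 0 hW (mem_some.2 ⟨by simp, le_refl _, rfl⟩) ?_
      · rw [mem_some, mem_cells]; omega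
      · intro e he q hq hm
        rcases d4 e with rfl | rfl | rfl | rfl
        · exact he rfl
        · obtain ⟨h1, rfl⟩ := gl_1.1 hq
          have := (mem_some.1 hm).2.2; simp only at this; omega
        · obtain ⟨h1, rfl⟩ := gl_2.1 hq
          have := (mem_some.1 hm).2.1; simp only at this; omega
        · obtain ⟨h1, rfl⟩ := gl_3.1 hq
          have := (mem_some.1 hm).2.2; simp only at this; omega
  have := key (b - a).toNat (by have := hr.hab; omega)
  have h2 := hr.hab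
  rwa [Int.toNat_of_nonneg (by omega), add_sub_cancel] at this

/-- **a hole-free connected region is a word** -/
theorem st (hsc : R.SC) (hc : R.Conn) {a0 b0 t0 : ℤ} (hr0 : R.IsRun a0 b0 t0) :
    St (some (a0, t0)) R.gl (some '' (R.P : Set (ℤ × ℤ))) := by
  refine grow hsc hc hr0 (fun Q => St (some (a0, t0)) R.gl (some '' Q)) (st_run hr0) ?_
  intro Q a b t hF hQ _ hr hd hcon
  rw [Set.image_union, ← Row_eq]
  rcases hcon with ⟨u, v, hb⟩ | ⟨u, v, hb⟩
  · exact hF.attach_row (gl_glue R) (rowBelow hQ hr hd hb)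
  · exact hF.attach_row (gl_glue R) (rowAbove hQ hr hd hb)

/-- the same with the word spelled out: boundary cycle, invariants, glueing -/
theorem word (hsc : R.SC) (hc : R.Conn) {a0 b0 t0 : ℤ} (hr0 : R.IsRun a0 b0 t0) :
    ∃ c : Cycle (Port (ℤ × ℤ)), Wd (some (a0, t0)) c (some '' (R.P : Set (ℤ × ℤ)))
        (GA R.gl (some '' (R.P : Set (ℤ × ℤ)))) ∧ c.Nodup ∧
      (∀ p, p ∈ c ↔ (∃ t d, p = some (t, d) ∧ t ∈ R.P) ∧ ∀ q, ¬ R.gl p q) ∧
      c.Chain (Nx (GA R.gl (some '' (R.P : Set (ℤ × ℤ))))) ∧ some ((a0, t0), 0) ∈ c := by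
  obtain ⟨c, hw⟩ := st hsc hc hr0
  have hi := hw.inv
  have hGl : ∀ p q, R.gl p q → GA R.gl (some '' (R.P : Set (ℤ × ℤ))) p q := by
    rintro (- | ⟨⟨x, y⟩, d⟩) q h
    · exact h.elim
    · refine ⟨h, ?_⟩
      rcases d4 d with rfl | rfl | rfl | rfl
      · obtain ⟨h1, rfl⟩ := gl_0.1 h
        have := R.hP _ _ h1
        rw [sub_add_cancel] at this
        exact ⟨mem_some.2 (by exact_mod_cast this.2), mem_some.2 (by exact_mod_cast this.1)⟩
      · obtain ⟨h1, rfl⟩ := gl_1.1 h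
        have := R.vP _ _ h1
        exact ⟨mem_some.2 (by exact_mod_cast this.1), mem_some.2 (by exact_mod_cast this.2)⟩
      · obtain ⟨h1, rfl⟩ := gl_2.1 h
        have := R.hP _ _ h1
        exact ⟨mem_some.2 (by exact_mod_cast this.1), mem_some.2 (by exact_mod_cast this.2)⟩
      · obtain ⟨h1, rfl⟩ := gl_3.1 h
        have := R.vP _ _ h1
        rw [sub_add_cancel] at this
        exact ⟨mem_some.2 (by exact_mod_cast this.2), mem_some.2 (by exact_mod_cast this.1)⟩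
  have hmem : ∀ p, p ∈ c ↔ (∃ t d, p = some (t, d) ∧ t ∈ R.P) ∧ ∀ q, ¬ R.gl p q := by
    intro p
    rw [hi.mem p]
    constructor
    · rintro ⟨h1, h2⟩
      refine ⟨?_, fun q hq => h2 q (hGl p q hq)⟩
      rcases p with - | ⟨t, d⟩
      · simp at h1
      · exact ⟨t, d, rfl, by simpa using h1⟩
    · rintro ⟨⟨t, d, rfl, h1⟩, h2⟩
      exact ⟨mem_some.2 (by exact_mod_cast h1), fun q hq => h2 q hq.1⟩
  refine ⟨c, hw, hi.nd, hmem, hi.chain, (hmem _).2 ⟨⟨_, _, rfl, hr0.memP⟩, fun q hq => ?_⟩⟩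
  exact hr0.la (gl_0.1 hq).1

end Reg

end Crest.Agent.R158.Xr249
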