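import Crest.Agent.R158.Xr6_249

/-!
# R158, block XR (helper249), file Xr7: the region with a leg (664's option W)

The leg is glued to the side `S` of `(p, y0)`; on the row line `y0`, right of `p`, the lower tiles are
glued to the upper ones shifted by one: `(x, y0-1).N ~ (x+1, y0).S` for `p ≤ x < xr`, and the side `N`
of `(xr, y0-1)` is free (`xr` = the right wall).

* `Reg.glz`, `glz_glue`, `Slit`
* **`Reg.stz`** : `R.SC`, `R.Conn`, `R.Slit p y0 xr` ⟹ leg word with tiles `R.P` and glueing `R.glz p y0 xr`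
* **`Reg.okz`** : the same as an `Ok` word of `Sw300`
-/

set_option autoImplicit false
set_option linter.unusedVariables false

namespace Crest.Agent.R158.Xr249

namespace Reg

variable {R : Reg}

/-- the glueing with a leg at the side `S` of `(p, y0)` and the row line `y0` shifted up to the right
wall `xr` -/
def glz (R : Reg) (p y0 xr : ℤ) : Port (ℤ × ℤ) → Port (ℤ × ℤ) → Prop
  | none, q => q = some ((p, y0), 3)
  | some (t, d), q =>
      (d = 0 ∧ R.h (t.1 - 1, t.2) ∧ q = some ((t.1 - 1, t.2), 2)) ∨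
      (d = 1 ∧ ((t.2 = y0 - 1 ∧ p ≤ t.1 ∧ t.1 < xr ∧ q = some ((t.1 + 1, y0), 3)) ∨
        (¬ (t.2 = y0 - 1 ∧ p ≤ t.1 ∧ t.1 ≤ xr) ∧ R.v (t.1, t.2) ∧ q = some ((t.1, t.2 + 1), 3)))) ∨
      (d = 2 ∧ R.h (t.1, t.2) ∧ q = some ((t.1 + 1, t.2), 0)) ∨
      (d = 3 ∧ ((t.2 = y0 ∧ t.1 = p ∧ q = none) ∨
        (t.2 = y0 ∧ p < t.1 ∧ t.1 ≤ xr ∧ q = some ((t.1 - 1, y0 - 1), 1)) ∨
        (¬ (t.2 = y0 ∧ p ≤ t.1 ∧ t.1 ≤ xr) ∧ R.v (t.1, t.2 - 1) ∧ q = some ((t.1, t.2 - 1), 1))))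

/-- the hypotheses on the line: `p..xr` is glued on both sides of the row line, the face right of
`xr` has an unglued side, and the line is longer than `{p}` -/
structure Slit (R : Reg) (p y0 xr : ℤ) : Prop where
  pr : p ≤ xr
  ver : ∀ x, p ≤ x → x ≤ xr → R.v (x, y0 - 1)
  lo : ∀ x, p ≤ x → x < xr → R.h (x, y0 - 1)
  up : ∀ x, p ≤ x → x < xr → R.h (x, y0)
  wall : ¬ (R.h (xr, y0 - 1) ∧ R.h (xr, y0) ∧ R.v (xr + 1, y0 - 1))
  con : p < xr ∨ (R.v (p - 1, y0 - 1) ∧ R.h (p - 1, y0 - 1) ∧ R.h (p - 1, y0))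

variable {p y0 xr : ℤ}

lemma glz_none {q : Port (ℤ × ℤ)} : R.glz p y0 xr none q ↔ q = some ((p, y0), 3) := Iff.rfl

lemma glz_0 {x y : ℤ} {q : Port (ℤ × ℤ)} :
    R.glz p y0 xr (some ((x, y), 0)) q ↔ R.h (x - 1, y) ∧ q = some ((x - 1, y), 2) := by
  simp only [glz]
  constructor
  · rintro (⟨-, h⟩ | ⟨h, -⟩ | ⟨h, -⟩ | ⟨h, -⟩)
    · exact h
    · exact absurd h (by decide)
    · exact absurd h (by decide)
    · exact absurd h (by decide)
  · intro h; exact Or.inl ⟨trivial, h⟩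

lemma glz_1 {x y : ℤ} {q : Port (ℤ × ℤ)} :
    R.glz p y0 xr (some ((x, y), 1)) q ↔
      ((y = y0 - 1 ∧ p ≤ x ∧ x < xr ∧ q = some ((x + 1, y0), 3)) ∨
        (¬ (y = y0 - 1 ∧ p ≤ x ∧ x ≤ xr) ∧ R.v (x, y) ∧ q = some ((x, y + 1), 3))) := by
  simp only [glz]
  constructor
  · rintro (⟨h, -⟩ | ⟨-, h⟩ | ⟨h, -⟩ | ⟨h, -⟩)
    · exact absurd h (by decide)
    · exact h
    · exact absurd h (by decide)
    · exact absurd h (by decide)
  · intro h; exact Or.inr (Or.inl ⟨trivial, h⟩)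

lemma glz_2 {x y : ℤ} {q : Port (ℤ × ℤ)} :
    R.glz p y0 xr (some ((x, y), 2)) q ↔ R.h (x, y) ∧ q = some ((x + 1, y), 0) := by
  simp only [glz]
  constructor
  · rintro (⟨h, -⟩ | ⟨h, -⟩ | ⟨-, h⟩ | ⟨h, -⟩)
    · exact absurd h (by decide)
    · exact absurd h (by decide)
    · exact h
    · exact absurd h (by decide)
  · intro h; exact Or.inr (Or.inr (Or.inl ⟨trivial, h⟩))

lemma glz_3 {x y : ℤ} {q : Port (ℤ × ℤ)} :
    R.glz p y0 xr (some ((x, y), 3)) q ↔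
      ((y = y0 ∧ x = p ∧ q = none) ∨
        (y = y0 ∧ p < x ∧ x ≤ xr ∧ q = some ((x - 1, y0 - 1), 1)) ∨
        (¬ (y = y0 ∧ p ≤ x ∧ x ≤ xr) ∧ R.v (x, y - 1) ∧ q = some ((x, y - 1), 1))) := by
  simp only [glz]
  constructor
  · rintro (⟨h, -⟩ | ⟨h, -⟩ | ⟨h, -⟩ | ⟨-, h⟩)
    · exact absurd h (by decide)
    · exact absurd h (by decide)
    · exact absurd h (by decide)
    · exact h
  · intro h; exact Or.inr (Or.inr (Or.inr ⟨trivial, h⟩))

theorem glz_glue (hs : R.Slit p y0 xr) : Glue (R.glz p y0 xr) := by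
  refine ⟨?_, ?_, ?_⟩
  · rintro (- | ⟨⟨x, y⟩, d⟩) q h
    · rw [glz_none.1 h]
      exact glz_3.2 (Or.inl ⟨rfl, rfl, rfl⟩)
    · rcases d4 d with rfl | rfl | rfl | rfl
      · obtain ⟨h1, rfl⟩ := glz_0.1 h
        exact glz_2.2 ⟨h1, by rw [sub_add_cancel]⟩
      · rcases glz_1.1 h with ⟨rfl, h1, h2, rfl⟩ | ⟨h1, h2, rfl⟩
        · exact glz_3.2 (Or.inr (Or.inl ⟨rfl, by omega, by omega, by rw [add_sub_cancel_right]⟩))
        · refine glz_3.2 (Or.inr (Or.inr ⟨?_, ?_, ?_⟩))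
          · rintro ⟨h3, h4, h5⟩
            exact h1 ⟨by omega, h4, h5⟩
          · rwa [add_sub_cancel_right]
          · rw [add_sub_cancel_right]
      · obtain ⟨h1, rfl⟩ := glz_2.1 h
        exact glz_0.2 ⟨by rwa [add_sub_cancel_right], by rw [add_sub_cancel_right]⟩
      · rcases glz_3.1 h with ⟨rfl, rfl, rfl⟩ | ⟨rfl, h1, h2, rfl⟩ | ⟨h1, h2, rfl⟩
        · exact glz_none.2 rfl
        · refine glz_1.2 (Or.inl ⟨rfl, by omega, by omega, by rw [sub_add_cancel]⟩)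
        · refine glz_1.2 (Or.inr ⟨?_, h2, by rw [sub_add_cancel]⟩)
          rintro ⟨h3, h4, h5⟩
          exact h1 ⟨by omega, h4, h5⟩
  · rintro (- | ⟨⟨x, y⟩, d⟩) q q' h h'
    · rw [glz_none.1 h, glz_none.1 h']
    · rcases d4 d with rfl | rfl | rfl | rfl
      · rw [(glz_0.1 h).2, (glz_0.1 h').2]
      · rcases glz_1.1 h with ⟨rfl, h1, h2, rfl⟩ | ⟨h1, h2, rfl⟩
        · rcases glz_1.1 h' with ⟨-, -, -, rfl⟩ | ⟨h4, -, -⟩
          · rfl
          · exact absurd ⟨rfl, h1, h2.le⟩ h4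
        · rcases glz_1.1 h' with ⟨h3, h4, h5, -⟩ | ⟨h4, -, rfl⟩
          · exact absurd ⟨h3, h4, h5.le⟩ h1
          · rfl
      · rw [(glz_2.1 h).2, (glz_2.1 h').2]
      · rcases glz_3.1 h with ⟨rfl, rfl, rfl⟩ | ⟨rfl, h1, h2, rfl⟩ | ⟨h1, h2, rfl⟩
        · rcases glz_3.1 h' with ⟨-, -, rfl⟩ | ⟨-, h3, -, -⟩ | ⟨h3, -, -⟩
          · rfl
          · omega
          · exact absurd ⟨rfl, le_refl _, hs.pr⟩ h3
        · rcases glz_3.1 h' with ⟨-, h3, rfl⟩ | ⟨-, h3, -, rfl⟩ | ⟨h3, -, -⟩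
          · omega
          · rfl
          · exact absurd ⟨rfl, h1.le, h2⟩ h3
        · rcases glz_3.1 h' with ⟨h3, h4, -⟩ | ⟨h3, h4, h5, -⟩ | ⟨h3, -, rfl⟩
          · have := hs.pr
            exact absurd ⟨h3, by omega, by omega⟩ h1
          · exact absurd ⟨h3, by omega, by omega⟩ h1
          · rfl
  · rintro (- | ⟨⟨x, y⟩, d⟩) q h
    · rw [glz_none.1 h]; simp
    · rcases d4 d with rfl | rfl | rfl | rfl
      · rw [(glz_0.1 h).2]; simp; omega
      · rcases glz_1.1 h with ⟨rfl, h1, h2, rfl⟩ | ⟨h1, h2, rfl⟩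
        · simp
        · simp
      · rw [(glz_2.1 h).2]; simp
      · rcases glz_3.1 h with ⟨rfl, rfl, rfl⟩ | ⟨rfl, h1, h2, rfl⟩ | ⟨h1, h2, rfl⟩
        · simp
        · simp; omega
        · simp; omega

/-- the built part: the leg and the tiles `Q` -/
def A0 (Q : Set (ℤ × ℤ)) : Set (Option (ℤ × ℤ)) := insert none (some '' Q)

lemma mem_A0 {Q : Set (ℤ × ℤ)} {q : ℤ × ℤ} : some q ∈ A0 Q ↔ q ∈ Q := by simp [A0]

lemma none_A0 {Q : Set (ℤ × ℤ)} : none ∈ A0 Q := Or.inl rfl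

lemma A0_union {Q : Set (ℤ × ℤ)} {a b t : ℤ} : A0 Q ∪ Row (rw_ t) a b = A0 (Q ∪ cells a b t) := by
  rw [Row_eq, A0, A0, Set.image_union, Set.insert_union]

lemma mem_A0r {Q : Set (ℤ × ℤ)} {a b t : ℤ} {q : ℤ × ℤ} :
    some q ∈ A0 Q ∪ Row (rw_ t) a b ↔ q ∈ Q ∨ q ∈ cells a b t := by
  rw [A0_union, mem_A0, Set.mem_union]

/-- the part `p..xr` of the line lies in the run of any of its tiles -/
lemma IsRun.cover {a b t : ℤ} (hr : R.IsRun a b t) {l r x : ℤ} (hh : ∀ x, l ≤ x → x < r → R.h (x, t))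
    (h1 : l ≤ x) (h2 : x ≤ r) (h3 : a ≤ x) (h4 : x ≤ b) : a ≤ l ∧ r ≤ b := by
  constructor
  · by_contra h
    refine hr.la (hh (a - 1) (by omega) (by omega))
  · by_contra h
    exact hr.lb (hh b (by omega) (by omega))

/-- the root row: the whole run of `(p, y0)`, glued to the leg -/
lemma rowRoot (hs : R.Slit p y0 xr) {a b : ℤ} (hr : R.IsRun a b y0) (h1 : a ≤ p) (h2 : p ≤ b) :
    RowData (R.glz p y0 xr) {none} (rw_ y0) a b p p 3 (fun _ => none) := by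
  refine ⟨Or.inr rfl, h1, le_refl _, h2, ?_, ?_, ?_, ?_, ?_, ?_, ?_, ?_, ?_, ?_⟩
  · intro x y _ _ _ _ h
    exact (Prod.mk.injEq _ _ _ _ ▸ h : x = y ∧ y0 = y0).1
  · intro x _ _ h
    simp at h
  · intro x h1 h2
    exact glz_2.2 ⟨hr.gl x h1 h2, rfl⟩
  · intro q hq
    exact absurd (glz_0.1 hq).1 hr.la
  · intro q hq
    exact absurd (glz_2.1 hq).1 hr.lb
  · intro x h1 h2 q hq hm
    rcases glz_1.1 (show R.glz p y0 xr (some ((x, y0), 1)) q from hq) with ⟨h3, -⟩ | ⟨-, -, rfl⟩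
    · omega
    · rcases hm with hm | ⟨z, _, _, hm⟩
      · simp at hm
      · simp [rw_] at hm
  · intro x h3 h4
    have : x = p := le_antisymm h4 h3
    subst this
    exact ⟨glz_3.2 (Or.inl ⟨rfl, rfl, rfl⟩), rfl⟩
  · intro x h3 h4 h5 q hq hm
    rcases glz_3.1 (show R.glz p y0 xr (some ((x, y0), 3)) q from hq) with
      ⟨-, h6, -⟩ | ⟨-, h6, h7, rfl⟩ | ⟨-, -, rfl⟩
    · omega
    · rcases hm with hm | ⟨z, _, _, hm⟩
      · simp at hm
      · simp only [tl_some, rw_, Option.some.injEq, Prod.mk.injEq] at hm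
        omega
    · rcases hm with hm | ⟨z, _, _, hm⟩
      · simp at hm
      · simp only [tl_some, rw_, Option.some.injEq, Prod.mk.injEq] at hm
        omega
  · intro _ x h3 h4; omega
  · intro _ x h3 h4; omega

/-- attaching a run that touches `Q` below -/
lemma rowBelowz (hs : R.Slit p y0 xr) {Q : Set (ℤ × ℤ)} {a b t u v : ℤ} (hr : R.IsRun a b t)
    (hd : ∀ x, a ≤ x → x ≤ b → (x, t) ∉ Q) (hb : R.Below Q a b t u v)
    (hQp : ∀ x, p ≤ x → x ≤ xr → (x, y0) ∈ Q) :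
    RowData (R.glz p y0 xr) (A0 Q) (rw_ t) a b u v 3 (fun x => some ((x, t - 1), 1)) := by
  have e1 : ∀ x, a ≤ x → x ≤ b → t = y0 → ¬ (p ≤ x ∧ x ≤ xr) := by
    rintro x h1 h2 rfl ⟨h3, h4⟩
    exact hd x h1 h2 (hQp x h3 h4)
  have e2 : ∀ x, a ≤ x → x ≤ b → t = y0 - 1 → ¬ (p ≤ x ∧ x ≤ xr) := by
    rintro x h1 h2 rfl ⟨h3, h4⟩
    refine hb.free x h1 h2 ⟨hs.ver x h3 h4, ?_⟩
    rw [sub_add_cancel]
    exact hQp x h3 h4
  have k1 := hb.au
  have k2 := hb.vb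
  refine ⟨Or.inr rfl, hb.au, hb.uv, hb.vb, ?_, ?_, ?_, ?_, ?_, ?_, ?_, ?_, ?_, ?_⟩
  · intro x y _ _ _ _ h
    exact (Prod.mk.injEq _ _ _ _ ▸ h : x = y ∧ t = t).1
  · intro x h1 h2 h3
    exact hd x h1 h2 (mem_A0.1 h3)
  · intro x h1 h2
    exact glz_2.2 ⟨hr.gl x h1 h2, rfl⟩
  · intro q hq
    exact absurd (glz_0.1 hq).1 hr.la
  · intro q hq
    exact absurd (glz_2.1 hq).1 hr.lb
  · intro x h1 h2 q hq hm
    rcases glz_1.1 (show R.glz p y0 xr (some ((x, t), 1)) q from hq) with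
      ⟨h3, h4, h5, -⟩ | ⟨-, h3, rfl⟩
    · exact e2 x h1 h2 h3 ⟨h4, h5.le⟩
    · rcases mem_A0r.1 hm with h4 | h4
      · exact hb.free x h1 h2 ⟨h3, h4⟩
      · have := h4.2.2; simp only at this; omega
  · intro x h1 h2
    refine ⟨glz_3.2 (Or.inr (Or.inr ⟨?_, (hb.con x h1 h2).1, rfl⟩)), mem_A0.2 (hb.con x h1 h2).2⟩
    rintro ⟨h3, h4⟩
    exact e1 x (by omega) (by omega) h3 h4
  · intro x h1 h2 h3 q hq hm
    rcases glz_3.1 (show R.glz p y0 xr (some ((x, t), 3)) q from hq) with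
      ⟨h6, h7, -⟩ | ⟨h5, h6, h7, -⟩ | ⟨-, h4, rfl⟩
    · exact e1 x h1 h2 h6 ⟨by omega, by have := hs.pr; omega⟩
    · exact e1 x h1 h2 h5 ⟨by omega, by omega⟩
    · rcases mem_A0r.1 hm with h5 | h5
      · exact hb.out x h1 h2 h3 ⟨h4, h5⟩
      · have := h5.2.2; simp only at this; omega
  · intro _ x h1 h2
    have c1 := hb.con x h1 (by omega)
    have c2 := hb.con (x + 1) (by omega) (by omega)
    refine .go (q := some ((x + 1, t - 1), 0)) ⟨?_, mem_A0.2 c1.2, mem_A0.2 c2.2⟩ ?_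
    · rw [rot_some]
      exact glz_2.2 ⟨hb.hor x h1 h2, rfl⟩
    · refine .stop (p := some ((x + 1, t - 1), 0)) fun q hq => ?_
      rw [rot_some] at hq
      rcases glz_1.1 (show R.glz p y0 xr (some ((x + 1, t - 1), 1)) q from hq.1) with
        ⟨h3, h4, h5, -⟩ | ⟨-, -, h5⟩
      · exact e1 (x + 1) (by omega) (by omega) (by omega) ⟨h4, h5.le⟩
      · rw [sub_add_cancel] at h5
        rw [h5] at hq
        exact hd (x + 1) (by omega) (by omega) (mem_A0.1 hq.2.2)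
  · intro h; exact absurd h (by decide)

/-- attaching a run that touches `Q` above, not at the shifted line -/
lemma rowAbovez (hs : R.Slit p y0 xr) {Q : Set (ℤ × ℤ)} {a b t u v : ℤ} (hr : R.IsRun a b t)
    (hd : ∀ x, a ≤ x → x ≤ b → (x, t) ∉ Q) (hb : R.Above Q a b t u v)
    (hQp : ∀ x, p ≤ x → x ≤ xr → (x, y0) ∈ Q)
    (e2 : ∀ x, a ≤ x → x ≤ b → t = y0 - 1 → ¬ (p ≤ x ∧ x ≤ xr)) :
    RowData (R.glz p y0 xr) (A0 Q) (rw_ t) a b u v 1 (fun x => some ((x, t + 1), 3)) := by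
  have e1 : ∀ x, a ≤ x → x ≤ b → t = y0 → ¬ (p ≤ x ∧ x ≤ xr) := by
    rintro x h1 h2 rfl ⟨h3, h4⟩
    exact hd x h1 h2 (hQp x h3 h4)
  have k1 := hb.au
  have k2 := hb.vb
  refine ⟨Or.inl rfl, hb.au, hb.uv, hb.vb, ?_, ?_, ?_, ?_, ?_, ?_, ?_, ?_, ?_, ?_⟩
  · intro x y _ _ _ _ h
    exact (Prod.mk.injEq _ _ _ _ ▸ h : x = y ∧ t = t).1
  · intro x h1 h2 h3
    exact hd x h1 h2 (mem_A0.1 h3)
  · intro x h1 h2
    exact glz_2.2 ⟨hr.gl x h1 h2, rfl⟩
  · intro q hq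
    exact absurd (glz_0.1 hq).1 hr.la
  · intro q hq
    exact absurd (glz_2.1 hq).1 hr.lb
  · intro x h1 h2 q hq hm
    rcases glz_3.1 (show R.glz p y0 xr (some ((x, t), 3)) q from hq) with
      ⟨h6, h7, -⟩ | ⟨h5, h6, h7, -⟩ | ⟨-, h3, rfl⟩
    · exact e1 x h1 h2 h6 ⟨by omega, by have := hs.pr; omega⟩
    · exact e1 x h1 h2 h5 ⟨by omega, by omega⟩
    · rcases mem_A0r.1 hm with h4 | h4
      · exact hb.free x h1 h2 ⟨h3, h4⟩
      · have := h4.2.2; simp only at this; omega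
  · intro x h1 h2
    refine ⟨glz_1.2 (Or.inr ⟨?_, (hb.con x h1 h2).1, rfl⟩), mem_A0.2 (hb.con x h1 h2).2⟩
    rintro ⟨h3, h4⟩
    exact e2 x (by omega) (by omega) h3 h4
  · intro x h1 h2 h3 q hq hm
    rcases glz_1.1 (show R.glz p y0 xr (some ((x, t), 1)) q from hq) with
      ⟨h4, h5, h6, -⟩ | ⟨-, h4, rfl⟩
    · exact e2 x h1 h2 h4 ⟨h5, h6.le⟩
    · rcases mem_A0r.1 hm with h5 | h5
      · exact hb.out x h1 h2 h3 ⟨h4, h5⟩
      · have := h5.2.2; simp only at this; omega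
  · intro h; exact absurd h (by decide)
  · intro _ x h1 h2
    have c1 := hb.con x h1 (by omega)
    have c2 := hb.con (x + 1) (by omega) (by omega)
    refine .go (q := some ((x, t + 1), 2)) ⟨?_, mem_A0.2 c2.2, mem_A0.2 c1.2⟩ ?_
    · rw [rot_some, show (3 : ZMod 4) + 1 = 0 by decide]
      refine glz_0.2 ⟨?_, ?_⟩
      · rw [add_sub_cancel_right]; exact hb.hor x h1 h2
      · rw [add_sub_cancel_right]
    · refine .stop (p := some ((x, t + 1), 2)) fun q hq => ?_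
      rw [rot_some] at hq
      rcases glz_3.1 (show R.glz p y0 xr (some ((x, t + 1), 3)) q from hq.1) with
        ⟨h6, h7, -⟩ | ⟨h5, h6, h7, -⟩ | ⟨-, h4, h5⟩
      · exact e2 x (by omega) (by omega) (by omega) ⟨by omega, by have := hs.pr; omega⟩
      · exact e2 x (by omega) (by omega) (by omega) ⟨by omega, by omega⟩
      · rw [add_sub_cancel_right] at h5
        rw [h5] at hq
        exact hd x (by omega) (by omega) (mem_A0.1 hq.2.2)

/-- attaching the run under the shifted line -/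
lemma rowLine (hs : R.Slit p y0 xr) {Q : Set (ℤ × ℤ)} (hQ : R.Good Q) {a b u v : ℤ}
    (hr : R.IsRun a b (y0 - 1))
    (hd : ∀ x, a ≤ x → x ≤ b → (x, y0 - 1) ∉ Q) (hb : R.Above Q a b (y0 - 1) u v)
    (hQp : ∀ x, p ≤ x → x ≤ xr → (x, y0) ∈ Q) (hap : a ≤ p) (hxb : xr ≤ b) :
    RowData (R.glz p y0 xr) (A0 Q) (rw_ (y0 - 1)) a b u (xr - 1) 1
      (fun x => if x < p then some ((x, y0), 3) else some ((x + 1, y0), 3)) := by
  have hpr := hs.pr
  have k1 := hb.au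
  have k2 := hb.vb
  have hcon : ∀ x, u ≤ x → x ≤ v → R.v (x, y0 - 1) ∧ (x, y0) ∈ Q := by
    intro x h1 h2
    have := hb.con x h1 h2
    rwa [sub_add_cancel] at this
  have hhor : ∀ x, u ≤ x → x < v → R.h (x, y0) := by
    intro x h1 h2
    have := hb.hor x h1 h2
    rwa [sub_add_cancel] at this
  have hout : ∀ x, a ≤ x → x ≤ b → R.v (x, y0 - 1) → (x, y0) ∈ Q → u ≤ x ∧ x ≤ v := by
    intro x h1 h2 h3 h4
    by_contra h5
    refine hb.out x h1 h2 h5 ⟨h3, ?_⟩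
    rwa [sub_add_cancel]
  have hup : u ≤ p ∧ p ≤ v := hout p hap (by omega) (hs.ver p (le_refl _) hpr) (hQp p (le_refl _) hpr)
  have hxr : u ≤ xr ∧ xr ≤ v :=
    hout xr (by omega) hxb (hs.ver xr hpr (le_refl _)) (hQp xr hpr (le_refl _))
  have hv : v = xr := by
    by_contra h
    refine hs.wall ⟨hr.gl xr (by omega) (by omega), hhor xr (by omega) (by omega), ?_⟩
    exact (hcon (xr + 1) (by omega) (by omega)).1
  subst hv
  have hu : u ≤ v - 1 := by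
    rcases hs.con with h | ⟨h1, h2, h3⟩
    · omega
    · have h4 : a ≤ p - 1 := by
        by_contra h
        have : a = p := by omega
        subst this
        exact hr.la h2
      have h5 : (p - 1, y0) ∈ Q := by
        refine (hQ.clo _ _ h3).2 ?_
        rw [sub_add_cancel]
        exact hQp p (le_refl _) hpr
      have := hout (p - 1) h4 (by omega) h1 h5
      omega
  have hmem : ∀ x, u ≤ x → x ≤ v → (x, y0) ∈ Q := fun x h1 h2 => (hcon x h1 h2).2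
  have hne : ∀ x : ℤ, (some ((x, y0), (3 : ZMod 4)) : Port (ℤ × ℤ)) = rot (some ((x, y0), 2)) := by
    intro x; rw [rot_some]; rfl
  -- a port `(x, y0).S` of the upper row is not glued to the built part
  have hfree : ∀ x, u ≤ x → x ≤ v → x ≠ p → ∀ q, ¬ GA (R.glz p y0 v) (A0 Q) (some ((x, y0), 3)) q := by
    rintro x h1 h2 h3 q ⟨h4, -, h5⟩
    rcases glz_3.1 h4 with ⟨-, h6, -⟩ | ⟨-, h6, h7, rfl⟩ | ⟨-, h6, rfl⟩
    · exact h3 h6
    · exact hd (x - 1) (by omega) (by omega) (mem_A0.1 h5)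
    · exact hd x (by omega) (by omega) (mem_A0.1 h5)
  refine ⟨Or.inl rfl, hb.au, hu, by omega, ?_, ?_, ?_, ?_, ?_, ?_, ?_, ?_, ?_, ?_⟩
  · intro x y _ _ _ _ h
    exact (Prod.mk.injEq _ _ _ _ ▸ h : x = y ∧ y0 - 1 = y0 - 1).1
  · intro x h1 h2 h3
    exact hd x h1 h2 (mem_A0.1 h3)
  · intro x h1 h2
    exact glz_2.2 ⟨hr.gl x h1 h2, rfl⟩
  · intro q hq
    exact absurd (glz_0.1 hq).1 hr.la
  · intro q hq
    exact absurd (glz_2.1 hq).1 hr.lb
  · intro x h1 h2 q hq hm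
    rcases glz_3.1 (show R.glz p y0 v (some ((x, y0 - 1), 3)) q from hq) with
      ⟨h6, -⟩ | ⟨h6, -⟩ | ⟨-, h3, rfl⟩
    · omega
    · omega
    · rcases mem_A0r.1 hm with h4 | h4
      · exact hb.free x h1 h2 ⟨h3, h4⟩
      · have := h4.2.2; simp only at this; omega
  · intro x h1 h2
    by_cases hx : x < p
    · rw [if_pos hx]
      refine ⟨glz_1.2 (Or.inr ⟨?_, (hcon x h1 (by omega)).1, by rw [sub_add_cancel]⟩),
        mem_A0.2 (hmem x h1 (by omega))⟩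
      rintro ⟨-, h3, -⟩
      omega
    · rw [if_neg hx]
      exact ⟨glz_1.2 (Or.inl ⟨rfl, by omega, by omega, rfl⟩), mem_A0.2 (hmem (x + 1) (by omega) (by omega))⟩
  · intro x h1 h2 h3 q hq hm
    rcases glz_1.1 (show R.glz p y0 v (some ((x, y0 - 1), 1)) q from hq) with
      ⟨h4, h5, h6, -⟩ | ⟨h4, h5, rfl⟩
    · omega
    · rw [sub_add_cancel] at hm
      rcases mem_A0r.1 hm with h6 | h6
      · have := hout x h1 h2 h5 h6
        exact h4 ⟨rfl, by omega, by omega⟩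
      · have := h6.2.2; simp only at this; omega
  · intro h; exact absurd h (by decide)
  · intro _ x h1 h2
    by_cases hx : x + 1 < p
    · rw [if_pos hx, if_pos (by omega)]
      refine .go (q := some ((x, y0), 2)) ⟨?_, mem_A0.2 (hmem _ (by omega) (by omega)),
        mem_A0.2 (hmem _ (by omega) (by omega))⟩ ?_
      · rw [rot_some, show (3 : ZMod 4) + 1 = 0 by decide]
        refine glz_0.2 ⟨?_, ?_⟩
        · rw [add_sub_cancel_right]; exact hhor x h1 (by omega)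
        · rw [add_sub_cancel_right]
      · rw [hne]
        refine .stop fun q hq => ?_
        rw [← hne] at hq
        exact hfree x (by omega) (by omega) (by omega) q hq
    · by_cases hx2 : x + 1 = p
      · -- the leg is passed
        subst hx2
        rw [if_neg (by omega), if_pos (by omega)]
        refine .go (q := some ((x + 1, y0), 2)) ⟨?_, mem_A0.2 (hmem _ (by omega) (by omega)),
          mem_A0.2 (hmem _ (by omega) (by omega))⟩ ?_
        · rw [rot_some, show (3 : ZMod 4) + 1 = 0 by decide]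
          refine glz_0.2 ⟨?_, ?_⟩
          · rw [add_sub_cancel_right]; exact hhor (x + 1) (by omega) (by omega)
          · rw [add_sub_cancel_right]
        refine .go (q := none) ⟨?_, mem_A0.2 (hmem _ (by omega) (by omega)), none_A0⟩ ?_
        · rw [← hne]
          exact glz_3.2 (Or.inl ⟨rfl, rfl, rfl⟩)
        refine .go (q := some ((x + 1, y0), 3)) ⟨?_, none_A0,
          mem_A0.2 (hmem _ (by omega) (by omega))⟩ ?_
        · rw [rot_none]
          exact glz_none.2 rfl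
        refine .go (q := some ((x, y0), 2)) ⟨?_, mem_A0.2 (hmem _ (by omega) (by omega)),
          mem_A0.2 (hmem _ (by omega) (by omega))⟩ ?_
        · rw [rot_some, show (3 : ZMod 4) + 1 = 0 by decide]
          refine glz_0.2 ⟨?_, ?_⟩
          · rw [add_sub_cancel_right]; exact hhor x (by omega) (by omega)
          · rw [add_sub_cancel_right]
        rw [hne]
        refine .stop fun q hq => ?_
        rw [← hne] at hq
        exact hfree x (by omega) (by omega) (by omega) q hq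
      · rw [if_neg (by omega), if_neg (by omega)]
        refine .go (q := some ((x + 1, y0), 2)) ⟨?_, mem_A0.2 (hmem _ (by omega) (by omega)),
          mem_A0.2 (hmem _ (by omega) (by omega))⟩ ?_
        · rw [rot_some, show (3 : ZMod 4) + 1 = 0 by decide]
          refine glz_0.2 ⟨?_, ?_⟩
          · rw [add_sub_cancel_right]; exact hhor (x + 1) (by omega) (by omega)
          · rw [add_sub_cancel_right]
        rw [hne]
        refine .stop fun q hq => ?_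
        rw [← hne] at hq
        exact hfree (x + 1) (by omega) (by omega) (by omega) q hq

/-- **the region with a leg is a word** -/
theorem stz (hs : R.Slit p y0 xr) (hsc : R.SC) (hc : R.Conn) :
    St none (R.glz p y0 xr) (A0 (R.P : Set (ℤ × ℤ))) := by
  have hG := glz_glue hs
  have hpP : (p, y0) ∈ R.P := by
    have := (R.vP _ _ (hs.ver p (le_refl _) hs.pr)).2
    rwa [sub_add_cancel] at this
  obtain ⟨a0, b0, h1, h2, hr0⟩ := exists_run hpP
  have hcov := hr0.cover hs.up (le_refl p) hs.pr h1 h2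
  refine grow hsc hc hr0 (fun Q => St none (R.glz p y0 xr) (A0 Q)) ?_ ?_
  · have := (St.base (b := none) hG).attach_row hG (rowRoot hs hr0 h1 h2)
    have e : ({none} : Set (Option (ℤ × ℤ))) ∪ Row (rw_ y0) a0 b0 = A0 (cells a0 b0 y0) := by
      rw [Row_eq, A0]; rfl
    rwa [e] at this
  · intro Q a b t hF hQ hsub hr hd hcon
    have hQp : ∀ x, p ≤ x → x ≤ xr → (x, y0) ∈ Q := fun x h3 h4 =>
      hsub ⟨by simp only; omega, by simp only; omega, rfl⟩
    rw [← A0_union]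
    rcases hcon with ⟨u, v, hb⟩ | ⟨u, v, hb⟩
    · exact hF.attach_row hG (rowBelowz hs hr hd hb hQp)
    · by_cases hp : t = y0 - 1 ∧ ∃ x, a ≤ x ∧ x ≤ b ∧ p ≤ x ∧ x ≤ xr
      · obtain ⟨rfl, x, g1, g2, g3, g4⟩ := hp
        have := hr.cover hs.lo g3 g4 g1 g2
        exact hF.attach_row hG (rowLine hs hQ hr hd hb hQp this.1 this.2)
      · refine hF.attach_row hG (rowAbovez hs hr hd hb hQp ?_)
        rintro x g1 g2 g3 ⟨g4, g5⟩
        exact hp ⟨g3, x, g1, g2, g4, g5⟩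

lemma glz_face {a b : Port (ℤ × ℤ)} (h : R.glz p y0 xr a b) : Sw300.sd b = Sw300.sd a + 2 := by
  rcases a with - | ⟨⟨x, y⟩, d⟩
  · rw [glz_none.1 h]; rfl
  · rcases d4 d with rfl | rfl | rfl | rfl
    · rw [(glz_0.1 h).2]; rfl
    · rcases glz_1.1 h with ⟨-, -, -, rfl⟩ | ⟨-, -, rfl⟩ <;> rfl
    · rw [(glz_2.1 h).2]; rfl
    · rcases glz_3.1 h with ⟨-, -, rfl⟩ | ⟨-, -, -, rfl⟩ | ⟨-, -, rfl⟩ <;> rfl

lemma glz_mem (hs : R.Slit p y0 xr) {a b : Port (ℤ × ℤ)} (h : R.glz p y0 xr a b) :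
    tl a ∈ A0 (R.P : Set (ℤ × ℤ)) := by
  rcases a with - | ⟨⟨x, y⟩, d⟩
  · exact none_A0
  · refine mem_A0.2 (show (x, y) ∈ R.P from ?_)
    rcases d4 d with rfl | rfl | rfl | rfl
    · have := (R.hP _ _ (glz_0.1 h).1).2
      rwa [sub_add_cancel] at this
    · rcases glz_1.1 h with ⟨rfl, h1, h2, rfl⟩ | ⟨-, h1, rfl⟩
      · exact (R.vP _ _ (hs.ver x h1 h2.le)).1
      · exact (R.vP _ _ h1).1
    · exact (R.hP _ _ (glz_2.1 h).1).1
    · rcases glz_3.1 h with ⟨rfl, rfl, rfl⟩ | ⟨rfl, h1, h2, rfl⟩ | ⟨-, h1, rfl⟩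
      · have := (R.vP _ _ (hs.ver x (le_refl _) hs.pr)).2
        rwa [sub_add_cancel] at this
      · have := (R.vP _ _ (hs.ver x h1.le h2)).2
        rwa [sub_add_cancel] at this
      · have := (R.vP _ _ h1).2
        rwa [sub_add_cancel] at this

lemma glz_GA (hs : R.Slit p y0 xr) : GA (R.glz p y0 xr) (A0 (R.P : Set (ℤ × ℤ))) = R.glz p y0 xr := by
  funext a b
  refine propext ⟨fun h => h.1, fun h => ⟨h, glz_mem hs h, glz_mem hs ((glz_glue hs).sym _ _ h)⟩⟩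

/-- **the region with a leg as an admissible word of the official carrier** -/
theorem okz (hs : R.Slit p y0 xr) (hsc : R.SC) (hc : R.Conn) :
    ∃ w : Sw300.Wd (ℤ × ℤ),
      Sw300.Ok w ∧ Sw300.Fc w ∧ bas w = none ∧
      (∀ t, t ∈ Sw300.tls w ↔ t ∈ R.P) ∧ (Sw300.tls w).Nodup ∧
      (∀ a b, R.glz p y0 xr a b ↔ (Sw300.be w a = b ∧ a ≠ b)) ∧
      (Sw300.L w).Nodup ∧ (Sw300.L w ≠ []) ∧
      (∀ a, a ∈ Sw300.L w ↔ (∃ t d, a = some (t, d) ∧ t ∈ R.P) ∧ ∀ b, ¬ R.glz p y0 xr a b) ∧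
      Cycle.Chain (Nx (R.glz p y0 xr)) ((Sw300.L w : List (Port (ℤ × ℤ))) : Cycle (Port (ℤ × ℤ))) ∧
      some ((xr, y0 - 1), 1) ∈ Sw300.L w := by
  obtain ⟨c, hw⟩ := stz hs hsc hc
  rw [glz_GA hs] at hw
  have hi := hw.inv
  obtain ⟨w, ha⟩ := hw.adapt (by intro t ht; cases ht)
  obtain ⟨l, hL, hcl, -⟩ := ha.L
  simp only [Xr249.mk, List.nil_append] at hL
  have hmem : ∀ a, a ∈ Sw300.L w ↔
      (∃ t d, a = some (t, d) ∧ t ∈ R.P) ∧ ∀ b, ¬ R.glz p y0 xr a b := by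
    intro a
    rw [hL, ← Cycle.mem_coe_iff, ← hcl, hi.mem a]
    constructor
    · rintro ⟨h1, h2⟩
      refine ⟨?_, h2⟩
      rcases a with - | ⟨t, d⟩
      · exact absurd (glz_none.2 rfl) (h2 _)
      · exact ⟨t, d, rfl, by simpa using mem_A0.1 h1⟩
    · rintro ⟨⟨t, d, rfl, h1⟩, h2⟩
      exact ⟨mem_A0.2 (by exact_mod_cast h1), h2⟩
  have hx : some ((xr, y0 - 1), (1 : ZMod 4)) ∈ Sw300.L w := by
    refine (hmem _).2 ⟨⟨_, _, rfl, (R.vP _ _ (hs.ver xr hs.pr (le_refl _))).1⟩, fun b hb => ?_⟩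
    rcases glz_1.1 hb with ⟨-, -, h1, -⟩ | ⟨h1, -⟩
    · omega
    · exact h1 ⟨rfl, hs.pr, le_refl _⟩
  refine ⟨w, ha.ok, ha.fc fun a b h => glz_face h, ha.bas, ?_, ha.nod, ha.be, ?_, ?_, hmem, ?_, hx⟩
  · intro t
    rw [ha.tls, mem_A0]
    exact_mod_cast Iff.rfl
  · have := hi.nd
    rw [hcl, Cycle.nodup_coe_iff] at this
    rwa [hL]
  · exact List.ne_nil_of_mem hx
  · have := hi.chain
    rwa [hcl, ← hL] at this

end Reg

end Crest.Agent.R158.Xr249
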