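import Crest.Agent.R158.Lr2_158
import Crest.Agent.R158.Nz8_399

/-!
# R158, block Q1d, leaf XM (helper932), part 1: special points of the strip (chart 3 of a double)

* `sMk j`, `sE2 j`, `sE1 j` : special points of the strip: gap before the column `j` of the floor
  (copy `false`), end of the column `j` of the floor (copy `false`), the same end in the copy `true`
* `ok_mk`, `ok_e2`, `ok_e1` : they are admissible for charges that jump by `1` there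
* `sup_flo`, `sup_cei`, `sup_planar`, `sup_mouth_l`, `sup_mouth_r` : supports
-/

set_option autoImplicit false

noncomputable section

namespace Crest.Agent.R158.Xs932

open Crest.Agent.R158.Nm211
open Crest.Agent.R158.Ka470
open Crest.Agent.R158.Ka470.Half
open Crest.Agent.R158.Nz399
open Crest.Agent.R158.Lr158
open Crest.Agent.R158.Env664 (TG)

variable {A : Half} {ρ : ℕ}

/-- gap of the floor before the column `j`, copy `false` -/
def sMk (A : Half) (j : ℤ) : Sp := ⟨3, .mk, 0, (j, A.y1)⟩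

/-- end of the floor in the column `j`, copy `false` -/
def sE2 (A : Half) (j : ℤ) : Sp := ⟨3, .e2, 0, (j, A.y1)⟩

/-- end of the ceiling in the column `j`, copy `true` -/
def sE1 (A : Half) (j : ℤ) : Sp := ⟨3, .e1, 2, (j + 1, 2 * A.y0 - A.y1)⟩

theorem pl0 (p v : ℤ × ℤ) : pl 0 p v = v + p := rfl

theorem pl2 (p v : ℤ × ℤ) : pl 2 p v = (p.1 - 1 - v.1, p.2 - 1 - v.2) := by
  obtain ⟨x, y⟩ := v
  obtain ⟨a, b⟩ := p
  show rt (rt (x, y)) + (a, b) = _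
  simp only [rt, Prod.mk_add_mk, Prod.mk.injEq]
  constructor <;> ring

theorem fe0 (j y a : ℤ) : fe 0 (j, y) a = ((j + a, y), 3) := by
  unfold fe
  rw [pl0]
  simp only [Prod.mk_add_mk, Prod.mk.injEq]
  refine ⟨⟨by ring, by ring⟩, by decide⟩

theorem fe2 (j y a : ℤ) : fe 2 (j + 1, y) a = ((j - a, y - 1), 1) := by
  unfold fe
  rw [pl2]
  simp only [Prod.mk.injEq]
  refine ⟨⟨by ring, by ring⟩, by decide⟩

/-- charges of the floor, copy `false` -/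
theorem Cg_flo (cc : TG × ZMod 4 → ℤ) (cl : ℤ) (h : A.Sz ρ) (x : ℤ) :
    Cg cc cl h 3 ((x, A.y1), 3) = cc (Sum.inr (x, A.y1), 3) := by
  have h01 := A.h1
  have e1 : ((chf h 3).emb (x, A.y1)) = (Sum.inr (x, A.y1), false) := by
    show ((Sum.inr (x, A.ry A.y1) : TG), A.kk A.y1) = _
    rw [ry_lt _ h01, kk_lt _ h01]
  unfold Cg eps upp
  rw [e1]
  simp [Ka470.sg]

/-- charges of the ceiling, copy `true` -/
theorem Cg_cei (cc : TG × ZMod 4 → ℤ) (cl : ℤ) (h : A.Sz ρ) (x : ℤ) :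
    Cg cc cl h 3 ((x, 2 * A.y0 - A.y1 - 1), 1) = -cc (Sum.inr (x, A.y1), 3) := by
  have h01 := A.h1
  have e1 : ((chf h 3).emb (x, 2 * A.y0 - A.y1 - 1)) = (Sum.inr (x, A.y1), true) := by
    show ((Sum.inr (x, A.ry (2 * A.y0 - A.y1 - 1)) : TG), A.kk (2 * A.y0 - A.y1 - 1)) = _
    rw [ry_ge _ (by omega), kk_ge _ (by omega)]
    congr 3
    ring
  have e2 : Ka470.sg true (1 : ZMod 4) = 3 := by decide
  unfold Cg eps upp
  rw [e1]
  simp only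
  rw [e2, if_pos trivial, if_neg (fun hh => absurd hh.1 (by decide))]
  ring

theorem patK_mk0 (bx bz : Bool) : patK .mk 0 bx bz = bz := by
  revert bx bz; decide

theorem patK_mk2 (bx bz : Bool) : patK .mk 2 bx bz = !bz := by
  revert bx bz; decide

/-- boxes of the strip -/
theorem good3 {p : ℤ × ℤ} (h1 : 5 * (ρ : ℤ) ≤ p.1) (h2 : p.1 + 5 * ρ ≤ A.R) :
    A.Good ρ 3 (Bv (5 * ρ) p) := by
  rintro u ⟨⟨u1, u2⟩, -⟩
  push_cast at u1 u2
  constructor <;> omega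

/-- the floor of the strip -/
theorem patt_flo (h : A.Sz ρ) (hy : 5 * (ρ : ℤ) ≤ A.y0 - A.y1) {j : ℤ} (h1 : 5 * (ρ : ℤ) ≤ j)
    (h2 : j + 5 * ρ ≤ A.R) : Patt (chf h 3).R (Bv (5 * ρ) (j, A.y1)) (j, A.y1) (patK .mk 0) := by
  intro u hu
  have hg := good3 (A := A) (ρ := ρ) (p := (j, A.y1)) h1 h2
  rw [memS h (hg u hu), patK_mk0, y1_ry]
  obtain ⟨⟨u1, u2⟩, u3, u4⟩ := hu
  push_cast at u1 u2 u3 u4
  simp only [decide_eq_true_eq]
  have := h.pos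
  omega

/-- the ceiling of the strip -/
theorem patt_cei (h : A.Sz ρ) (hy : 5 * (ρ : ℤ) ≤ A.y0 - A.y1) {j : ℤ} (h1 : 5 * (ρ : ℤ) ≤ j)
    (h2 : j + 5 * ρ ≤ A.R) : Patt (chf h 3).R (Bv (5 * ρ) (j, 2 * A.y0 - A.y1))
      (j, 2 * A.y0 - A.y1) (patK .mk 2) := by
  intro u hu
  have hg := good3 (A := A) (ρ := ρ) (p := (j, 2 * A.y0 - A.y1)) h1 h2
  rw [memS h (hg u hu), patK_mk2, y1_ry]
  obtain ⟨⟨u1, u2⟩, u3, u4⟩ := hu
  push_cast at u1 u2 u3 u4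
  simp only [Bool.not_eq_true', decide_eq_false_iff_not]
  have := h.pos
  omega

theorem copy_flo (h : A.Sz ρ) (hy : 5 * (ρ : ℤ) ≤ A.y0 - A.y1) {j : ℤ} :
    ∀ u ∈ Bv (5 * ρ) (j, A.y1), u ∈ (chf h 3).R → ((chf h 3).emb u).2 = false := by
  rintro u ⟨-, u3, u4⟩ -
  push_cast at u3 u4
  show A.kk u.2 = false
  exact kk_lt _ (by omega)

theorem copy_cei (h : A.Sz ρ) (hy : 5 * (ρ : ℤ) ≤ A.y0 - A.y1) {j : ℤ} :
    ∀ u ∈ Bv (5 * ρ) (j, 2 * A.y0 - A.y1), u ∈ (chf h 3).R → ((chf h 3).emb u).2 = true := by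
  rintro u ⟨-, u3, u4⟩ -
  push_cast at u3 u4
  show A.kk u.2 = true
  exact kk_ge _ (by omega)

section ok

variable {cc : TG × ZMod 4 → ℤ} {cl : ℤ} {cf : ℤ → ℤ}

/-- **gap of charge `1`** -/
theorem ok_mk (h : A.Sz ρ) (hy : 5 * (ρ : ℤ) ≤ A.y0 - A.y1) {j : ℤ} (h1 : 5 * (ρ : ℤ) ≤ j)
    (h2 : j + 5 * ρ ≤ A.R) (hcf : ∀ i, 0 ≤ i → i < A.R → cc (Sum.inr (i, A.y1), 3) = cf i)
    (hj : ∀ i i' : ℤ, j ≤ i → i < j + 3 * ρ → j - 3 * ρ ≤ i' → i' < j → cf i = cf i' + 1) :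
    SpOk h (Cg cc cl h) (sMk A j) where
  good := good3 h1 h2
  patt := patt_flo h hy h1 h2
  chg := by
    refine ⟨false, copy_flo h hy, ?_⟩
    intro a b ha ha' hb hb'
    show (Cg cc cl h 3 (fe 0 (j, A.y1) a) - Cg cc cl h 3 (fe 0 (j, A.y1) b) -
      (if false = true then 2 else 1)) % 3 = 0
    rw [fe0, fe0, Cg_flo, Cg_flo]
    have e : ((3 * ρ : ℕ) : ℤ) = 3 * ρ := by push_cast; ring
    rw [e] at ha' hb
    rw [hcf _ (by omega) (by omega), hcf _ (by omega) (by omega),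
      hj (j + a) (j + b) (by omega) (by omega) (by omega) (by omega)]
    rw [if_neg (by decide)]
    omega

/-- **end with two gaps of charge `1`**, copy `false` -/
theorem ok_e2 (h : A.Sz ρ) (hy : 5 * (ρ : ℤ) ≤ A.y0 - A.y1) {j : ℤ} (h1 : 5 * (ρ : ℤ) ≤ j)
    (h2 : j + 5 * ρ ≤ A.R) (hcf : ∀ i, 0 ≤ i → i < A.R → cc (Sum.inr (i, A.y1), 3) = cf i)
    (hr : ∀ i : ℤ, j < i → i < j + 3 * ρ → cf i = cf j + 1)
    (hl : ∀ i : ℤ, j - 3 * ρ ≤ i → i < j → cf j = cf i + 1) :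
    SpOk h (Cg cc cl h) (sE2 A j) where
  good := good3 h1 h2
  patt := patt_flo h hy h1 h2
  chg := by
    refine ⟨false, copy_flo h hy, rfl, ?_, ?_⟩
    · intro a ha ha'
      show (Cg cc cl h 3 (fe 0 (j, A.y1) a) - Cg cc cl h 3 (fe 0 (j, A.y1) 0) - 1) % 3 = 0
      rw [fe0, fe0, Cg_flo, Cg_flo]
      have e : ((3 * ρ : ℕ) : ℤ) = 3 * ρ := by push_cast; ring
      rw [e] at ha'
      rw [hcf _ (by omega) (by omega), hcf _ (by omega) (by omega),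
        hr (j + a) (by omega) (by omega), add_zero]
      omega
    · intro b hb hb'
      show (Cg cc cl h 3 (fe 0 (j, A.y1) 0) - Cg cc cl h 3 (fe 0 (j, A.y1) b) - 1) % 3 = 0
      rw [fe0, fe0, Cg_flo, Cg_flo]
      have e : ((3 * ρ : ℕ) : ℤ) = 3 * ρ := by push_cast; ring
      rw [e] at hb
      rw [hcf _ (by omega) (by omega), hcf _ (by omega) (by omega), add_zero,
        hl (j + b) (by omega) (by omega)]
      omega

/-- **end with two gaps of charge `1`**, copy `true` -/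
theorem ok_e1 (h : A.Sz ρ) (hy : 5 * (ρ : ℤ) ≤ A.y0 - A.y1) {j : ℤ} (h1 : 5 * (ρ : ℤ) ≤ j)
    (h2 : j + 1 + 5 * ρ ≤ A.R) (hcf : ∀ i, 0 ≤ i → i < A.R → cc (Sum.inr (i, A.y1), 3) = cf i)
    (hj : ∀ i i' : ℤ, j < i → i ≤ j + 3 * ρ → j - 3 * ρ ≤ i' → i' < j → cf i = cf i' + 2) :
    SpOk h (Cg cc cl h) (sE1 A j) where
  good := good3 (p := (j + 1, 2 * A.y0 - A.y1)) (by simp only; omega) h2
  patt := patt_cei h hy (by omega) h2
  chg := by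
    refine ⟨true, copy_cei h hy, rfl, ?_⟩
    intro a b ha ha' hb hb'
    show (Cg cc cl h 3 (fe 2 (j + 1, 2 * A.y0 - A.y1) a) -
      Cg cc cl h 3 (fe 2 (j + 1, 2 * A.y0 - A.y1) b) - 2) % 3 = 0
    rw [fe2, fe2, Cg_cei, Cg_cei]
    have e : ((3 * ρ : ℕ) : ℤ) = 3 * ρ := by push_cast; ring
    rw [e] at ha' hb
    rw [hcf _ (by omega) (by omega), hcf _ (by omega) (by omega),
      hj (j - b) (j - a) (by omega) (by omega) (by omega) (by omega)]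
    omega

end ok

/-! ### supports -/

theorem mem_sup {h : A.Sz ρ} {n : ℕ} {x : Sp} {t : TG × Bool} :
    t ∈ x.sup h n ↔ ∃ v ∈ Tf x.f n, (chf h x.i).emb (pl x.g x.p v) = t := by
  classical
  unfold Sp.sup fS
  rw [Finset.mem_image]

/-- box of the support -/
theorem Tf_box {f : Fk} {n : ℕ} {v : ℤ × ℤ} (hv : v ∈ Tf f n) :
    (-(n : ℤ) - 1 ≤ v.1 ∧ v.1 ≤ n) ∧ -(n : ℤ) - 1 ≤ v.2 ∧ v.2 ≤ n := by
  cases f <;> simp only [Tf] at hv <;> rw [mem_Tk] at hv <;> obtain ⟨hv, -⟩ := hv <;>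
    push_cast at hv <;> omega

/-- box of the support, all factors but `e1` -/
theorem Tf_box' {f : Fk} (hf : f ≠ .e1) {n : ℕ} {v : ℤ × ℤ} (hv : v ∈ Tf f n) :
    (-(n : ℤ) ≤ v.1 ∧ v.1 < n) ∧ -(n : ℤ) ≤ v.2 ∧ v.2 < n := by
  cases f <;> simp only [Tf] at hv <;> first | exact absurd rfl hf | exact (mem_Tk.1 hv).1

theorem Tf_up {f : Fk} (hf : f = .mk ∨ f = .e2 ∨ f = .e1) {n : ℕ} {v : ℤ × ℤ} (hv : v ∈ Tf f n) :
    0 ≤ v.2 := by
  rcases hf with rfl | rfl | rfl <;> exact (mem_Tk.1 hv).2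

/-- support of a point of the floor -/
theorem sup_flo {h : A.Sz ρ} (hy : 5 * (ρ : ℤ) ≤ A.y0 - A.y1) {x : Sp} {j : ℤ}
    (hx : x = sMk A j ∨ x = sE2 A j) {t : TG × Bool} (ht : t ∈ x.sup h (3 * ρ)) :
    ∃ c y, t = (Sum.inr (c, y), false) ∧ j - 3 * ρ ≤ c ∧ c < j + 3 * ρ := by
  rw [mem_sup] at ht
  obtain ⟨v, hv, rfl⟩ := ht
  have hρ := h.pos
  rcases hx with rfl | rfl
  · have h1 := Tf_box' (by simp [sMk]) hv
    have h2 := Tf_up (Or.inl rfl) hv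
    push_cast at h1
    refine ⟨v.1 + j, A.ry (v.2 + A.y1), ?_, by omega, by omega⟩
    show ((Sum.inr (v.1 + j, A.ry (v.2 + A.y1)) : TG), A.kk (v.2 + A.y1)) = _
    rw [kk_lt _ (by omega)]
  · have h1 := Tf_box' (by simp [sE2]) hv
    have h2 := Tf_up (Or.inr (Or.inl rfl)) hv
    push_cast at h1
    refine ⟨v.1 + j, A.ry (v.2 + A.y1), ?_, by omega, by omega⟩
    show ((Sum.inr (v.1 + j, A.ry (v.2 + A.y1)) : TG), A.kk (v.2 + A.y1)) = _
    rw [kk_lt _ (by omega)]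

/-- support of a point of the ceiling -/
theorem sup_cei {h : A.Sz ρ} (hy : 5 * (ρ : ℤ) ≤ A.y0 - A.y1) {j : ℤ} {t : TG × Bool}
    (ht : t ∈ (sE1 A j).sup h (3 * ρ)) :
    ∃ c y, t = (Sum.inr (c, y), true) ∧ j - 3 * ρ ≤ c ∧ c ≤ j + 3 * ρ + 1 := by
  rw [mem_sup] at ht
  obtain ⟨v, hv, rfl⟩ := ht
  have hρ := h.pos
  have h1 := Tf_box hv
  have h2 := Tf_up (Or.inr (Or.inr rfl)) hv
  push_cast at h1
  refine ⟨j - v.1, A.ry (2 * A.y0 - A.y1 - 1 - v.2), ?_, by omega, by omega⟩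
  have e : pl (sE1 A j).g (sE1 A j).p v = (j - v.1, 2 * A.y0 - A.y1 - 1 - v.2) := by
    show pl 2 (j + 1, 2 * A.y0 - A.y1) v = _
    rw [pl2]
    congr 1
    ring
  rw [e]
  show ((Sum.inr (j - v.1, A.ry (2 * A.y0 - A.y1 - 1 - v.2)) : TG),
    A.kk (2 * A.y0 - A.y1 - 1 - v.2)) = _
  rw [kk_ge _ (by omega)]

/-- support of a point of a planar chart -/
theorem sup_planar {h : A.Sz ρ} {n : ℕ} {x : Sp} (hx : x.i = 0 ∨ x.i = 1) {t : TG × Bool}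
    (ht : t ∈ x.sup h n) : ∃ v, t.1 = Sum.inl v := by
  rw [mem_sup] at ht
  obtain ⟨v, hv, rfl⟩ := ht
  rcases hx with hx | hx
  · rw [hx]
    exact ⟨_, rfl⟩
  · rw [hx]
    exact ⟨_, rfl⟩

/-- support of a point of the chart 2 within `8 ρ` of the end of the run -/
theorem sup_M {h : A.Sz ρ} {n : ℕ} {x : Sp} (hx : x.i = 2) {t : TG × Bool}
    (hb : ∀ v ∈ Tf x.f n, A.xl - 6 * ρ ≤ (pl x.g x.p v).1 ∧ (pl x.g x.p v).1 < A.xr + 1 + 6 * ρ)
    (ht : t ∈ x.sup h n) : (∃ v, t.1 = Sum.inl v) ∨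
      ∃ c y, t.1 = Sum.inr (c, y) ∧ (c < 6 * ρ ∨ A.R - 6 * ρ ≤ c) := by
  rw [mem_sup] at ht
  obtain ⟨v, hv, rfl⟩ := ht
  have hb' := hb v hv
  generalize pl x.g x.p v = u at hb'
  obtain ⟨a, b⟩ := u
  rw [hx]
  have e : ((chf h 2).emb (a, b)).1 =
      (if a < A.xl then Sum.inr (A.R - (A.xl - a), A.ry b) else if a ≤ A.xr then
        Sum.inl (a, A.ry b) else Sum.inr (a - A.xr - 1, A.ry b)) := rfl
  rw [e]
  simp only at hb'
  split_ifs with h1 h2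
  · exact Or.inr ⟨_, _, rfl, Or.inr (by omega)⟩
  · exact Or.inl ⟨_, rfl⟩
  · exact Or.inr ⟨_, _, rfl, Or.inl (by omega)⟩

end Crest.Agent.R158.Xs932
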