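import Crest.Agent.R158.Fm2_857
import Crest.Agent.R158.Lr6_158

/-!
# R158, block Q1d, leaf XM (helper932), part 2: charges of 857's family on the strip

* `Pla m` : the port `m` is a planar port (the marks are)
* `cfl b e i` : charge `cp` of the end of the floor in the column `i` (`cp_flo`)
* `ccl b e i` : charge `ccU` of the end of the floor of the reflected upper half (`ccU_flo`)
-/

set_option autoImplicit false

noncomputable section

namespace Crest.Agent.R158.Xs932

open Crest.Agent.R158.Sw300 (Port)
open Crest.Agent.R158.Env664 (TG Mac D Band)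
open Crest.Agent.R158.Fm857
open Crest.Agent.R158.Lr158 (ccU)
open Crest.Agent.R158.Rf896 (rp rt rz)

/-- planar port -/
def Pla (m : Port TG) : Prop := ∃ (v : ℤ × ℤ) (d : ZMod 4), m = some (Sum.inl v, d)

variable {A : Finset (ℤ × ℤ)} (B : Band A) (b : ℤ)

theorem ge1_eq (m q : Port TG) : ge1 B b m q =
    if blkG B b m < blkG B b q ∨ (blkG B b m = blkG B b q ∧ innG B m ≤ innG B q) then 1 else 0 := by
  unfold ge1 pG
  simp only [Prod.Lex.toLex_le_toLex]

theorem gt1_eq (m q : Port TG) : gt1 B b m q =
    if blkG B b m < blkG B b q ∨ (blkG B b m = blkG B b q ∧ innG B m < innG B q) then 1 else 0 := by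
  unfold gt1 pG
  simp only [Prod.Lex.toLex_lt_toLex]

theorem blk_pla {m : Port TG} (hm : Pla m) : blkG B b m = 1 ∨ blkG B b m = 4 := by
  obtain ⟨v, d, rfl⟩ := hm
  simp only [blkG]
  split_ifs
  · exact Or.inl rfl
  · exact Or.inr rfl

theorem blk_flo (i y : ℤ) : blkG B b (some (Sum.inr (i, y), 3)) = if i < b then 0 else 2 := by
  simp [blkG]

theorem blk_cei (i y : ℤ) {d : ZMod 4} (hd : d ≠ 3) :
    blkG B b (some (Sum.inr (i, y), d)) = if i < b then 5 else 3 := by
  simp [blkG, hd]

theorem inn_flo (i y : ℤ) : innG B (some (Sum.inr (i, y), 3)) = -i := by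
  simp [innG]

theorem inn_cei (i y : ℤ) {d : ZMod 4} (hd : d ≠ 3) :
    innG B (some (Sum.inr (i, y), d)) = i := by
  simp [innG, hd]

theorem low_pla {m : Port TG} (hm : Pla m) : low1 B b m = if blkG B b m = 1 then 1 else 0 := by
  unfold low1
  rcases blk_pla B b hm with h | h <;> rw [h] <;> decide

theorem low_flo (i y : ℤ) : low1 B b (some (Sum.inr (i, y), 3)) = 1 := by
  unfold low1
  rw [blk_flo]
  split_ifs <;> simp_all

theorem low_cei (i y : ℤ) {d : ZMod 4} (hd : d ≠ 3) :
    low1 B b (some (Sum.inr (i, y), d)) = 0 := by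
  unfold low1
  rw [blk_cei B b i y hd]
  split_ifs <;> simp_all

/-! ### the floor -/

theorem ge1_pla_flo {m : Port TG} (hm : Pla m) (i y : ℤ) :
    ge1 B b m (some (Sum.inr (i, y), 3)) = if i < b then 0 else low1 B b m := by
  rw [ge1_eq, low_pla B b hm, blk_flo, inn_flo]
  rcases blk_pla B b hm with h | h <;> rw [h] <;> split_ifs <;> first | rfl | omega

theorem gt1_pla_flo {m : Port TG} (hm : Pla m) (i y : ℤ) :
    gt1 B b m (some (Sum.inr (i, y), 3)) = if i < b then 0 else low1 B b m := by
  rw [gt1_eq, low_pla B b hm, blk_flo, inn_flo]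
  rcases blk_pla B b hm with h | h <;> rw [h] <;> split_ifs <;> first | rfl | omega

/-- charge of the floor -/
def cfl (b : ℤ) (e : Option (Port TG)) (i : ℤ) : ℤ :=
  match e with
  | some (some (Sum.inr (j, _), d)) =>
    if d = 3 then
      (if j < b then -(if i ≤ j then 1 else 0) - (if i < j then 1 else 0)
        else (if j < i then 1 else 0) + (if j ≤ i then 1 else 0))
    else 0
  | _ => 0

variable {b} in
/-- **charges of the ends of the floor** -/
theorem cp_flo {m1 m2 : Port TG} (hm1 : Pla m1) (hm2 : Pla m2) (e : Option (Port TG)) (i y : ℤ) :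
    cp B b m1 m2 e (some (Sum.inr (i, y), 3)) = cfl b e i := by
  have hls : (isLS b (some (Sum.inr (i, y), (3 : ZMod 4)))) ↔ b ≤ i := Iff.rfl
  unfold cp cb clow
  rw [ge1_pla_flo B b hm1, ge1_pla_flo B b hm2]
  rcases e with _ | _ | ⟨v | ⟨j, z⟩, d⟩
  · simp only [cfl]
    by_cases hi : i < b
    · rw [if_pos hi, if_pos hi, if_neg (by rw [hls]; omega)]; ring
    · rw [if_neg hi, if_neg hi, if_pos (by rw [hls]; omega)]; ring
  · have e1 : ge1 B b none (some (Sum.inr (i, y), 3)) = 0 := by
      rw [ge1_eq, blk_flo]
      have : blkG B b none = 6 := rfl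
      rw [this]
      split_ifs <;> first | rfl | omega
    have e2 : gt1 B b none (some (Sum.inr (i, y), 3)) = 0 := by
      rw [gt1_eq, blk_flo]
      have : blkG B b none = 6 := rfl
      rw [this]
      split_ifs <;> first | rfl | omega
    have e3 : low1 B b none = 0 := by
      unfold low1
      have : blkG B b none = 6 := rfl
      rw [this]; rfl
    simp only [cfl, e1, e2, e3]
    by_cases hi : i < b
    · rw [if_pos hi, if_pos hi, if_neg (by rw [hls]; omega)]; ring
    · rw [if_neg hi, if_neg hi, if_pos (by rw [hls]; omega)]; ring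
  · simp only [cfl]
    rw [ge1_pla_flo B b ⟨v, d, rfl⟩, gt1_pla_flo B b ⟨v, d, rfl⟩]
    by_cases hi : i < b
    · rw [if_pos hi, if_pos hi, if_pos hi, if_neg (by rw [hls]; omega)]; ring
    · rw [if_neg hi, if_neg hi, if_neg hi, if_pos (by rw [hls]; omega)]; ring
  · simp only [cfl]
    rw [ge1_eq, gt1_eq]
    by_cases hd : d = 3
    · subst hd
      rw [blk_flo, blk_flo, inn_flo, inn_flo, low_flo, if_pos rfl]
      by_cases hi : i < b
      · rw [if_neg (by rw [hls]; omega : ¬ isLS b (some (Sum.inr (i, y), (3 : ZMod 4))))]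
        simp only [hi, if_true]
        by_cases hj : j < b
        · simp only [hj, if_true, lt_irrefl, false_or, true_and]
          split_ifs <;> omega
        · simp only [hj, if_false]
          split_ifs <;> omega
      · rw [if_pos (by rw [hls]; omega : isLS b (some (Sum.inr (i, y), (3 : ZMod 4))))]
        simp only [hi, if_false]
        by_cases hj : j < b
        · simp only [hj, if_true]
          split_ifs <;> omega
        · simp only [hj, if_false, lt_irrefl, false_or, true_and]
          split_ifs <;> omega
    · rw [blk_flo, blk_cei B b j z hd, inn_flo, inn_cei B j z hd, low_cei B b j z hd, if_neg hd]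
      by_cases hi : i < b
      · rw [if_neg (by rw [hls]; omega : ¬ isLS b (some (Sum.inr (i, y), (3 : ZMod 4))))]
        simp only [hi, if_true]
        by_cases hj : j < b
        · simp only [hj, if_true]
          split_ifs <;> omega
        · simp only [hj, if_false]
          split_ifs <;> omega
      · rw [if_pos (by rw [hls]; omega : isLS b (some (Sum.inr (i, y), (3 : ZMod 4))))]
        simp only [hi, if_false]
        by_cases hj : j < b
        · simp only [hj, if_true]
          split_ifs <;> omega
        · simp only [hj, if_false]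
          split_ifs <;> omega

/-! ### the ceiling -/

theorem ge1_pla_cei {m : Port TG} (hm : Pla m) (i y : ℤ) :
    ge1 B b m (some (Sum.inr (i, y), 1)) = if i < b then 1 else low1 B b m := by
  rw [ge1_eq, low_pla B b hm, blk_cei B b i y (by decide), inn_cei B i y (by decide)]
  rcases blk_pla B b hm with h | h <;> rw [h] <;> split_ifs <;> first | rfl | omega

theorem gt1_pla_cei {m : Port TG} (hm : Pla m) (i y : ℤ) :
    gt1 B b m (some (Sum.inr (i, y), 1)) = if i < b then 1 else low1 B b m := by
  rw [gt1_eq, low_pla B b hm, blk_cei B b i y (by decide), inn_cei B i y (by decide)]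
  rcases blk_pla B b hm with h | h <;> rw [h] <;> split_ifs <;> first | rfl | omega

/-- charge of the ceiling -/
def cce (b : ℤ) (e : Option (Port TG)) (i : ℤ) : ℤ :=
  match e with
  | some (some (Sum.inr (j, _), d)) =>
    if d = 3 then 0 else
      (if j < b then (if i < j then 1 else 0) + (if i ≤ j then 1 else 0)
        else -(if j ≤ i then 1 else 0) - (if j < i then 1 else 0))
  | _ => 0

variable {b} in
/-- **charges of the ends of the ceiling** -/
theorem cp_cei {m1 m2 : Port TG} (hm1 : Pla m1) (hm2 : Pla m2) {e : Option (Port TG)}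
    (he : e ≠ some none) (i y : ℤ) :
    cp B b m1 m2 e (some (Sum.inr (i, y), 1)) = cce b e i := by
  have hls : (isLS b (some (Sum.inr (i, y), (1 : ZMod 4)))) ↔ b ≤ i := Iff.rfl
  unfold cp cb clow
  rw [ge1_pla_cei B b hm1, ge1_pla_cei B b hm2]
  rcases e with _ | _ | ⟨v | ⟨j, z⟩, d⟩
  · simp only [cce]
    by_cases hi : i < b
    · rw [if_pos hi, if_pos hi, if_neg (by rw [hls]; omega)]; ring
    · rw [if_neg hi, if_neg hi, if_pos (by rw [hls]; omega)]; ring
  · exact absurd rfl he
  · simp only [cce]
    rw [ge1_pla_cei B b ⟨v, d, rfl⟩, gt1_pla_cei B b ⟨v, d, rfl⟩]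
    by_cases hi : i < b
    · rw [if_pos hi, if_pos hi, if_pos hi, if_neg (by rw [hls]; omega)]; ring
    · rw [if_neg hi, if_neg hi, if_neg hi, if_pos (by rw [hls]; omega)]; ring
  · simp only [cce]
    rw [ge1_eq, gt1_eq, blk_cei B b i y (by decide), inn_cei B i y (by decide)]
    by_cases hd : d = 3
    · subst hd
      rw [blk_flo, inn_flo, low_flo, if_pos rfl]
      by_cases hi : i < b
      · rw [if_neg (by rw [hls]; omega : ¬ isLS b (some (Sum.inr (i, y), (1 : ZMod 4))))]
        simp only [hi, if_true]
        by_cases hj : j < b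
        · simp only [hj, if_true]
          split_ifs <;> omega
        · simp only [hj, if_false]
          split_ifs <;> omega
      · rw [if_pos (by rw [hls]; omega : isLS b (some (Sum.inr (i, y), (1 : ZMod 4))))]
        simp only [hi, if_false]
        by_cases hj : j < b
        · simp only [hj, if_true]
          split_ifs <;> omega
        · simp only [hj, if_false]
          split_ifs <;> omega
    · rw [blk_cei B b j z hd, inn_cei B j z hd, low_cei B b j z hd, if_neg hd]
      by_cases hi : i < b
      · rw [if_neg (by rw [hls]; omega : ¬ isLS b (some (Sum.inr (i, y), (1 : ZMod 4))))]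
        simp only [hi, if_true]
        by_cases hj : j < b
        · simp only [hj, if_true, lt_irrefl, false_or, true_and]
          split_ifs <;> omega
        · simp only [hj, if_false]
          split_ifs <;> omega
      · rw [if_pos (by rw [hls]; omega : isLS b (some (Sum.inr (i, y), (1 : ZMod 4))))]
        simp only [hi, if_false]
        by_cases hj : j < b
        · simp only [hj, if_true]
          split_ifs <;> omega
        · simp only [hj, if_false, lt_irrefl, false_or, true_and]
          split_ifs <;> omega

/-- charge of the floor of the reflected upper half -/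
def ccl (b : ℤ) (e : Option (Port TG)) (i : ℤ) : ℤ := (if i < b then 1 else 2) - cce b e i

/-- **charges of the floor of the reflected upper half** -/
theorem ccU_flo {M : Mac} {L : ℤ} {B : Band (D M.F L)} {b : ℤ} {m1 m2 : Port TG} (hm1 : Pla m1)
    (hm2 : Pla m2) {e : Option (Port TG)} (he : e ≠ some none) (i y : ℤ) :
    ccU B b m1 m2 e (Sum.inr (i, y), 3) = ccl b e i := by
  have e1 : rp (some (Sum.inr (i, y), 3)) = some (Sum.inr (i, -y - 1), 1) := by
    show some (rt (Sum.inr (i, y)), -(3 : ZMod 4)) = _
    rw [show -(3 : ZMod 4) = 1 by decide]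
    rfl
  show (if i < b then (1 : ℤ) else 2) - cp B b m1 m2 e (rp (some (Sum.inr (i, y), 3))) = _
  rw [e1, cp_cei B hm1 hm2 he]
  rfl

end Crest.Agent.R158.Xs932
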