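import Crest.Agent.R158.Xs1_932
import Crest.Agent.R158.Xs2_932

/-!
# R158, block Q1d, leaf XM (helper932), part 3: the strip half of the list XM

* `XSlow A e`, `XSup A b e` : special points of the strip for the member `e`, lower half / reflected
  upper half (`A` = the half environment)
* `ok_low`, `ok_up` : they are admissible
* `dis_low`, `dis_up` : disjoint supports; `dis_planar` : disjoint from the points of the charts 0, 1
* `col_low`, `col_up` : columns; `cnt_low`, `cnt_up` : counts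
-/

set_option autoImplicit false

noncomputable section

namespace Crest.Agent.R158.Xs932

open Crest.Agent.R158.Nm211
open Crest.Agent.R158.Ka470
open Crest.Agent.R158.Ka470.Half
open Crest.Agent.R158.Nz399
open Crest.Agent.R158.Lr158
open Crest.Agent.R158.Sw300 (Port)
open Crest.Agent.R158.Env664 (TG Mac D Band)
open Crest.Agent.R158.Rf896 (rB)
open Crest.Agent.R158.Fm857 (isLS)

/-- **strip points of the member `e`, lower half** -/
def XSlow (A : Half) (e : Option (Port TG)) : Finset Sp :=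
  match e with
  | some (some (Sum.inr (j, _), d)) => if d = 3 then {sE2 A j, sE1 A j} else ∅
  | _ => ∅

/-- strip points of the member `e` on the ceiling -/
def XSe (A : Half) (e : Option (Port TG)) : Finset Sp :=
  match e with
  | some (some (Sum.inr (j, _), d)) => if d = 3 then ∅ else {sE2 A j, sE1 A j}
  | _ => ∅

/-- **strip points of the member `e`, reflected upper half** -/
def XSup (A : Half) (b : ℤ) (e : Option (Port TG)) : Finset Sp := insert (sMk A b) (XSe A e)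

/-- columns of the ends of the floor -/
def ColL (ρ : ℕ) (R : ℤ) (e : Option (Port TG)) : Prop :=
  ∀ j y, e = some (some (Sum.inr (j, y), 3)) → 8 * (ρ : ℤ) ≤ j ∧ j + 1 + 8 * ρ ≤ R

/-- columns of the ends of the ceiling -/
def ColU (ρ : ℕ) (R b : ℤ) (e : Option (Port TG)) : Prop :=
  ∀ j y d, e = some (some (Sum.inr (j, y), d)) → d ≠ 3 →
    (8 * (ρ : ℤ) ≤ j ∧ j + 1 + 8 * ρ ≤ R) ∧ (j + 6 * ρ ≤ b ∨ b + 6 * ρ ≤ j)

theorem mem_XSlow {A : Half} {e : Option (Port TG)} {x : Sp} (hx : x ∈ XSlow A e) :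
    ∃ j y, e = some (some (Sum.inr (j, y), 3)) ∧ (x = sE2 A j ∨ x = sE1 A j) := by
  rcases e with _ | _ | ⟨v | ⟨j, y⟩, d⟩
  · exact absurd hx (Finset.notMem_empty _)
  · exact absurd hx (Finset.notMem_empty _)
  · exact absurd hx (Finset.notMem_empty _)
  · simp only [XSlow] at hx
    by_cases hd : d = 3
    · subst hd
      rw [if_pos rfl, Finset.mem_insert, Finset.mem_singleton] at hx
      exact ⟨j, y, rfl, hx⟩
    · rw [if_neg hd] at hx
      exact absurd hx (Finset.notMem_empty _)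

theorem mem_XSe {A : Half} {e : Option (Port TG)} {x : Sp} (hx : x ∈ XSe A e) :
    ∃ j y d, e = some (some (Sum.inr (j, y), d)) ∧ d ≠ 3 ∧ (x = sE2 A j ∨ x = sE1 A j) := by
  rcases e with _ | _ | ⟨v | ⟨j, y⟩, d⟩
  · exact absurd hx (Finset.notMem_empty _)
  · exact absurd hx (Finset.notMem_empty _)
  · exact absurd hx (Finset.notMem_empty _)
  · simp only [XSe] at hx
    by_cases hd : d = 3
    · rw [if_pos hd] at hx
      exact absurd hx (Finset.notMem_empty _)
    · rw [if_neg hd, Finset.mem_insert, Finset.mem_singleton] at hx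
      exact ⟨j, y, d, rfl, hd, hx⟩

/-! ### admissible -/

section ok

variable {M : Mac} {L a b c : ℤ} {B : Band (D M.F L)} {ρ : ℕ}

/-- **the strip points of the lower half are admissible** -/
theorem ok_low {A : Half} (hR : A.R = B.R) (h : A.Sz ρ)
    (hy : 5 * (ρ : ℤ) ≤ A.y0 - A.y1) {b' : ℤ} {m1 m2 : Port TG} (hm1 : Pla m1) (hm2 : Pla m2)
    {e : Option (Port TG)} (he : ColL ρ B.R e) (cl : ℤ) :
    ∀ x ∈ XSlow A e, SpOk h (Cg (fun q => Fm857.cp B b' m1 m2 e (some q)) cl h) x := by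
  intro x hx
  obtain ⟨j, y, he', hx'⟩ := mem_XSlow hx
  clear hx
  subst he'
  obtain ⟨h1, h2⟩ := he j y rfl
  rw [← hR] at h2
  have hρ := h.pos
  have hcf : ∀ i, 0 ≤ i → i < A.R → (fun q : TG × ZMod 4 =>
      Fm857.cp B b' m1 m2 (some (some (Sum.inr (j, y), 3))) (some q)) (Sum.inr (i, A.y1), 3) =
      cfl b' (some (some (Sum.inr (j, y), 3))) i := fun i _ _ => cp_flo B hm1 hm2 _ i _
  rcases hx' with rfl | rfl
  · refine ok_e2 h hy (by omega) (by omega) hcf ?_ ?_
    · intro i hi _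
      simp only [cfl, if_true]
      split_ifs <;> omega
    · intro i hi hi'
      simp only [cfl, if_true]
      split_ifs <;> omega
  · refine ok_e1 h hy (by omega) (by omega) hcf ?_
    intro i i' hi hi1 hi2 hi3
    simp only [cfl, if_true]
    split_ifs <;> omega

/-- **the strip points of the reflected upper half are admissible** -/
theorem ok_up {A : Half} (hR : A.R = B.R + 1) (h : A.Sz ρ)
    (hy : 5 * (ρ : ℤ) ≤ A.y0 - A.y1) {b' : ℤ} {m1 m2 : Port TG} (hm1 : Pla m1) (hm2 : Pla m2)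
    {e : Option (Port TG)} (hn : e ≠ some none) (he : ColU ρ (B.R + 1) b' e)
    (hb1 : 8 * (ρ : ℤ) ≤ b') (hb2 : b' + 8 * ρ ≤ B.R + 1) (cl : ℤ) :
    ∀ x ∈ XSup A b' e, SpOk h (Cg (ccU B b' m1 m2 e) cl h) x := by
  intro x hx
  have hρ := h.pos
  have hcf : ∀ i, 0 ≤ i → i < A.R → ccU B b' m1 m2 e (Sum.inr (i, A.y1), 3) = ccl b' e i :=
    fun i _ _ => ccU_flo hm1 hm2 hn i _
  rw [XSup, Finset.mem_insert] at hx
  rcases hx with rfl | hx
  · refine ok_mk h hy (by omega) (by omega) hcf ?_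
    intro i i' hi hi1 hi2 hi3
    rcases e with _ | _ | ⟨v | ⟨j, y⟩, d⟩
    · simp only [ccl, cce]
      split_ifs <;> omega
    · exact absurd rfl hn
    · simp only [ccl, cce]
      split_ifs <;> omega
    · by_cases hd : d = 3
      · simp only [ccl, cce, if_pos hd]
        split_ifs <;> omega
      · obtain ⟨-, h3⟩ := he j y d rfl hd
        simp only [ccl, cce, if_neg hd]
        split_ifs <;> omega
  · obtain ⟨j, y, d, rfl, hd, hx⟩ := mem_XSe hx
    obtain ⟨⟨h1, h2⟩, h3⟩ := he j y d rfl hd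
    rcases hx with rfl | rfl
    · refine ok_e2 h hy (by omega) (by omega) hcf ?_ ?_
      · intro i hi hi'
        simp only [ccl, cce, if_neg hd]
        split_ifs <;> omega
      · intro i hi hi'
        simp only [ccl, cce, if_neg hd]
        split_ifs <;> omega
    · refine ok_e1 h hy (by omega) (by omega) hcf ?_
      intro i i' hi hi1 hi2 hi3
      simp only [ccl, cce, if_neg hd]
      split_ifs <;> omega

end ok

/-! ### disjoint supports -/

section dis

variable {A : Half} {ρ : ℕ}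

theorem chart_low {e : Option (Port TG)} {x : Sp} (hx : x ∈ XSlow A e) : x.i = 3 := by
  obtain ⟨j, y, -, rfl | rfl⟩ := mem_XSlow hx <;> rfl

theorem chart_up {b' : ℤ} {e : Option (Port TG)} {x : Sp} (hx : x ∈ XSup A b' e) : x.i = 3 := by
  rw [XSup, Finset.mem_insert] at hx
  rcases hx with rfl | hx
  · rfl
  · obtain ⟨j, y, d, -, -, rfl | rfl⟩ := mem_XSe hx <;> rfl

theorem sup_strip {h : A.Sz ρ} {n : ℕ} {x : Sp} (hx : x.i = 3) {t : TG × Bool}
    (ht : t ∈ x.sup h n) : ∃ v, t.1 = Sum.inr v := by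
  rw [mem_sup] at ht
  obtain ⟨v, hv, rfl⟩ := ht
  rw [hx]
  exact ⟨_, rfl⟩

/-- **strip points and planar points have disjoint supports** -/
theorem dis_planar {h : A.Sz ρ} {n m : ℕ} {x y : Sp} (hx : x.i = 3) (hy : y.i = 0 ∨ y.i = 1) :
    Disjoint (x.sup h n) (y.sup h m) := by
  rw [Finset.disjoint_left]
  intro t ht ht'
  obtain ⟨v, hv⟩ := sup_strip hx ht
  obtain ⟨w, hw⟩ := sup_planar hy ht'
  rw [hv] at hw
  exact absurd hw (by simp)

theorem dis_e2_e1 {h : A.Sz ρ} (hy : 5 * (ρ : ℤ) ≤ A.y0 - A.y1) {i j : ℤ} {x : Sp}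
    (hx : x = sMk A i ∨ x = sE2 A i) :
    Disjoint (x.sup h (3 * ρ)) ((sE1 A j).sup h (3 * ρ)) := by
  rw [Finset.disjoint_left]
  intro t ht ht'
  obtain ⟨c, y, hc, -⟩ := sup_flo hy hx ht
  obtain ⟨c', y', hc', -⟩ := sup_cei hy ht'
  rw [hc] at hc'
  exact absurd hc' (by simp)

theorem dis_mk_e2 {h : A.Sz ρ} (hy : 5 * (ρ : ℤ) ≤ A.y0 - A.y1) {i j : ℤ}
    (hij : j + 6 * ρ ≤ i ∨ i + 6 * ρ ≤ j) :
    Disjoint ((sMk A i).sup h (3 * ρ)) ((sE2 A j).sup h (3 * ρ)) := by
  rw [Finset.disjoint_left]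
  intro t ht ht'
  obtain ⟨c, y, hc, h1, h2⟩ := sup_flo hy (Or.inl rfl) ht
  obtain ⟨c', y', hc', h3, h4⟩ := sup_flo hy (Or.inr rfl) ht'
  rw [hc, Prod.mk.injEq, Sum.inr.injEq, Prod.mk.injEq] at hc'
  omega

/-- **disjoint supports, lower half** -/
theorem dis_low {h : A.Sz ρ} (hy : 5 * (ρ : ℤ) ≤ A.y0 - A.y1) {e : Option (Port TG)} :
    ∀ x ∈ XSlow A e, ∀ y ∈ XSlow A e, x ≠ y → Disjoint (x.sup h (3 * ρ)) (y.sup h (3 * ρ)) := by
  intro x hx y hy' hne
  obtain ⟨j, z, he, h1⟩ := mem_XSlow hx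
  obtain ⟨j', z', he', h2⟩ := mem_XSlow hy'
  rw [he] at he'
  simp only [Option.some.injEq, Prod.mk.injEq, Sum.inr.injEq, and_true] at he'
  obtain ⟨rfl, rfl⟩ := he'
  rcases h1 with rfl | rfl <;> rcases h2 with rfl | rfl
  · exact absurd rfl hne
  · exact dis_e2_e1 hy (Or.inr rfl)
  · exact (dis_e2_e1 hy (Or.inr rfl)).symm
  · exact absurd rfl hne

/-- **disjoint supports, reflected upper half** -/
theorem dis_up {h : A.Sz ρ} (hy : 5 * (ρ : ℤ) ≤ A.y0 - A.y1) {R b' : ℤ} {e : Option (Port TG)}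
    (he : ColU ρ R b' e) :
    ∀ x ∈ XSup A b' e, ∀ y ∈ XSup A b' e, x ≠ y →
      Disjoint (x.sup h (3 * ρ)) (y.sup h (3 * ρ)) := by
  have key : ∀ x ∈ XSe A e, Disjoint ((sMk A b').sup h (3 * ρ)) (x.sup h (3 * ρ)) := by
    intro x hx
    obtain ⟨j, y, d, rfl, hd, hx⟩ := mem_XSe hx
    obtain ⟨-, h3⟩ := he j y d rfl hd
    rcases hx with rfl | rfl
    · exact dis_mk_e2 hy h3
    · exact dis_e2_e1 hy (Or.inl rfl)
  intro x hx y hy' hne
  rw [XSup, Finset.mem_insert] at hx hy'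
  rcases hx with rfl | hx <;> rcases hy' with rfl | hy'
  · exact absurd rfl hne
  · exact key _ hy'
  · exact (key _ hx).symm
  · obtain ⟨j, z, d, he, hd, h1⟩ := mem_XSe hx
    obtain ⟨j', z', d', he', hd', h2⟩ := mem_XSe hy'
    rw [he] at he'
    simp only [Option.some.injEq, Prod.mk.injEq, Sum.inr.injEq] at he'
    obtain ⟨⟨rfl, rfl⟩, rfl⟩ := he'
    rcases h1 with rfl | rfl <;> rcases h2 with rfl | rfl
    · exact absurd rfl hne
    · exact dis_e2_e1 hy (Or.inr rfl)
    · exact (dis_e2_e1 hy (Or.inr rfl)).symm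
    · exact absurd rfl hne

/-- columns of the strip points (841's `dis_other`) -/
theorem col_low {R : ℤ} {e : Option (Port TG)} (he : ColL ρ R e) {x : Sp} (hx : x ∈ XSlow A e) :
    8 * (ρ : ℤ) ≤ x.p.1 ∧ x.p.1 ≤ R - 8 * ρ := by
  obtain ⟨j, y, h0, h1⟩ := mem_XSlow hx
  obtain ⟨h2, h3⟩ := he j y h0
  rcases h1 with rfl | rfl
  · show 8 * (ρ : ℤ) ≤ j ∧ j ≤ R - 8 * ρ
    omega
  · show 8 * (ρ : ℤ) ≤ j + 1 ∧ j + 1 ≤ R - 8 * ρ
    omega

theorem col_up {R b' : ℤ} {e : Option (Port TG)} (he : ColU ρ R b' e) (hb1 : 8 * (ρ : ℤ) ≤ b')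
    (hb2 : b' + 8 * ρ ≤ R) {x : Sp} (hx : x ∈ XSup A b' e) :
    8 * (ρ : ℤ) ≤ x.p.1 ∧ x.p.1 ≤ R - 8 * ρ := by
  rw [XSup, Finset.mem_insert] at hx
  rcases hx with rfl | hx
  · show 8 * (ρ : ℤ) ≤ b' ∧ b' ≤ R - 8 * ρ
    omega
  · obtain ⟨j, y, d, h0, hd, h1⟩ := mem_XSe hx
    obtain ⟨⟨h2, h3⟩, -⟩ := he j y d h0 hd
    rcases h1 with rfl | rfl
    · show 8 * (ρ : ℤ) ≤ j ∧ j ≤ R - 8 * ρ
      omega
    · show 8 * (ρ : ℤ) ≤ j + 1 ∧ j + 1 ≤ R - 8 * ρ
      omega

end dis

/-! ### counts -/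

section cnt

variable (A : Half)

/-- `1` if the member is an end of the floor -/
def onF (e : Option (Port TG)) : ℕ :=
  match e with
  | some (some (Sum.inr _, d)) => if d = 3 then 1 else 0
  | _ => 0

/-- `1` if the member is an end of the ceiling -/
def onC (e : Option (Port TG)) : ℕ :=
  match e with
  | some (some (Sum.inr _, d)) => if d = 3 then 0 else 1
  | _ => 0

theorem cnt_empty (f : Fk) : cnt ∅ f = 0 := rfl

theorem cnt_pair (j : ℤ) (f : Fk) :
    cnt {sE2 A j, sE1 A j} f = if f = .e2 ∨ f = .e1 then 1 else 0 := by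
  have hne : sE2 A j ≠ sE1 A j := by simp [sE2, sE1]
  unfold cnt
  cases f <;> simp [Finset.filter_insert, Finset.filter_singleton, sE2, sE1]

/-- **counts, lower half** -/
theorem cnt_low (e : Option (Port TG)) (f : Fk) :
    cnt (XSlow A e) f = if f = .e2 ∨ f = .e1 then onF e else 0 := by
  rcases e with _ | _ | ⟨v | ⟨j, y⟩, d⟩
  · simp [XSlow, onF, cnt_empty]
  · simp [XSlow, onF, cnt_empty]
  · simp [XSlow, onF, cnt_empty]
  · simp only [XSlow, onF]
    by_cases hd : d = 3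
    · rw [if_pos hd, if_pos hd, cnt_pair]
    · rw [if_neg hd, if_neg hd, cnt_empty]
      simp

theorem cnt_XSe (e : Option (Port TG)) (f : Fk) :
    cnt (XSe A e) f = if f = .e2 ∨ f = .e1 then onC e else 0 := by
  rcases e with _ | _ | ⟨v | ⟨j, y⟩, d⟩
  · simp [XSe, onC, cnt_empty]
  · simp [XSe, onC, cnt_empty]
  · simp [XSe, onC, cnt_empty]
  · simp only [XSe, onC]
    by_cases hd : d = 3
    · rw [if_pos hd, if_pos hd, cnt_empty]
      simp
    · rw [if_neg hd, if_neg hd, cnt_pair]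

/-- **counts, reflected upper half** -/
theorem cnt_up (b : ℤ) (e : Option (Port TG)) (f : Fk) :
    cnt (XSup A b e) f = (if f = .mk then 1 else 0) + if f = .e2 ∨ f = .e1 then onC e else 0 := by
  have hn : sMk A b ∉ XSe A e := by
    intro hx
    obtain ⟨j, y, d, -, -, hx | hx⟩ := mem_XSe hx
    · exact absurd (congrArg Sp.f hx) (by simp [sMk, sE2])
    · exact absurd (congrArg Sp.f hx) (by simp [sMk, sE1])
  rw [← cnt_XSe A e f]
  unfold cnt XSup
  rw [Finset.filter_insert]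
  by_cases hf : f = .mk
  · subst hf
    rw [if_pos rfl, if_pos (show (sMk A b).f = .mk from rfl),
      Finset.card_insert_of_notMem fun h => hn (Finset.mem_filter.1 h).1, add_comm]
  · rw [if_neg hf, if_neg (show ¬ (sMk A b).f = f from fun h => hf h.symm), zero_add]

/-- number of points -/
theorem card_low (e : Option (Port TG)) : (XSlow A e).card ≤ 2 := by
  rcases e with _ | _ | ⟨v | ⟨j, y⟩, d⟩
  · simp [XSlow]
  · simp [XSlow]
  · simp [XSlow]
  · simp only [XSlow]
    split_ifs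
    · exact Finset.card_le_two
    · simp

theorem card_up (b : ℤ) (e : Option (Port TG)) : (XSup A b e).card ≤ 3 := by
  refine (Finset.card_insert_le _ _).trans ?_
  have : (XSe A e).card ≤ 2 := by
    rcases e with _ | _ | ⟨v | ⟨j, y⟩, d⟩
    · simp [XSe]
    · simp [XSe]
    · simp [XSe]
    · simp only [XSe]
      split_ifs
      · simp
      · exact Finset.card_le_two
  omega

end cnt

end Crest.Agent.R158.Xs932
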