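import Crest.Agent.R158.Xs3_932
import Crest.Agent.R158.Xp1_612
import Crest.Agent.R158.Lr7_158

/-!
# R158, block Q1d, leaf XM (helper932), part 4: the list XM, total counts

* `col_JP` : columns of the strip members of 857's family
* `XMlow`, `XMup` : special points of the marks and of the member, lower half / reflected upper half
* `cnt_XP` : counts of 612's planar part
* `not_run`, `memH_low`, `memH_up`, `half_xor` : the tile of a free end lies in exactly one half
* `tot_mk`, `tot_e2`, `tot_e1` : total counts `3; 1; 1` resp. `3; 0; 0`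
-/

set_option autoImplicit false

noncomputable section

namespace Crest.Agent.R158.Xs932

open Crest.Agent.R158.Nm211
open Crest.Agent.R158.Ka470
open Crest.Agent.R158.Ka470.Half
open Crest.Agent.R158.Nz399
open Crest.Agent.R158.Lr158
open Crest.Agent.R158.Sw300 (Port)
open Crest.Agent.R158.Env664 (TG Mac D Band Run lowT upT mark)
open Crest.Agent.R158.Rf896 (rB rA rz rp rt mem_rA rz_rz)
open Crest.Agent.R158.Fm857 (freeG mem_freeG mem_Jd JP DelP mkG mkP mouth)
open Crest.Agent.R158.Pt266 (dir FFree)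
open Crest.Agent.R158.Tj656 (P4)
open Crest.Agent.R158.Xp612 (V pg q0 q1 mir gF gT eF eT ga nxt XE XP)

/-! ### columns -/

/-- **columns of the strip members** -/
theorem col_JP {P : P4} {L : ℤ} {δ : ℝ} {B : Band (D P.F L)} (hR : B.R = L) {ρ : ℕ}
    (h0 : 1 ≤ ρ) (h1 : 8 * (ρ : ℤ) ≤ DelP L δ) (h2 : 64 * (ρ : ℤ) ≤ L) {e : Option (Port TG)}
    (he : e ∈ Finset.insertNone (JP P L δ B)) :
    ColL ρ B.R e ∧ ColU ρ (B.R + 1) (L / 2) e ∧ e ≠ some none ∧ 8 * (ρ : ℤ) ≤ L / 2 ∧
      L / 2 + 8 * ρ ≤ B.R + 1 := by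
  have h0' : (1 : ℤ) ≤ ρ := by exact_mod_cast h0
  refine ⟨?_, ?_, ?_, by omega, by omega⟩
  · intro j y hj
    subst hj
    have h3 := (mem_Jd B).1 (Finset.some_mem_insertNone.1 he)
    have h4 := h3.2.2
    simp only [Fm857.far, if_true] at h4
    omega
  · intro j y d hj hd
    subst hj
    have h3 := (mem_Jd B).1 (Finset.some_mem_insertNone.1 he)
    have h4 := h3.2.2
    simp only [Fm857.far, if_neg hd] at h4
    omega
  · rintro rfl
    have h3 := (mem_Jd B).1 (Finset.some_mem_insertNone.1 he)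
    exact h3.2.2

/-- ends of the family are free ends -/
theorem free_JP {P : P4} {L : ℤ} {δ : ℝ} {B : Band (D P.F L)} {e : Option (Port TG)}
    (he : e ∈ Finset.insertNone (JP P L δ B)) : ∀ e' ∈ e, e' ∈ freeG B := by
  intro e' h
  obtain rfl : e = some e' := h
  exact ((mem_Jd B).1 (Finset.some_mem_insertNone.1 he)).1

/-! ### the lists -/

/-- **special points of the marks and of the member, lower half** -/
def XMlow (A : Half) (X1 X2 : V × ZMod 4) (e : Option (Port TG)) : Finset Sp :=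
  XP A false X1 X2 e ∪ XSlow A e

/-- reflected end -/
def rX (X : V × ZMod 4) : V × ZMod 4 := (rz X.1, -X.2)

/-- **special points of the marks and of the member, reflected upper half** -/
def XMup (A : Half) (b : ℤ) (X1 X2 : V × ZMod 4) (e : Option (Port TG)) : Finset Sp :=
  XP A true (rX X1) (rX X2) (e.map rp) ∪ XSup A b e

theorem XE_chart {A : Half} {e : Option (Port TG)} {x : Sp} (hx : x ∈ XE A e) :
    x.i = 0 ∨ x.i = 1 := by
  rcases e with _ | _ | ⟨t | ⟨j, y⟩, d⟩
  · exact absurd hx (Finset.notMem_empty _)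
  · exact absurd hx (Finset.notMem_empty _)
  · simp only [XE] at hx
    split_ifs at hx
    · rw [Finset.mem_insert, Finset.mem_singleton] at hx
      rcases hx with rfl | rfl
      · exact Or.inl rfl
      · exact Or.inr rfl
    · exact absurd hx (Finset.notMem_empty _)
  · exact absurd hx (Finset.notMem_empty _)

theorem XP_chart {A : Half} {u : Bool} {X1 X2 : V × ZMod 4} {e : Option (Port TG)} {x : Sp}
    (hx : x ∈ XP A u X1 X2 e) : x.i = 0 ∨ x.i = 1 := by
  unfold XP at hx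
  rw [Finset.mem_union, Finset.mem_union] at hx
  rcases hx with hx | hx | hx
  · split_ifs at hx
    · rw [Finset.mem_singleton.1 hx]; exact Or.inr rfl
    · exact absurd hx (Finset.notMem_empty _)
  · split_ifs at hx
    · rw [Finset.mem_singleton.1 hx]; exact Or.inl rfl
    · rw [Finset.mem_singleton.1 hx]; exact Or.inr rfl
    · exact absurd hx (Finset.notMem_empty _)
  · exact XE_chart hx

/-! ### counts -/

theorem cnt_union {X Y : Finset Sp} (h : Disjoint X Y) (f : Fk) :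
    cnt (X ∪ Y) f = cnt X f + cnt Y f := by
  unfold cnt
  rw [Finset.filter_union, Finset.card_union_of_disjoint]
  exact Finset.disjoint_filter_filter h

theorem cnt_sing (x : Sp) (f : Fk) : cnt {x} f = if x.f = f then 1 else 0 := by
  unfold cnt
  rw [Finset.filter_singleton]
  split_ifs <;> simp

theorem dis_PS_low (A : Half) (X1 X2 : V × ZMod 4) (e : Option (Port TG)) :
    Disjoint (XP A false X1 X2 e) (XSlow A e) := by
  rw [Finset.disjoint_left]
  intro x h1 h2
  have h3 := XP_chart h1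
  rw [chart_low h2] at h3
  rcases h3 with h3 | h3 <;> exact absurd h3 (by decide)

theorem dis_PS_up (A : Half) (b : ℤ) (X1 X2 : V × ZMod 4) (e : Option (Port TG)) :
    Disjoint (XP A true (rX X1) (rX X2) (e.map rp)) (XSup A b e) := by
  rw [Finset.disjoint_left]
  intro x h1 h2
  have h3 := XP_chart h1
  rw [chart_up h2] at h3
  rcases h3 with h3 | h3 <;> exact absurd h3 (by decide)

theorem pg_inj {d d' : ZMod 4} (h : pg d = pg d') : d = d' := by
  revert d d'; decide

theorem q0_inj {X Y : V × ZMod 4} (h2 : X.2 = Y.2) (h : q0 X = q0 Y) : X = Y := by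
  obtain ⟨x, d⟩ := X
  obtain ⟨y, d'⟩ := Y
  obtain rfl : d = d' := h2
  have : x - Nz399.rt^[pg d] (0, 0) = y - Nz399.rt^[pg d] (0, 0) := h
  rw [sub_left_inj.1 this]

theorem gT_inj (A : Half) {X Y : V × ZMod 4} (h : gT A X = gT A Y) : X = Y := by
  have h1 : pg (-X.2) = pg (-Y.2) := congrArg Sp.g h
  have h2 : q0 (mir A X) = q0 (mir A Y) := congrArg Sp.p h
  have h3 : mir A X = mir A Y := q0_inj (pg_inj h1) h2
  have h4 : A.rf X.1 = A.rf Y.1 := congrArg Prod.fst h3
  have h5 : -X.2 = -Y.2 := congrArg Prod.snd h3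
  refine Prod.ext ?_ (neg_inj.1 h5)
  rw [← A.rf_rf X.1, h4, A.rf_rf]

theorem nxt_inj {X Y : V × ZMod 4} (h : nxt X = nxt Y) : X = Y := by
  obtain ⟨x, d⟩ := X
  obtain ⟨y, d'⟩ := Y
  obtain rfl : d = d' := congrArg Prod.snd h
  have : x + dir (d + 1) = y + dir (d + 1) := congrArg Prod.fst h
  rw [add_right_cancel this]

theorem ga_inj {u : Bool} {X Y : V × ZMod 4} (h : ga u X = ga u Y) : X = Y := by
  cases u
  · exact h
  · exact nxt_inj h

/-- `1` if the member is a planar end of the half -/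
def onE (A : Half) (e : Option (Port TG)) : ℕ :=
  match e with
  | some (some (Sum.inl t, _)) => if t ∈ A.H then 1 else 0
  | _ => 0

theorem cnt_XE (A : Half) (e : Option (Port TG)) (f : Fk) :
    cnt (XE A e) f = if f = .e2 ∨ f = .e1 then onE A e else 0 := by
  rcases e with _ | _ | ⟨t | ⟨j, y⟩, d⟩
  · simp [XE, onE, cnt_empty]
  · simp [XE, onE, cnt_empty]
  · simp only [XE, onE]
    by_cases ht : t ∈ A.H
    · rw [if_pos ht, if_pos ht]
      unfold cnt
      cases f <;> simp [Finset.filter_insert, Finset.filter_singleton, eF, eT]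
    · rw [if_neg ht, if_neg ht, cnt_empty]
      simp
  · simp [XE, onE, cnt_empty]

open Classical in
/-- **counts of the planar part** -/
theorem cnt_XP (A : Half) (u : Bool) {X1 X2 : V × ZMod 4} (hne : X1 ≠ X2) (e : Option (Port TG))
    (f : Fk) : cnt (XP A u X1 X2 e) f =
      (if f = .mk then (if X1.1 ∈ A.H then 1 else 0) + (if X2.1 ∈ A.H then 1 else 0) else 0) +
      (if f = .e2 ∨ f = .e1 then onE A e else 0) := by
  have key : ∀ x ∈ XE A e, x.f ≠ .mk := by
    intro x hx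
    rcases e with _ | _ | ⟨t | ⟨j, y⟩, d⟩
    · exact absurd hx (Finset.notMem_empty _)
    · exact absurd hx (Finset.notMem_empty _)
    · simp only [XE] at hx
      split_ifs at hx
      · rw [Finset.mem_insert, Finset.mem_singleton] at hx
        rcases hx with rfl | rfl <;> simp [eF, eT]
      · exact absurd hx (Finset.notMem_empty _)
    · exact absurd hx (Finset.notMem_empty _)
  have h2 : Disjoint (if X2.1 ∈ A.H then (if e = none then {gF (ga u X2)} else {gT A (ga u X2)})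
      else (∅ : Finset Sp)) (XE A e) := by
    rw [Finset.disjoint_left]
    intro x h1 h2
    apply key x h2
    split_ifs at h1
    · rw [Finset.mem_singleton.1 h1]; rfl
    · rw [Finset.mem_singleton.1 h1]; rfl
    · exact absurd h1 (Finset.notMem_empty _)
  have h3 : Disjoint (if X1.1 ∈ A.H then {gT A (ga u X1)} else (∅ : Finset Sp))
      ((if X2.1 ∈ A.H then (if e = none then {gF (ga u X2)} else {gT A (ga u X2)})
        else (∅ : Finset Sp)) ∪ XE A e) := by
    rw [Finset.disjoint_left]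
    intro x h1 h2
    split_ifs at h1
    · rw [Finset.mem_singleton.1 h1] at h2
      rw [Finset.mem_union] at h2
      rcases h2 with h2 | h2
      · split_ifs at h2
        · have := congrArg Sp.i (Finset.mem_singleton.1 h2)
          exact absurd this (by simp [gT, gF])
        · exact hne (ga_inj (gT_inj A (Finset.mem_singleton.1 h2)))
        · exact absurd h2 (Finset.notMem_empty _)
      · exact key _ h2 rfl
    · exact absurd h1 (Finset.notMem_empty _)
  have c1 : ∀ x : Sp, x.f = .mk → cnt {x} f = if f = .mk then 1 else 0 := by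
    intro x hx
    rw [cnt_sing, hx]
    by_cases hf : f = .mk
    · rw [if_pos hf.symm, if_pos hf]
    · rw [if_neg (fun h => hf h.symm), if_neg hf]
  unfold XP
  rw [cnt_union h3, cnt_union h2, cnt_XE]
  by_cases a1 : X1.1 ∈ A.H <;> by_cases a2 : X2.1 ∈ A.H <;> by_cases a3 : e = none <;>
    simp only [a1, a2, a3, if_true, if_false] <;>
    (try rw [c1 _ (show (gT A (ga u X1)).f = .mk from rfl)]) <;>
    (try rw [c1 _ (show (gF (ga u X2)).f = .mk from rfl)]) <;>
    (try rw [c1 _ (show (gT A (ga u X2)).f = .mk from rfl)]) <;>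
    (try rw [cnt_empty]) <;> by_cases hf : f = .mk <;> simp [hf]

/-- number of points -/
theorem card_XE (A : Half) (e : Option (Port TG)) : (XE A e).card ≤ 2 := by
  rcases e with _ | _ | ⟨t | ⟨j, y⟩, d⟩
  · simp [XE]
  · simp [XE]
  · simp only [XE]
    split_ifs
    · exact Finset.card_le_two
    · simp
  · simp [XE]

theorem card_XP (A : Half) (u : Bool) (X1 X2 : V × ZMod 4) (e : Option (Port TG)) :
    (XP A u X1 X2 e).card ≤ 4 := by
  unfold XP
  refine (Finset.card_union_le _ _).trans ?_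
  have h1 := Finset.card_union_le (if X2.1 ∈ A.H then (if e = none then {gF (ga u X2)}
    else {gT A (ga u X2)}) else (∅ : Finset Sp)) (XE A e)
  have h2 := card_XE A e
  have h3 : (if X1.1 ∈ A.H then {gT A (ga u X1)} else (∅ : Finset Sp)).card ≤ 1 := by
    split_ifs <;> simp
  have h4 : (if X2.1 ∈ A.H then (if e = none then {gF (ga u X2)}
    else {gT A (ga u X2)}) else (∅ : Finset Sp)).card ≤ 1 := by
    split_ifs <;> simp
  omega

theorem card_XMlow (A : Half) (X1 X2 : V × ZMod 4) (e : Option (Port TG)) :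
    (XMlow A X1 X2 e).card ≤ 7 := by
  unfold XMlow
  refine (Finset.card_union_le _ _).trans ?_
  have h1 := card_XP A false X1 X2 e
  have h2 := card_low A e
  omega

theorem card_XMup (A : Half) (b : ℤ) (X1 X2 : V × ZMod 4) (e : Option (Port TG)) :
    (XMup A b X1 X2 e).card ≤ 7 := by
  unfold XMup
  refine (Finset.card_union_le _ _).trans ?_
  have h1 := card_XP A true (rX X1) (rX X2) (e.map rp)
  have h2 := card_up A b e
  omega

/-! ### the tile of a free end lies in exactly one half -/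

section half

variable {M : Mac} {L a b c : ℤ} {B : Band (D M.F L)}

/-- tiles of the planar free ends are not in the rows of the band -/
theorem not_run (m : MB M L a b c B) {t : ℤ × ℤ} {d : ZMod 4}
    (hq : (some (Sum.inl t, d) : Port TG) ∈ freeG B) :
    t ∈ D M.F L ∧ ¬ (B.xl ≤ t.1 ∧ t.1 ≤ B.xr ∧ B.y1 ≤ t.2 ∧ t.2 < B.y2) := by
  rcases mem_freeG'.1 hq with ⟨t', d', h1, h2, h3⟩ | ⟨i, -, -, h1⟩ | ⟨i, -, -, h1⟩
  · simp only [Option.some.injEq, Prod.mk.injEq, Sum.inl.injEq] at h1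
    obtain ⟨rfl, rfl⟩ := h1
    refine ⟨h2.1, ?_⟩
    rintro ⟨h4, h5, h6, h7⟩
    have g1 := m.h1
    have g2 := m.h2
    obtain ⟨x, y⟩ := t
    simp only at h4 h5 h6 h7
    have hr : ∀ y', B.y1 - 1 ≤ y' → y' ≤ B.y2 → ∀ x', B.xl ≤ x' → x' ≤ B.xr →
        (x', y') ∈ D M.F L := fun y' k1 k2 x' k3 k4 =>
      (mb_run m (y := y') (by omega) (by omega)).mem x' k3 k4
    have h8 := h2.2
    rcases Ka470.Half.z4 d with rfl | rfl | rfl | rfl
    · rw [dir0] at h8
      by_cases hx : x = B.xl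
      · exact h3 ⟨⟨h6, h7⟩, Or.inl ⟨rfl, hx⟩⟩
      · exact h8 (hr (y + 0) (by omega) (by omega) (x + -1) (by omega) (by omega))
    · rw [dir1] at h8
      exact h8 (hr (y + 1) (by omega) (by omega) (x + 0) (by omega) (by omega))
    · rw [dir2] at h8
      by_cases hx : x = B.xr
      · exact h3 ⟨⟨h6, h7⟩, Or.inr ⟨rfl, hx⟩⟩
      · exact h8 (hr (y + 0) (by omega) (by omega) (x + 1) (by omega) (by omega))
    · rw [dir3] at h8
      exact h8 (hr (y + -1) (by omega) (by omega) (x + 0) (by omega) (by omega))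
  · simp at h1
  · simp at h1

/-- **lower half** -/
theorem memH_low (m : MB M L a b c B) {y0 : ℤ} (h1 : B.y1 < y0) (h2 : y0 ≤ B.y2) {t : ℤ × ℤ}
    (ht : ¬ (B.xl ≤ t.1 ∧ t.1 ≤ B.xr ∧ B.y1 ≤ t.2 ∧ t.2 < B.y2)) :
    t ∈ (lowHalf (lb_low m h1 h2).d).H ↔ t ∈ lowT (D M.F L) B.xl B.xr B.y1 := by
  obtain ⟨x, y⟩ := t
  have h3 := tH_inl (lb_low m h1 h2) (x := x) (y := y)
  refine h3.trans ⟨fun h => ?_, Or.inl⟩
  rcases h with h | h
  · exact h
  · exact absurd ⟨h.1.1, h.1.2, h.2.1, by simp only; omega⟩ ht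

/-- **reflected upper half** -/
theorem memH_up (m : MB M L a b c B) {y0 : ℤ} (h1 : -B.y2 < y0) (h2 : y0 ≤ -B.y1) {t : ℤ × ℤ}
    (ht : ¬ (B.xl ≤ t.1 ∧ t.1 ≤ B.xr ∧ B.y1 ≤ t.2 ∧ t.2 < B.y2)) :
    rz t ∈ (lowHalf (lb_up m h1 h2).d).H ↔ t ∈ upT (D M.F L) B.xl B.xr B.y2 := by
  obtain ⟨x, y⟩ := t
  have h3 := tH_inl (lb_up m h1 h2) (x := x) (y := -y - 1)
  refine h3.trans ⟨fun h => ?_, fun h => ?_⟩
  · rcases h with h | h
    · rw [mem_rA] at h
      have e : rz (x, -y - 1) = (x, y) := by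
        unfold rz
        simp
      rwa [e] at h
    · simp only [Rf896.rB_xl, Rf896.rB_xr, Rf896.rB_y1] at h
      simp only at ht
      omega
  · left
    rw [mem_rA]
    have e : rz (x, -y - 1) = (x, y) := by
      unfold rz
      simp
    rwa [e]

/-- **exactly one half** -/
theorem half_xor (m : MB M L a b c B) {y0 y0' : ℤ} (h1 : B.y1 < y0) (h2 : y0 ≤ B.y2)
    (h1' : -B.y2 < y0') (h2' : y0' ≤ -B.y1) {t : ℤ × ℤ} {d : ZMod 4}
    (hq : (some (Sum.inl t, d) : Port TG) ∈ freeG B) :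
    (t ∈ (lowHalf (lb_low m h1 h2).d).H ∧ rz t ∉ (lowHalf (lb_up m h1' h2').d).H) ∨
      (t ∉ (lowHalf (lb_low m h1 h2).d).H ∧ rz t ∈ (lowHalf (lb_up m h1' h2').d).H) := by
  obtain ⟨k1, k2⟩ := not_run m hq
  rw [memH_low m h1 h2 k2, memH_up m h1' h2' k2]
  have hs := m.split
  have hp := (hs.part t.1 t.2).1 k1
  have hd := Finset.disjoint_left.1 hs.disj
  rcases hp with hp | hp | hp
  · exact Or.inl ⟨hp, hd hp⟩
  · exact Or.inr ⟨fun h => hd h hp, hp⟩
  · exact absurd hp k2

/-- `Sp` counts of the two halves: `mk` -/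
theorem tot_mk (m : MB M L a b c B) {y0 y0' : ℤ} (h1 : B.y1 < y0) (h2 : y0 ≤ B.y2)
    (h1' : -B.y2 < y0') (h2' : y0' ≤ -B.y1) (b' : ℤ) {X1 X2 : V × ZMod 4} (hne : X1 ≠ X2)
    (hX1 : (some (Sum.inl X1.1, X1.2) : Port TG) ∈ freeG B)
    (hX2 : (some (Sum.inl X2.1, X2.2) : Port TG) ∈ freeG B) (e : Option (Port TG)) :
    cnt (XMlow (lowHalf (lb_low m h1 h2).d) X1 X2 e) .mk +
      cnt (XMup (lowHalf (lb_up m h1' h2').d) b' X1 X2 e) .mk = 3 := by
  have hne' : rX X1 ≠ rX X2 := by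
    intro h
    apply hne
    have k1 : rz X1.1 = rz X2.1 := congrArg Prod.fst h
    have k2 : -X1.2 = -X2.2 := congrArg Prod.snd h
    exact Prod.ext (Rf896.rz_inj k1) (neg_inj.1 k2)
  unfold XMlow XMup
  rw [cnt_union (dis_PS_low _ _ _ _), cnt_union (dis_PS_up _ _ _ _ _), cnt_XP _ _ hne,
    cnt_XP _ _ hne', cnt_low, cnt_up]
  have e1 : (rX X1).1 = rz X1.1 := rfl
  have e2 : (rX X2).1 = rz X2.1 := rfl
  rw [e1, e2]
  simp only [if_true, reduceCtorEq, or_self, if_false]
  rcases half_xor m h1 h2 h1' h2' hX1 with ⟨k1, k2⟩ | ⟨k1, k2⟩ <;>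
    rcases half_xor m h1 h2 h1' h2' hX2 with ⟨k3, k4⟩ | ⟨k3, k4⟩ <;>
    simp only [k1, k2, k3, k4, if_true, if_false]

/-- number of `e2` factors of a member -/
def kE (e : Option (Port TG)) : ℕ := if e = none then 0 else 1

theorem rp_inl (t : ℤ × ℤ) (d : ZMod 4) :
    rp (some (Sum.inl t, d)) = some (Sum.inl (rz t), -d) := rfl

theorem rp_inr (t : ℤ × ℤ) (d : ZMod 4) :
    rp (some (Sum.inr t, d)) = some (Sum.inr (rz t), -d) := rfl

theorem on_sum (m : MB M L a b c B) {y0 y0' : ℤ} (h1 : B.y1 < y0) (h2 : y0 ≤ B.y2)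
    (h1' : -B.y2 < y0') (h2' : y0' ≤ -B.y1) {e : Option (Port TG)}
    (he : ∀ e' ∈ e, e' ∈ freeG B) :
    onE (lowHalf (lb_low m h1 h2).d) e + onF e +
      (onE (lowHalf (lb_up m h1' h2').d) (e.map rp) + onC e) = kE e := by
  rcases e with _ | q
  · rfl
  · have hq := he q rfl
    rcases mem_freeG'.1 hq with ⟨t, d, rfl, h3, h4⟩ | ⟨i, -, -, rfl⟩ | ⟨i, -, -, rfl⟩
    · rw [Option.map_some, rp_inl]
      simp only [onE, onF, onC, kE, reduceCtorEq, if_false, add_zero]
      rcases half_xor m h1 h2 h1' h2' hq with ⟨k1, k2⟩ | ⟨k1, k2⟩ <;>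
        simp only [k1, k2, if_true, if_false]
    · rw [Option.map_some, rp_inr]
      simp [onE, onF, onC, kE]
    · rw [Option.map_some, rp_inr]
      have h13 : (1 : ZMod 4) ≠ 3 := by decide
      simp [onE, onF, onC, kE, h13]

/-- **total count of the factors `e2`** -/
theorem tot_e2 (m : MB M L a b c B) {y0 y0' : ℤ} (h1 : B.y1 < y0) (h2 : y0 ≤ B.y2)
    (h1' : -B.y2 < y0') (h2' : y0' ≤ -B.y1) (b' : ℤ) {X1 X2 : V × ZMod 4} (hne : X1 ≠ X2)
    {e : Option (Port TG)} (he : ∀ e' ∈ e, e' ∈ freeG B) :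
    cnt (XMlow (lowHalf (lb_low m h1 h2).d) X1 X2 e) .e2 +
      cnt (XMup (lowHalf (lb_up m h1' h2').d) b' X1 X2 e) .e2 = kE e := by
  have hne' : rX X1 ≠ rX X2 := by
    intro h
    apply hne
    have k1 : rz X1.1 = rz X2.1 := congrArg Prod.fst h
    have k2 : -X1.2 = -X2.2 := congrArg Prod.snd h
    exact Prod.ext (Rf896.rz_inj k1) (neg_inj.1 k2)
  have key := on_sum m h1 h2 h1' h2' he
  unfold XMlow XMup
  rw [cnt_union (dis_PS_low _ _ _ _), cnt_union (dis_PS_up _ _ _ _ _), cnt_XP _ _ hne,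
    cnt_XP _ _ hne', cnt_low, cnt_up]
  simp only [reduceCtorEq, if_false, true_or, if_true, zero_add]
  exact key

/-- **total count of the factors `e1`** -/
theorem tot_e1 (m : MB M L a b c B) {y0 y0' : ℤ} (h1 : B.y1 < y0) (h2 : y0 ≤ B.y2)
    (h1' : -B.y2 < y0') (h2' : y0' ≤ -B.y1) (b' : ℤ) {X1 X2 : V × ZMod 4} (hne : X1 ≠ X2)
    {e : Option (Port TG)} (he : ∀ e' ∈ e, e' ∈ freeG B) :
    cnt (XMlow (lowHalf (lb_low m h1 h2).d) X1 X2 e) .e1 +
      cnt (XMup (lowHalf (lb_up m h1' h2').d) b' X1 X2 e) .e1 = kE e := by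
  have hne' : rX X1 ≠ rX X2 := by
    intro h
    apply hne
    have k1 : rz X1.1 = rz X2.1 := congrArg Prod.fst h
    have k2 : -X1.2 = -X2.2 := congrArg Prod.snd h
    exact Prod.ext (Rf896.rz_inj k1) (neg_inj.1 k2)
  have key := on_sum m h1 h2 h1' h2' he
  unfold XMlow XMup
  rw [cnt_union (dis_PS_low _ _ _ _), cnt_union (dis_PS_up _ _ _ _ _), cnt_XP _ _ hne,
    cnt_XP _ _ hne', cnt_low, cnt_up]
  simp only [reduceCtorEq, if_false, or_true, if_true, zero_add]
  exact key

end half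

/-- no corner factors -/
theorem cnt_XM_cr {A : Half} {X1 X2 : V × ZMod 4} (hne : X1 ≠ X2) (b : ℤ) (e : Option (Port TG))
    {f : Fk} (hf : f = .cv ∨ f = .rf) :
    cnt (XMlow A X1 X2 e) f = 0 ∧ cnt (XMup A b X1 X2 e) f = 0 := by
  have hne' : rX X1 ≠ rX X2 := by
    intro h
    apply hne
    have k1 : rz X1.1 = rz X2.1 := congrArg Prod.fst h
    have k2 : -X1.2 = -X2.2 := congrArg Prod.snd h
    exact Prod.ext (Rf896.rz_inj k1) (neg_inj.1 k2)
  unfold XMlow XMup
  rw [cnt_union (dis_PS_low _ _ _ _), cnt_union (dis_PS_up _ _ _ _ _), cnt_XP _ _ hne,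
    cnt_XP _ _ hne', cnt_low, cnt_up]
  rcases hf with rfl | rfl <;> simp

end Crest.Agent.R158.Xs932
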