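import Crest.Agent.R158.Dp1_440

/-!
# Row 158 (helper180): the majorant of the mark sum, 1: partial matchings

Only the arcs whose start satisfies `Q` (exact arcs) are used.

* `Gd π N k x1 x2 Q e` : no exact arc kills the middle phase at `e`
* `NCK.ty_injQ`, `NCK.card_Gd` : at most 7 ends of exact arcs satisfy `Gd`
-/

set_option autoImplicit false

namespace Crest.Agent.R158.Al194

open Crest.Agent.R158.Vt300 Finset

variable {π : ℕ → ℕ} {N k : ℕ}

/-- no arc of `Q` has charge `-1` or `2` when the middle phase is at `e` -/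
def Gd (π : ℕ → ℕ) (N k x1 x2 : ℕ) (Q : ℕ → Prop) (e : ℕ) : Prop :=
  ∀ i, i < N → st π k i → Q i → ig π x1 i + ig π x2 i - ig π e i - ig π (e + 1) i ≠ -1 ∧
    ig π x1 i + ig π x2 i - ig π e i - ig π (e + 1) i ≠ 2

theorem NCK.ty_injQ (h : NCK π N k) {x1 x2 : ℕ} (h1 : x1 ≤ N) (h2 : x2 ≤ N) {Q : ℕ → Prop}
    {e e' : ℕ} (he : e < N) (he' : e' < N) (hS : Gd π N k x1 x2 Q e) (hS' : Gd π N k x1 x2 Q e')
    (hQ : e ≠ k → Q (ar π k e)) (hQ' : e' ≠ k → Q (ar π k e'))
    (ht : ty π k x1 x2 e = ty π k x1 x2 e') : e = e' := by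
  unfold ty at ht
  by_cases hek : e = k
  · by_cases hek' : e' = k
    · rw [hek, hek']
    · rw [if_pos hek, if_neg hek'] at ht
      have := congrArg Prod.fst ht
      rcases ig_cases (π := π) x1 (ar π k e') with a | a <;> simp only [a] at this <;> omega
  by_cases hek' : e' = k
  · rw [if_neg hek, if_pos hek'] at ht
    have := congrArg Prod.fst ht
    rcases ig_cases (π := π) x1 (ar π k e) with a | a <;> simp only [a] at this <;> omega
  rw [if_neg hek, if_neg hek'] at ht
  obtain ⟨i1, i2, i3⟩ := h.ar_spec he hek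
  obtain ⟨j1, j2, j3⟩ := h.ar_spec he' hek'
  simp only [Prod.mk.injEq] at ht
  obtain ⟨t1, t2, t3⟩ := ht
  have own : ig π x1 (ar π k e) + ig π x2 (ar π k e) ≠ 0 := by
    intro hz
    have := h.ig_at i1 i2 (e := e) (by
      rcases i3 with r | r
      · exact Or.inl r.symm
      · exact Or.inr r.symm)
    exact (hS _ i1 i2 (hQ hek)).1 (by omega)
  by_cases hij : ar π k e = ar π k e'
  · -- the same arc: the same end
    have hse : st π k e ↔ st π k e' := by
      by_cases a : st π k e <;> by_cases b : st π k e' <;> simp [a, b] at t3 ⊢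
    unfold ar at hij
    by_cases a : st π k e
    · rw [if_pos a, if_pos (hse.1 a)] at hij; exact hij
    · rw [if_neg a, if_neg fun b => a (hse.2 b)] at hij
      rw [← h.inv e he, hij, h.inv e' he']
  exfalso
  -- a common gap
  have hx : ∃ x, x ≤ N ∧ ing π x (ar π k e) ∧ ing π x (ar π k e') := by
    rcases ig_cases (π := π) x1 (ar π k e) with a | a
    · have b : ig π x2 (ar π k e) = 1 := by
        rcases ig_cases (π := π) x2 (ar π k e) with b | b
        · omega
        · exact b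
      refine ⟨x2, h2, ?_, ?_⟩
      · by_contra hc; rw [ig_zero hc] at b; omega
      · by_contra hc; rw [ig_zero hc] at t2; omega
    · refine ⟨x1, h1, ?_, ?_⟩
      · by_contra hc; rw [ig_zero hc] at a; omega
      · by_contra hc; rw [ig_zero hc] at t1; omega
  obtain ⟨x, hx, hx1, hx2⟩ := hx
  have g1 := ig_cases (π := π) x1 (ar π k e)
  have g2 := ig_cases (π := π) x2 (ar π k e)
  rcases h.nested i1 j1 i2 j2 hij hx hx1 hx2 with ⟨n1, n2⟩ | ⟨n1, n2⟩
  · -- the arc of `e` is inside the arc of `e'`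
    obtain ⟨u1, u2⟩ := n1 e i3
    obtain ⟨v1, v2⟩ := n2 e' j3
    by_cases hb : ig π x1 (ar π k e) = 1 ∧ ig π x2 (ar π k e) = 1
    · refine (hS' _ i1 i2 (hQ hek)).2 ?_
      rw [ig_zero v1, ig_zero v2]; omega
    · refine (hS _ j1 j2 (hQ' hek')).1 ?_
      rw [ig_one u1, ig_one u2]; omega
  · obtain ⟨u1, u2⟩ := n1 e' j3
    obtain ⟨v1, v2⟩ := n2 e i3
    by_cases hb : ig π x1 (ar π k e) = 1 ∧ ig π x2 (ar π k e) = 1
    · refine (hS _ j1 j2 (hQ' hek')).2 ?_
      rw [ig_zero v1, ig_zero v2]; omega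
    · refine (hS' _ i1 i2 (hQ hek)).1 ?_
      rw [ig_one u1, ig_one u2]; omega

/-- **at most 7 ends of exact arcs carry a middle phase** -/
theorem NCK.card_Gd (h : NCK π N k) {x1 x2 : ℕ} (h1 : x1 ≤ N) (h2 : x2 ≤ N) {Q : ℕ → Prop}
    (A : Finset ℕ) (hA : ∀ e ∈ A, e < N ∧ Gd π N k x1 x2 Q e ∧ (e ≠ k → Q (ar π k e))) :
    A.card ≤ 7 := by
  set S : Finset (ℤ × ℤ × ℕ) := {(2, 0, 0), (0, 1, 0), (0, 1, 1), (1, 0, 0), (1, 0, 1), (1, 1, 0),
    (1, 1, 1)} with hSdef
  have hS : S.card ≤ 7 := by rw [hSdef]; rfl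
  refine le_trans (Finset.card_le_card_of_injOn (ty π k x1 x2) ?_ ?_) hS
  · intro e he
    obtain ⟨he, hne, hQ⟩ := hA e he
    rw [Finset.mem_coe]
    unfold ty
    by_cases hek : e = k
    · rw [if_pos hek, hSdef]; simp
    · rw [if_neg hek]
      obtain ⟨i1, i2, i3⟩ := h.ar_spec he hek
      have own : ig π x1 (ar π k e) + ig π x2 (ar π k e) ≠ 0 := by
        intro hz
        have := h.ig_at i1 i2 (e := e) (by
          rcases i3 with r | r
          · exact Or.inl r.symm
          · exact Or.inr r.symm)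
        exact (hne _ i1 i2 (hQ hek)).1 (by omega)
      rcases ig_cases (π := π) x1 (ar π k e) with a | a <;>
        rcases ig_cases (π := π) x2 (ar π k e) with b | b <;>
        by_cases c : st π k e <;> simp [a, b, c, hSdef] at own ⊢
  · intro e he e' he' ht
    obtain ⟨he1, he2, he3⟩ := hA e he
    obtain ⟨he1', he2', he3'⟩ := hA e' he'
    exact h.ty_injQ h1 h2 he1 he1' he2 he2' he3 he3' ht

end Crest.Agent.R158.Al194
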