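import Crest.Agent.R158.Zc2_180

/-!
# Row 158 (helper180): strands over the far charge, 3: passages of the stubs

Right section = columns `a0 + 1 .. a`, left section = columns `c0 .. c1` of the chart of the strip,
`0 ≤ a0 < a`, `a + 1 < c0 ≤ c1 ≤ R - 2`.

* `Pass B y0 a0 a c0 c1 s` : number of strands that enter a section from the far side and cross it
* `pass_moment` : exponential moments;  `pass_dep` : dependence
* `pass_walk` : a strand from the far strip to the near side contains such an entry state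
* **`pass_count`** : a family of disjoint classes which contain strands visiting both sides has at
  most `Pass` members
-/

set_option autoImplicit false

noncomputable section

namespace Crest.Agent.R158.Zc180

open MeasureTheory ProbabilityTheory unitInterval
open Crest.Agent.R161.Geo729
open Crest.Agent.R158.Sw300 (Port Wd thru)
open Crest.Agent.R158.Rs689 hiding se sc
open Crest.Agent.R158.Mr679
open Crest.Agent.R158.Nm211 (Dir dx dy trn St mv nx6 rd KK Hit DepF chart_moment gen_dep nx6_inj)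
open Crest.Agent.R158.Ka470 (Ch en ex sg thru_sg ex_inj en_inj Free)
open Crest.Agent.R158.Pt266 (Wk rv)
open Crest.Agent.R158.Env664
open Crest.Agent.R158.Zg180 (Gq se uc gate Gate gq_nb)

variable {A : Finset (ℤ × ℤ)} (B : Band A)

/-- walk in the chart of the strip -/
def fs (y0 : ℤ) (s : TG → Bool) : St ℤ → St ℤ := nx6 (Zm180.sc fun v => s (se y0 v))

/-- states in the sections (`true` : right section) -/
def Ds (a0 a c0 c1 : ℤ) (g : Bool) : Set (St ℤ) :=
  {c | (if g then a0 + 1 ≤ c.1.1 ∧ c.1.1 ≤ a else c0 ≤ c.1.1 ∧ c.1.1 ≤ c1) ∧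
    B.y1 ≤ c.1.2 ∧ c.1.2 < B.y2}

/-- states behind the sections -/
def Ys (a0 c1 : ℤ) (g : Bool) : Set (St ℤ) := {c | if g then c.1.1 ≤ a0 else c1 + 1 ≤ c.1.1}

/-- states entering the sections from the far side -/
def Xs (a c0 : ℤ) (g : Bool) : Finset (St ℤ) :=
  (Finset.Ico B.y1 B.y2).image fun y => if g then ((a, y), 3) else ((c0, y), 1)

/-- number of passages of the sections -/
def Pass (y0 a0 a c0 c1 : ℤ) (s : TG → Bool) : ℕ :=
  ∑ g : Bool, KK (fs y0 s) (Ds B a0 a c0 c1 g) (Ys a0 c1 g) (Xs B a c0 g)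

variable {B}

theorem mem_Xs {a c0 : ℤ} {g : Bool} {c : St ℤ} (h : c ∈ Xs B a c0 g) :
    B.y1 ≤ c.1.2 ∧ c.1.2 < B.y2 ∧ (if g then c.1.1 = a ∧ c.2 = 3 else c.1.1 = c0 ∧ c.2 = 1) := by
  obtain ⟨y, hy, rfl⟩ := Finset.mem_image.1 h
  rw [Finset.mem_Ico] at hy
  cases g <;> simp <;> omega

/-- **exponential moments of the number of passages** -/
theorem pass_moment (t : ℝ) (ht : 1 ≤ t) : ∃ C : ℝ, 1 ≤ C ∧
    ∀ (A : Finset (ℤ × ℤ)) (B : Band A) (y0 a0 a c0 c1 : ℤ) (h : ℕ), B.y2 = B.y1 + h → 1 ≤ h →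
      a0 + h ≤ a → c0 + h ≤ c1 + 1 →
      ∫ s, t ^ Pass B y0 a0 a c0 c1 s ∂(PB fun _ : TG => hf) ≤ C := by
  obtain ⟨C, hC, hm⟩ := chart_moment.{0} t ht 2 1
  refine ⟨C, hC, fun A B y0 a0 a c0 c1 h hy h1 ha hc => ?_⟩
  let e : Fin 2 → Bool := fun i => decide (i = 0)
  refine hm h h1 TG (fun _ => se y0) (fun _ _ => true)
    (fun i => if e i then (a, B.y1) else (c0, B.y1))
    (fun i => Ds B a0 a c0 c1 (e i)) (fun i => Ys a0 c1 (e i)) (fun i => Xs B a c0 (e i))
    (fun i => (if e i then Finset.Icc (a0 + 1) a else Finset.Icc c0 c1) ×ˢ Finset.Ico B.y1 B.y2)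
    ?_ ?_ ?_ ?_ ?_ (Pass B y0 a0 a c0 c1) ?_
  · intro i v _ w _ hvw
    exact Zg180.se_inj hvw
  · intro i c hc'
    obtain ⟨h2, h3, h4⟩ := hc'
    rw [Finset.mem_product, Finset.mem_Ico]
    refine ⟨?_, h3, h4⟩
    cases hi : e i
    · rw [hi] at h2
      simpa using h2
    · rw [hi] at h2
      simpa using h2
  · intro i c hc' s hX
    obtain ⟨h2, h3, h4⟩ := hc'
    have h5 := (mem_Xs hX).2.2
    cases hi : e i
    · rw [hi] at h2 h5
      simp only [Bool.false_eq_true, if_false] at h2 h5
      have h6 : (nx6 s c).1 = mv c.1 (nx6 s c).2 := rfl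
      rw [h6, h5.2] at h5
      simp only [mv, dx, Int.cast_one] at h5
      omega
    · rw [hi] at h2 h5
      simp only [if_true] at h2 h5
      have h6 : (nx6 s c).1 = mv c.1 (nx6 s c).2 := rfl
      rw [h6, h5.2] at h5
      simp only [mv, dx, Int.cast_neg, Int.cast_one] at h5
      omega
  · intro i c hc'
    have h5 := mem_Xs hc'
    cases hi : e i
    · rw [hi] at h5
      simp only [Bool.false_eq_true, if_false] at h5 ⊢
      rw [abs_le, abs_le]
      push_cast
      omega
    · rw [hi] at h5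
      simp only [if_true] at h5 ⊢
      rw [abs_le, abs_le]
      push_cast
      omega
  · intro i c hc' c' hY
    have h5 := mem_Xs hc'
    unfold Crest.Agent.R158.Nm211.Far
    left
    cases hi : e i
    · rw [hi] at h5
      have hY' : (if e i = true then c'.1.1 ≤ a0 else c1 + 1 ≤ c'.1.1) := hY
      rw [hi] at hY'
      simp only [Bool.false_eq_true, if_false] at h5 hY'
      rw [le_abs]
      left
      omega
    · rw [hi] at h5
      have hY' : (if e i = true then c'.1.1 ≤ a0 else c1 + 1 ≤ c'.1.1) := hY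
      rw [hi] at hY'
      simp only [if_true] at h5 hY'
      rw [le_abs]
      right
      omega
  · intro s
    have e1 : fs y0 s = nx6 (rd (se y0) (fun _ => true) s) := by
      unfold fs
      congr 1
      funext v
      simp [rd, Zm180.sc]
    unfold Pass
    rw [e1, Fin.sum_univ_two, Fintype.sum_bool]
    exact le_refl _

/-- dependence -/
theorem pass_dep {y0 a0 a c0 c1 : ℤ} {s s' : TG → Bool}
    (h : ∀ t ∈ (bxF a0 a (B.y1 - 1) (B.y2 - 1)).image (se y0) ∪
      (bxF (c0 - 1) c1 (B.y1 - 1) (B.y2 - 1)).image (se y0), s t = s' t) :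
    Pass B y0 a0 a c0 c1 s = Pass B y0 a0 a c0 c1 s' := by
  unfold Pass
  refine Finset.sum_congr rfl fun g _ => ?_
  refine gen_dep fun c hc => ?_
  obtain ⟨h2, h3, h4⟩ := hc
  have : s (se y0 c.1) = s' (se y0 c.1) := by
    refine h _ ?_
    rw [Finset.mem_union, Finset.mem_image, Finset.mem_image]
    cases g
    · refine Or.inr ⟨c.1, ?_, rfl⟩
      rw [mem_bxF]
      unfold InB
      simp only [Bool.false_eq_true, if_false] at h2
      omega
    · refine Or.inl ⟨c.1, ?_, rfl⟩
      rw [mem_bxF]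
      unfold InB
      simp only [if_true] at h2
      omega
  simp only [Zm180.sc, this]

section walks

variable {p y0 a0 a c0 c1 : ℤ} {s : TG → Bool}

/-- one step of a strand in the columns `1 .. R - 2` -/
theorem stepS (hz : B.At p y0) {v : ℤ × ℤ} (h1 : 1 ≤ v.1) (h2 : v.1 ≤ B.R - 2) {d : Dir}
    {r : TG × ZMod 4} (hg : Gq (B.beG p y0) (se y0 v, ex d) r) :
    B.y1 ≤ v.2 ∧ v.2 < B.y2 ∧ B.y1 ≤ (mv v d).2 ∧ (mv v d).2 < B.y2 ∧
      r = (se y0 (mv v d), en d) := by
  obtain ⟨-, h3, -⟩ := gq_nb hg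
  have h4 : B.y1 ≤ v.2 ∧ v.2 < B.y2 := by
    unfold se at h3
    have := (B.inr_mem).1 h3
    omega
  have hR : 2 < B.R := by
    by_contra hcon
    omega
  have hv : v ∈ (SC hz hR).C.R := by
    rw [mem_SC]
    omega
  have hm : mv v d ∈ (SC hz hR).C.R := by
    by_contra hcon
    have hfr := (SC hz hR).fr v hv (show (0 : ℤ) < v.1 by omega) (show v.1 ≤ B.R - 2 from h2) d
      hcon
    exact hfr r hg
  have hm' := hm
  rw [mem_SC] at hm'
  refine ⟨h4.1, h4.2, hm'.2.2.1, hm'.2.2.2, ?_⟩
  have hgl := Zg180.se_glue (y0 := y0) (p := p) (d := d) (show 0 ≤ v.1 by omega) (show v.1 < B.R by omega)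
    h4.1 h4.2 hm'.1 (show (mv v d).1 < B.R by omega) hm'.2.2.1 hm'.2.2.2
  have h5 := hg.1
  rw [hgl] at h5
  exact (Option.some_injective _ h5).symm

theorem ex_surj (e : ZMod 4) : ∃ d : Dir, ex d = e := by
  rcases z4 e with rfl | rfl | rfl | rfl
  · exact ⟨3, rfl⟩
  · exact ⟨0, rfl⟩
  · exact ⟨1, rfl⟩
  · exact ⟨2, rfl⟩

theorem pass_fs (c : St ℤ) : Pt266.pass s (se y0 c.1, en c.2) = (se y0 c.1, ex (fs y0 s c).2) := by
  unfold Pt266.pass
  rw [Zm180.thru_en]
  rfl

theorem fs_fst (c : St ℤ) : (fs y0 s c).1 = mv c.1 (fs y0 s c).2 := rfl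

/-- the near side -/
def NearS (y0 a0 c1 : ℤ) : Set TG :=
  {t | (∃ v, t = Sum.inl v) ∨ ∃ v : ℤ × ℤ, t = se y0 v ∧ (v.1 ≤ a0 ∨ c1 < v.1)}

/-- the far side -/
def FarS (y0 a c0 : ℤ) : Set TG := {t | ∃ v : ℤ × ℤ, t = se y0 v ∧ a < v.1 ∧ v.1 < c0}

/-- **a strand from the far side to the near side passes a stub** -/
theorem pass_walk (hz : B.At p y0) (h0 : 0 ≤ a0) (ha : a0 < a) (hac : a + 1 < c0) (hc : c0 ≤ c1)
    (hc1 : c1 ≤ B.R - 2)
    {x y : TG × ZMod 4} {l : List (TG × ZMod 4)} (hx : x.1 ∈ FarS y0 a c0)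
    (hw : Wk s (Gq (B.beG p y0)) x y l) (hl : ∃ r ∈ l, r.1 ∈ NearS y0 a0 c1) :
    ∃ g, ∃ c ∈ Xs B a c0 g, Hit (fs y0 s) (Ds B a0 a c0 c1 g) (Ys a0 c1 g) c ∧ (se y0 c.1, en c.2) ∈ l := by
  -- the invariant
  have key : (∃ g, ∃ c ∈ Xs B a c0 g, Hit (fs y0 s) (Ds B a0 a c0 c1 g) (Ys a0 c1 g) c ∧
        (se y0 c.1, en c.2) ∈ l) ∨
      ((∀ r ∈ l, r.1 ∉ NearS y0 a0 c1) ∧
        (y.1 ∈ FarS y0 a c0 ∨ ∃ g, ∃ c ∈ Xs B a c0 g, (se y0 c.1, en c.2) ∈ l ∧
          ∃ m, (∀ j ≤ m, (fs y0 s)^[j] c ∈ Ds B a0 a c0 c1 g) ∧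
            y = (se y0 ((fs y0 s)^[m] c).1, ex ((fs y0 s)^[m + 1] c).2))) := by
    clear hl
    have farnear : ∀ t : TG, t ∈ FarS y0 a c0 → t ∉ NearS y0 a0 c1 := by
      rintro t ⟨v, rfl, h1, h2⟩ (⟨w, hw'⟩ | ⟨w, hw', h3⟩)
      · simp [se] at hw'
      · have := Zg180.se_inj hw'
        subst this
        omega
    have stubnear : ∀ v : ℤ × ℤ, a0 < v.1 → v.1 ≤ c1 → se y0 v ∉ NearS y0 a0 c1 := by
      rintro v h1 h2 (⟨w, hw'⟩ | ⟨w, hw', h3⟩)
      · simp [se] at hw'
      · have := Zg180.se_inj hw'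
        subst this
        omega
    induction hw with
    | one =>
      right
      refine ⟨?_, Or.inl hx⟩
      intro r hr
      rw [List.mem_singleton] at hr
      subst hr
      exact farnear _ hx
    | @snoc q r l hw hg ih =>
      rcases ih with ⟨g, c, h1, h2, h3⟩ | ⟨hno, hq⟩
      · exact Or.inl ⟨g, c, h1, h2, List.mem_append_left _ h3⟩
      rcases hq with ⟨v, hv, hv1, hv2⟩ | ⟨g, c, h1, h3, m, h4, h5⟩
      · -- from the far side
        obtain ⟨d, hd⟩ := ex_surj q.2
        have hq' : q = (se y0 v, ex d) := by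
          rw [hd, ← hv]
        rw [hq'] at hg
        obtain ⟨g1, g2, g3, g4, g5⟩ := stepS hz (by omega) (by omega) hg
        right
        have hdx : -1 ≤ dx d ∧ dx d ≤ 1 := Crest.Agent.R158.Nm211.dx_abs d
        have hm1 : (mv v d).1 = v.1 + dx d := by simp [mv]
        refine ⟨?_, ?_⟩
        · intro r' hr'
          rw [List.mem_append, List.mem_singleton] at hr'
          rcases hr' with hr' | rfl
          · exact hno _ hr'
          · rw [g5]
            exact stubnear _ (by omega) (by omega)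
        by_cases hfar : a < (mv v d).1 ∧ (mv v d).1 < c0
        · left
          rw [g5]
          exact ⟨mv v d, rfl, hfar.1, hfar.2⟩
        · right
          by_cases hr : (mv v d).1 ≤ a
          · -- right stub
            have hd3 : d = 3 := by
              have : dx d = -1 := by omega
              fin_cases d <;> simp [dx] at this ⊢
            subst hd3
            refine ⟨true, (mv v 3, 3), ?_, ?_, 0, ?_, ?_⟩
            · refine Finset.mem_image.2 ⟨(mv v 3).2, Finset.mem_Ico.2 ⟨g3, g4⟩, ?_⟩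
              simp only [if_true]
              have : (mv v 3).1 = a := by
                have h7 : dx 3 = -1 := rfl
                omega
              ext <;> simp [this]
            · rw [g5]; simp
            · intro j hj
              have : j = 0 := by omega
              subst this
              refine ⟨?_, g3, g4⟩
              simp only [if_true, Function.iterate_zero, id]
              have h7 : dx 3 = -1 := rfl
              omega
            · rw [g5]
              exact pass_fs (mv v 3, 3)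
          · have hl : c0 ≤ (mv v d).1 := by omega
            have hd1 : d = 1 := by
              have : dx d = 1 := by omega
              fin_cases d <;> simp [dx] at this ⊢
            subst hd1
            refine ⟨false, (mv v 1, 1), ?_, ?_, 0, ?_, ?_⟩
            · refine Finset.mem_image.2 ⟨(mv v 1).2, Finset.mem_Ico.2 ⟨g3, g4⟩, ?_⟩
              simp only [Bool.false_eq_true, if_false]
              have : (mv v 1).1 = c0 := by
                have h7 : dx 1 = 1 := rfl
                omega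
              ext <;> simp [this]
            · rw [g5]; simp
            · intro j hj
              have : j = 0 := by omega
              subst this
              refine ⟨?_, g3, g4⟩
              simp only [Bool.false_eq_true, if_false, Function.iterate_zero, id]
              have h7 : dx 1 = 1 := rfl
              omega
            · rw [g5]
              exact pass_fs (mv v 1, 1)
      · -- inside a stub
        subst h5
        have h6 := h4 m le_rfl
        obtain ⟨h7, h8, h9⟩ := h6
        have hcol : 1 ≤ ((fs y0 s)^[m] c).1.1 ∧ ((fs y0 s)^[m] c).1.1 ≤ B.R - 2 := by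
          cases g
          · simp only [Bool.false_eq_true, if_false] at h7
            omega
          · simp only [if_true] at h7
            omega
        obtain ⟨g1, g2, g3, g4, g5⟩ := stepS hz hcol.1 hcol.2 hg
        have hnx : ((fs y0 s)^[m + 1] c).1 =
            mv ((fs y0 s)^[m] c).1 ((fs y0 s)^[m + 1] c).2 := by
          rw [Function.iterate_succ_apply']
          rfl
        rw [← hnx] at g3 g4 g5
        have hdx : -1 ≤ dx ((fs y0 s)^[m + 1] c).2 ∧ dx ((fs y0 s)^[m + 1] c).2 ≤ 1 :=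
          Crest.Agent.R158.Nm211.dx_abs _
        have hm1 : ((fs y0 s)^[m + 1] c).1.1 = ((fs y0 s)^[m] c).1.1 +
            dx ((fs y0 s)^[m + 1] c).2 := by
          rw [hnx]; simp [mv]
        have hyp : Pt266.pass s r = (se y0 ((fs y0 s)^[m + 1] c).1, ex ((fs y0 s)^[m + 2] c).2) := by
          rw [g5, pass_fs, ← Function.iterate_succ_apply' (fs y0 s)]
        by_cases hD : (fs y0 s)^[m + 1] c ∈ Ds B a0 a c0 c1 g
        · right
          refine ⟨?_, Or.inr ⟨g, c, h1, List.mem_append_left _ h3, m + 1, ?_, hyp⟩⟩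
          · intro r' hr'
            rw [List.mem_append, List.mem_singleton] at hr'
            rcases hr' with hr' | rfl
            · exact hno _ hr'
            · rw [g5]
              obtain ⟨h10, _, _⟩ := hD
              refine stubnear _ ?_ ?_ <;> cases g
              · simp only [Bool.false_eq_true, if_false] at h10; omega
              · simp only [if_true] at h10; omega
              · simp only [Bool.false_eq_true, if_false] at h10; omega
              · simp only [if_true] at h10; omega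
          · intro j hj
            rcases Nat.lt_or_ge m j with h | h
            · have : j = m + 1 := by omega
              rw [this]; exact hD
            · exact h4 j h
        by_cases hY : (fs y0 s)^[m + 1] c ∈ Ys a0 c1 g
        · left
          refine ⟨g, c, h1, ⟨m + 1, fun j hj => h4 j (by omega), hY⟩, List.mem_append_left _ h3⟩
        · -- back to the far side
          right
          have hfar : a < ((fs y0 s)^[m + 1] c).1.1 ∧ ((fs y0 s)^[m + 1] c).1.1 < c0 := by
            have hD' : ¬ ((if g = true then a0 + 1 ≤ ((fs y0 s)^[m + 1] c).1.1 ∧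
                ((fs y0 s)^[m + 1] c).1.1 ≤ a else c0 ≤ ((fs y0 s)^[m + 1] c).1.1 ∧
                ((fs y0 s)^[m + 1] c).1.1 ≤ c1) ∧
                B.y1 ≤ ((fs y0 s)^[m + 1] c).1.2 ∧ ((fs y0 s)^[m + 1] c).1.2 < B.y2) := hD
            have hY' : ¬ (if g = true then ((fs y0 s)^[m + 1] c).1.1 ≤ a0
                else c1 + 1 ≤ ((fs y0 s)^[m + 1] c).1.1) := hY
            cases g
            · simp only [Bool.false_eq_true, if_false] at hD' hY' h7
              omega
            · simp only [if_true] at hD' hY' h7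
              omega
          refine ⟨?_, Or.inl ?_⟩
          · intro r' hr'
            rw [List.mem_append, List.mem_singleton] at hr'
            rcases hr' with hr' | rfl
            · exact hno _ hr'
            · rw [g5]
              exact stubnear _ (by omega) (by omega)
          · rw [hyp]
            exact ⟨_, rfl, hfar.1, hfar.2⟩
  rcases key with h | ⟨h1, _⟩
  · exact h
  · obtain ⟨r, hr, hr'⟩ := hl
    exact absurd hr' (h1 r hr)

/-- the same for a strand that visits both sides in any order -/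
theorem pass_both (hz : B.At p y0) (h0 : 0 ≤ a0) (ha : a0 < a) (hac : a + 1 < c0) (hc : c0 ≤ c1)
    (hc1 : c1 ≤ B.R - 2)
    {x y : TG × ZMod 4} {l : List (TG × ZMod 4)}
    (hw : Wk s (Gq (B.beG p y0)) x y l) (hn : ∃ q ∈ l, q.1 ∈ NearS y0 a0 c1)
    (hf : ∃ r ∈ l, r.1 ∈ FarS y0 a c0) :
    ∃ g, ∃ c ∈ Xs B a c0 g, Hit (fs y0 s) (Ds B a0 a c0 c1 g) (Ys a0 c1 g) c ∧
      ((se y0 c.1, en c.2) ∈ l ∨ ∃ r ∈ l, Pt266.pass s r = (se y0 c.1, en c.2)) := by
  obtain ⟨q, hq, hqn⟩ := hn
  obtain ⟨r, hr, hrf⟩ := hf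
  obtain ⟨l1, l2, rfl⟩ := List.append_of_mem hr
  by_cases hq2 : q ∈ r :: l2
  · obtain ⟨g, c, h1, h2, h3⟩ := pass_walk hz h0 ha hac hc hc1 hrf hw.right_of_append ⟨q, hq2, hqn⟩
    exact ⟨g, c, h1, h2, Or.inl (List.mem_append_right _ h3)⟩
  · have hq1 : q ∈ l1 := by
      rw [List.mem_append] at hq
      exact hq.resolve_right hq2
    have hS := Zg180.Gq.symm (be := B.beG p y0) (Band.beG_invol B hz)
    have hr' := Wk.reverse hS hw
    have e : rv s (l1 ++ r :: l2) = rv s l2 ++ Pt266.pass s r :: rv s l1 := by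
      simp [rv, List.append_assoc]
    rw [e] at hr'
    have hq' : Pt266.pass s q ∈ Pt266.pass s r :: rv s l1 := by
      refine List.mem_cons_of_mem _ ?_
      unfold rv
      rw [List.mem_reverse]
      exact List.mem_map_of_mem hq1
    obtain ⟨g, c, h1, h2, h3⟩ := pass_walk hz h0 ha hac hc hc1 (show (Pt266.pass s r).1 ∈ _ from hrf)
      hr'.right_of_append ⟨_, hq', hqn⟩
    refine ⟨g, c, h1, h2, Or.inr ?_⟩
    rw [List.mem_cons] at h3
    rcases h3 with h3 | h3
    · exact ⟨r, by simp, h3.symm⟩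
    · unfold rv at h3
      rw [List.mem_reverse, List.mem_map] at h3
      obtain ⟨r0, h4, h5⟩ := h3
      exact ⟨r0, List.mem_append_left _ h4, h5⟩

/-- **the number of strands that visit both sides is at most the number of passages** -/
theorem pass_count {κ : Type*} (hz : B.At p y0) (h0 : 0 ≤ a0) (ha : a0 < a) (hac : a + 1 < c0)
    (hc : c0 ≤ c1) (hc1 : c1 ≤ B.R - 2) (F : Finset κ) (P : κ → Set (TG × ZMod 4))
    (hdis : ∀ i ∈ F, ∀ j ∈ F, i ≠ j → Disjoint (P i) (P j))
    (hF : ∀ i ∈ F, ∃ x y l, Wk s (Gq (B.beG p y0)) x y l ∧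
      (∀ r ∈ l, r ∈ P i ∧ Pt266.pass s r ∈ P i) ∧ (∃ q ∈ l, q.1 ∈ NearS y0 a0 c1) ∧
      ∃ r ∈ l, r.1 ∈ FarS y0 a c0) : F.card ≤ Pass B y0 a0 a c0 c1 s := by
  classical
  rcases F.eq_empty_or_nonempty with rfl | ⟨i0, hi0⟩
  · simp
  have h1 : ∀ i ∈ F, ∃ gc : Bool × St ℤ, gc.2 ∈ Xs B a c0 gc.1 ∧
      Hit (fs y0 s) (Ds B a0 a c0 c1 gc.1) (Ys a0 c1 gc.1) gc.2 ∧ (se y0 gc.2.1, en gc.2.2) ∈ P i := by
    intro i hi
    obtain ⟨x, y, l, hw, hP, hn, hf⟩ := hF i hi
    obtain ⟨g, c, h2, h3, h4⟩ := pass_both hz h0 ha hac hc hc1 hw hn hf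
    refine ⟨(g, c), h2, h3, ?_⟩
    rcases h4 with h4 | ⟨r, hr, h4⟩
    · exact (hP _ h4).1
    · show (se y0 c.1, en c.2) ∈ P i
      rw [← h4]
      exact (hP _ hr).2
  have : Nonempty (Bool × St ℤ) := ⟨(h1 i0 hi0).choose⟩
  choose! f hf using h1
  have h2 : F.card ≤ (Finset.univ.sigma fun g : Bool =>
      (Xs B a c0 g).filter fun c => Hit (fs y0 s) (Ds B a0 a c0 c1 g) (Ys a0 c1 g) c).card := by
    refine Finset.card_le_card_of_injOn (fun i => ⟨(f i).1, (f i).2⟩) ?_ ?_
    · intro i hi
      have := hf i hi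
      simp only [Finset.coe_sigma, Set.mem_sigma_iff, Finset.coe_univ, Set.mem_univ, true_and,
        Finset.coe_filter]
      exact ⟨this.1, this.2.1⟩
    · intro i hi j hj hij
      by_contra hne
      have hij' : (f i).2 = (f j).2 := by
        have := congrArg (fun z : (_ : Bool) × St ℤ => z.2) hij
        exact this
      have h3 := (hf i hi).2.2
      have h4 := (hf j hj).2.2
      rw [hij'] at h3
      exact Set.disjoint_left.1 (hdis i hi j hj hne) h3 h4
  rw [Finset.card_sigma] at h2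
  refine h2.trans (le_of_eq ?_)
  unfold Pass
  refine Finset.sum_congr rfl fun g _ => ?_
  unfold KK
  congr

end walks

end Crest.Agent.R158.Zc180
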