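import Crest.Agent.R158.Ad14_350
import Crest.Agent.R158.Ab1_664
import Crest.Agent.R158.Zc3_180
import Crest.Agent.R158.Qd2_300

/-!
# Row 158 (helper180): the majorant of the mark sum, 2: classes that visit both sides

* `Both y0 a0 a c0 c1 C` : the class visits the near side and the far side of the stub sections
* `card_both` : at most `Pass` classes
* `near_class` : a class that does not visit the far side is a class of the network of `Dp`
* `prod_le` : the product over the classes without the leg is at most `2 ^ Pass`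
* `far_ends` : at most `2 Pass` near ends have a class which visits the far side
-/

set_option autoImplicit false
set_option linter.unusedSectionVars false
set_option linter.unusedVariables false

noncomputable section

open Finset

namespace Crest.Agent.R158.Yc180

open Crest.Agent.R158.Sw300 (Port Wd thru L isLeg)
open Crest.Agent.R158.Bd932 (e3)
open Crest.Agent.R158.Env664 (TG Band beD PortOf portOf_some)
open Crest.Agent.R158.Xr249 (Dp mem_Dp Free pm pm_some eD rct mem_rct full)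
open Crest.Agent.R158.Ad350
open Crest.Agent.R158.Ao857 (legP beL chL)
open Crest.Agent.R158.Zg180 (Gq Near Far uc se se_uc uc_se)
open Crest.Agent.R158.Zc180 (Pass NearS FarS pass_count)
open Crest.Agent.R158.Ab664 (netE Mod4 norm_prod_zn mod4_netE)
open Crest.Agent.R158.Qd300 (DB beC chN NDe ndBe ndCh ND_eq at_of)
open Crest.Agent.R158.Fm857 (ctw phi freeG mem_freeG psD)
open Crest.Agent.R158.Ob664 (GW)
open Crest.Agent.R158.Qc405 (TabH psT)

variable {A : Finset (ℤ × ℤ)} {B : Band A} {p y0 : ℤ} {c c' : ℝ} {φ : Port TG → ℝ}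
  {s : TG → Bool} {a0 a c0 c1 k : ℤ}

/-- walks of `netN` are strands -/
lemma Wa_P (hz : B.At p y0) {x y : Port TG} {l : List (Port TG)}
    (hx : x ∈ (netN B p y0 c c' φ s).V) (w : (netN B p y0 c c' φ s).Wa x y l) :
    ∃ x' y' k, x = some x' ∧ y = some y' ∧ l = k.map some ∧
      Pt266.Wk s (Gq (B.beG p y0)) x' y' k := by
  have hok := netN_ok hz c c' φ s
  induction w with
  | one =>
    obtain ⟨t, d, rfl, ht⟩ := mem_ports' hx
    exact ⟨(t, d), (t, thru (s t) d), [(t, d)], rfl, rfl, rfl, Pt266.Wk.one⟩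
  | @snoc q l w hb ih =>
    obtain ⟨x', y', k, rfl, rfl, rfl, h3⟩ := ih
    have hqV := (Net.Wa.memV hok hx w).2.1
    have hrV := hok.beV _ hqV
    obtain ⟨t, d, er, ht⟩ := mem_ports' hrV
    have hne : (some y' : Port TG) ≠ legP p y0 := by
      intro e
      apply hb
      show beL B p y0 (some y') = some y'
      rw [e, Ao857.beL_leg]
    have hbe : B.beG p y0 (some y') = some (t, d) := by
      rw [← Ao857.beL_ne B hne]
      exact er
    have hg : Gq (B.beG p y0) y' (t, d) := by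
      refine ⟨hbe, ?_⟩
      intro e
      apply hb
      rw [er, e]
    refine ⟨x', (t, thru (s t) d), k ++ [(t, d)], rfl, ?_, ?_, h3.snoc hg⟩
    · rw [er]; rfl
    · rw [er, List.map_append]; rfl

/-- the class visits both sides of the stub sections -/
def Both (y0 a0 a c0 c1 : ℤ) (C : Finset (Port TG)) : Prop :=
  Net.Vis (TQ (Near y0 a0 c1)) C ∧ Net.Vis (TQ (Far y0 a (c0 - 1))) C

lemma near_nearS {t : TG} (h : t ∈ Near y0 a0 c1) : t ∈ NearS y0 a0 c1 := by
  rcases h with ⟨v, rfl⟩ | ⟨v, rfl, h⟩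
  · exact Or.inl ⟨v, rfl⟩
  · exact Or.inr ⟨(uc y0 v, v.2), (se_uc y0 v).symm, h⟩

lemma far_farS {t : TG} (h : t ∈ Far y0 a (c0 - 1)) : t ∈ FarS y0 a c0 := by
  obtain ⟨v, rfl, h1, h2⟩ := h
  exact ⟨(uc y0 v, v.2), (se_uc y0 v).symm, h1, show uc y0 v < c0 by omega⟩

open Classical in
/-- **at most `Pass` classes visit both sides** -/
theorem card_both (hz : B.At p y0) (h0 : 0 ≤ a0) (ha : a0 < a) (hac : a + 1 < c0) (hc : c0 ≤ c1)
    (hc1 : c1 ≤ B.R - 2) :
    (((netN B p y0 c c' φ s).classes (netN B p y0 c c' φ s).V).filter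
      (Both y0 a0 a c0 c1)).card ≤ Pass B y0 a0 a c0 c1 s := by
  have hok := netN_ok hz c c' φ s
  refine pass_count (p := p) hz h0 ha hac hc hc1 _ (fun C => {r | some r ∈ C}) ?_ ?_
  · intro C hC D hD hne
    obtain ⟨q, hq, rfl⟩ := Finset.mem_image.1 (Finset.mem_filter.1 hC).1
    obtain ⟨r, hr, rfl⟩ := Finset.mem_image.1 (Finset.mem_filter.1 hD).1
    have := Net.cls_disj hok hq hr hne
    rw [Set.disjoint_left]
    intro t h1 h2
    exact Finset.disjoint_left.1 this h1 h2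
  · intro C hC
    obtain ⟨hC1, hn, hf⟩ := Finset.mem_filter.1 hC
    obtain ⟨z, hzV, rfl⟩ := Finset.mem_image.1 hC1
    obtain ⟨x, hx, y, l, w, -, e, e', -⟩ := Net.class_walk hok hzV
    obtain ⟨x', y', k, rfl, rfl, rfl, hw⟩ := Wa_P hz hx w
    rw [e, e'] at hn hf
    refine ⟨x', y', k, hw, ?_, ?_, ?_⟩
    · intro r hr
      have h1 : (some r : Port TG) ∈ (netN B p y0 c c' φ s).cls z := by
        rw [e, e']
        exact Finset.mem_union_left _ (List.mem_toFinset.2 (List.mem_map_of_mem hr))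
      refine ⟨h1, ?_⟩
      exact (Net.cls_cl hok z).al _ h1
    · obtain ⟨q, hq, hq'⟩ := vis_walk hn
      exact ⟨q, hq, near_nearS hq'⟩
    · obtain ⟨q, hq, hq'⟩ := vis_walk hf
      exact ⟨q, hq, far_farS hq'⟩

/-- a class that does not visit the far side lies over the tiles of `Dp` -/
lemma near_img (hf : Free A B.xl B.xr B.y1 B.y2 k) (hR : 2 * k < B.R) {z : Port TG}
    (h : ¬ Net.Vis (TQ (Far y0 (k - 2) (B.R - k - 1))) ((netN B p y0 c c' φ s).cls z)) :
    (netN B p y0 c c' φ s).cls z ⊆ (ports (DB B k)).image (pm (eD B y0 k)) := by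
  intro q hq
  have hqV := (Net.mem_cls.1 hq).1
  obtain ⟨t, d, rfl, ht⟩ := mem_ports' hqV
  have h5 : ∀ v, t = Sum.inr v → uc y0 v ≤ k - 2 ∨ B.R - 1 - k < uc y0 v := by
    rintro v rfl
    by_contra hcon
    push Not at hcon
    exact h ⟨_, hq, _, _, rfl, v, rfl, by omega, by omega⟩
  obtain ⟨v, hv, e⟩ := im_eD hf hR ht h5
  refine Finset.mem_image.2 ⟨some (v, d), mem_ports.2 hv, ?_⟩
  rw [Xr249.pm_some, e]

section member

variable {b : ℤ} {m1 m2 : Port TG} {e : Option (Port TG)} {w : Wd (ℤ × ℤ)}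

/-- the embedding of the network of `Dp` -/
lemma embE (H : TabH A B.xl B.xr B.y1 B.y2 k p y0 (psD B)) (hR : 2 * k < B.R) (b : ℤ)
    (m1 m2 : Port TG) (e : Option (Port TG)) (s : TG → Bool) :
    Net.Emb (NDe B p y0 k b m1 m2 e s) (netE B p y0 b m1 m2 e s) (pm (eD B y0 k)) :=
  nd_emb (s := s) H.hf hR (at_of H) ndBe (ndCh _ _ _ _)

lemma leg_pm (H : TabH A B.xl B.xr B.y1 B.y2 k p y0 (psD B)) :
    pm (eD B y0 k) (Qd300.lp p y0) = legP p y0 := Ad350.pm_lp H.hf (at_of H)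

/-- **a class (not the leg) over `Dp` is a class of the network of `Dp`** -/
theorem near_class (H : TabH A B.xl B.xr B.y1 B.y2 k p y0 (psD B)) (hR : 2 * k < B.R)
    {C : Finset (Port TG)}
    (hC : C ∈ ((netE B p y0 b m1 m2 e s).classes (netE B p y0 b m1 m2 e s).V).erase
      ((netE B p y0 b m1 m2 e s).cls (legP p y0)))
    (h : C ⊆ (ports (DB B k)).image (pm (eD B y0 k))) :
    ∃ x ∈ ports (DB B k), C = ((NDe B p y0 k b m1 m2 e s).cls x).image (pm (eD B y0 k)) ∧
      Net.Tr (NDe B p y0 k b m1 m2 e s) (netE B p y0 b m1 m2 e s) (pm (eD B y0 k))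
        ((NDe B p y0 k b m1 m2 e s).cls x) ∧
      (NDe B p y0 k b m1 m2 e s).cls x ∈ ((NDe B p y0 k b m1 m2 e s).classes
        (NDe B p y0 k b m1 m2 e s).V).erase ((NDe B p y0 k b m1 m2 e s).cls (Qd300.lp p y0)) := by
  have E := embE H hR b m1 m2 e s
  obtain ⟨hne, hC⟩ := Finset.mem_erase.1 hC
  obtain ⟨z, hz, rfl⟩ := Finset.mem_image.1 hC
  have hzz := Net.self_mem_cls hz
  obtain ⟨x, hx, rfl⟩ := Finset.mem_image.1 (h hzz)
  obtain ⟨h1, h2⟩ := E.cls_image hx h
  refine ⟨x, hx, h1, h2, Finset.mem_erase.2 ⟨fun heq => ?_, Finset.mem_image_of_mem _ hx⟩⟩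
  apply hne
  have hlp : Qd300.lp p y0 ∈ (NDe B p y0 k b m1 m2 e s).V := lp_mem (at_of H)
  have h3 : Qd300.lp p y0 ∈ (NDe B p y0 k b m1 m2 e s).cls x := by
    rw [heq]; exact Net.self_mem_cls hlp
  have h4 : legP p y0 ∈ (netE B p y0 b m1 m2 e s).cls (pm (eD B y0 k) x) := by
    rw [h1, ← leg_pm H]
    exact Finset.mem_image_of_mem _ h3
  exact (Net.cls_eq_of_mem E.ok (E.mem x hx) h4).symm

/-- a loop over `Dp` has value one -/
theorem near_loop (H : TabH A B.xl B.xr B.y1 B.y2 k p y0 (psD B)) (hR : 2 * k < B.R)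
    (hkb : k ≤ b) (hbR : b + k ≤ B.R)
    (hw : GW (DB B k) (beD (DB B k) p y0 (B.xr + k)) w) {C : Finset (Port TG)}
    (hC : C ∈ ((netE B p y0 b m1 m2 e s).classes (netE B p y0 b m1 m2 e s).V).erase
      ((netE B p y0 b m1 m2 e s).cls (legP p y0)))
    (h : C ⊆ (ports (DB B k)).image (pm (eD B y0 k)))
    (he : ¬ ((netE B p y0 b m1 m2 e s).ends C).Nonempty) :
    (netE B p y0 b m1 m2 e s).zn C = 1 := by
  obtain ⟨x, hx, rfl, h2, h3⟩ := near_class H hR hC h
  rw [h2.zn]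
  rw [h2.ends, Finset.image_nonempty] at he
  rcases Qd300.zn_phi H hR hkb hbR hw m1 m2 e s h3 with h4 | ⟨y, -, -, -, h5, -⟩
  · exact h4.2
  · exact absurd ⟨y, by rw [h5]; simp⟩ he

/-- a loop of the strip has value one -/
theorem strip_loop (hz : B.At p y0) {a0 c1 : ℤ} (h0 : 0 ≤ a0) (h1 : c1 + 1 < B.R)
    {C : Finset (Port TG)}
    (hC : C ∈ (netN B p y0 c c' φ s).classes (netN B p y0 c c' φ s).V)
    (hS : ∀ z ∈ C, ∃ q : (ℤ × ℤ) × ZMod 4, q.1 ∈ rct (a0 + 1) (c1 + 1) B.y1 B.y2 ∧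
      z = pS y0 q)
    (he : ¬ ((netN B p y0 c c' φ s).ends C).Nonempty) : (netN B p y0 c c' φ s).zn C = 1 := by
  have hok := netN_ok hz c c' φ s
  obtain ⟨z, hzV, rfl⟩ := Finset.mem_image.1 hC
  obtain ⟨x, hx, y, l, w, hl, e, e', hcase⟩ := Net.class_walk hok hzV
  rw [e] at hS ⊢ he
  have hlC : ∀ z ∈ l, z ∈ (netN B p y0 c c' φ s).cls x := fun z hz' => by
    rw [e']
    exact Finset.mem_union_left _ (List.mem_toFinset.2 hz')
  obtain ⟨x', y', k, rfl, rfl, rfl, hk, hyS, w'⟩ := pull c c' φ s (by omega : 0 ≤ a0 + 1)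
    (by omega : c1 + 1 ≤ B.R) w fun z hz' => hS z (hlC z hz')
  have hxS := hk _ w'.mem_left
  rcases hcase with ⟨k1, -⟩ | k1
  · exact absurd ⟨_, Finset.mem_filter.2 ⟨Net.self_mem_cls hx, k1⟩⟩ he
  · have hkN : k.Nodup := hl.of_map _
    refine zn_loop hz h0 h1 hxS hkN w' ?_
    refine (be_strip (p := p) (y0 := y0) (by omega : 0 ≤ a0 + 1) (by omega : c1 + 1 ≤ B.R)
      hyS hxS).2 ⟨k1, ?_⟩
    exact fun h => (Net.Wa.memV hok hx w).2.2 h

/-- parameters of the stub sections -/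
structure Sec (B : Band A) (k b a0 c1 : ℤ) : Prop where
  h0 : 0 ≤ a0
  ha : a0 < k - 2
  hR : 2 * k < B.R
  hc : B.R - k ≤ c1
  hc1 : c1 ≤ B.R - 2
  kb : k ≤ b
  bR : b + k ≤ B.R

/-- passages of the stub sections -/
abbrev PassD (B : Band A) (y0 k a0 c1 : ℤ) (s : TG → Bool) : ℕ :=
  Pass B y0 a0 (k - 2) (B.R - k) c1 s

/-- **loops with value `> 1` visit both sides** -/
theorem bad_loop (H : TabH A B.xl B.xr B.y1 B.y2 k p y0 (psD B)) {a0 c1 : ℤ}
    (S : Sec B k b a0 c1) (hw : GW (DB B k) (beD (DB B k) p y0 (B.xr + k)) w)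
    {C : Finset (Port TG)}
    (hC : C ∈ ((netE B p y0 b m1 m2 e s).classes (netE B p y0 b m1 m2 e s).V).erase
      ((netE B p y0 b m1 m2 e s).cls (legP p y0)))
    (hB : ¬ Both y0 a0 (k - 2) (B.R - k) c1 C)
    (he : ¬ ((netE B p y0 b m1 m2 e s).ends C).Nonempty) :
    ‖(netE B p y0 b m1 m2 e s).z C‖ ≤ 1 := by
  have hzn : (netE B p y0 b m1 m2 e s).zn C = (netE B p y0 b m1 m2 e s).z C := by
    unfold Net.zn
    rw [if_neg he]
  rw [← hzn]
  have hC' := Finset.mem_of_mem_erase hC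
  by_cases hn : Net.Vis (TQ (Near y0 a0 c1)) C
  · have hf : ¬ Net.Vis (TQ (Far y0 (k - 2) (B.R - k - 1))) C := fun hf => hB ⟨hn, hf⟩
    obtain ⟨z, hz, rfl⟩ := Finset.mem_image.1 hC'
    rw [near_loop H S.hR S.kb S.bR hw hC (near_img H.hf S.hR hf) he]
    simp
  · have hR := S.hR
    have hc1 := S.hc1
    rw [strip_loop (at_of H) S.h0 (by omega : c1 + 1 < B.R) hC' (in_strip (at_of H) hC' hn) he]
    simp

open Classical in
/-- **the normalised value is at most `2 ^ Pass`** -/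
theorem zE_le (H : TabH A B.xl B.xr B.y1 B.y2 k p y0 (psD B))
    (hW : ∃ w l, Psi664.BW (full A) B.xl B.y1 w l) {a0 c1 : ℤ}
    (S : Sec B k b a0 c1) (hw : GW (DB B k) (beD (DB B k) p y0 (B.xr + k)) w)
    (m1 m2 : Port TG) (e : Option (Port TG)) (s : TG → Bool) :
    ‖zE B p y0 b m1 m2 e s‖ ≤ 2 ^ PassD B y0 k a0 c1 s := by
  have hz := at_of H
  have hok : (netE B p y0 b m1 m2 e s).Ok := netN_ok hz _ _ _ _
  have hx : legP p y0 ∈ (netE B p y0 b m1 m2 e s).V := legP_mem hz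
  have h1 : zE B p y0 b m1 m2 e s = (netE B p y0 b m1 m2 e s).zv
      ((netE B p y0 b m1 m2 e s).cls (legP p y0)) (legP p y0) false *
      ∏ c ∈ ((netE B p y0 b m1 m2 e s).classes (netE B p y0 b m1 m2 e s).V).erase
        ((netE B p y0 b m1 m2 e s).cls (legP p y0)), (netE B p y0 b m1 m2 e s).zn c := rfl
  rw [h1, norm_mul]
  have h2 := Net.norm_zv_cls_le hok hx false
  have h3 := norm_prod_zn (mod4_netE hW hz b m1 m2 e) (s := s)
    (S := ((netE B p y0 b m1 m2 e s).classes (netE B p y0 b m1 m2 e s).V).erase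
        ((netE B p y0 b m1 m2 e s).cls (legP p y0)))
    (Bad := ((netE B p y0 b m1 m2 e s).classes (netE B p y0 b m1 m2 e s).V).filter
      (Both y0 a0 (k - 2) (B.R - k) c1)) ?_ ?_
  · refine (mul_le_mul h2 h3 (norm_nonneg _) zero_le_one).trans ?_
    rw [one_mul]
    refine pow_le_pow_right₀ one_le_two ?_
    refine (Finset.card_le_card Finset.inter_subset_right).trans ?_
    have hk := S.hR
    exact card_both hz S.h0 S.ha (by have := S.hR; omega) S.hc S.hc1
  · intro c hc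
    have hc' := Finset.mem_of_mem_erase hc
    refine ⟨hc', fun hl => ?_⟩
    obtain ⟨q, hq, rfl⟩ := Finset.mem_image.1 hc'
    exact (Finset.mem_erase.1 hc).1 (Net.cls_eq_of_mem hok hq hl).symm
  · intro c hc hb he
    refine bad_loop H S hw hc (fun hB => hb ?_) he
    exact Finset.mem_filter.2 ⟨Finset.mem_of_mem_erase hc, hB⟩

end member

/-! ### the ends whose class visits the far side -/

/-- reference network (the classes do not depend on the phases) -/
abbrev net0 (B : Band A) (p y0 : ℤ) (s : TG → Bool) : Net (Port TG) := netN B p y0 0 0 0 s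

lemma cls_net0 (p y0 : ℤ) (c c' : ℝ) (φ : Port TG → ℝ) (s : TG → Bool) :
    (netN B p y0 c c' φ s).cls = (net0 B p y0 s).cls := rfl

open Classical in
/-- **few near ends have a class which visits the far side** -/
theorem far_ends (hz : B.At p y0) (h0 : 0 ≤ a0) (ha : a0 < a) (hac : a + 1 < c0) (hc : c0 ≤ c1)
    (hc1 : c1 ≤ B.R - 2) {J : Finset (Port TG)}
    (hJ : ∀ e ∈ J, e ∈ freeG B ∧ TQ (Near y0 a0 c1) e) :
    (J.filter fun e => Net.Vis (TQ (Far y0 a (c0 - 1))) ((net0 B p y0 s).cls e)).card ≤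
      2 * Pass B y0 a0 a c0 c1 s := by
  have hok := netN_ok hz 0 0 0 s
  have hend : ∀ e ∈ J, e ∈ (net0 B p y0 s).V ∧ (net0 B p y0 s).be e = e := by
    intro e he
    obtain ⟨h1, h2⟩ := (mem_freeG B hz).1 (hJ e he).1
    refine ⟨h1, ?_⟩
    show beL B p y0 e = e
    by_cases hl : e = legP p y0
    · rw [hl, Ao857.beL_leg]
    · rw [Ao857.beL_ne B hl, h2]
  set F := J.filter fun e => Net.Vis (TQ (Far y0 a (c0 - 1))) ((net0 B p y0 s).cls e) with hF
  have h1 : F.card ≤ 2 * (F.image (net0 B p y0 s).cls).card := by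
    refine Finset.card_le_mul_card_image F 2 ?_
    intro C hC
    obtain ⟨e, he, rfl⟩ := Finset.mem_image.1 hC
    obtain ⟨g1, g2⟩ := hend e (Finset.mem_filter.1 he).1
    have h2 := Net.card_ends_cls hok g1
    have h3 : (F.filter fun x => (net0 B p y0 s).cls x = (net0 B p y0 s).cls e) ⊆
        (net0 B p y0 s).ends ((net0 B p y0 s).cls e) := by
      intro x hx
      obtain ⟨hx1, hx2⟩ := Finset.mem_filter.1 hx
      obtain ⟨k1, k2⟩ := hend x (Finset.mem_filter.1 hx1).1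
      refine Finset.mem_filter.2 ⟨?_, k2⟩
      rw [← hx2]
      exact Net.self_mem_cls k1
    refine (Finset.card_le_card h3).trans ?_
    rw [h2]
    split_ifs <;> omega
  refine h1.trans (Nat.mul_le_mul_left 2 ?_)
  refine le_trans (Finset.card_le_card ?_) (card_both (p := p) (c := 0) (c' := 0) (φ := 0) hz h0 ha
    hac hc hc1)
  intro C hC
  obtain ⟨e, he, rfl⟩ := Finset.mem_image.1 hC
  obtain ⟨he1, he2⟩ := Finset.mem_filter.1 he
  obtain ⟨g1, g2⟩ := hend e he1
  exact Finset.mem_filter.2 ⟨Finset.mem_image_of_mem _ g1,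
    ⟨e, Net.self_mem_cls g1, (hJ e he1).2⟩, he2⟩

end Crest.Agent.R158.Yc180
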