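import Crest.Agent.R158.Yc2_180
import Crest.Agent.R158.Yc1_180
import Crest.Agent.R158.Oc4_194

/-!
# Row 158 (helper180): the majorant of the mark sum, 3: at most 7 members on exact arcs

* `card_gen` : on a word, at most 7 ends of exact arcs survive
* `exact_nat` : the ends of an exact class are natural
* `exact_zn` : value of an exact arc for the member `e`
* **`card_exact`** : at most 7 members whose end lies on an exact class have `zE ≠ 0`
-/

set_option autoImplicit false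
set_option linter.unusedSectionVars false
set_option linter.unusedVariables false

noncomputable section

open Finset

namespace Crest.Agent.R158.Yc180

open Crest.Agent.R158.Sw300 (Port Wd thru L isLeg M S u Ok)
open Crest.Agent.R158.Al194 (idL enL piL rotl cM chm NCK Gd st ar ig nckL stL_iff enL_mem enL_idL
  idL_enL enL_piL enL_ku idL_lt wr wr_int)
open Crest.Agent.R158.Vt300 (wz)
open Crest.Agent.R158.Oc194 (Ord cK kK KD NatD NatS KD_nat fc_of cut_glued not_art nat_free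
  mem_Dp_of ord_D mem_of_natD mem_of_natS)

section gen

variable {T β : Type*} [DecidableEq T] [LinearOrder β] {w : Wd T} {s : T → Bool} {m1 m2 : Port T}

/-- **at most 7 ends of exact arcs survive** -/
theorem card_gen (h : Ok w) (hm1 : m1 ∈ L w) (hm2 : m2 ∈ L w) {Q : Port T → Prop}
    (hQM : ∀ x ∈ L w, x ≠ u s w → Q x → Q (M s w x)) (X : Finset (Port T))
    (hX : ∀ e ∈ X, e ∈ L w ∧ Q e ∧ ∀ x ∈ L w, x ≠ u s w → S s w x = true → Q x →
      cM (L w) m1 m2 (idL (L w) m1 e) (M s w x) - cM (L w) m1 m2 (idL (L w) m1 e) x ≠ -1 ∧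
      cM (L w) m1 m2 (idL (L w) m1 e) (M s w x) - cM (L w) m1 m2 (idL (L w) m1 e) x ≠ 2) :
    X.card ≤ 7 := by
  classical
  have hN := nckL s h hm1
  have h2 : (rotl (L w) m1).idxOf m2 ≤ (L w).length := (idL_lt (m1 := m1) hm2).le
  have hcard : (X.image (idL (L w) m1)).card = X.card := by
    refine Finset.card_image_of_injOn fun a ha b hb e => ?_
    rw [← enL_idL (m1 := m1) (hX a ha).1, ← enL_idL (m1 := m1) (hX b hb).1, e]
  rw [← hcard]
  refine hN.card_Gd (x1 := 0) (x2 := (rotl (L w) m1).idxOf m2) (Nat.zero_le _) h2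
    (Q := fun i => Q (enL (L w) m1 i)) _ fun j hj => ?_
  obtain ⟨e, he, rfl⟩ := Finset.mem_image.1 hj
  obtain ⟨he1, he2, he3⟩ := hX e he
  have hj := idL_lt (m1 := m1) he1
  refine ⟨hj, ?_, ?_⟩
  · intro i hi hst hQ
    have hik : i ≠ (rotl (L w) m1).idxOf (u s w) := by
      rintro rfl; exact Al194.not_st_fix hN hst
    have hxu : enL (L w) m1 i ≠ u s w := by
      intro hh
      apply hik
      rw [← idL_enL h (m1 := m1) hi, hh]
      rfl
    have hS := (stL_iff h hm1 hi hik).1 hst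
    have h3 := he3 _ (enL_mem hi) hxu hS hQ
    have e1 : cM (L w) m1 m2 (idL (L w) m1 e) (enL (L w) m1 i) =
        chm 0 ((rotl (L w) m1).idxOf m2) (idL (L w) m1 e) i := by
      unfold cM
      rw [show (rotl (L w) m1).idxOf (enL (L w) m1 i) = i from idL_enL h hi]
    have e2 : cM (L w) m1 m2 (idL (L w) m1 e) (M s w (enL (L w) m1 i)) =
        chm 0 ((rotl (L w) m1).idxOf m2) (idL (L w) m1 e) (piL (L w) (M s w) m1 i) := by
      unfold cM
      rfl
    rw [e1, e2, hN.chm_ig hi hst (Nat.zero_le _) h2 hj] at h3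
    exact h3
  · intro hk
    have heu : e ≠ u s w := by
      rintro rfl
      exact hk rfl
    unfold ar
    split_ifs
    · show Q (enL (L w) m1 (idL (L w) m1 e))
      rw [enL_idL he1]; exact he2
    · show Q (enL (L w) m1 (piL (L w) (M s w) m1 (idL (L w) m1 e)))
      rw [enL_piL h hj, enL_idL he1]
      exact hQM _ he1 heu he2

end gen

open Crest.Agent.R158.Bd932 (e3)
open Crest.Agent.R158.Env664 (TG Band beD PortOf portOf_some)
open Crest.Agent.R158.Xr249 (Dp mem_Dp Free pm pm_some eD rct mem_rct full)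
open Crest.Agent.R158.Ad350
open Crest.Agent.R158.Ao857 (legP beL chL)
open Crest.Agent.R158.Zg180 (Gq Near Far uc se se_uc uc_se)
open Crest.Agent.R158.Zc180 (Pass)
open Crest.Agent.R158.Ab664 (netE Mod4 norm_prod_zn mod4_netE)
open Crest.Agent.R158.Qd300 (DB beC chN NDe ndBe ndCh ND_eq at_of C0 Art)
open Crest.Agent.R158.Fm857 (ctw phi freeG mem_freeG psD cb pG ge1 gt1)
open Crest.Agent.R158.Ob664 (GW)
open Crest.Agent.R158.Qc405 (TabH psT)

variable {A : Finset (ℤ × ℤ)} {B : Band A} {p y0 k b a0 c1 : ℤ} {s : TG → Bool}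
  {w : Wd (ℤ × ℤ)} {m1 m2 : Port (ℤ × ℤ)}

/-- exact ends: the class in `G^(z)` lies over `Dp` -/
def Exc (B : Band A) (p y0 k : ℤ) (s : TG → Bool) (x : Port (ℤ × ℤ)) : Prop :=
  (net0 B p y0 s).cls (pm (eD B y0 k) x) ⊆ (ports (DB B k)).image (pm (eD B y0 k))

/-- ports of the word are ports of `Dp` -/
lemma L_ports (hw : GW (DB B k) (beD (DB B k) p y0 (B.xr + k)) w)
    (H : TabH A B.xl B.xr B.y1 B.y2 k p y0 (psD B)) {x : Port (ℤ × ℤ)} (hx : x ∈ L w) :
    x ∈ ports (DB B k) ∧ x ≠ Qd300.lp p y0 ∧ beC B p y0 k x = x :=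
  mem_Dp_of H hw hx

/-- an exact end is a cut end of `G^(z)` -/
lemma exact_be (H : TabH A B.xl B.xr B.y1 B.y2 k p y0 (psD B)) (hR : 2 * k < B.R)
    (hw : GW (DB B k) (beD (DB B k) p y0 (B.xr + k)) w) {x : Port (ℤ × ℤ)} (hx : x ∈ L w)
    (hE : Exc B p y0 k s x) : beL B p y0 (pm (eD B y0 k) x) = pm (eD B y0 k) x := by
  obtain ⟨h1, h2, h3⟩ := L_ports hw H hx
  have E := embE H hR 0 none none none s
  have h4 : beL B p y0 (pm (eD B y0 k) x) ∈ (ports (DB B k)).image (pm (eD B y0 k)) := by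
    refine hE ?_
    exact (Net.cls_cl (netN_ok (at_of H) 0 0 0 s) _).be _ (Net.self_mem_cls (E.mem x h1))
  have h5 := E.be x h1 h4
  have h6 : (NDe B p y0 k 0 none none none s).be x = x := h3
  rw [h6] at h5
  exact h5

/-- **the ends of an exact class are natural** -/
theorem exact_nat (H : TabH A B.xl B.xr B.y1 B.y2 k p y0 (psD B)) (hR : 2 * k < B.R)
    (hw : GW (DB B k) (beD (DB B k) p y0 (B.xr + k)) w) {x : Port (ℤ × ℤ)} (hx : x ∈ L w)
    (hE : Exc B p y0 k s x) : NatD B x ∨ NatS B k x := by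
  have hz := at_of H
  obtain ⟨h1, h2, h3⟩ := L_ports hw H hx
  have h4 := exact_be H hR hw hx hE
  have h5 : pm (eD B y0 k) x ≠ legP p y0 := Qd300.pm_ne_leg H.hf hR hz h1 h2
  rw [Ao857.beL_ne B h5] at h4
  have h6 : pm (eD B y0 k) x ∈ freeG B := by
    refine (mem_freeG B hz).2 ⟨?_, h4⟩
    obtain ⟨t, d, rfl, ht⟩ := mem_ports' h1
    exact mem_ports.2 (portOf_some.1 (Xr249.pm_portOf H.hf hR (portOf_some.2 ht)))
  rcases fc_of H hw hx with h | h | h | h
  · exact Or.inl h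
  · exact Or.inr h
  · exact absurd h6 (cut_glued H hR (Or.inl h))
  · exact absurd h6 (cut_glued H hR (Or.inr h))

/-- charges at the natural ends -/
theorem C0_cK (H : TabH A B.xl B.xr B.y1 B.y2 k p y0 (psD B)) (hR : 2 * k < B.R) (hkb : k ≤ b)
    (hbR : b + k ≤ B.R) (hw : GW (DB B k) (beD (DB B k) p y0 (B.xr + k)) w)
    (hm1 : NatD B m1) (hm2 : NatD B m2) {e x : Port (ℤ × ℤ)} (he : NatD B e ∨ NatS B k e)
    (hx : NatD B x ∨ NatS B k x) (hxL : x ∈ L w) :
    C0 B p y0 k b (pm (eD B y0 k) m1) (pm (eD B y0 k) m2) (some (pm (eD B y0 k) e)) x =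
      cK (KD B) m1 m2 (some e) x := by
  have hz := at_of H
  have hb' : b ≤ B.R - k := by omega
  obtain ⟨h1, -, -⟩ := L_ports hw H hxL
  have h2 := not_art H hR hz hx h1
  have k1 := KD_nat H hR hkb hb' (Or.inl hm1 : NatD B m1 ∨ NatS B k m1)
  have k2 := KD_nat H hR hkb hb' (Or.inl hm2 : NatD B m2 ∨ NatS B k m2)
  have k3 := KD_nat H hR hkb hb' he
  have k4 := KD_nat H hR hkb hb' hx
  obtain ⟨t, d, rfl, ht⟩ := mem_ports' h1
  simp only [C0]
  rw [if_neg h2]
  simp only [cb, cK, ge1, gt1]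
  rw [k1, k2, k3, k4]

/-- the network of `Dp` at a start of an arc -/
theorem exact_zn (H : TabH A B.xl B.xr B.y1 B.y2 k p y0 (psD B)) (hR : 2 * k < B.R) (hkb : k ≤ b)
    (hbR : b + k ≤ B.R) (hw : GW (DB B k) (beD (DB B k) p y0 (B.xr + k)) w) (n1 n2 : Port TG)
    (e : Option (Port TG)) {x : Port (ℤ × ℤ)} (hx : x ∈ L w) (hxu : x ≠ u (s ∘ eD B y0 k) w)
    (hS : S (s ∘ eD B y0 k) w x = true) (hE : Exc B p y0 k s x) :
    (netE B p y0 b n1 n2 e s).cls (pm (eD B y0 k) x) ∈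
      ((netE B p y0 b n1 n2 e s).classes (netE B p y0 b n1 n2 e s).V).erase
        ((netE B p y0 b n1 n2 e s).cls (legP p y0)) ∧
    (netE B p y0 b n1 n2 e s).zn ((netE B p y0 b n1 n2 e s).cls (pm (eD B y0 k) x)) =
      ((wr ((C0 B p y0 k b n1 n2 e (M (s ∘ eD B y0 k) w x) : ℝ) -
        (C0 B p y0 k b n1 n2 e x : ℝ)) : ℝ) : ℂ) := by
  have hz := at_of H
  obtain ⟨h1, h2, h3⟩ := L_ports hw H hx
  have E := embE H hR b n1 n2 e s
  obtain ⟨g1, g2⟩ := E.cls_image h1 hE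
  have P := Qd300.phs_phi H hR hkb hbR hw n1 n2 e
  have E' := Qd300.embW hw.word hz
  have G := Qd300.lg_ND H hw (ctw B b n1 n2 e) (ctw B b n1 n2 e + e3) (phi B b n1 n2 e)
    (psT (psD B) A B.xr) (ctw B b n1 n2 e)
  have hN : (NDe B p y0 k b n1 n2 e s).Ok := E.ok'
  have hCe := Qd300.ports_ep hw
  have hpo : Pc194.po id x = x := by cases x <;> rfl
  have hst : x ∈ Pc194.stC (s ∘ eD B y0 k) w id (NDe B p y0 k b n1 n2 e s).V := by
    refine Pc194.mem_stC.2 ⟨hx, hxu, hS, ?_⟩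
    rw [hpo]; exact h1
  have hlp : Qd300.lp p y0 ∈ (NDe B p y0 k b n1 n2 e s).V := lp_mem hz
  have hnl : x ∉ (NDe B p y0 k b n1 n2 e s).cls (Qd300.lp p y0) := by
    have h4 := Pc194.stC_sdiff (s := s ∘ eD B y0 k) P E' G hN hN.clV hCe hlp
    have h5 := hst
    rw [← h4] at h5
    have h6 := (Pc194.mem_stC.1 h5).2.2.2
    rw [hpo] at h6
    exact (Finset.mem_sdiff.1 h6).2
  constructor
  · refine Finset.mem_erase.2 ⟨fun heq => hnl ?_, Finset.mem_image_of_mem _ (E.mem x h1)⟩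
    have hleg : legP p y0 ∈ (netE B p y0 b n1 n2 e s).V := legP_mem hz
    have h7 : legP p y0 ∈ (netE B p y0 b n1 n2 e s).cls (pm (eD B y0 k) x) := by
      rw [heq]; exact Net.self_mem_cls hleg
    rw [g1] at h7
    obtain ⟨q, hq, eq⟩ := Finset.mem_image.1 h7
    have hqV := (Net.mem_cls.1 hq).1
    have : q = Qd300.lp p y0 := E.inj hqV hlp (eq.trans (leg_pm H).symm)
    rw [this] at hq
    have h11 := Net.cls_eq_of_mem hN h1 hq
    rw [h11]
    exact Net.self_mem_cls h1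
  · rw [g1, g2.zn]
    have h8 := Pc194.z_arc_word (s := s ∘ eD B y0 k) P E' hN hN.clV hCe hst
    rw [hpo] at h8
    have h9 : ((NDe B p y0 k b n1 n2 e s).ends ((NDe B p y0 k b n1 n2 e s).cls x)).Nonempty :=
      ⟨x, Finset.mem_filter.2 ⟨Net.self_mem_cls h1, h3⟩⟩
    unfold Net.zn
    rw [if_pos h9]
    have h10 : (NDe B p y0 k b n1 n2 e s).z ((NDe B p y0 k b n1 n2 e s).cls x) = _ := h8
    rw [h10, Complex.ofReal_mul, mul_div_cancel_left₀ _ Net.sqrt3_ne]
    rfl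

/-- the partner of an exact end is exact -/
theorem exact_M (H : TabH A B.xl B.xr B.y1 B.y2 k p y0 (psD B)) (S : Sec B k b a0 c1)
    (hw : GW (DB B k) (beD (DB B k) p y0 (B.xr + k)) w) {x : Port (ℤ × ℤ)} (hx : x ∈ L w)
    (hxu : x ≠ u (s ∘ eD B y0 k) w) (hE : Exc B p y0 k s x) :
    Exc B p y0 k s (M (s ∘ eD B y0 k) w x) := by
  have hz := at_of H
  obtain ⟨h1, h2, h3⟩ := L_ports hw H hx
  have E := embE H S.hR b none none none s
  have P := Qd300.phs_phi H S.hR S.kb S.bR hw none none none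
  have E' := Qd300.embW hw.word hz
  obtain ⟨a, a', l, rfl, h4, h5, -⟩ := P.arc (s := s ∘ eD B y0 k) E' hx hxu
  have h6 : (NDe B p y0 k b none none none s).Cn (some a) (some a') := Pc194.Wa_cn h5
  have h7 := E.cn h1 h6
  have h8 : (some a' : Port (ℤ × ℤ)) ∈ (NDe B p y0 k b none none none s).V :=
    Net.Cn.mem E.ok'.clV h1 h6
  have h9 : pm (eD B y0 k) (some a') ∈
      (netE B p y0 b none none none s).cls (pm (eD B y0 k) (some a)) :=
    Net.mem_cls.2 ⟨E.mem _ h8, h7⟩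
  have h10 := Net.cls_eq_of_mem E.ok (E.mem _ h1) h9
  unfold Exc at hE ⊢
  have h11 : M (s ∘ eD B y0 k) w (some a) = some a' := h4
  rw [h11]
  have h12 : (net0 B p y0 s).cls (pm (eD B y0 k) (some a')) =
      (net0 B p y0 s).cls (pm (eD B y0 k) (some a)) := h10
  rw [h12]
  exact hE

/-- an exact free end of `G^(z)` comes from an end of the word -/
theorem exact_end (H : TabH A B.xl B.xr B.y1 B.y2 k p y0 (psD B)) (hR : 2 * k < B.R)
    (hw : GW (DB B k) (beD (DB B k) p y0 (B.xr + k)) w) {x : Port (ℤ × ℤ)}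
    (hx : x ∈ ports (DB B k)) (hf : pm (eD B y0 k) x ∈ freeG B) (hE : Exc B p y0 k s x) :
    x ∈ L w := by
  have hz := at_of H
  have E := embE H hR 0 none none none s
  have E' := Qd300.embW hw.word hz
  have G := Qd300.lg_ND H hw (ctw B 0 none none none) (ctw B 0 none none none + e3)
    (phi B 0 none none none) (psT (psD B) A B.xr) (ctw B 0 none none none)
  obtain ⟨h1, h2⟩ := (mem_freeG B hz).1 hf
  have hne : pm (eD B y0 k) x ≠ legP p y0 := by
    intro e
    rw [e] at h2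
    have h3 : B.beG p y0 (legP p y0) = none := by
      have h4 : B.nbG p y0 (legP p y0) = none := B.nbG_Sleg ⟨rfl, rfl⟩
      unfold Band.beG
      rw [Env664.res_of (portOf_ports (legP_mem hz)) (by rw [h4]; exact Env664.portOf_none _), h4]
    rw [h3] at h2
    exact absurd h2 (by unfold legP; simp)
  have hbe : beL B p y0 (pm (eD B y0 k) x) = pm (eD B y0 k) x := by
    rw [Ao857.beL_ne B hne, h2]
  have h3 : beL B p y0 (pm (eD B y0 k) x) ∈ (ports (DB B k)).image (pm (eD B y0 k)) := by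
    rw [hbe]; exact Finset.mem_image_of_mem _ hx
  have h4 := E.be x hx h3
  have h5 : pm (eD B y0 k) ((NDe B p y0 k 0 none none none s).be x) = pm (eD B y0 k) x :=
    h4.symm.trans hbe
  have h6 : (NDe B p y0 k 0 none none none s).be x = x := E.inj (E.ok'.beV _ hx) hx h5
  obtain ⟨t, d, rfl, ht⟩ := mem_ports' hx
  refine E'.mem_L_of_cut ((hw.word.2.2.1 t).2 ht) h6 fun b hb hab => ?_
  subst hab
  apply hne
  rw [← leg_pm H]
  have h7 := (G.eq _ hb).1
  rw [h7]
  rfl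

open Classical in
/-- **at most 7 members on exact classes** -/
theorem card_exact (H : TabH A B.xl B.xr B.y1 B.y2 k p y0 (psD B))
    {w0 : Wd (ℤ × ℤ)} {l0 : List (Port (ℤ × ℤ))} (hW : Psi664.BW (full A) B.xl B.y1 w0 l0)
    {a0 c1 : ℤ} (S : Sec B k b a0 c1) (hw : GW (DB B k) (beD (DB B k) p y0 (B.xr + k)) w)
    (hm1 : NatD B m1) (hm2 : NatD B m2) {J : Finset (Port TG)} (hJ : ∀ e ∈ J, e ∈ freeG B) :
    (J.filter fun e => ¬ Net.Vis (TQ (Far y0 (k - 2) (B.R - k - 1))) ((net0 B p y0 s).cls e) ∧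
      zE B p y0 b (pm (eD B y0 k) m1) (pm (eD B y0 k) m2) (some e) s ≠ 0).card ≤ 7 := by
  have hz := at_of H
  have hR := S.hR
  have hok := hw.word.1
  set F := J.filter fun e => ¬ Net.Vis (TQ (Far y0 (k - 2) (B.R - k - 1)))
    ((net0 B p y0 s).cls e) ∧
      zE B p y0 b (pm (eD B y0 k) m1) (pm (eD B y0 k) m2) (some e) s ≠ 0 with hF
  have hL1 := mem_of_natD H hw hm1
  have hL2 := mem_of_natD H hw hm2
  have O := ord_D H hR hW hw
  -- the ends in the word
  have hx : ∀ e ∈ F, ∃ x ∈ L w, pm (eD B y0 k) x = e ∧ Exc B p y0 k s x := by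
    intro e he
    obtain ⟨he1, he2, -⟩ := Finset.mem_filter.1 he
    have h1 : (net0 B p y0 s).cls e ⊆ _ := near_img H.hf hR he2
    obtain ⟨g1, -⟩ := (mem_freeG B hz).1 (hJ e he1)
    have h2 : e ∈ (net0 B p y0 s).cls e := Net.self_mem_cls g1
    obtain ⟨x, hx, rfl⟩ := Finset.mem_image.1 (h1 h2)
    exact ⟨x, exact_end H hR hw hx (hJ _ he1) h1, rfl, h1⟩
  set X := ((L w).toFinset).filter fun x => pm (eD B y0 k) x ∈ F ∧ Exc B p y0 k s x with hX
  have hsub : F ⊆ X.image (pm (eD B y0 k)) := by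
    intro e he
    obtain ⟨x, h1, h2, h3⟩ := hx e he
    refine Finset.mem_image.2 ⟨x, Finset.mem_filter.2 ⟨List.mem_toFinset.2 h1, ?_, h3⟩, h2⟩
    rw [h2]; exact he
  refine (Finset.card_le_card hsub).trans (Finset.card_image_le.trans ?_)
  refine card_gen (s := s ∘ eD B y0 k) hok hL1 hL2 (Q := Exc B p y0 k s)
    (fun x h1 h2 h3 => exact_M H S hw h1 h2 h3) X fun x hxX => ?_
  obtain ⟨h1, h2, h3⟩ := Finset.mem_filter.1 hxX
  have h1 := List.mem_toFinset.1 h1
  refine ⟨h1, h3, fun y hy hyu hyS hyE => ?_⟩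
  obtain ⟨he1, he2, he3⟩ := Finset.mem_filter.1 h2
  have hyM := (Ok.inv (s ∘ eD B y0 k) w hok).mem _ hy
  have hyE' := exact_M H S hw hy hyu hyE
  have nx := exact_nat H hR hw h1 h3
  have ny := exact_nat H hR hw hy hyE
  have ny' := exact_nat H hR hw hyM hyE'
  obtain ⟨k1, k2⟩ := exact_zn H hR S.kb S.bR hw (pm (eD B y0 k) m1) (pm (eD B y0 k) m2)
    (some (pm (eD B y0 k) x)) hy hyu hyS hyE
  have c1 := C0_cK H hR S.kb S.bR hw hm1 hm2 nx ny hy
  have c2 := C0_cK H hR S.kb S.bR hw hm1 hm2 nx ny' hyM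
  have hzn : (netE B p y0 b (pm (eD B y0 k) m1) (pm (eD B y0 k) m2)
      (some (pm (eD B y0 k) x)) s).zn ((netE B p y0 b (pm (eD B y0 k) m1) (pm (eD B y0 k) m2)
      (some (pm (eD B y0 k) x)) s).cls (pm (eD B y0 k) y)) ≠ 0 := by
    intro h0
    apply he3
    show _ * _ = _
    rw [Finset.prod_eq_zero k1 h0, mul_zero]
  rw [k2, c1, c2] at hzn
  have e1 := O.cM_cK hL1 hL2 h1 hy
  have e2 := O.cM_cK hL1 hL2 h1 hyM
  rw [e1, e2]
  have e3 : kK (KD B) m1 m2 (some x) + cK (KD B) m1 m2 (some x) (M (s ∘ eD B y0 k) w y) -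
      (kK (KD B) m1 m2 (some x) + cK (KD B) m1 m2 (some x) y) =
      cK (KD B) m1 m2 (some x) (M (s ∘ eD B y0 k) w y) - cK (KD B) m1 m2 (some x) y := by ring
  rw [e3]
  rw [← Int.cast_sub] at hzn
  generalize cK (KD B) m1 m2 (some x) (M (s ∘ eD B y0 k) w y) - cK (KD B) m1 m2 (some x) y = q
    at hzn ⊢
  constructor
  · rintro rfl
    apply hzn
    rw [wr_int (by norm_num)]
    simp [wz]
  · rintro rfl
    apply hzn
    rw [wr_int (by norm_num)]
    simp [wz]

end Crest.Agent.R158.Yc180
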