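import Crest.Agent.R158.Yc4_180
import Crest.Agent.R158.Ad16_350

/-!
# Row 158 (helper180): the majorant of the mark sum, 5: plugged into the decoupling of the strip

* **`majY`** : the majorant in the form of helper350's `ring_strip`
* `valD_VJ` : 350's observable `valD` is 249's `VJ`;  `norm_VJ` : `‖VJ‖ ≤ 9 / 2`
* **`ring_VJ`** : `‖HGr - ∫ VJ‖ ≤ C √(q ^ N)` for helper857's family
-/

set_option autoImplicit false
set_option linter.unusedSectionVars false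
set_option linter.unusedVariables false

noncomputable section

open Finset MeasureTheory

namespace Crest.Agent.R158.Yc180

open Crest.Agent.R158.Sw300 (Port Wd L Ok)
open Crest.Agent.R158.Al194 (Mk HV_eq_VL norm_VL_le hL)
open Crest.Agent.R158.Oc194 (NatD NatS ord_D VJ_C0 Jd_pre)
open Crest.Agent.R158.Qe249 (VJ norm_HV_sub_VJ)
open Crest.Agent.R158.Env664 (TG Band beD Adj4)
open Crest.Agent.R158.Xr249 (Free pm pm_some eD full rct mem_rct eS)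
open Crest.Agent.R158.Ad350
open Crest.Agent.R158.Ao857 (legP beL chL tpm inlE Split)
open Crest.Agent.R158.Zg180 (Near Far uc se se_uc uc_se)
open Crest.Agent.R158.Zb180 (Pf)
open Crest.Agent.R158.Zc180 (Pass pass_moment pass_dep Cf Wf ballS Over Par Zs)
open Crest.Agent.R158.Qd300 (DB at_of C0)
open Crest.Agent.R158.Fm857 (ctw phi freeG mem_freeG psD kap Jd mem_Jd far HGr)
open Crest.Agent.R158.Ob664 (GW)
open Crest.Agent.R158.Qc405 (TabH)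
open Crest.Agent.R158.Rs689 (PB hf)
open Crest.Agent.R158.Nm211 (DepF)

variable {A : Finset (ℤ × ℤ)} {B : Band A} {p y0 k b a0 c1 : ℤ} {s : TG → Bool}
  {w : Wd (ℤ × ℤ)} {m1 m2 m3 : Port (ℤ × ℤ)}

/-- free ends which are allowed ends are near ends -/
lemma endOk_near (hz : B.At p y0) {q : Port TG} (hq : q ∈ freeG B) (h : EndOk a0 c1 (some q)) :
    TQ (Near y0 a0 c1) q := by
  have h1 := hz.hy1
  have h2 := hz.hy2
  have n13 : (1 : ZMod 4) ≠ 3 := by decide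
  have n31 : (3 : ZMod 4) ≠ 1 := by decide
  unfold Fm857.freeG at hq
  rw [Finset.mem_union, Finset.mem_union, Fm857.mem_flr, Fm857.mem_cil, Finset.mem_image] at hq
  rcases hq with ⟨q, hq, rfl⟩ | ⟨i, hi, hi', rfl⟩ | ⟨i, hi, hi', rfl⟩
  · unfold Fm857.freeD at hq
    obtain ⟨t, d, rfl, ht⟩ := mem_ports' (Finset.mem_filter.1 hq).1
    exact ⟨Sum.inl t, d, rfl, Or.inl ⟨t, rfl⟩⟩
  · have hu : uc y0 (i, B.y1) = i := Zg180.uc_lt h1
    refine ⟨_, _, rfl, Or.inr ⟨_, rfl, ?_⟩⟩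
    rw [hu]
    rcases h with ⟨-, h⟩ | ⟨h, -⟩
    · exact h
    · exact absurd h n31
  · have hu : uc y0 (i, B.y2 - 1) = i - 1 := Zg180.uc_ge (by omega)
    refine ⟨_, _, rfl, Or.inr ⟨_, rfl, ?_⟩⟩
    rw [hu]
    rcases h with ⟨h, -⟩ | ⟨-, h⟩
    · exact absurd h n13
    · exact h

/-- **the majorant in the form of `ring_strip`** -/
theorem majY : ∃ C : ℝ, 0 ≤ C ∧ ∀ (A : Finset (ℤ × ℤ)) (B : Band A) (p y0 k b a0 c1 : ℤ) (h N : ℕ)
    (_ : Par B k b h N) (_ : TabH A B.xl B.xr B.y1 B.y2 k p y0 (psD B))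
    (w0 : Wd (ℤ × ℤ)) (l0 : List (Port (ℤ × ℤ))) (_ : Psi664.BW (full A) B.xl B.y1 w0 l0)
    (_ : Sec B k b a0 c1) (_ : a0 + h ≤ k - 2) (_ : B.R - k + h ≤ c1 + 1)
    (w : Wd (ℤ × ℤ)) (_ : GW (DB B k) (beD (DB B k) p y0 (B.xr + k)) w)
    (m1 m2 : Port (ℤ × ℤ)) (_ : NatD B m1) (_ : NatD B m2) (J : Finset (Port TG))
    (_ : ∀ q ∈ J, q ∈ freeG B ∧ EndOk a0 c1 (some q)),
    ∃ (Y : (TG → Bool) → ℝ) (U : Finset TG), Disjoint (Wf B y0 b h) U ∧ DepF U Y ∧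
      (∀ s, 0 ≤ Y s) ∧ ∫ s, Y s ^ 2 ∂(PB fun _ : TG => hf) ≤ C ^ 2 ∧
      ∀ s, ‖valG B p y0 b (tpm inlE m1) (tpm inlE m2) J s‖ ≤ Y s := by
  obtain ⟨C, hC, hm⟩ := Ym_sq
  refine ⟨C, by linarith, ?_⟩
  intro A B p y0 k b a0 c1 h N hP H w0 l0 hW S h1 h2 w hw m1 m2 hm1 hm2 J hJ
  have h3 := hP.h3
  refine ⟨Ym B y0 k a0 c1, Yt B y0 k a0 c1, Ym_disj hP S.h0, Ym_dep, Ym_nonneg _ _ _ _,
    hm A B y0 k a0 c1 h hP.hh (by omega) h1 h2, fun s => ?_⟩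
  rw [← pm_nat H hm1, ← pm_nat H hm2]
  exact valG_le H hW S hw hm1 hm2
    (fun e he => ⟨(hJ e he).1, endOk_near (at_of H) (hJ e he).1 (hJ e he).2⟩) s

/-- the observable has norm at most `1` -/
lemma norm_HV {T : Type*} [DecidableEq T] {w : Wd T} (h : Ok w) {m1 m2 m3 : Port T}
    (hM : Mk w m1 m2 m3) (s : T → Bool) : ‖Ob664.HV w m1 m2 m3 s‖ ≤ 1 := by
  rw [HV_eq_VL h hM s]
  exact norm_VL_le m1 (hM.lt h).2.le

/-- **bound of the observable with dropped ends** -/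
theorem norm_VJ {T : Type*} [DecidableEq T] {w : Wd T} (h : Ok w) {m1 m2 m3 : Port T}
    (hM : Mk w m1 m2 m3) (P : Port T → Prop) (s : T → Bool) : ‖VJ w m1 m2 m3 P s‖ ≤ 9 / 2 := by
  have h1 := norm_HV h hM s
  have h2 := norm_HV_sub_VJ h hM P s
  have h3 : VJ w m1 m2 m3 P s = Ob664.HV w m1 m2 m3 s -
      (Ob664.HV w m1 m2 m3 s - VJ w m1 m2 m3 P s) := by ring
  rw [h3]
  refine (norm_sub_le _ _).trans ?_
  linarith

/-- **350's observable is 249's** -/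
theorem valD_VJ (H : TabH A B.xl B.xr B.y1 B.y2 k p y0 (psD B))
    {w0 : Wd (ℤ × ℤ)} {l0 : List (Port (ℤ × ℤ))} (hW : Psi664.BW (full A) B.xl B.y1 w0 l0)
    (S : Sec B k b a0 c1) (hw : GW (DB B k) (beD (DB B k) p y0 (B.xr + k)) w)
    (hM : Mk w m1 m2 m3) (hm1 : NatD B m1) (hm2 : NatD B m2) (hm3 : NatD B m3)
    (Sp : Finset (ℤ × ℤ)) (Δ : ℤ) (s' : ℤ × ℤ → Bool) :
    valD B p y0 k b (tpm inlE m1) (tpm inlE m2)
        (Jd B b Sp Δ a0 c1 (tpm inlE m2) (tpm inlE m3)) w s' =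
      VJ w m1 m2 m3 (fun x => pm (eD B y0 k) x ∉
        Jd B b Sp Δ a0 c1 (tpm inlE m2) (tpm inlE m3)) s' := by
  have hz := at_of H
  have e1 := pm_nat H hm1
  have e2 := pm_nat H hm2
  have e3 := pm_nat H hm3
  have ha := S.ha
  have hc := S.hc
  have hA : ∀ m, m = m1 ∨ m = m2 ∨ m = m3 → ∃ t d, m = some (t, d) ∧ t ∈ A := by
    rintro m (rfl | rfl | rfl)
    · exact Oc194.natD_some hm1
    · exact Oc194.natD_some hm2
    · exact Oc194.natD_some hm3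
  have key := VJ_C0 H hw S.hR hz S.kb S.bR (ord_D H S.hR hW hw) hM hA
    (Jd B b Sp Δ a0 c1 (pm (eD B y0 k) m2) (pm (eD B y0 k) m3)) (fun q hq => ?_) s'
  · rw [e1, e2, e3] at key
    rw [key]
    rfl
  · obtain ⟨h1, h2, h3⟩ := (mem_Jd B).1 hq
    exact ⟨h2, Jd_pre H S.hR (by omega) (by omega) h1 h3⟩

/-- **decoupling of the strip for helper857's family** -/
theorem ring_VJ : ∃ q C : ℝ, 0 < q ∧ q < 1 ∧ 0 ≤ C ∧
    ∀ (A : Finset (ℤ × ℤ)) (B : Band A) (p y0 k b a0 c1 : ℤ) (h N : ℕ)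
      (_ : Par B k b h N) (_ : 2 * q ^ N ≤ 1 / 2)
      (_ : TabH A B.xl B.xr B.y1 B.y2 k p y0 (psD B))
      (w0 : Wd (ℤ × ℤ)) (l0 : List (Port (ℤ × ℤ))) (_ : Psi664.BW (full A) B.xl B.y1 w0 l0)
      (_ : Sec B k b a0 c1) (_ : (N : ℤ) * h ≤ k - 2 - a0) (_ : (N : ℤ) * h ≤ c1 - (B.R - 1 - k))
      (w : Wd (ℤ × ℤ)) (_ : GW (DB B k) (beD (DB B k) p y0 (B.xr + k)) w)
      (m1 m2 m3 : Port (ℤ × ℤ)) (_ : Mk w m1 m2 m3) (_ : NatD B m1) (_ : NatD B m2)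
      (_ : NatD B m3) (Sp : Finset (ℤ × ℤ)) (Δ : ℤ)
      (Al Au : Finset (ℤ × ℤ)) (_ : Split B Al Au) (_ : ∀ s ∈ Al, ∀ t ∈ Au, ¬ Adj4 s t),
      ‖HGr B Al Au b (tpm inlE m1) (tpm inlE m2)
          (Jd B b Sp Δ a0 c1 (tpm inlE m2) (tpm inlE m3))
          (star (Complex.exp (Complex.I * (Real.pi / 12))) *
            ((((3 : ℝ) ^ ((((freeG B).card : ℝ) - 1) / 4) * Zs B k b h : ℝ)) : ℂ)) p y0 -
        ∫ s, VJ w m1 m2 m3 (fun x => pm (eD B y0 k) x ∉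
          Jd B b Sp Δ a0 c1 (tpm inlE m2) (tpm inlE m3)) (s ∘ eD B y0 k)
            ∂(PB fun _ : TG => hf)‖ ≤ C * Real.sqrt (q ^ N) := by
  obtain ⟨c, q, hc, hq, hq1, hmain⟩ := ring_strip
  obtain ⟨C, hC, hY⟩ := majY
  refine ⟨q, 9 + 2 * (C / c), hq, hq1, by positivity, ?_⟩
  intro A B p y0 k b a0 c1 h N hP hN H w0 l0 hW S g1 g2 w hw m1 m2 m3 hM hm1 hm2 hm3 Sp Δ Al Au
    hs hadj
  have hz := at_of H
  have hN1 : 1 ≤ N := by
    rcases Nat.eq_zero_or_pos N with rfl | h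
    · norm_num at hN
    · exact h
  have hNh : (h : ℤ) ≤ (N : ℤ) * h := by
    have : (1 : ℤ) ≤ N := by exact_mod_cast hN1
    nlinarith [Int.natCast_nonneg h]
  have hJ : ∀ q' ∈ Jd B b Sp Δ a0 c1 (tpm inlE m2) (tpm inlE m3),
      q' ∈ freeG B ∧ EndOk a0 c1 (some q') := fun q' hq' => by
    obtain ⟨h1, -, h3⟩ := (mem_Jd B).1 hq'
    exact ⟨h1, (far_near hz h1 h3).2⟩
  obtain ⟨Y, U, y1, y2, y3, y4, y5⟩ := hY A B p y0 k b a0 c1 h N hP H w0 l0 hW S (by omega)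
    (by omega) w hw m1 m2 hm1 hm2 _ hJ
  obtain ⟨-, -, key⟩ := hmain A B p y0 k b h N hz hP hN
  have hi : ∀ m, NatD B m → ∃ t d, tpm inlE m = some (Sum.inl t, d) := by
    intro m hm
    obtain ⟨t, d, rfl, -⟩ := Oc194.natD_some hm
    exact ⟨t, d, rfl⟩
  have h9 : ∀ s', ‖valD B p y0 k b (tpm inlE m1) (tpm inlE m2)
      (Jd B b Sp Δ a0 c1 (tpm inlE m2) (tpm inlE m3)) w s'‖ ≤ 9 / 2 := fun s' => by
    rw [valD_VJ H hW S hw hM hm1 hm2 hm3]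
    exact norm_VJ hw.word.1 hM _ _
  have g3 := S.ha
  have g4 := S.hc
  have g5 := S.hc1
  have h3 := hP.h3
  have res := key H w hw (tpm inlE m1) (tpm inlE m2) (hi _ hm1) (hi _ hm2) _ a0 c1
    (fun q' hq' => (hJ q' hq').2) S.h0 g1 (by omega) g2 (by omega) g3 Al Au hs hadj (9 / 2)
    (by norm_num) h9 Y C U y1 y2 y3 hC y4 y5
  simp_rw [valD_VJ H hW S hw hM hm1 hm2 hm3] at res
  refine res.trans ?_
  have q0 : 0 ≤ q ^ N := by positivity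
  have q1 : q ^ N ≤ 1 := pow_le_one₀ hq.le hq1.le
  have e1 : Real.sqrt (4 * q ^ N) = 2 * Real.sqrt (q ^ N) := by
    rw [Real.sqrt_mul (by norm_num), show (4 : ℝ) = 2 ^ 2 by norm_num, Real.sqrt_sq (by norm_num)]
  have e2 : q ^ N ≤ Real.sqrt (q ^ N) := by
    rw [Real.le_sqrt q0 q0]
    nlinarith
  rw [e1]
  have e3 : 0 ≤ C / c := by positivity
  nlinarith [Real.sqrt_nonneg (q ^ N)]

end Crest.Agent.R158.Yc180
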