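import Crest.Agent.R158.Mr4_679

/-!
# Row 158 (helper180): one arm at a flat wall, strip windows (lower bound (Z))

* `FArm F n` : the face `F` (a gap of the wall under the tiles of height `> F.2`) has an arm to
  distance `n` in the half plane
* `Win F x0 x1 y1` : the gap `F` is joined to the face row `y1` inside the columns `(x0, x1]`
* `win_glue` : arm + three crossings of the half annulus + one vertical crossing ⟹ `Win`
* `win_ge` : `P(Win F x0 x1 y1) ≥ c P(FArm F (3m))` for `3m ≤ y1 - F.2 ≤ K m`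
-/

set_option autoImplicit false

noncomputable section

namespace Crest.Agent.R158.Zb180

open MeasureTheory ProbabilityTheory unitInterval
open Crest.Agent.R161.Geo729
open Crest.Agent.R158.Rs689 Crest.Agent.R158.Mr679

/-- one arm from the wall gap `F` to distance `n` in the half plane above `F` -/
def FArm (F : P2) (n : ℤ) : Set TF :=
  {X | ∃ G : P2, TP (BQ X (F.1 - n) (F.1 + n) F.2 (F.2 + n)) F G ∧
    (G.1 = F.1 - n ∨ G.1 = F.1 + n ∨ G.2 = F.2 + n)}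

/-- the wall gap `F` is joined to the face row `y1` in the columns `(x0, x1]` -/
def Win (F : P2) (x0 x1 y1 : ℤ) : Set TF :=
  {X | ∃ G : P2, TP (BQ X x0 x1 F.2 y1) F G ∧ G.2 = y1}

theorem farm_dep (F : P2) (n : ℤ) : Dep (bxF (F.1 - n) (F.1 + n) F.2 (F.2 + n)) (FArm F n) := by
  intro X X' h
  constructor
  · rintro ⟨G, h1, h2⟩
    exact ⟨G, h1.mono (bq_congr h), h2⟩
  · rintro ⟨G, h1, h2⟩
    exact ⟨G, h1.mono (bq_congr fun t ht => (h t ht).symm), h2⟩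

theorem win_dep (F : P2) (x0 x1 y1 : ℤ) : Dep (bxF x0 x1 F.2 y1) (Win F x0 x1 y1) := by
  intro X X' h
  constructor
  · rintro ⟨G, h1, h2⟩
    exact ⟨G, h1.mono (bq_congr h), h2⟩
  · rintro ⟨G, h1, h2⟩
    exact ⟨G, h1.mono (bq_congr fun t ht => (h t ht).symm), h2⟩

theorem farm_inc (F : P2) (n : ℤ) : Inc (FArm F n) := by
  rintro X X' h ⟨G, h1, h2⟩
  exact ⟨G, h1.mono fun t ht => ⟨ht.1, h t ht.2⟩, h2⟩

theorem win_inc (F : P2) (x0 x1 y1 : ℤ) : Inc (Win F x0 x1 y1) := by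
  rintro X X' h ⟨G, h1, h2⟩
  exact ⟨G, h1.mono fun t ht => ⟨ht.1, h t ht.2⟩, h2⟩

theorem farm_meas (F : P2) (n : ℤ) : MeasurableSet (FArm F n) := (farm_dep F n).measurableSet

theorem win_meas (F : P2) (x0 x1 y1 : ℤ) : MeasurableSet (Win F x0 x1 y1) :=
  (win_dep F x0 x1 y1).measurableSet

theorem win_mono {F : P2} {x0 x1 x0' x1' y1 : ℤ} (h0 : x0' ≤ x0) (h1 : x1 ≤ x1') :
    Win F x0 x1 y1 ⊆ Win F x0' x1' y1 := by
  rintro X ⟨G, hG, h2⟩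
  refine ⟨G, hG.mono ?_, h2⟩
  rintro t ⟨ht, hX⟩
  refine ⟨?_, hX⟩
  unfold InB at *
  omega

/-- enlarging the box -/
theorem up {X : TF} {a0 a1 c0 c1 x0 x1 y0 y1 : ℤ} (h : a0 ≤ x0 ∧ x1 ≤ a1 ∧ c0 ≤ y0 ∧ y1 ≤ c1)
    {U V : P2} (p : TP (BQ X x0 x1 y0 y1) U V) : TP (BQ X a0 a1 c0 c1) U V := by
  refine p.mono ?_
  rintro t ⟨ht, hX⟩
  refine ⟨?_, hX⟩
  unfold InB at *
  omega

/-- two crossing paths of one sublattice are joined -/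
theorem meet {X : TF} {a0 a1 c0 c1 x0 x1 y0 y1 x0' x1' y0' y1' : ℤ} {A B P R : P2}
    (h1 : TP (BQ X x0 x1 y0 y1) A B) (h2 : TP (BQ X x0' x1' y0' y1') P R)
    (e1 : P.2 ≤ y0 ∧ y1 ≤ R.2) (e2 : A.1 ≤ x0' ∧ x1' ≤ B.1) (e3 : P.2 ≤ A.2 ∧ A.2 ≤ R.2)
    (e4 : A.1 ≤ P.1 ∧ P.1 ≤ B.1) (hp : (A.1 + A.2) % 2 = (P.1 + P.2) % 2)
    (u1 : a0 ≤ x0 ∧ x1 ≤ a1 ∧ c0 ≤ y0 ∧ y1 ≤ c1)
    (u2 : a0 ≤ x0' ∧ x1' ≤ a1 ∧ c0 ≤ y0' ∧ y1' ≤ c1) : TP (BQ X a0 a1 c0 c1) A P := by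
  obtain ⟨w, q1, q2⟩ := mcross_eq h1 h2 (by
      rintro t ⟨ht, _⟩; unfold InB at ht; omega) (by
      rintro t ⟨ht, _⟩; unfold InB at ht; omega) e3 e4 hp
  exact (up u1 q1).trans (up u2 q2).symm

/-- **gluing** -/
theorem win_glue {X : TF} {F : P2} {m y1 : ℤ} (hm : 0 < m) (hy : F.2 + 3 * m ≤ y1)
    (ha : X ∈ FArm F (3 * m))
    (hl : X ∈ LX (F.1 + F.2) (F.1 - 3 * m) (F.1 + 3 * m) (F.2 + m) (F.2 + 3 * m))
    (h1 : X ∈ BX (F.1 + F.2) (F.1 - 3 * m) (F.1 - m) F.2 (F.2 + 3 * m))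
    (h2 : X ∈ BX (F.1 + F.2) (F.1 + m) (F.1 + 3 * m) F.2 (F.2 + 3 * m))
    (hv : X ∈ BX (F.1 + F.2) (F.1 - 3 * m) (F.1 + 3 * m) (F.2 + m) y1) :
    X ∈ Win F (F.1 - 3 * m) (F.1 + 3 * m) y1 := by
  obtain ⟨x, y⟩ := F
  dsimp only at *
  obtain ⟨A, B, lA, lB, lp, lA1, lA2, lc⟩ := hl
  -- the top crossing meets the vertical one
  have hAE : ∃ E : P2, TP (BQ X (x - 3 * m) (x + 3 * m) y y1) A E ∧ E.2 = y1 := by
    obtain ⟨C, E, cC, cE, cp, cC1, cC2, cc⟩ := hv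
    refine ⟨E, (meet lc cc ?_ ?_ ?_ ?_ ?_ ?_ ?_).trans (up ?_ cc), cE⟩ <;> omega
  obtain ⟨E, hAE, cE⟩ := hAE
  clear hv
  suffices h : TP (BQ X (x - 3 * m) (x + 3 * m) y y1) (x, y) A from ⟨E, h.trans hAE, cE⟩
  clear hAE cE
  obtain ⟨G, hG, hGd⟩ := ha
  dsimp only at *
  have hGp := hG.parity
  have hGy : y ≤ G.2 ∧ G.2 ≤ y + 3 * m :=
    hG.faceY (fun t ht => ⟨ht.1.2.2.1, ht.1.2.2.2⟩) (by dsimp only; omega)
  dsimp only at hGp
  rcases hGd with hGd | hGd | hGd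
  · -- left
    clear h2
    obtain ⟨A1, B1, aA, aB, ap, aA1, aA2, ac⟩ := h1
    have e1 : TP (BQ X (x - 3 * m) (x + 3 * m) y y1) (x, y) G := up (by omega) hG
    have e2 : TP (BQ X (x - 3 * m) (x + 3 * m) y y1) G A1 := by
      refine meet hG.symm ac ?_ ?_ ?_ ?_ ?_ ?_ ?_ <;> (try dsimp only) <;> omega
    have e3 : TP (BQ X (x - 3 * m) (x + 3 * m) y y1) A A1 := by
      refine meet lc ac ?_ ?_ ?_ ?_ ?_ ?_ ?_ <;> omega
    exact (e1.trans e2).trans e3.symm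
  · -- right
    clear h1
    obtain ⟨A2, B2, bA, bB, bp, bA1, bA2, bc⟩ := h2
    have e2 : TP (BQ X (x - 3 * m) (x + 3 * m) y y1) (x, y) A2 := by
      refine meet hG bc ?_ ?_ ?_ ?_ ?_ ?_ ?_ <;> (try dsimp only) <;> omega
    have e3 : TP (BQ X (x - 3 * m) (x + 3 * m) y y1) A A2 := by
      refine meet lc bc ?_ ?_ ?_ ?_ ?_ ?_ ?_ <;> omega
    exact e2.trans e3.symm
  · -- top
    clear h1 h2
    have e3 : TP (BQ X (x - 3 * m) (x + 3 * m) y y1) A (x, y) := by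
      refine meet lc hG ?_ ?_ ?_ ?_ ?_ ?_ ?_ <;> (try dsimp only) <;> omega
    exact e3.symm

theorem dep2 {S T : Finset P2} {A B : Set TF} (hA : Dep S A) (hB : Dep T B) :
    Dep (S ∪ T) (A ∩ B) :=
  (hA.mono Finset.subset_union_left).inter (hB.mono Finset.subset_union_right)

/-- **arm to window** at `p = 1/2` -/
theorem win_ge (K : ℕ) : ∃ c : ℝ, 0 < c ∧ c ≤ 1 ∧ ∀ m : ℕ, 1 ≤ m → ∀ (F : P2) (y1 : ℤ),
    F.2 + 3 * m ≤ y1 → y1 ≤ F.2 + K * m →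
    c * (tau hf).real (FArm F (3 * m)) ≤
      (tau hf).real (Win F (F.1 - 3 * m) (F.1 + 3 * m) y1) := by
  obtain ⟨a, ha, ha1, h3⟩ := rsw_lx 3
  obtain ⟨b, hb, hb1, h2⟩ := rsw_bx 2
  obtain ⟨d, hd, hd1, hK⟩ := rsw_bx K
  refine ⟨a * b * b * d, by positivity, ?_, fun m hm F y1 e1 e2 => ?_⟩
  · have : a * b ≤ 1 := mul_le_one₀ ha1 hb.le hb1
    exact mul_le_one₀ (mul_le_one₀ this hb.le hb1) hd.le hd1
  have hm' : (0 : ℤ) < m := by omega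
  set L : Set TF := LX (F.1 + F.2) (F.1 - 3 * m) (F.1 + 3 * m) (F.2 + m) (F.2 + 3 * m) with hL
  set B1 : Set TF := BX (F.1 + F.2) (F.1 - 3 * m) (F.1 - m) F.2 (F.2 + 3 * m) with hB1
  set B2 : Set TF := BX (F.1 + F.2) (F.1 + m) (F.1 + 3 * m) F.2 (F.2 + 3 * m) with hB2
  set V : Set TF := BX (F.1 + F.2) (F.1 - 3 * m) (F.1 + 3 * m) (F.2 + m) y1 with hV
  have pL : a ≤ (tau hf).real L := by
    have := h3 (2 * m) (by omega) (F.1 + F.2) (F.1 - 3 * m) (F.2 + m)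
    refine this.trans (le_of_eq ?_)
    rw [hL]
    congr 2 <;> push_cast <;> ring
  have pB : ∀ x : ℤ, b ≤ (tau hf).real (BX (F.1 + F.2) x (x + 2 * m) F.2 (F.2 + 3 * m)) := by
    intro x
    have := h2 (2 * m) (by omega) (F.1 + F.2) x F.2
    refine this.trans (measureReal_mono (bx_mono (by omega) le_rfl ?_ le_rfl ?_))
    · push_cast; omega
    · push_cast; nlinarith
  have pB1 : b ≤ (tau hf).real B1 := by
    have := pB (F.1 - 3 * m)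
    rwa [show F.1 - 3 * (m : ℤ) + 2 * m = F.1 - m by ring] at this
  have pB2 : b ≤ (tau hf).real B2 := by
    have := pB (F.1 + m)
    rwa [show F.1 + (m : ℤ) + 2 * m = F.1 + 3 * m by ring] at this
  have pV : d ≤ (tau hf).real V := by
    have := hK (6 * m) (by omega) (F.1 + F.2) (F.1 - 3 * m) (F.2 + m)
    refine this.trans (measureReal_mono (bx_mono (by omega) le_rfl ?_ le_rfl ?_))
    · push_cast; omega
    · push_cast
      have : (0 : ℤ) ≤ K * m := by positivity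
      nlinarith
  have s1 : b * d ≤ (tau hf).real (B2 ∩ V) :=
    harris2 hf (bx_dep _ _ _ _ _) (bx_dep _ _ _ _ _) (bx_inc _ _ _ _ _) (bx_inc _ _ _ _ _)
      hb.le hd.le pB2 pV
  have d1 := dep2 (bx_dep (F.1 + F.2) (F.1 + m) (F.1 + 3 * m) F.2 (F.2 + 3 * m))
    (bx_dep (F.1 + F.2) (F.1 - 3 * m) (F.1 + 3 * m) (F.2 + m) y1)
  have i1 : Inc (B2 ∩ V) := (bx_inc _ _ _ _ _).inter (bx_inc _ _ _ _ _)
  have s2 : b * (b * d) ≤ (tau hf).real (B1 ∩ (B2 ∩ V)) :=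
    harris2 hf (bx_dep _ _ _ _ _) d1 (bx_inc _ _ _ _ _) i1 hb.le (by positivity) pB1 s1
  have d2 := dep2 (bx_dep (F.1 + F.2) (F.1 - 3 * m) (F.1 - m) F.2 (F.2 + 3 * m)) d1
  have i2 : Inc (B1 ∩ (B2 ∩ V)) := (bx_inc _ _ _ _ _).inter i1
  have s3 : a * (b * (b * d)) ≤ (tau hf).real (L ∩ (B1 ∩ (B2 ∩ V))) :=
    harris2 hf (lx_dep _ _ _ _ _) d2 (lx_inc _ _ _ _ _) i2 ha.le (by positivity) pL s2
  have d3 := dep2 (lx_dep (F.1 + F.2) (F.1 - 3 * m) (F.1 + 3 * m) (F.2 + m) (F.2 + 3 * m)) d2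
  have i3 : Inc (L ∩ (B1 ∩ (B2 ∩ V))) := (lx_inc _ _ _ _ _).inter i2
  have s4 := harris2 hf (farm_dep F (3 * m)) d3 (farm_inc F (3 * m)) i3 measureReal_nonneg
    (by positivity) le_rfl s3
  calc a * b * b * d * (tau hf).real (FArm F (3 * m))
      = (tau hf).real (FArm F (3 * m)) * (a * (b * (b * d))) := by ring
    _ ≤ _ := s4
    _ ≤ _ := measureReal_mono fun X hX =>
        win_glue hm' e1 hX.1 hX.2.1 hX.2.2.1 hX.2.2.2.1 hX.2.2.2.2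

end Crest.Agent.R158.Zb180
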