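import Crest.Agent.R158.Zb1_180
import Crest.Agent.R158.Fl3_440

/-!
# Row 158 (helper180): one arm at a flat wall, 2: symmetries and the lower bound `c n^(-1/2)`

* `farm_shift`, `farm_prob` : translations
* `farm_anti` : the arm events decrease with the distance
* `FArmD`, `WinD` : the same events under a wall (ceiling), `winD_ge`
* `farm_lower` : `c n^(-1/2) ≤ P(FArm F n)` (from helper440's `pa_lower`)
* `Pf n` : the probability of the arm event
-/

set_option autoImplicit false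

noncomputable section

namespace Crest.Agent.R158.Zb180

open MeasureTheory ProbabilityTheory unitInterval
open Crest.Agent.R161.Geo729 Crest.Agent.R161.Dual374 Crest.Agent.R161.Tas682
open Crest.Agent.R158.Rs689 Crest.Agent.R158.Mr679

/-! ### translations -/

theorem farm_shift_mp {a : P2} {X : TF} {F : P2} {n : ℤ} (h : (fun t => X (t + a)) ∈ FArm F n) :
    X ∈ FArm (F + a) n := by
  obtain ⟨G, hG, hd⟩ := h
  refine ⟨G + a, ?_, by simp only [Prod.fst_add, Prod.snd_add]; omega⟩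
  refine hG.map (· + a) (fun _ _ h => dg_add a h) ?_
  rintro u v _ ⟨h1, h2⟩
  refine ⟨?_, ?_⟩
  · rw [tb_add]
    unfold InB at *
    simp only [Prod.fst_add, Prod.snd_add]
    omega
  · rw [tb_add]; exact h2

theorem farm_shift {a : P2} {X : TF} {F : P2} {n : ℤ} :
    (fun t => X (t + a)) ∈ FArm F n ↔ X ∈ FArm (F + a) n := by
  refine ⟨farm_shift_mp, fun h => ?_⟩
  have h1 : (fun t => (fun t' => X (t' + a)) (t + -a)) ∈ FArm (F + a) n := by
    simpa using h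
  have := farm_shift_mp (a := -a) (X := fun t' => X (t' + a)) h1
  simpa using this

theorem farm_prob (p : I) (F F' : P2) (n : ℤ) :
    (tau p).real (FArm F n) = (tau p).real (FArm F' n) := by
  rw [← tau_real_perm p (Equiv.addRight (F' - F)) (farm_meas F n)]
  congr 1
  ext X
  have := farm_shift (a := F' - F) (X := X) (F := F) (n := n)
  simp only [add_sub_cancel] at this
  exact this

/-- probability of one arm from a gap of a flat wall to distance `n` -/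
def Pf (n : ℤ) : ℝ := (tau hf).real (FArm (0, 0) n)

theorem farm_eq (F : P2) (n : ℤ) : (tau hf).real (FArm F n) = Pf n := farm_prob hf F (0, 0) n

theorem Pf_nonneg (n : ℤ) : 0 ≤ Pf n := measureReal_nonneg

theorem Pf_le_one (n : ℤ) : Pf n ≤ 1 := measureReal_le_one

/-! ### monotonicity -/

theorem farm_anti {F : P2} {n m : ℤ} (hn : 0 ≤ n) (hm : n ≤ m) : FArm F m ⊆ FArm F n := by
  rintro X ⟨G, hG, hd⟩
  have hrow : ∀ u, TP (BQ X (F.1 - m) (F.1 + m) F.2 (F.2 + m)) F u → F.2 ≤ u.2 := fun u hu =>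
    (hu.faceY (fun t ht => ⟨ht.1.2.2.1, ht.1.2.2.2⟩) (by omega)).1
  have hR : Relation.ReflTransGen (fun u v => TS (BQ X (F.1 - m) (F.1 + m) F.2 (F.2 + m)) u v ∧
      F.2 ≤ u.2 ∧ F.2 ≤ v.2) F G := by
    have key : ∀ w, TP (BQ X (F.1 - m) (F.1 + m) F.2 (F.2 + m)) F w →
        Relation.ReflTransGen (fun u v => TS (BQ X (F.1 - m) (F.1 + m) F.2 (F.2 + m)) u v ∧
          F.2 ≤ u.2 ∧ F.2 ≤ v.2) F w := by
      intro w hw
      induction hw with
      | refl => exact .refl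
      | @tail u v h1 h2 ih => exact ih.tail ⟨h2, hrow u h1, hrow v (h1.tail h2)⟩
    exact key G hG
  obtain ⟨c, d, h1, h2, h3, h4, _⟩ := sub_cross (f := fun u : P2 => sdc F u)
    (fun u v huv => ⟨sdc_dg huv.1.1, sdc_dg huv.1.1.symm⟩) hR (x0 := 0) (x1 := n) hn
    (by simp [sdc]) (by
      have e : sdc F G ≤ sdc F G := le_rfl
      rw [sdc_le] at e
      omega)
  have hcF : c = F := by
    have e := (sdc_le (c := F) (u := c) (k := 0)).1 (le_of_eq h2)
    ext <;> omega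
  subst hcF
  have hrow' : c.2 ≤ d.2 := by
    rcases Relation.ReflTransGen.cases_tail h4 with h | ⟨w, _, h⟩
    · rw [h]
    · exact h.1.2.2
  refine ⟨d, ?_, ?_⟩
  · refine Relation.ReflTransGen.mono ?_ _ _ h4
    rintro u v ⟨⟨⟨hdg, hin, hX⟩, hu, hv⟩, hu', hv'⟩
    refine ⟨hdg, ?_, hX⟩
    have a1 := (sdc_le (c := c) (u := u) (k := n)).1 hu'.2
    have a2 := (sdc_le (c := c) (u := v) (k := n)).1 hv'.2
    unfold InB at *
    unfold Dg at hdg
    unfold tb at *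
    dsimp only at *
    omega
  · have a1 : sdc c d ≤ n := le_of_eq h3
    have a2 : ¬ sdc c d ≤ n - 1 := by
      have : sdc c d = n := h3
      omega
    rw [sdc_le] at a1 a2
    omega

theorem Pf_anti {n m : ℤ} (hn : 0 ≤ n) (hm : n ≤ m) : Pf m ≤ Pf n :=
  measureReal_mono (farm_anti hn hm)

/-! ### the ceiling -/

/-- one arm from the gap `F` of a ceiling (tiles of height `≤ F.2`) to distance `n` -/
def FArmD (F : P2) (n : ℤ) : Set TF :=
  {X | ∃ G : P2, TP (BQ X (F.1 - n) (F.1 + n) (F.2 - n) F.2) F G ∧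
    (G.1 = F.1 - n ∨ G.1 = F.1 + n ∨ G.2 = F.2 - n)}

/-- the gap `F` of a ceiling is joined to the face row `y0` in the columns `(x0, x1]` -/
def WinD (F : P2) (x0 x1 y0 : ℤ) : Set TF :=
  {X | ∃ G : P2, TP (BQ X x0 x1 y0 F.2) F G ∧ G.2 = y0}

/-- reflection of the tiles -/
def rfl2 : P2 ≃ P2 where
  toFun t := (t.1, -t.2)
  invFun t := (t.1, -t.2)
  left_inv t := by simp
  right_inv t := by simp

theorem dg_refl {u v : P2} (h : Dg u v) : Dg (u.1, -1 - u.2) (v.1, -1 - v.2) := by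
  unfold Dg at *
  dsimp only
  omega

theorem tb_refl {u v : P2} (h : Dg u v) :
    tb (u.1, -1 - u.2) (v.1, -1 - v.2) = ((tb u v).1, -(tb u v).2) := by
  unfold Dg at h
  unfold tb
  ext <;> dsimp only <;> omega

theorem tp_refl {X : TF} {x0 x1 y0 y1 : ℤ} {F G : P2} (h : TP (BQ X x0 x1 y0 y1) F G) :
    TP (BQ (fun t => X (rfl2 t)) x0 x1 (-1 - y1) (-1 - y0)) (F.1, -1 - F.2) (G.1, -1 - G.2) := by
  refine h.map (fun u => (u.1, -1 - u.2)) (fun _ _ h => dg_refl h) ?_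
  rintro u v huv ⟨h1, h2⟩
  rw [tb_refl huv]
  refine ⟨?_, ?_⟩
  · unfold InB at *
    dsimp only
    omega
  · simpa [rfl2] using h2

theorem farmD_iff {X : TF} {F : P2} {n : ℤ} :
    X ∈ FArmD F n ↔ (fun t => X (rfl2 t)) ∈ FArm (F.1, -1 - F.2) n := by
  constructor
  · rintro ⟨G, h1, h2⟩
    refine ⟨(G.1, -1 - G.2), ?_, by dsimp only; omega⟩
    have := tp_refl h1
    have e : (-1 - (F.2 - n) : ℤ) = -1 - F.2 + n := by ring
    rw [e] at this
    exact this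
  · rintro ⟨G, h1, h2⟩
    refine ⟨(G.1, -1 - G.2), ?_, by dsimp only at h2 ⊢; omega⟩
    have := tp_refl h1
    dsimp only at this
    have e : (-1 - (-1 - F.2 + n) : ℤ) = F.2 - n := by ring
    have e' : (-1 - (-1 - F.2) : ℤ) = F.2 := by ring
    rw [e, e'] at this
    have e2 : (fun t => (fun t' => X (rfl2 t')) (rfl2 t)) = X := by
      funext t; simp [rfl2]
    rw [e2] at this
    exact this

theorem winD_iff {X : TF} {F : P2} {x0 x1 y0 : ℤ} :
    X ∈ WinD F x0 x1 y0 ↔ (fun t => X (rfl2 t)) ∈ Win (F.1, -1 - F.2) x0 x1 (-1 - y0) := by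
  constructor
  · rintro ⟨G, h1, h2⟩
    exact ⟨(G.1, -1 - G.2), tp_refl h1, by dsimp only; omega⟩
  · rintro ⟨G, h1, h2⟩
    refine ⟨(G.1, -1 - G.2), ?_, by dsimp only at h2 ⊢; omega⟩
    have := tp_refl h1
    dsimp only at this
    have e : (-1 - (-1 - y0) : ℤ) = y0 := by ring
    have e' : (-1 - (-1 - F.2) : ℤ) = F.2 := by ring
    rw [e, e'] at this
    have e2 : (fun t => (fun t' => X (rfl2 t')) (rfl2 t)) = X := by
      funext t; simp [rfl2]
    rw [e2] at this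
    exact this

theorem farmD_dep (F : P2) (n : ℤ) : Dep (bxF (F.1 - n) (F.1 + n) (F.2 - n) F.2) (FArmD F n) := by
  intro X X' h
  constructor
  · rintro ⟨G, h1, h2⟩
    exact ⟨G, h1.mono (bq_congr h), h2⟩
  · rintro ⟨G, h1, h2⟩
    exact ⟨G, h1.mono (bq_congr fun t ht => (h t ht).symm), h2⟩

theorem winD_dep (F : P2) (x0 x1 y0 : ℤ) : Dep (bxF x0 x1 y0 F.2) (WinD F x0 x1 y0) := by
  intro X X' h
  constructor
  · rintro ⟨G, h1, h2⟩
    exact ⟨G, h1.mono (bq_congr h), h2⟩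
  · rintro ⟨G, h1, h2⟩
    exact ⟨G, h1.mono (bq_congr fun t ht => (h t ht).symm), h2⟩

theorem farmD_eq (F : P2) (n : ℤ) : (tau hf).real (FArmD F n) = Pf n := by
  rw [← farm_eq (F.1, -1 - F.2) n, ← tau_real_perm hf rfl2 (farm_meas (F.1, -1 - F.2) n)]
  congr 1
  ext X
  exact farmD_iff

theorem winD_prob (F : P2) (x0 x1 y0 : ℤ) : (tau hf).real (WinD F x0 x1 y0) =
    (tau hf).real (Win (F.1, -1 - F.2) x0 x1 (-1 - y0)) := by
  rw [← tau_real_perm hf rfl2 (win_meas (F.1, -1 - F.2) x0 x1 (-1 - y0))]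
  congr 1
  ext X
  exact winD_iff

/-- **arm to window**, floor -/
theorem win_ge' (K : ℕ) : ∃ c : ℝ, 0 < c ∧ c ≤ 1 ∧ ∀ m : ℕ, 1 ≤ m → ∀ (F : P2) (x0 x1 y1 : ℤ),
    x0 ≤ F.1 - 3 * m → F.1 + 3 * m ≤ x1 → F.2 + 3 * m ≤ y1 → y1 ≤ F.2 + K * m →
    c * Pf (3 * m) ≤ (tau hf).real (Win F x0 x1 y1) := by
  obtain ⟨c, hc, hc1, h⟩ := win_ge K
  refine ⟨c, hc, hc1, fun m hm F x0 x1 y1 h0 h1 h2 h3 => ?_⟩
  have := h m hm F y1 h2 h3
  rw [farm_eq] at this
  exact this.trans (measureReal_mono (win_mono h0 h1))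

/-- **arm to window**, ceiling -/
theorem winD_ge (K : ℕ) : ∃ c : ℝ, 0 < c ∧ c ≤ 1 ∧ ∀ m : ℕ, 1 ≤ m → ∀ (F : P2) (x0 x1 y0 : ℤ),
    x0 ≤ F.1 - 3 * m → F.1 + 3 * m ≤ x1 → y0 ≤ F.2 - 3 * m → F.2 - K * m ≤ y0 →
    c * Pf (3 * m) ≤ (tau hf).real (WinD F x0 x1 y0) := by
  obtain ⟨c, hc, hc1, h⟩ := win_ge' K
  refine ⟨c, hc, hc1, fun m hm F x0 x1 y0 h0 h1 h2 h3 => ?_⟩
  rw [winD_prob]
  exact h m hm (F.1, -1 - F.2) x0 x1 (-1 - y0) h0 h1 (by dsimp only; omega) (by dsimp only; omega)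

/-! ### the lower bound -/

/-- rotation of the tiles -/
def rI : P2 ≃ P2 where
  toFun t := (1 - t.2, t.1)
  invFun t := (t.2, 1 - t.1)
  left_inv t := by simp
  right_inv t := by simp

theorem dg_rot {u v : P2} (h : Dg u v) : Dg (u.2, -u.1) (v.2, -v.1) := by
  unfold Dg at *
  dsimp only
  omega

theorem tb_rot {u v : P2} (h : Dg u v) :
    tb (u.2, -u.1) (v.2, -v.1) = ((tb u v).2, 1 - (tb u v).1) := by
  unfold Dg at h
  unfold tb
  ext <;> dsimp only <;> omega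

open Crest.Agent.R158.Fl440 in
theorem pa_farm {z : Cfz} {k : ℤ} {n : ℕ} (hz : z ∈ PA k n) :
    (fun t => z (tE.symm (rI t))) ∈ FArm (2 * k, 0) n := by
  rw [mem_PA] at hz
  obtain ⟨v, hv, hoc⟩ := hz
  obtain ⟨hk, hoc⟩ := hoc
  have hvS : v ∈ HB k n := by
    rcases Relation.ReflTransGen.cases_tail hoc with h | ⟨w, _, h⟩
    · rw [h]; exact hk
    · exact h.2.2
  have h1 : TP (fun t => z (tE.symm t) = true ∧ (2 * k - n < t.2 ∧ t.2 ≤ 2 * k + n) ∧
      (-(n : ℤ) < t.1 ∧ t.1 ≤ 0)) (prim (k, k)) (prim v) := by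
    rw [tp_prim_iff]
    refine Relation.ReflTransGen.mono ?_ _ _ hoc
    rintro a b ⟨⟨e, he, hab⟩, ha, hb⟩
    refine ⟨e, ⟨by rw [Equiv.symm_apply_apply]; exact he, ?_⟩, hab⟩
    rw [Finset.mem_coe, mem_HB] at ha hb
    rw [← tb_prim e]
    have h3 := dg_prim e
    unfold Dg at h3
    unfold tb
    simp only [prim, mX, mY] at *
    rcases hab with ⟨rfl, rfl⟩ | ⟨rfl, rfl⟩ <;> omega
  have h2 := h1.map (Q' := BQ (fun t => z (tE.symm (rI t))) (2 * k - n) (2 * k + n) 0 (0 + n))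
    (fun u => (u.2, -u.1)) (fun _ _ h => dg_rot h) (by
      rintro a b hab ⟨h3, h4, h5⟩
      rw [tb_rot hab]
      refine ⟨?_, ?_⟩
      · unfold InB
        dsimp only
        omega
      · simpa [rI] using h3)
  have e1 : ((prim (k, k)).2, -(prim (k, k)).1) = ((2 * k, 0) : P2) := by
    ext <;> simp only [prim] <;> omega
  rw [e1] at h2
  refine ⟨_, h2, ?_⟩
  rw [mem_HB] at hvS
  rw [mem_Far] at hv
  simp only [prim, mX, mY] at *
  omega

/-- **lower bound of the boundary one-arm probability** -/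
theorem pf_lower : ∃ c : ℝ, 0 < c ∧ ∀ n : ℕ, 1 ≤ n → c * (n : ℝ) ^ (-(1 / 2 : ℝ)) ≤ Pf n := by
  obtain ⟨c, hc, h⟩ := Crest.Agent.R158.Fl440.pa_lower
  refine ⟨c, hc, fun n hn => (h 0 n hn).trans ?_⟩
  rw [← farm_eq (2 * 0, 0) n, ← tau_real_perm hf rI (farm_meas (2 * 0, 0) n), tau_real_eq hf]
  · exact measureReal_mono fun z hz => pa_farm hz
  · exact (measurable_perm rI) (farm_meas _ _)

end Crest.Agent.R158.Zb180
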