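import Crest.Agent.R158.Nz1_399

/-!
# Row 158 (helper180): the abstract lower bound (Z) and the decoupling of the strip

`PB w` product law, `S`, `T` disjoint sets of tiles; `F1 ⊆`-type event (the far charge is free) and
`F0` (local arm) depend on `S`; the gate event `G` depends on `T`.

* `rest_le` : `‖∫_{Gᶜ} W‖ ≤ P(F0) C P(Gᶜ)^(1/2)` if `‖W‖ ≤ 1[F0] Y` off `G`, `∫ Y² ≤ C²`
* `Dec` : amplitude `A`, partition function `B`, value `V` of the domain
* `Dec.Z_lower` : `‖∫ B‖ ≥ P(F1)/2`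
* `Dec.ratio` : `‖∫ A / ∫ B - ∫ V‖ ≤ 2 (2 v P(Gᶜ) + (1+v) δ)`, `δ = (C/c) P(Gᶜ)^(1/2)`
-/

set_option autoImplicit false

noncomputable section

namespace Crest.Agent.R158.Zb180

open MeasureTheory ProbabilityTheory unitInterval
open Crest.Agent.R158.Rs689 Crest.Agent.R158.Nm211 Crest.Agent.R158.Nz399

variable {ι : Type*}

/-- indicator function -/
def ind (A : Set (ι → Bool)) (z : ι → Bool) : ℝ := A.indicator (fun _ => (1 : ℝ)) z

theorem ind_nonneg (A : Set (ι → Bool)) (z : ι → Bool) : 0 ≤ ind A z := by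
  unfold ind
  exact Set.indicator_nonneg (fun _ _ => zero_le_one) z

theorem ind_le_one (A : Set (ι → Bool)) (z : ι → Bool) : ind A z ≤ 1 := by
  unfold ind
  exact Set.indicator_le_self' (fun _ _ => zero_le_one) z

theorem ind_dep {S : Finset ι} {A : Set (ι → Bool)} (hA : Dep S A) : DepF S (ind A) := by
  intro z z' h
  unfold ind
  by_cases hz : z ∈ A
  · rw [Set.indicator_of_mem hz, Set.indicator_of_mem ((hA z z' h).1 hz)]
  · rw [Set.indicator_of_notMem hz, Set.indicator_of_notMem fun h' => hz ((hA z z' h).2 h')]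

theorem int_ind (w : ι → I) {A : Set (ι → Bool)} (hA : MeasurableSet A) :
    ∫ z, ind A z ∂(PB w) = (PB w).real A := by
  unfold ind
  rw [integral_indicator_const _ hA]
  simp

theorem BM_ind {A : Set (ι → Bool)} (hA : MeasurableSet A) : BM (ind A) :=
  ⟨(measurable_const).indicator hA, ind_nonneg A, 1, ind_le_one A⟩

/-- Cauchy-Schwarz with an event -/
theorem cs_ind (w : ι → I) {T : Finset ι} {G : Set (ι → Bool)} (hG : Dep T G)
    {Y : (ι → Bool) → ℝ} (hY : DepF T Y) (hY0 : ∀ z, 0 ≤ Y z) {C : ℝ} (hC : 0 ≤ C)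
    (hYC : ∫ z, Y z ^ 2 ∂(PB w) ≤ C ^ 2) :
    ∫ z, Y z * ind G z ∂(PB w) ≤ C * Real.sqrt ((PB w).real G) := by
  have hY2 : DepF T fun z => Y z ^ 2 := fun z z' h => by
    show Y z ^ 2 = Y z' ^ 2
    rw [hY z z' h]
  have h1 : BM fun z => Y z ^ 2 := by
    obtain ⟨D, hD⟩ := hY2.bdd
    exact ⟨hY2.measurable, fun z => sq_nonneg _, D, fun z => (le_abs_self _).trans (hD z)⟩
  have h2 := hold (μ := PB w) h1 (BM_ind hG.measurableSet) (θ := 1 / 2) (by norm_num) (by norm_num)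
  have e1 : ∀ z, (Y z ^ 2) ^ (1 - 1 / 2 : ℝ) * ind G z ^ (1 / 2 : ℝ) = Y z * ind G z := by
    intro z
    have a1 : (Y z ^ 2) ^ (1 - 1 / 2 : ℝ) = Y z := by
      rw [← Real.rpow_natCast, ← Real.rpow_mul (hY0 z)]
      norm_num
    have a2 : ind G z ^ (1 / 2 : ℝ) = ind G z := by
      unfold ind
      by_cases hz : z ∈ G
      · rw [Set.indicator_of_mem hz, Real.one_rpow]
      · rw [Set.indicator_of_notMem hz, Real.zero_rpow (by norm_num)]
    rw [a1, a2]
  simp only [e1] at h2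
  refine h2.trans ?_
  rw [int_ind w hG.measurableSet, ← Real.sqrt_eq_rpow]
  refine mul_le_mul_of_nonneg_right ?_ (Real.sqrt_nonneg _)
  have h3 : (∫ z, Y z ^ 2 ∂(PB w)) ^ (1 - 1 / 2 : ℝ) ≤ (C ^ 2) ^ (1 - 1 / 2 : ℝ) :=
    Real.rpow_le_rpow (integral_nonneg fun z => sq_nonneg _) hYC (by norm_num)
  refine h3.trans (le_of_eq ?_)
  rw [← Real.rpow_natCast, ← Real.rpow_mul hC]
  norm_num

/-- **the rest** -/
theorem rest_le (w : ι → I) {S T : Finset ι} (hST : Disjoint S T) {F0 G : Set (ι → Bool)}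
    (h0 : Dep S F0) (hG : Dep T G) {Y : (ι → Bool) → ℝ} (hY : DepF T Y) (hY0 : ∀ z, 0 ≤ Y z)
    {C : ℝ} (hC : 0 ≤ C) (hYC : ∫ z, Y z ^ 2 ∂(PB w) ≤ C ^ 2) {W : (ι → Bool) → ℂ}
    (hW : ∀ z, z ∈ G → ‖W z‖ ≤ ind F0 z * Y z) :
    ‖∫ z in G, W z ∂(PB w)‖ ≤ (PB w).real F0 * (C * Real.sqrt ((PB w).real G)) := by
  classical
  have hd : DepF (S ∪ T) fun z => ind F0 z * (Y z * ind G z) :=
    ((ind_dep h0).mono Finset.subset_union_left).mul
      ((hY.mul (ind_dep hG)).mono Finset.subset_union_right)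
  calc ‖∫ z in G, W z ∂(PB w)‖ = ‖∫ z, G.indicator W z ∂(PB w)‖ := by
        rw [integral_indicator hG.measurableSet]
    _ ≤ ∫ z, ind F0 z * (Y z * ind G z) ∂(PB w) := by
        refine norm_integral_le_of_norm_le (hd.integrable w) (ae_of_all _ fun z => ?_)
        by_cases hz : z ∈ G
        · rw [Set.indicator_of_mem hz]
          refine (hW z hz).trans (le_of_eq ?_)
          unfold ind
          rw [Set.indicator_of_mem hz]
          ring
        · rw [Set.indicator_of_notMem hz, norm_zero]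
          exact mul_nonneg (ind_nonneg _ _) (mul_nonneg (hY0 z) (ind_nonneg _ _))
    _ = (PB w).real F0 * ∫ z, Y z * ind G z ∂(PB w) := by
        rw [integral_mul_disj w hST (ind_dep h0) (hY.mul (ind_dep hG)),
          int_ind w h0.measurableSet]
    _ ≤ _ := mul_le_mul_of_nonneg_left (cs_ind w hG hY hY0 hC hYC) measureReal_nonneg

/-- product of an event of `S` and a complex function of `T` -/
theorem int_ind_mul (w : ι → I) {S T : Finset ι} (hST : Disjoint S T) {F : Set (ι → Bool)}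
    (hF : Dep S F) {f : (ι → Bool) → ℂ} (hf : ∀ z z' : ι → Bool, (∀ e ∈ T, z e = z' e) → f z = f z') :
    ∫ z, (ind F z : ℂ) * f z ∂(PB w) = ((PB w).real F : ℂ) * ∫ z, f z ∂(PB w) := by
  have hre : DepF T fun z => (f z).re := fun z z' h => by
    show (f z).re = (f z').re
    rw [hf z z' h]
  have him : DepF T fun z => (f z).im := fun z z' h => by
    show (f z).im = (f z').im
    rw [hf z z' h]
  have hi : Integrable f (PB w) := by
    have := ((hre.integrable w).ofReal (𝕜 := ℂ)).add (((him.integrable w).ofReal (𝕜 := ℂ)).mul_const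
      Complex.I)
    refine this.congr (ae_of_all _ fun z => ?_)
    simp only [Pi.add_apply]
    exact Complex.re_add_im (f z)
  have hFm : DepF S (ind F) := ind_dep hF
  have hi2 : Integrable (fun z => (ind F z : ℂ) * f z) (PB w) := by
    refine Integrable.bdd_mul (c := 1) hi ?_ (ae_of_all _ fun z => ?_)
    · exact (hFm.measurable.complex_ofReal).aestronglyMeasurable
    · rw [Complex.norm_real, Real.norm_of_nonneg (ind_nonneg _ _)]
      exact ind_le_one _ _
  have r1 := integral_mul_disj w hST hFm hre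
  have r2 := integral_mul_disj w hST hFm him
  rw [int_ind w hF.measurableSet] at r1 r2
  apply Complex.ext
  · have e1 : (∫ z, (ind F z : ℂ) * f z ∂(PB w)).re = ∫ z, ind F z * (f z).re ∂(PB w) := by
      rw [← RCLike.re_eq_complex_re, ← integral_re hi2]
      exact integral_congr_ae (ae_of_all _ fun z => by simp)
    have e2 : (∫ z, f z ∂(PB w)).re = ∫ z, (f z).re ∂(PB w) := by
      rw [← RCLike.re_eq_complex_re, ← integral_re hi]
    rw [e1, r1, Complex.re_ofReal_mul, e2]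
  · have e1 : (∫ z, (ind F z : ℂ) * f z ∂(PB w)).im = ∫ z, ind F z * (f z).im ∂(PB w) := by
      rw [← RCLike.im_eq_complex_im, ← integral_im hi2]
      exact integral_congr_ae (ae_of_all _ fun z => by simp)
    have e2 : (∫ z, f z ∂(PB w)).im = ∫ z, (f z).im ∂(PB w) := by
      rw [← RCLike.im_eq_complex_im, ← integral_im hi]
    rw [e1, r2, Complex.im_ofReal_mul, e2]

/-- data of the decoupling: amplitude `A`, partition function `B`, domain value `V` -/
structure Dec (w : ι → I) (S T : Finset ι) (F0 F1 G : Set (ι → Bool)) (Y : (ι → Bool) → ℝ)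
    (A B V : (ι → Bool) → ℂ) (c C v : ℝ) : Prop where
  disj : Disjoint S T
  h0 : Dep S F0
  h1 : Dep S F1
  hG : Dep T G
  hY : DepF T Y
  hY0 : ∀ z, 0 ≤ Y z
  hV : ∀ z z' : ι → Bool, (∀ e ∈ T, z e = z' e) → V z = V z'
  hAm : Integrable A (PB w)
  hBm : Integrable B (PB w)
  c_pos : 0 < c
  C_nonneg : 0 ≤ C
  v_nonneg : 0 ≤ v
  hYC : ∫ z, Y z ^ 2 ∂(PB w) ≤ C ^ 2
  hF : c * (PB w).real F0 ≤ (PB w).real F1
  hF1 : 0 < (PB w).real F1
  hv : ∀ z, ‖V z‖ ≤ v
  A_in : ∀ z ∈ G, A z = (ind F1 z : ℂ) * V z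
  B_in : ∀ z ∈ G, B z = (ind F1 z : ℂ)
  A_out : ∀ z, z ∉ G → ‖A z‖ ≤ ind F0 z * Y z
  B_out : ∀ z, z ∉ G → ‖B z‖ ≤ ind F0 z * Y z

namespace Dec

variable {w : ι → I} {S T : Finset ι} {F0 F1 G : Set (ι → Bool)} {Y : (ι → Bool) → ℝ}
  {A B V : (ι → Bool) → ℂ} {c C v : ℝ}

/-- size of the error -/
def del (w : ι → I) (G : Set (ι → Bool)) (c C : ℝ) : ℝ := C / c * Real.sqrt ((PB w).real Gᶜ)

theorem V_int (h : Dec w S T F0 F1 G Y A B V c C v) : Integrable V (PB w) := by
  have hre : DepF T fun z => (V z).re := fun z z' hz => by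
    show (V z).re = (V z').re
    rw [h.hV z z' hz]
  have him : DepF T fun z => (V z).im := fun z z' hz => by
    show (V z).im = (V z').im
    rw [h.hV z z' hz]
  have := ((hre.integrable w).ofReal (𝕜 := ℂ)).add (((him.integrable w).ofReal (𝕜 := ℂ)).mul_const
    Complex.I)
  refine this.congr (ae_of_all _ fun z => ?_)
  simp only [Pi.add_apply]
  exact Complex.re_add_im (V z)

theorem out_le (h : Dec w S T F0 F1 G Y A B V c C v) {W : (ι → Bool) → ℂ}
    (hW : ∀ z, z ∉ G → ‖W z‖ ≤ ind F0 z * Y z) :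
    ‖∫ z in Gᶜ, W z ∂(PB w)‖ ≤ (PB w).real F1 * del w G c C := by
  refine (rest_le w h.disj h.h0 h.hG.compl h.hY h.hY0 h.C_nonneg h.hYC fun z hz => hW z hz).trans ?_
  have h2 : (PB w).real F0 ≤ (PB w).real F1 / c := by
    rw [le_div_iff₀ h.c_pos, mul_comm]; exact h.hF
  refine (mul_le_mul_of_nonneg_right h2
    (mul_nonneg h.C_nonneg (Real.sqrt_nonneg _))).trans (le_of_eq ?_)
  unfold del
  ring

theorem A_split (h : Dec w S T F0 F1 G Y A B V c C v) : ∃ r : ℂ, ‖r‖ ≤ del w G c C ∧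
    ∫ z, A z ∂(PB w) = ((PB w).real F1 : ℂ) * (∫ z in G, V z ∂(PB w) + r) := by
  refine ⟨(∫ z in Gᶜ, A z ∂(PB w)) / ((PB w).real F1 : ℂ), ?_, ?_⟩
  · rw [norm_div, Complex.norm_real, Real.norm_of_nonneg measureReal_nonneg, div_le_iff₀ h.hF1]
    refine (h.out_le h.A_out).trans (le_of_eq (mul_comm _ _))
  · have e0 : ((PB w).real F1 : ℂ) ≠ 0 := by
      exact_mod_cast h.hF1.ne'
    rw [mul_add, mul_div_cancel₀ _ e0, ← integral_add_compl h.hG.measurableSet h.hAm]
    congr 1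
    have hVG : ∀ z z' : ι → Bool, (∀ e ∈ T, z e = z' e) → G.indicator V z = G.indicator V z' := by
      intro z z' hz
      by_cases hzG : z ∈ G
      · rw [Set.indicator_of_mem hzG, Set.indicator_of_mem ((h.hG z z' hz).1 hzG), h.hV z z' hz]
      · rw [Set.indicator_of_notMem hzG, Set.indicator_of_notMem fun h' => hzG ((h.hG z z' hz).2 h')]
    have := int_ind_mul w h.disj h.h1 hVG
    rw [integral_indicator h.hG.measurableSet] at this
    rw [← this, ← integral_indicator h.hG.measurableSet]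
    refine integral_congr_ae (ae_of_all _ fun z => ?_)
    by_cases hzG : z ∈ G
    · simp only [Set.indicator_of_mem hzG]
      exact h.A_in z hzG
    · simp only [Set.indicator_of_notMem hzG, mul_zero]

theorem B_split (h : Dec w S T F0 F1 G Y A B V c C v) : ∃ r : ℂ, ‖r‖ ≤ del w G c C ∧
    ∫ z, B z ∂(PB w) = ((PB w).real F1 : ℂ) * (((PB w).real G : ℂ) + r) := by
  have h' : Dec w S T F0 F1 G Y B B (fun _ => 1) c C 1 :=
    { h with
      hV := fun _ _ _ => rfl
      hAm := h.hBm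
      v_nonneg := zero_le_one
      hv := fun _ => by simp
      A_in := fun z hz => by rw [h.B_in z hz, mul_one]
      A_out := h.B_out }
  obtain ⟨r, hr, e⟩ := h'.A_split
  refine ⟨r, hr, ?_⟩
  rw [e]
  simp [measureReal_def]

/-- **(Z)** : lower bound of the partition function -/
theorem Z_lower (h : Dec w S T F0 F1 G Y A B V c C v)
    (hs : (PB w).real Gᶜ + del w G c C ≤ 1 / 2) :
    (PB w).real F1 / 2 ≤ ‖∫ z, B z ∂(PB w)‖ := by
  obtain ⟨r, hr, e⟩ := h.B_split
  rw [e, norm_mul, Complex.norm_real, Real.norm_of_nonneg measureReal_nonneg]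
  have h1 : (PB w).real G = 1 - (PB w).real Gᶜ := by
    rw [probReal_compl_eq_one_sub h.hG.measurableSet]; ring
  have h2 : (1 / 2 : ℝ) ≤ ‖((PB w).real G : ℂ) + r‖ := by
    have h3 := norm_sub_le_norm_add ((PB w).real G : ℂ) r
    rw [Complex.norm_real, Real.norm_of_nonneg measureReal_nonneg] at h3
    linarith
  have := mul_le_mul_of_nonneg_left h2 h.hF1.le
  linarith

/-- **decoupling** -/
theorem ratio (h : Dec w S T F0 F1 G Y A B V c C v)
    (hs : (PB w).real Gᶜ + del w G c C ≤ 1 / 2) :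
    ‖(∫ z, A z ∂(PB w)) / (∫ z, B z ∂(PB w)) - ∫ z, V z ∂(PB w)‖ ≤
      2 * (2 * v * (PB w).real Gᶜ + (1 + v) * del w G c C) := by
  obtain ⟨r, hr, eA⟩ := h.A_split
  obtain ⟨q, hq, eB⟩ := h.B_split
  have hd0 : 0 ≤ del w G c C := (norm_nonneg r).trans hr
  have e0 : ((PB w).real F1 : ℂ) ≠ 0 := by exact_mod_cast h.hF1.ne'
  have h1 : (PB w).real G = 1 - (PB w).real Gᶜ := by
    rw [probReal_compl_eq_one_sub h.hG.measurableSet]; ring
  set b : ℂ := ((PB w).real G : ℂ) + q with hb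
  have hb2 : (1 / 2 : ℝ) ≤ ‖b‖ := by
    have h3 := norm_sub_le_norm_add ((PB w).real G : ℂ) q
    rw [Complex.norm_real, Real.norm_of_nonneg measureReal_nonneg] at h3
    linarith
  have hb0 : b ≠ 0 := by
    intro h'
    rw [h', norm_zero] at hb2
    linarith
  set m : ℂ := ∫ z, V z ∂(PB w) with hm
  have hmv : ‖m‖ ≤ v := by
    refine (norm_integral_le_integral_norm _).trans ?_
    have : ∫ z, ‖V z‖ ∂(PB w) ≤ ∫ _z : ι → Bool, v ∂(PB w) :=
      integral_mono h.V_int.norm (integrable_const v) h.hv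
    simpa [measureReal_def] using this
  have hcomp : ‖∫ z in Gᶜ, V z ∂(PB w)‖ ≤ v * (PB w).real Gᶜ :=
    norm_setIntegral_le_of_norm_le_const (measure_lt_top _ _) fun z _ => h.hv z
  have hsum : ∫ z in G, V z ∂(PB w) = m - ∫ z in Gᶜ, V z ∂(PB w) := by
    rw [hm, ← integral_add_compl h.hG.measurableSet h.V_int]; ring
  have key : (∫ z, A z ∂(PB w)) / (∫ z, B z ∂(PB w)) - m =
      (-(∫ z in Gᶜ, V z ∂(PB w)) + r + m * ((PB w).real Gᶜ : ℂ) - m * q) / b := by
    rw [eA, eB, mul_div_mul_left _ _ e0, hsum, eq_div_iff hb0, sub_mul, div_mul_cancel₀ _ hb0, hb, h1]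
    push_cast
    ring
  rw [key, norm_div, div_le_iff₀ (by linarith)]
  have n1 : ‖-(∫ z in Gᶜ, V z ∂(PB w)) + r + m * ((PB w).real Gᶜ : ℂ) - m * q‖ ≤
      v * (PB w).real Gᶜ + del w G c C + v * (PB w).real Gᶜ + v * del w G c C := by
    have a1 : ‖m * ((PB w).real Gᶜ : ℂ)‖ ≤ v * (PB w).real Gᶜ := by
      rw [norm_mul, Complex.norm_real, Real.norm_of_nonneg measureReal_nonneg]
      exact mul_le_mul_of_nonneg_right hmv measureReal_nonneg
    have a2 : ‖m * q‖ ≤ v * del w G c C := by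
      rw [norm_mul]
      exact mul_le_mul hmv hq (norm_nonneg _) h.v_nonneg
    calc _ ≤ ‖-(∫ z in Gᶜ, V z ∂(PB w)) + r + m * ((PB w).real Gᶜ : ℂ)‖ + ‖m * q‖ := norm_sub_le _ _
      _ ≤ ‖-(∫ z in Gᶜ, V z ∂(PB w)) + r‖ + ‖m * ((PB w).real Gᶜ : ℂ)‖ + ‖m * q‖ := by
          gcongr; exact norm_add_le _ _
      _ ≤ ‖-(∫ z in Gᶜ, V z ∂(PB w))‖ + ‖r‖ + ‖m * ((PB w).real Gᶜ : ℂ)‖ + ‖m * q‖ := by
          gcongr; exact norm_add_le _ _
      _ ≤ _ := by
          rw [norm_neg]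
          gcongr
  have hP : 0 ≤ (PB w).real Gᶜ := measureReal_nonneg
  have hv0 := h.v_nonneg
  have hX : 0 ≤ 2 * v * (PB w).real Gᶜ + (1 + v) * del w G c C := by positivity
  nlinarith [n1, hb2, hX]

end Dec

end Crest.Agent.R158.Zb180
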