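import Crest.Agent.R158.Zb3_180

/-!
# Row 158 (helper180): decoupling with inner and outer gates

Sets of tiles: `W ⊆ S` (ball at the far charge, far rectangle), `T` (domain and near gates), `S`, `T`
disjoint; `U` = everything outside of `W`.  Events: `F0` (local arm, on `W`), `F1` (no arc of the far
rectangle over the charge, on `S`), `H` (inner gates closed, on `S` and on `U`), `G` (near gates closed,
on `T` and on `U`).

* `Dec2.Z_lower` : `P(F1 ∩ H) / 2 ≤ ‖∫ B‖`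
* `Dec2.ratio` : `‖∫ A / ∫ B - ∫ V‖ ≤ 2 (2 v P(Gᶜ) + (1+v) δ)`, `δ = (C/c) P((G ∩ H)ᶜ)^(1/2)`
-/

set_option autoImplicit false

noncomputable section

namespace Crest.Agent.R158.Zb180

open MeasureTheory ProbabilityTheory unitInterval
open Crest.Agent.R158.Rs689 Crest.Agent.R158.Nm211 Crest.Agent.R158.Nz399

variable {ι : Type*}

theorem int_of_dep (w : ι → I) {T : Finset ι} {V : (ι → Bool) → ℂ}
    (hV : ∀ z z' : ι → Bool, (∀ e ∈ T, z e = z' e) → V z = V z') : Integrable V (PB w) := by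
  have hre : DepF T fun z => (V z).re := fun z z' hz => by
    show (V z).re = (V z').re
    rw [hV z z' hz]
  have him : DepF T fun z => (V z).im := fun z z' hz => by
    show (V z).im = (V z').im
    rw [hV z z' hz]
  have := ((hre.integrable w).ofReal (𝕜 := ℂ)).add (((him.integrable w).ofReal (𝕜 := ℂ)).mul_const
    Complex.I)
  refine this.congr (ae_of_all _ fun z => ?_)
  simp only [Pi.add_apply]
  exact Complex.re_add_im (V z)

/-- data of the decoupling with inner and outer gates -/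
structure Dec2 (w : ι → I) (W S T U : Finset ι) (F0 F1 H G : Set (ι → Bool))
    (Y : (ι → Bool) → ℝ) (A B V : (ι → Bool) → ℂ) (c C v : ℝ) : Prop where
  WU : Disjoint W U
  ST : Disjoint S T
  h0 : Dep W F0
  h1 : Dep S F1
  hHS : Dep S H
  hHU : Dep U H
  hG : Dep T G
  hGU : Dep U G
  hY : DepF U Y
  hY0 : ∀ z, 0 ≤ Y z
  hV : ∀ z z' : ι → Bool, (∀ e ∈ T, z e = z' e) → V z = V z'
  hAm : Integrable A (PB w)
  hBm : Integrable B (PB w)
  c_pos : 0 < c
  C_nonneg : 0 ≤ C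
  v_nonneg : 0 ≤ v
  hYC : ∫ z, Y z ^ 2 ∂(PB w) ≤ C ^ 2
  hF : c * (PB w).real F0 ≤ (PB w).real (F1 ∩ H)
  hF1 : 0 < (PB w).real (F1 ∩ H)
  hv : ∀ z, ‖V z‖ ≤ v
  A_in : ∀ z ∈ G ∩ H, A z = (ind F1 z : ℂ) * V z
  B_in : ∀ z ∈ G ∩ H, B z = (ind F1 z : ℂ)
  A_out : ∀ z, z ∉ G ∩ H → ‖A z‖ ≤ ind F0 z * Y z
  B_out : ∀ z, z ∉ G ∩ H → ‖B z‖ ≤ ind F0 z * Y z

namespace Dec2

variable {w : ι → I} {W S T U : Finset ι} {F0 F1 H G : Set (ι → Bool)} {Y : (ι → Bool) → ℝ}
  {A B V : (ι → Bool) → ℂ} {c C v : ℝ}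

/-- size of the error -/
def del (w : ι → I) (G H : Set (ι → Bool)) (c C : ℝ) : ℝ :=
  C / c * Real.sqrt ((PB w).real (G ∩ H)ᶜ)

theorem dGH (h : Dec2 w W S T U F0 F1 H G Y A B V c C v) : Dep U (G ∩ H) := h.hGU.inter h.hHU

theorem out_le (h : Dec2 w W S T U F0 F1 H G Y A B V c C v) {X : (ι → Bool) → ℂ}
    (hX : ∀ z, z ∉ G ∩ H → ‖X z‖ ≤ ind F0 z * Y z) :
    ‖∫ z in (G ∩ H)ᶜ, X z ∂(PB w)‖ ≤ (PB w).real (F1 ∩ H) * del w G H c C := by
  refine (rest_le w h.WU h.h0 h.dGH.compl h.hY h.hY0 h.C_nonneg h.hYC fun z hz => hX z hz).trans ?_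
  have h2 : (PB w).real F0 ≤ (PB w).real (F1 ∩ H) / c := by
    rw [le_div_iff₀ h.c_pos, mul_comm]; exact h.hF
  refine (mul_le_mul_of_nonneg_right h2
    (mul_nonneg h.C_nonneg (Real.sqrt_nonneg _))).trans (le_of_eq ?_)
  unfold del
  ring

theorem split_gen (h : Dec2 w W S T U F0 F1 H G Y A B V c C v) {X V' : (ι → Bool) → ℂ}
    (hXm : Integrable X (PB w))
    (hV' : ∀ z z' : ι → Bool, (∀ e ∈ T, z e = z' e) → V' z = V' z')
    (hin : ∀ z ∈ G ∩ H, X z = (ind F1 z : ℂ) * V' z)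
    (hout : ∀ z, z ∉ G ∩ H → ‖X z‖ ≤ ind F0 z * Y z) : ∃ r : ℂ, ‖r‖ ≤ del w G H c C ∧
    ∫ z, X z ∂(PB w) = ((PB w).real (F1 ∩ H) : ℂ) * (∫ z in G, V' z ∂(PB w) + r) := by
  refine ⟨(∫ z in (G ∩ H)ᶜ, X z ∂(PB w)) / ((PB w).real (F1 ∩ H) : ℂ), ?_, ?_⟩
  · rw [norm_div, Complex.norm_real, Real.norm_of_nonneg measureReal_nonneg, div_le_iff₀ h.hF1]
    refine (h.out_le hout).trans (le_of_eq (mul_comm _ _))
  · have e0 : ((PB w).real (F1 ∩ H) : ℂ) ≠ 0 := by
      exact_mod_cast h.hF1.ne'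
    rw [mul_add, mul_div_cancel₀ _ e0, ← integral_add_compl h.dGH.measurableSet hXm]
    congr 1
    have hVG : ∀ z z' : ι → Bool, (∀ e ∈ T, z e = z' e) →
        G.indicator V' z = G.indicator V' z' := by
      intro z z' hz
      by_cases hzG : z ∈ G
      · rw [Set.indicator_of_mem hzG, Set.indicator_of_mem ((h.hG z z' hz).1 hzG), hV' z z' hz]
      · rw [Set.indicator_of_notMem hzG, Set.indicator_of_notMem fun h' => hzG ((h.hG z z' hz).2 h')]
    have := int_ind_mul w h.ST (h.h1.inter h.hHS) hVG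
    rw [integral_indicator h.hG.measurableSet] at this
    rw [← this, ← integral_indicator h.dGH.measurableSet]
    refine integral_congr_ae (ae_of_all _ fun z => ?_)
    by_cases hzG : z ∈ G
    · by_cases hzH : z ∈ H
      · simp only [Set.indicator_of_mem hzG, Set.indicator_of_mem (Set.mem_inter hzG hzH)]
        rw [hin z ⟨hzG, hzH⟩]
        congr 2
        unfold ind
        by_cases h1 : z ∈ F1
        · rw [Set.indicator_of_mem h1, Set.indicator_of_mem (Set.mem_inter h1 hzH)]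
        · rw [Set.indicator_of_notMem h1, Set.indicator_of_notMem fun h' => h1 h'.1]
      · have q1 : z ∉ G ∩ H := fun h' => hzH h'.2
        have q2 : z ∉ F1 ∩ H := fun h' => hzH h'.2
        show (G ∩ H).indicator X z = (ind (F1 ∩ H) z : ℂ) * G.indicator V' z
        rw [Set.indicator_of_notMem q1]
        unfold ind
        rw [Set.indicator_of_notMem q2]
        simp
    · have q1 : z ∉ G ∩ H := fun h' => hzG h'.1
      show (G ∩ H).indicator X z = (ind (F1 ∩ H) z : ℂ) * G.indicator V' z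
      rw [Set.indicator_of_notMem q1, Set.indicator_of_notMem hzG, mul_zero]

/-- **(Z)** -/
theorem Z_lower (h : Dec2 w W S T U F0 F1 H G Y A B V c C v)
    (hs : (PB w).real Gᶜ + del w G H c C ≤ 1 / 2) :
    (PB w).real (F1 ∩ H) / 2 ≤ ‖∫ z, B z ∂(PB w)‖ := by
  obtain ⟨r, hr, e⟩ := h.split_gen (V' := fun _ => 1) h.hBm (fun _ _ _ => rfl)
    (fun z hz => by rw [h.B_in z hz, mul_one]) h.B_out
  have e' : ∫ _z in G, (1 : ℂ) ∂(PB w) = ((PB w).real G : ℂ) := by simp [measureReal_def]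
  rw [e, e', norm_mul, Complex.norm_real, Real.norm_of_nonneg measureReal_nonneg]
  have h1 : (PB w).real G = 1 - (PB w).real Gᶜ := by
    rw [probReal_compl_eq_one_sub h.hG.measurableSet]; ring
  have h2 : (1 / 2 : ℝ) ≤ ‖((PB w).real G : ℂ) + r‖ := by
    have h3 := norm_sub_le_norm_add ((PB w).real G : ℂ) r
    rw [Complex.norm_real, Real.norm_of_nonneg measureReal_nonneg] at h3
    linarith
  have := mul_le_mul_of_nonneg_left h2 h.hF1.le
  linarith

/-- lower bound of the partition function in terms of the local arm -/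
theorem Z_lower' (h : Dec2 w W S T U F0 F1 H G Y A B V c C v)
    (hs : (PB w).real Gᶜ + del w G H c C ≤ 1 / 2) :
    c / 2 * (PB w).real F0 ≤ ‖∫ z, B z ∂(PB w)‖ := by
  have h1 := h.Z_lower hs
  have h2 := h.hF
  linarith

/-- **decoupling** -/
theorem ratio (h : Dec2 w W S T U F0 F1 H G Y A B V c C v)
    (hs : (PB w).real Gᶜ + del w G H c C ≤ 1 / 2) :
    ‖(∫ z, A z ∂(PB w)) / (∫ z, B z ∂(PB w)) - ∫ z, V z ∂(PB w)‖ ≤
      2 * (2 * v * (PB w).real Gᶜ + (1 + v) * del w G H c C) := by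
  obtain ⟨r, hr, eA⟩ := h.split_gen h.hAm h.hV h.A_in h.A_out
  obtain ⟨q, hq, eB⟩ := h.split_gen (V' := fun _ => 1) h.hBm (fun _ _ _ => rfl)
    (fun z hz => by rw [h.B_in z hz, mul_one]) h.B_out
  have e' : ∫ _z in G, (1 : ℂ) ∂(PB w) = ((PB w).real G : ℂ) := by simp [measureReal_def]
  rw [e'] at eB
  have hVi := int_of_dep w h.hV
  have hd0 : 0 ≤ del w G H c C := (norm_nonneg r).trans hr
  have e0 : ((PB w).real (F1 ∩ H) : ℂ) ≠ 0 := by exact_mod_cast h.hF1.ne'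
  have h1 : (PB w).real G = 1 - (PB w).real Gᶜ := by
    rw [probReal_compl_eq_one_sub h.hG.measurableSet]; ring
  set b : ℂ := ((PB w).real G : ℂ) + q with hb
  have hb2 : (1 / 2 : ℝ) ≤ ‖b‖ := by
    have h3 := norm_sub_le_norm_add ((PB w).real G : ℂ) q
    rw [Complex.norm_real, Real.norm_of_nonneg measureReal_nonneg] at h3
    linarith
  have hb0 : b ≠ 0 := by
    intro h'
    rw [h', norm_zero] at hb2
    linarith
  set m : ℂ := ∫ z, V z ∂(PB w) with hm
  have hmv : ‖m‖ ≤ v := by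
    refine (norm_integral_le_integral_norm _).trans ?_
    have : ∫ z, ‖V z‖ ∂(PB w) ≤ ∫ _z : ι → Bool, v ∂(PB w) :=
      integral_mono hVi.norm (integrable_const v) h.hv
    simpa [measureReal_def] using this
  have hcomp : ‖∫ z in Gᶜ, V z ∂(PB w)‖ ≤ v * (PB w).real Gᶜ :=
    norm_setIntegral_le_of_norm_le_const (measure_lt_top _ _) fun z _ => h.hv z
  have hsum : ∫ z in G, V z ∂(PB w) = m - ∫ z in Gᶜ, V z ∂(PB w) := by
    rw [hm, ← integral_add_compl h.hG.measurableSet hVi]; ring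
  have key : (∫ z, A z ∂(PB w)) / (∫ z, B z ∂(PB w)) - m =
      (-(∫ z in Gᶜ, V z ∂(PB w)) + r + m * ((PB w).real Gᶜ : ℂ) - m * q) / b := by
    rw [eA, eB, mul_div_mul_left _ _ e0, hsum, eq_div_iff hb0, sub_mul, div_mul_cancel₀ _ hb0, hb, h1]
    push_cast
    ring
  rw [key, norm_div, div_le_iff₀ (by linarith)]
  have n1 : ‖-(∫ z in Gᶜ, V z ∂(PB w)) + r + m * ((PB w).real Gᶜ : ℂ) - m * q‖ ≤
      v * (PB w).real Gᶜ + del w G H c C + v * (PB w).real Gᶜ + v * del w G H c C := by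
    have a1 : ‖m * ((PB w).real Gᶜ : ℂ)‖ ≤ v * (PB w).real Gᶜ := by
      rw [norm_mul, Complex.norm_real, Real.norm_of_nonneg measureReal_nonneg]
      exact mul_le_mul_of_nonneg_right hmv measureReal_nonneg
    have a2 : ‖m * q‖ ≤ v * del w G H c C := by
      rw [norm_mul]
      exact mul_le_mul hmv hq (norm_nonneg _) h.v_nonneg
    calc _ ≤ ‖-(∫ z in Gᶜ, V z ∂(PB w)) + r + m * ((PB w).real Gᶜ : ℂ)‖ + ‖m * q‖ := norm_sub_le _ _
      _ ≤ ‖-(∫ z in Gᶜ, V z ∂(PB w)) + r‖ + ‖m * ((PB w).real Gᶜ : ℂ)‖ + ‖m * q‖ := by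
          gcongr; exact norm_add_le _ _
      _ ≤ ‖-(∫ z in Gᶜ, V z ∂(PB w))‖ + ‖r‖ + ‖m * ((PB w).real Gᶜ : ℂ)‖ + ‖m * q‖ := by
          gcongr; exact norm_add_le _ _
      _ ≤ _ := by
          rw [norm_neg]
          gcongr
  have hP : 0 ≤ (PB w).real Gᶜ := measureReal_nonneg
  have hv0 := h.v_nonneg
  have hX : 0 ≤ 2 * v * (PB w).real Gᶜ + (1 + v) * del w G H c C := by positivity
  nlinarith [n1, hb2, hX]

end Dec2

end Crest.Agent.R158.Zb180
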