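import Crest.Agent.R158.Zg5_180
import Crest.Agent.R158.Zm2_180

/-!
# Row 158 (helper180): strands over the far charge, 1: boxes of a chart

* `wk_box`, `box_wk` : strands inside a box of a chart = iterates of the chart walk
* `bm_wk` : a strand inside the box from side to side = the partner map of helper748's box word
-/

set_option autoImplicit false

noncomputable section

namespace Crest.Agent.R158.Zc180

open MeasureTheory ProbabilityTheory unitInterval
open Crest.Agent.R161.Geo729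
open Crest.Agent.R158.Sw300 (Port Wd thru)
open Crest.Agent.R158.Gc748
open Crest.Agent.R158.Rs689 Crest.Agent.R158.Mr679
open Crest.Agent.R158.Nm211 (Dir dx dy trn St mv nx6 rd)
open Crest.Agent.R158.Ka470 (Ch en ex sg thru_sg ex_inj en_inj Free)
open Crest.Agent.R158.Pt266 (Wk pass)
open Crest.Agent.R158.Zm180 (bm_iff it_fst mem_L_iff)

section

variable {T : Type*} {G : T × ZMod 4 → T × ZMod 4 → Prop} (C : Ch T G) {s : T → Bool}

theorem pass_pe (c : St ℤ) : pass s (C.pe c) = C.pt c.1 (ex (C.f s c).2) := C.exit_eq s c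

theorem f_iter_fst (c : St ℤ) (k : ℕ) : ((C.f s)^[k + 1] c).1 =
    mv ((C.f s)^[k] c).1 ((C.f s)^[k + 1] c).2 := by
  rw [Function.iterate_succ_apply']
  rfl

/-- strands that stay in a box of the chart are iterates -/
theorem wk_box (hG : ∀ p q r, G p q → G p r → q = r) {Bx : ℤ × ℤ → Prop}
    (hB : ∀ v, Bx v → v ∈ C.R)
    (hfr : ∀ v, Bx v → ∀ d : Dir, mv v d ∉ C.R → Free G (C.pt v (ex d)))
    {c : St ℤ} (hc : Bx c.1) {y : T × ZMod 4} {l : List (T × ZMod 4)}
    (hw : Wk s G (C.pe c) y l) (hl : ∀ r ∈ l, ∃ v, Bx v ∧ C.emb v = r.1) :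
    ∃ k, (∀ j ≤ k, Bx ((C.f s)^[j] c).1) ∧
      y = C.pt ((C.f s)^[k] c).1 (ex ((C.f s)^[k + 1] c).2) := by
  induction hw with
  | one =>
    refine ⟨0, fun j hj => ?_, pass_pe C c⟩
    have : j = 0 := by omega
    subst this
    exact hc
  | @snoc q r l hw hg ih =>
    obtain ⟨k, h1, rfl⟩ := ih fun r' hr' => hl r' (List.mem_append_left _ hr')
    obtain ⟨w, hw1, hw2⟩ := hl r (by simp)
    have hR : ((C.f s)^[k + 1] c).1 ∈ C.R := by
      by_contra hcon
      rw [f_iter_fst] at hcon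
      exact hfr _ (h1 k le_rfl) _ hcon r hg
    have h6 : G (C.pt ((C.f s)^[k] c).1 (ex ((C.f s)^[k + 1] c).2)) (C.pe ((C.f s)^[k + 1] c)) := by
      rw [Function.iterate_succ_apply'] at hR ⊢
      exact C.glue_next s (hB _ (h1 k le_rfl)) hR
    have hr : r = C.pe ((C.f s)^[k + 1] c) := hG _ _ _ hg h6
    have hnext : Bx ((C.f s)^[k + 1] c).1 := by
      have e : C.emb w = C.emb ((C.f s)^[k + 1] c).1 := by rw [hw2, hr]; rfl
      have := C.inj (hB _ hw1) hR e
      rwa [← this]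
    refine ⟨k + 1, fun j hj => ?_, ?_⟩
    · rcases Nat.lt_or_ge k j with h | h
      · have : j = k + 1 := by omega
        rw [this]; exact hnext
      · exact h1 j h
    · rw [hr, pass_pe, ← Function.iterate_succ_apply' (C.f s)]

/-- iterates in the region are strands -/
theorem box_wk {c : St ℤ} {k : ℕ} (h : ∀ j ≤ k, ((C.f s)^[j] c).1 ∈ C.R) :
    ∃ l, Wk s G (C.pe c) (C.pt ((C.f s)^[k] c).1 (ex ((C.f s)^[k + 1] c).2)) l ∧
      ∀ r ∈ l, ∃ j ≤ k, C.emb ((C.f s)^[j] c).1 = r.1 := by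
  induction k with
  | zero =>
    refine ⟨[C.pe c], ?_, ?_⟩
    · have := Wk.one (s := s) (G := G) (x := C.pe c)
      rw [pass_pe] at this
      exact this
    · intro r hr
      rw [List.mem_singleton] at hr
      subst hr
      exact ⟨0, le_rfl, rfl⟩
  | succ k ih =>
    obtain ⟨l, h1, h2⟩ := ih fun j hj => h j (by omega)
    have h3 := C.glue_next s (c := (C.f s)^[k] c) (h k (by omega)) (by
      rw [← Function.iterate_succ_apply' (C.f s)]; exact h (k + 1) le_rfl)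
    rw [← Function.iterate_succ_apply' (C.f s)] at h3
    have h4 := Wk.snoc h1 h3
    rw [pass_pe, ← Function.iterate_succ_apply' (C.f s)] at h4
    refine ⟨_, h4, ?_⟩
    intro r hr
    rw [List.mem_append, List.mem_singleton] at hr
    rcases hr with hr | rfl
    · obtain ⟨j, hj, e⟩ := h2 r hr
      exact ⟨j, by omega, e⟩
    · exact ⟨k + 1, le_rfl, rfl⟩

variable {C}

theorem f_sc (hF : C.F = fun _ => false) : C.f s = nx6 (Zm180.sc fun v => s (C.emb v)) := by
  unfold Ch.f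
  congr 1
  funext v
  simp only [rd, Ch.Fn, hF, Zm180.sc]
  cases s (C.emb v) <;> rfl

theorem pe_F (hF : C.F = fun _ => false) (c : St ℤ) : C.pe c = (C.emb c.1, en c.2) := by
  unfold Ch.pe
  rw [hF]
  rfl

theorem pt_F (hF : C.F = fun _ => false) (v : ℤ × ℤ) (a : ZMod 4) : C.pt v a = (C.emb v, a) := by
  unfold Ch.pt
  rw [hF]
  rfl

variable {x0 y0 : ℤ} {m n : ℕ}

/-- **strands inside a box of a chart and the word of the box** -/
theorem bm_wk (hG : ∀ p q r, G p q → G p r → q = r) (hF : C.F = fun _ => false)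
    (hB : ∀ v, InR x0 y0 m n v → v ∈ C.R)
    (hfr : ∀ v, InR x0 y0 m n v → ∀ d : Dir, mv v d ∉ C.R → Free G (C.pt v (ex d)))
    {c : St ℤ} (hc : InR x0 y0 m n c.1)
    (hc' : (some (c.1, en c.2) : Port (ℤ × ℤ)) ∈ Sw300.L (rectW x0 y0 m n))
    {v : ℤ × ℤ} {d : Dir} (hv : InR x0 y0 m n v) (hv' : ¬ InR x0 y0 m n (mv v d)) :
    (∃ l, Wk s G (C.emb c.1, en c.2) (C.emb v, ex d) l ∧
      ∀ r ∈ l, ∃ w, InR x0 y0 m n w ∧ C.emb w = r.1) ↔
    BM (fun v => s (C.emb v)) x0 y0 m n (some (c.1, en c.2)) = some (v, ex d) := by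
  rw [bm_iff hc hc', ← f_sc (s := s) hF, ← pe_F hF c, ← pt_F hF v (ex d)]
  constructor
  · rintro ⟨l, hw, hl⟩
    obtain ⟨k, h1, h2⟩ := wk_box C hG hB hfr hc hw hl
    rw [pt_F hF, pt_F hF] at h2
    simp only [Prod.mk.injEq] at h2
    have e1 := C.inj (hB _ hv) (hB _ (h1 k le_rfl)) h2.1
    refine ⟨k, h1, ?_, ?_⟩
    · rw [f_iter_fst, ← e1, ← ex_inj h2.2]
      exact hv'
    · rw [← e1, h2.2]
  · rintro ⟨k, h1, h2, h3⟩
    obtain ⟨l, h4, h5⟩ := box_wk (s := s) C fun j hj => hB _ (h1 j hj)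
    simp only [Prod.mk.injEq] at h3
    rw [← h3.1, ← h3.2] at h4
    refine ⟨l, h4, fun r hr => ?_⟩
    obtain ⟨j, hj, e⟩ := h5 r hr
    exact ⟨_, h1 j hj, e⟩

end

end Crest.Agent.R158.Zc180
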