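import Crest.Agent.R158.Zc1_180

/-!
# Row 158 (helper180): strands over the far charge, 2: the events in the strip of `G^(z)`

* `cp B i` : ceiling port `i`
* `Over B p y0 b S s` : a strand with all tiles in `S` from a ceiling port `i < b` to a ceiling port
  `j ≥ b` (an arc over the far charge `b`)
* `Bx y0 X0 Y0 m n` : the tiles of a box of the chart
* `over_iff` : `Over` in a box = partner map of the word of the box
* `not_over_sub` : no arc over `b` in the ball ⟹ local arm;  `win_sub` : window ⟹ no arc over `b`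
-/

set_option autoImplicit false

noncomputable section

namespace Crest.Agent.R158.Zc180

open MeasureTheory ProbabilityTheory unitInterval
open Crest.Agent.R161.Geo729
open Crest.Agent.R158.Sw300 (Port Wd thru)
open Crest.Agent.R158.Gc748
open Crest.Agent.R158.Rs689 hiding se sc
open Crest.Agent.R158.Mr679
open Crest.Agent.R158.Nm211 (Dir dx dy trn St mv nx6 rd)
open Crest.Agent.R158.Ka470 (Ch en ex sg thru_sg ex_inj en_inj Free)
open Crest.Agent.R158.Pt266 (Wk pass)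
open Crest.Agent.R158.Zm180 (bm_iff it_fst mem_L_iff)
open Crest.Agent.R158.Cb771 (FS FP xg fp_even fp_odd)
open Crest.Agent.R158.Env664
open Crest.Agent.R158.Zg180 (Gq se uc gate fld fld_law fld_dep fld_eq Gate gn)
open Crest.Agent.R158.Zb180 (FArmD WinD Pf farmD_dep winD_dep farmD_eq)

variable {A : Finset (ℤ × ℤ)} (B : Band A)

/-- ceiling port `i` -/
def cp (i : ℤ) : TG × ZMod 4 := (Sum.inr (i, B.y2 - 1), 1)

/-- an arc over the far charge `b` with all tiles in `S` -/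
def Over (p y0 b : ℤ) (S : Set TG) (s : TG → Bool) : Prop :=
  ∃ i j l, i < b ∧ b ≤ j ∧ Wk s (Gq (B.beG p y0)) (cp B i) (cp B j) l ∧ ∀ r ∈ l, r.1 ∈ S

/-- tiles of a box of the chart -/
def Bx (y0 X0 Y0 : ℤ) (m n : ℕ) : Set TG := {t | ∃ w, InR X0 Y0 m n w ∧ se y0 w = t}

variable {B}

theorem se_cp {p y0 : ℤ} (hz : B.At p y0) (u : ℤ) : ((se y0 (u, B.y2 - 1), 1) : TG × ZMod 4) =
    cp B (u + 1) := by
  have := hz.hy2
  unfold se cp
  rw [if_neg (by dsimp only; omega)]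

theorem cp_Bx {p y0 : ℤ} (hz : B.At p y0) {i X0 Y0 : ℤ} {m n : ℕ}
    (h : (cp B i).1 ∈ Bx y0 X0 Y0 m n) : InR X0 Y0 m n (i - 1, B.y2 - 1) := by
  obtain ⟨w, h1, h2⟩ := h
  have h3 : se y0 w = se y0 (i - 1, B.y2 - 1) := by
    have := congrArg Prod.fst (se_cp hz (i - 1))
    dsimp only at this
    rw [this, h2, sub_add_cancel]
  have := Zg180.se_inj h3
  rwa [this] at h1

theorem over_mono {p y0 b : ℤ} {S S' : Set TG} (h : S ⊆ S') {s : TG → Bool}
    (ho : Over B p y0 b S s) : Over B p y0 b S' s := by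
  obtain ⟨i, j, l, h1, h2, h3, h4⟩ := ho
  exact ⟨i, j, l, h1, h2, h3, fun r hr => h (h4 r hr)⟩

/-- the chart of the strip -/
abbrev SC {p y0 : ℤ} (hz : B.At p y0) (hR : 2 < B.R) : Gate TG (Gq (B.beG p y0)) :=
  gate hz (a0 := 0) (a1 := B.R - 2) le_rfl (by omega) (by omega)

theorem mem_SC {p y0 : ℤ} (hz : B.At p y0) (hR : 2 < B.R) {v : ℤ × ℤ} : v ∈ (SC hz hR).C.R ↔
    0 ≤ v.1 ∧ v.1 ≤ B.R - 2 + 1 ∧ B.y1 ≤ v.2 ∧ v.2 < B.y2 := Zg180.mem_gR B

/-- boxes that hang from the ceiling and avoid the first and the last column -/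
structure BoxOk (B : Band A) (X0 Y0 : ℤ) (m n : ℕ) : Prop where
  l : 1 ≤ X0
  r : X0 + m ≤ B.R - 2
  b : B.y1 ≤ Y0
  t : Y0 + n = B.y2 - 1

section

variable {p y0 b X0 Y0 : ℤ} {m n : ℕ} {s : TG → Bool}

theorem BoxOk.sub (h : BoxOk B X0 Y0 m n) (hz : B.At p y0) (hR : 2 < B.R) (v : ℤ × ℤ)
    (hv : InR X0 Y0 m n v) : v ∈ (SC hz hR).C.R := by
  obtain ⟨h1, h2, h3, h4⟩ := h
  rw [mem_SC]
  unfold InR at hv
  omega

theorem BoxOk.fr (h : BoxOk B X0 Y0 m n) (hz : B.At p y0) (hR : 2 < B.R) (v : ℤ × ℤ)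
    (hv : InR X0 Y0 m n v) (d : Dir) (hd : mv v d ∉ (SC hz hR).C.R) :
    Free (Gq (B.beG p y0)) ((SC hz hR).C.pt v (ex d)) := by
  have h' := h
  obtain ⟨h1, h2, h3, h4⟩ := h'
  refine (SC hz hR).fr v (h.sub hz hR v hv) ?_ ?_ d hd
  · show (0 : ℤ) < v.1
    unfold InR at hv
    omega
  · show v.1 ≤ B.R - 2
    unfold InR at hv
    omega

/-- **arcs over `b` inside a box** -/
theorem over_iff (h : BoxOk B X0 Y0 m n) (hz : B.At p y0) :
    Over B p y0 b (Bx y0 X0 Y0 m n) s ↔ ∃ i j, X0 ≤ i ∧ i ≤ b - 2 ∧ b - 2 < j ∧ j ≤ X0 + m ∧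
      BM (fun v => s (se y0 v)) X0 Y0 m n (some ((i, Y0 + n), 1)) = some ((j, Y0 + n), 1) := by
  have hR : 2 < B.R := by
    obtain ⟨h1, h2, h3, h4⟩ := h
    omega
  have key : ∀ i j : ℤ, InR X0 Y0 m n (i, Y0 + n) → InR X0 Y0 m n (j, Y0 + n) →
      ((∃ l, Wk s (Gq (B.beG p y0)) (cp B (i + 1)) (cp B (j + 1)) l ∧
        ∀ r ∈ l, r.1 ∈ Bx y0 X0 Y0 m n) ↔
      BM (fun v => s (se y0 v)) X0 Y0 m n (some ((i, Y0 + n), 1)) = some ((j, Y0 + n), 1)) := by
    intro i j hi hj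
    have h1 := bm_wk (C := (SC hz hR).C) (s := s) (Zg180.Gq.fn (be := B.beG p y0)) rfl
      (h.sub hz hR) (h.fr hz hR) (c := ((i, Y0 + n), 2)) hi (by
        refine (mem_L_iff (d := 0)).2 ⟨hi, ?_⟩
        unfold InR mv dy
        dsimp only
        omega) (v := (j, Y0 + n)) (d := 0) hj (by
        unfold InR mv dy
        dsimp only
        omega)
    have e : Y0 + n = B.y2 - 1 := h.t
    rw [e] at h1 ⊢
    have h2 : (((SC hz hR).C.emb (((i, B.y2 - 1), 2) : St ℤ).1, en (((i, B.y2 - 1), 2) : St ℤ).2) :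
        TG × ZMod 4) = cp B (i + 1) := se_cp hz i
    have h3 : (((SC hz hR).C.emb (j, B.y2 - 1), ex 0) : TG × ZMod 4) = cp B (j + 1) := se_cp hz j
    rw [h2, h3] at h1
    exact h1
  constructor
  · rintro ⟨i, j, l, h1, h2, h3, h4⟩
    have hi := cp_Bx hz (h4 _ h3.mem_left)
    have hj : InR X0 Y0 m n (j - 1, B.y2 - 1) := by
      obtain ⟨r, hr, e⟩ : ∃ r ∈ l, r.1 = (cp B j).1 := by
        have := h3.mem_right
        exact ⟨_, this, by simp⟩
      exact cp_Bx hz (e ▸ h4 r hr)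
    have e : Y0 + n = B.y2 - 1 := h.t
    rw [← e] at hi hj
    refine ⟨i - 1, j - 1, ?_, by omega, by omega, ?_, (key _ _ hi hj).1 ?_⟩
    · unfold InR at hi; exact hi.1
    · unfold InR at hj; exact hj.2.1
    · rw [sub_add_cancel, sub_add_cancel]
      exact ⟨l, h3, h4⟩
  · rintro ⟨i, j, h1, h2, h3, h4, h5⟩
    have hi : InR X0 Y0 m n (i, Y0 + n) := by unfold InR; dsimp only; omega
    have hj : InR X0 Y0 m n (j, Y0 + n) := by unfold InR; dsimp only; omega
    obtain ⟨l, h6, h7⟩ := (key _ _ hi hj).2 h5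
    exact ⟨i + 1, j + 1, l, by omega, by omega, h6, h7⟩

/-- no arc over `b` in the box ⟹ face path to the outer sides -/
theorem arm_of_not_over (h : BoxOk B X0 Y0 m n) (hz : B.At p y0) (h0 : X0 - 1 ≤ b - 2)
    (h1 : b - 2 ≤ X0 + m) (ho : ¬ Over B p y0 b (Bx y0 X0 Y0 m n) s) :
    ∃ G, FP (fun v => s (se y0 v)) (InR X0 Y0 m n) (b - 2, Y0 + n) G ∧ OutC X0 Y0 m G := by
  refine ceil_arm h0 h1 fun i j hi1 hi2 hj1 hj2 hb => ho ?_
  exact (over_iff h hz).2 ⟨i, j, hi1, hi2, hj1, hj2, hb⟩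

/-- a face path from the gap `b` to the outer sides ⟹ no arc over `b` in the box -/
theorem not_over_of_path (h : BoxOk B X0 Y0 m n) (hz : B.At p y0) (h0 : X0 ≤ b - 2)
    (h1 : b - 2 < X0 + m) {G : P2} (hG : OutC X0 Y0 m G)
    (hp : FP (fun v => s (se y0 v)) (InR X0 Y0 m n) (b - 2, Y0 + n) G) :
    ¬ Over B p y0 b (Bx y0 X0 Y0 m n) s := by
  intro ho
  obtain ⟨i, j, hi1, hi2, hj1, hj2, hb⟩ := (over_iff h hz).1 ho
  exact ceil_cross h0 h1 hG hp i j hi1 hi2 hj1 hj2 hb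

end

/-! ### fields and parities -/

section

universe u
variable {T : Type u} {G : T × ZMod 4 → T × ZMod 4 → Prop}

/-- an event of the field read in a chart, on the sublattice of the face `c` -/
def rdp (C : Ch T G) (c : P2) (E : Set TF) : Set (T → Bool) :=
  {s | (fun t => if (c.1 + c.2) % 2 = 0 then fld C s t else !fld C s t) ∈ E}

theorem rdp_dep [DecidableEq T] (C : Ch T G) (c : P2) {S : Finset P2} {E : Set TF}
    (hE : Dep S E) : Dep (S.image C.emb) (rdp C c E) := by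
  intro s s' h
  refine hE _ _ fun t ht => ?_
  rw [fld_eq, fld_eq]
  dsimp only
  rw [h _ (Finset.mem_image_of_mem _ ht)]

theorem rdp_law (C : Ch T G) (c : P2) {S : Finset P2} {E : Set TF} (hE : Dep S E)
    (hS : S ⊆ C.R) : (PB fun _ : T => hf).real (rdp C c E) = (tau hf).real E := by
  by_cases h : (c.1 + c.2) % 2 = 0
  · have e : rdp C c E = {s | fld C s ∈ E} := by
      unfold rdp
      simp only [h, if_true]
    rw [e]
    exact fld_law C hE hS
  · have e : rdp C c E = {s | fld C s ∈ {X : TF | (fun t => !X t) ∈ E}} := by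
      unfold rdp
      simp only [h, if_false]
      rfl
    rw [e, fld_law C (S := S) (A := {X : TF | (fun t => !X t) ∈ E}) (fun X X' hX => hE _ _ fun t ht => by
      show (!X t) = !X' t
      rw [hX t ht]) hS]
    rw [tau_real_not hf hE.measurableSet, sigma_hf]

end

end Crest.Agent.R158.Zc180
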