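import Crest.Agent.R158.Zc2_180
import Crest.Agent.R158.Zb4_180

/-!
# Row 158 (helper180): strands over the far charge, 4: the literal decoupling

`k` = width of the stubs, `h` = height of the strip, `b` = position of the far charge,
`nr h = 3 ⌊h/3⌋` = radius of the ball at `b`.

* `Par B k b h N` : the geometric conditions (`N h ≤ k - 2`)
* `ballS`, `farS` : the ball at `b` and the far rectangle (columns `k .. R - 1 - k` of the chart)
* `nearG`, `farG` : the two near gates, the two inner gates are closed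
* `nover_ball_le` : `P(no arc over b in the ball) ≤ Pf (nr h)`
* `far_ge` : `c P(no arc over b in the ball) ≤ P(no arc over b in the far rectangle, inner gates closed)`
* `gates_le` : `P(some gate is not closed) ≤ 4 q ^ N`
-/

set_option autoImplicit false

noncomputable section

namespace Crest.Agent.R158.Zc180

open MeasureTheory ProbabilityTheory unitInterval
open Crest.Agent.R161.Geo729
open Crest.Agent.R158.Sw300 (Port Wd thru)
open Crest.Agent.R158.Gc748
open Crest.Agent.R158.Rs689 hiding se sc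
open Crest.Agent.R158.Mr679
open Crest.Agent.R158.Nm211 (Dir dx dy trn St mv nx6 rd)
open Crest.Agent.R158.Ka470 (Ch en ex sg thru_sg ex_inj en_inj Free)
open Crest.Agent.R158.Pt266 (Wk pass)
open Crest.Agent.R158.Cb771 (FS FP xg fp_even fp_odd)
open Crest.Agent.R158.Env664
open Crest.Agent.R158.Zg180 (Gq se uc gate fld fld_law fld_dep fld_eq Gate gn gate_prob closed_dep)
open Crest.Agent.R158.Zb180 (FArmD WinD Pf farmD_dep winD_dep farmD_eq winD_ge)

variable {A : Finset (ℤ × ℤ)} {B : Band A}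

/-- radius of the ball at the far charge -/
def nr (h : ℕ) : ℕ := 3 * (h / 3)

/-- geometric conditions -/
structure Par (B : Band A) (k b : ℤ) (h N : ℕ) : Prop where
  hh : B.y2 = B.y1 + h
  h3 : 3 ≤ h
  k2 : 2 < k
  kN : (N : ℤ) * h ≤ k - 2
  bl : 2 * k ≤ b - h
  br : b + h ≤ B.R - 2 * k

/-- the ball at the far charge -/
def ballS (B : Band A) (y0 b : ℤ) (h : ℕ) : Set TG :=
  Bx y0 (b - 1 - nr h) (B.y2 - nr h) (2 * nr h - 1) (nr h - 1)

/-- the far rectangle: columns `k .. R - 1 - k` of the chart -/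
def farS (B : Band A) (y0 k : ℤ) (h : ℕ) : Set TG := Bx y0 k B.y1 (B.R - 1 - 2 * k).toNat (h - 1)

theorem nr_le (h : ℕ) : nr h ≤ h := by unfold nr; omega

theorem nr_pos {h : ℕ} (h3 : 3 ≤ h) : 3 ≤ nr h := by unfold nr; omega

theorem bx_eq {y0 X0 Y0 x0 x1 z0 z1 : ℤ} {m n : ℕ} (h1 : X0 = x0 + 1) (h2 : X0 + m = x1)
    (h3 : Y0 = z0 + 1) (h4 : Y0 + n = z1) :
    Bx y0 X0 Y0 m n = ((bxF x0 x1 z0 z1).image (se y0) : Finset TG) := by
  ext t
  simp only [Bx, Set.mem_ofPred_eq, Finset.coe_image, Set.mem_image, Finset.mem_coe, mem_bxF]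
  constructor
  · rintro ⟨w, h5, h6⟩
    refine ⟨w, ?_, h6⟩
    unfold InR at h5
    unfold InB
    omega
  · rintro ⟨w, h5, h6⟩
    refine ⟨w, ?_, h6⟩
    unfold InB at h5
    unfold InR
    omega

/-- tiles of the ball -/
def Wf (B : Band A) (y0 b : ℤ) (h : ℕ) : Finset TG :=
  (bxF (b - 2 - nr h) (b - 2 + nr h) (B.y2 - 1 - nr h) (B.y2 - 1)).image (se y0)

/-- tiles of the far rectangle -/
def Sf (B : Band A) (y0 k : ℤ) : Finset TG :=
  (bxF (k - 1) (B.R - 1 - k) (B.y1 - 1) (B.y2 - 1)).image (se y0)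

theorem ball_eq {y0 b : ℤ} {h : ℕ} (h3 : 3 ≤ h) : ballS B y0 b h = (Wf B y0 b h : Set TG) := by
  have := nr_pos h3
  exact bx_eq (by omega) (by omega) (by omega) (by omega)

theorem far_eq {y0 k b : ℤ} {h N : ℕ} (hP : Par B k b h N) : farS B y0 k h = (Sf B y0 k : Set TG) := by
  obtain ⟨h1, h2, h3, h4, h5, h6⟩ := hP
  exact bx_eq (by omega) (by omega) (by omega) (by omega)

theorem over_dep {p y0 b : ℤ} (S : Finset TG) :
    Dep S {s : TG → Bool | ¬ Over B p y0 b (S : Set TG) s} := by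
  have key : ∀ s s' : TG → Bool, (∀ e ∈ S, s e = s' e) →
      Over B p y0 b (S : Set TG) s → Over B p y0 b (S : Set TG) s' := by
    rintro s s' h ⟨i, j, l, h1, h2, h3, h4⟩
    exact ⟨i, j, l, h1, h2, h3.congr_s fun r hr => h _ (h4 r hr), h4⟩
  intro s s' h
  exact not_congr ⟨key s s' h, key s' s fun e he => (h e he).symm⟩

section

variable {p y0 k b : ℤ} {h N : ℕ}

theorem ball_ok (hP : Par B k b h N) : BoxOk B (b - 1 - nr h) (B.y2 - nr h) (2 * nr h - 1)
    (nr h - 1) := by
  obtain ⟨h1, h2, h3, h4, h5, h6⟩ := hP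
  have a1 := nr_le h
  have a2 := nr_pos h2
  constructor <;> omega

theorem far_ok (hP : Par B k b h N) : BoxOk B k B.y1 (B.R - 1 - 2 * k).toNat (h - 1) := by
  obtain ⟨h1, h2, h3, h4, h5, h6⟩ := hP
  constructor <;> omega

theorem ball_sub (hP : Par B k b h N) : ballS B y0 b h ⊆ farS B y0 k h := by
  rintro t ⟨w, h1, h2⟩
  refine ⟨w, ?_, h2⟩
  obtain ⟨q1, q2, q3, q4, q5, q6⟩ := hP
  have a1 := nr_le h
  have a2 := nr_pos q2
  unfold InR at *
  omega

/-- the near gates are closed -/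
def nearG (hz : B.At p y0) (hP : Par B k b h N) : Set (TG → Bool) :=
  {s | (gate hz (a0 := 0) (a1 := k - 2) le_rfl (by have := hP.k2; omega)
        (by have := hP.k2; have := hP.bl; have := hP.br; omega)).Closed s ∧
      (gate hz (a0 := B.R - k) (a1 := B.R - 2)
        (by have := hP.k2; have := hP.bl; have := hP.br; omega) (by have := hP.k2; omega)
        (by omega)).Closed s}

/-- the inner gates are closed -/
def farG (hz : B.At p y0) (hP : Par B k b h N) : Set (TG → Bool) :=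
  {s | (gate hz (a0 := k - 1) (a1 := 2 * k - 2) (by have := hP.k2; omega)
        (by have := hP.k2; omega)
        (by have := hP.k2; have := hP.bl; have := hP.br; omega)).Closed s ∧
      (gate hz (a0 := B.R - 2 * k) (a1 := B.R - 1 - k)
        (by have := hP.k2; have := hP.bl; have := hP.br; omega) (by have := hP.k2; omega)
        (by have := hP.k2; omega)).Closed s}

theorem fld_SC (hz : B.At p y0) (hR : 2 < B.R) (s : TG → Bool) :
    fld (SC hz hR).C s = xg (fun v => s (se y0 v)) := by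
  unfold fld
  congr 1
  funext v
  show (!(xor (!false) (s (se y0 v)))) = s (se y0 v)
  cases s (se y0 v) <;> rfl

theorem Par.R2 (hP : Par B k b h N) : 2 < B.R := by
  obtain ⟨h1, h2, h3, h4, h5, h6⟩ := hP
  omega

/-- faces of both parities -/
theorem fp_rdp {g : TF} {Q : P2 → Prop} {F G : P2} : FP g Q F G ↔
    TP (fun t => Q t ∧ (if (F.1 + F.2) % 2 = 0 then xg g t else !xg g t) = true) F G := by
  by_cases hF : (F.1 + F.2) % 2 = 0
  · simp only [hF, if_true]
    exact fp_even hF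
  · simp only [hF, if_false, Bool.not_eq_true']
    exact fp_odd (by omega)

theorem f0_sub (hz : B.At p y0) (hP : Par B k b h N) :
    {s : TG → Bool | ¬ Over B p y0 b (ballS B y0 b h) s} ⊆
      rdp (SC hz hP.R2).C (b - 2, B.y2 - 1) (FArmD (b - 2, B.y2 - 1) (nr h)) := by
  intro s hs
  have a1 := nr_le h
  have a2 := nr_pos hP.h3
  have e1 : B.y2 - nr h + ((nr h - 1 : ℕ) : ℤ) = B.y2 - 1 := by omega
  obtain ⟨G, hG, hout⟩ := arm_of_not_over (ball_ok hP) hz (by omega) (by omega) hs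
  rw [e1] at hG
  rw [fp_rdp] at hG
  refine ⟨G, ?_, ?_⟩
  · refine hG.mono ?_
    rintro t ⟨h1, h2⟩
    refine ⟨?_, ?_⟩
    · unfold InR at h1
      unfold InB
      dsimp only
      omega
    · show (if (b - 2 + (B.y2 - 1)) % 2 = 0 then fld (SC hz hP.R2).C s t
        else !fld (SC hz hP.R2).C s t) = true
      rw [fld_SC]
      exact h2
  · unfold OutC at hout
    dsimp only
    omega

theorem nover_ball_le (hz : B.At p y0) (hP : Par B k b h N) :
    (PB fun _ : TG => hf).real {s : TG → Bool | ¬ Over B p y0 b (ballS B y0 b h) s} ≤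
      Pf (nr h) := by
  refine (measureReal_mono (f0_sub hz hP)).trans (le_of_eq ?_)
  rw [rdp_law _ _ (farmD_dep _ _), farmD_eq]
  intro t ht
  rw [mem_bxF] at ht
  rw [mem_SC]
  obtain ⟨q1, q2, q3, q4, q5, q6⟩ := hP
  have a1 := nr_le h
  unfold InB at ht
  dsimp only at ht
  omega

theorem win_sub (hz : B.At p y0) (hP : Par B k b h N) {x0 x1 : ℤ} (h0 : k - 1 ≤ x0)
    (h1 : x1 ≤ B.R - 1 - k) :
    rdp (SC hz hP.R2).C (b - 2, B.y2 - 1) (WinD (b - 2, B.y2 - 1) x0 x1 (B.y1 - 1)) ⊆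
      {s : TG → Bool | ¬ Over B p y0 b (farS B y0 k h) s} := by
  rintro s ⟨G, hG, hout⟩
  obtain ⟨q1, q2, q3, q4, q5, q6⟩ := hP
  have e1 : B.y1 + ((h - 1 : ℕ) : ℤ) = B.y2 - 1 := by omega
  refine not_over_of_path (G := G) (far_ok ⟨q1, q2, q3, q4, q5, q6⟩) hz (by omega) (by omega)
    (Or.inr (Or.inr hout)) ?_
  rw [e1, fp_rdp]
  refine hG.mono ?_
  rintro t ⟨h2, h3⟩
  refine ⟨?_, ?_⟩
  · unfold InB at h2
    unfold InR
    dsimp only at h2
    omega
  · have h3' : (if (b - 2 + (B.y2 - 1)) % 2 = 0 then fld (SC hz (Par.R2 ⟨q1, q2, q3, q4, q5, q6⟩)).C s t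
        else !fld (SC hz (Par.R2 ⟨q1, q2, q3, q4, q5, q6⟩)).C s t) = true := h3
    rw [fld_SC] at h3'
    exact h3'

end

end Crest.Agent.R158.Zc180
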