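import Crest.Agent.R158.Zc4_180

/-!
# Row 158 (helper180): strands over the far charge, 5: the decoupling of the strip

* `gates_le` : `P(some gate is not closed) ≤ 4 q ^ N`
* `far_ge` : `c P(no arc over b in the ball) ≤ P(no arc over b in the far rectangle, inner gates closed)`
* **`strip_main`** : pointwise hypotheses ⟹ `‖∫ val / P(F1 ∩ H) - ∫ V‖ ≤ v 4 q^N + (C/c) (4 q^N)^(1/2)`
-/

set_option autoImplicit false

noncomputable section

namespace Crest.Agent.R158.Zc180

open MeasureTheory ProbabilityTheory unitInterval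
open Crest.Agent.R161.Geo729
open Crest.Agent.R158.Rs689 hiding se sc
open Crest.Agent.R158.Mr679
open Crest.Agent.R158.Nm211 (DepF)
open Crest.Agent.R158.Env664
open Crest.Agent.R158.Zg180 (Gq se uc gate fld fld_law fld_dep fld_eq Gate gn gate_prob closed_dep)
open Crest.Agent.R158.Zb180 (FArmD WinD Pf farmD_dep winD_dep farmD_eq winD_ge ind ind_nonneg Dec2)

variable {A : Finset (ℤ × ℤ)} {B : Band A} {p y0 k b : ℤ} {h N : ℕ}

/-- columns of the chart as a set of tiles -/
def Cf (B : Band A) (y0 x0 x1 : ℤ) : Finset TG :=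
  (bxF x0 x1 (B.y1 - 1) (B.y2 - 1)).image (se y0)

theorem image_disj {y0 : ℤ} {S T : Finset P2} (h : Disjoint S T) :
    Disjoint (S.image (se y0)) (T.image (se y0)) := by
  rw [Finset.disjoint_left]
  rintro t h1 h2
  obtain ⟨v, hv, rfl⟩ := Finset.mem_image.1 h1
  obtain ⟨w, hw, e⟩ := Finset.mem_image.1 h2
  have := Zg180.se_inj e
  subst this
  exact Finset.disjoint_left.1 h hv hw

theorem near_dep (hz : B.At p y0) (hP : Par B k b h N) :
    Dep (Cf B y0 0 (k - 2) ∪ Cf B y0 (B.R - k) (B.R - 2)) (nearG hz hP) := by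
  have h1 := closed_dep (gate hz (a0 := 0) (a1 := k - 2) le_rfl (by have := hP.k2; omega)
        (by have := hP.k2; have := hP.bl; have := hP.br; omega))
  have h2 := closed_dep (gate hz (a0 := B.R - k) (a1 := B.R - 2)
        (by have := hP.k2; have := hP.bl; have := hP.br; omega) (by have := hP.k2; omega)
        (by omega))
  exact (h1.mono Finset.subset_union_left).inter (h2.mono Finset.subset_union_right)

theorem far_dep (hz : B.At p y0) (hP : Par B k b h N) :
    Dep (Cf B y0 (k - 1) (2 * k - 2) ∪ Cf B y0 (B.R - 2 * k) (B.R - 1 - k)) (farG hz hP) := by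
  have h1 := closed_dep (gate hz (a0 := k - 1) (a1 := 2 * k - 2) (by have := hP.k2; omega)
        (by have := hP.k2; omega)
        (by have := hP.k2; have := hP.bl; have := hP.br; omega))
  have h2 := closed_dep (gate hz (a0 := B.R - 2 * k) (a1 := B.R - 1 - k)
        (by have := hP.k2; have := hP.bl; have := hP.br; omega) (by have := hP.k2; omega)
        (by have := hP.k2; omega))
  exact (h1.mono Finset.subset_union_left).inter (h2.mono Finset.subset_union_right)

/-- constants of the gates -/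
theorem gates_le : ∃ q : ℝ, 0 < q ∧ q < 1 ∧ ∀ (A : Finset (ℤ × ℤ)) (B : Band A) (p y0 k b : ℤ)
    (h N : ℕ) (hz : B.At p y0) (hP : Par B k b h N),
    (PB fun _ : TG => hf).real (nearG hz hP)ᶜ ≤ 2 * q ^ N ∧
    (PB fun _ : TG => hf).real (farG hz hP)ᶜ ≤ 2 * q ^ N := by
  obtain ⟨q, hq, hq1, hg⟩ := gate_prob.{0}
  refine ⟨q, hq, hq1, fun A B p y0 k b h N hz hP => ?_⟩
  have hh := hP.hh
  have h3 := hP.h3
  have hk2 := hP.k2
  have hkN := hP.kN
  have key : ∀ (g1 g2 : Gate TG (Gq (B.beG p y0))), g1.y0 = B.y1 - 1 → g1.y1 = B.y2 - 1 →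
      g2.y0 = B.y1 - 1 → g2.y1 = B.y2 - 1 → g1.x0 + (k - 2) ≤ g1.x1 → g2.x0 + (k - 2) ≤ g2.x1 →
      (PB fun _ : TG => hf).real {s | g1.Closed s ∧ g2.Closed s}ᶜ ≤ 2 * q ^ N := by
    intro g1 g2 e1 e2 e3 e4 e5 e6
    have a1 := hg _ _ g1 h N (by omega) (by rw [e1, e2]; omega) (by linarith)
    have a2 := hg _ _ g2 h N (by omega) (by rw [e3, e4]; omega) (by linarith)
    have hsub : {s | g1.Closed s ∧ g2.Closed s}ᶜ ⊆ {s | ¬ g1.Closed s} ∪ {s | ¬ g2.Closed s} := by
      intro s hs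
      by_contra hcon
      simp only [Set.mem_union, not_or, Set.mem_ofPred_eq, not_not] at hcon
      exact hs hcon
    have a3 := (measureReal_mono (μ := PB fun _ : TG => hf) hsub).trans (measureReal_union_le _ _)
    linarith
  constructor
  · refine key _ _ rfl rfl rfl rfl ?_ ?_
    · show (0 : ℤ) + (k - 2) ≤ k - 2
      omega
    · show B.R - k + (k - 2) ≤ B.R - 2
      omega
  · refine key _ _ rfl rfl rfl rfl ?_ ?_
    · show k - 1 + (k - 2) ≤ 2 * k - 2
      omega
    · show B.R - 2 * k + (k - 2) ≤ B.R - 1 - k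
      omega

/-- the window event -/
def winE (hz : B.At p y0) (hP : Par B k b h N) : Set (TG → Bool) :=
  rdp (SC hz hP.R2).C (b - 2, B.y2 - 1) (WinD (b - 2, B.y2 - 1) (2 * k - 2) (B.R - 2 * k) (B.y1 - 1))

theorem winE_dep (hz : B.At p y0) (hP : Par B k b h N) :
    Dep (Cf B y0 (2 * k - 2) (B.R - 2 * k)) (winE hz hP) := by
  have h1 := winD_dep (b - 2, B.y2 - 1) (2 * k - 2) (B.R - 2 * k) (B.y1 - 1)
  dsimp only at h1
  have h2 := rdp_dep (SC hz hP.R2).C (b - 2, B.y2 - 1) h1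
  exact h2

theorem winE_law (hz : B.At p y0) (hP : Par B k b h N) :
    (PB fun _ : TG => hf).real (winE hz hP) =
      (tau hf).real (WinD (b - 2, B.y2 - 1) (2 * k - 2) (B.R - 2 * k) (B.y1 - 1)) := by
  refine rdp_law _ _ (winD_dep _ _ _ _) ?_
  intro t ht
  have hk2 := hP.k2
  rw [mem_bxF] at ht
  rw [mem_SC]
  unfold InB at ht
  dsimp only at ht
  omega

theorem win_far_disj : Disjoint (Cf B y0 (2 * k - 2) (B.R - 2 * k))
      (Cf B y0 (k - 1) (2 * k - 2) ∪ Cf B y0 (B.R - 2 * k) (B.R - 1 - k)) := by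
  rw [Finset.disjoint_union_right]
  constructor <;> refine image_disj (Finset.disjoint_left.2 fun t h4 h5 => ?_) <;>
    rw [mem_bxF] at h4 h5 <;> unfold InB at h4 h5 <;> omega

theorem win_far (hz : B.At p y0) (hP : Par B k b h N) :
    winE hz hP ∩ farG hz hP ⊆
      {s : TG → Bool | ¬ Over B p y0 b (farS B y0 k h) s} ∩ farG hz hP :=
  Set.inter_subset_inter_left _ (win_sub hz hP (by have := hP.k2; omega)
    (by have := hP.k2; omega))

theorem win_prob : ∃ c : ℝ, 0 < c ∧ ∀ (A : Finset (ℤ × ℤ)) (B : Band A) (k b : ℤ)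
    (h N : ℕ) (_ : Par B k b h N), c * Pf (nr h) ≤
      (tau hf).real (WinD (b - 2, B.y2 - 1) (2 * k - 2) (B.R - 2 * k) (B.y1 - 1)) := by
  obtain ⟨c, hc, hc1, hw⟩ := winD_ge 5
  refine ⟨c, hc, fun A B k b h N hP => ?_⟩
  have hh := hP.hh
  have h3 := hP.h3
  have hk2 := hP.k2
  have hbl := hP.bl
  have hbr := hP.br
  have := hw (h / 3) (by omega) (b - 2, B.y2 - 1) (2 * k - 2) (B.R - 2 * k) (B.y1 - 1)
    (by dsimp only; omega) (by dsimp only; omega) (by dsimp only; omega) (by dsimp only; omega)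
  have e : (nr h : ℤ) = 3 * ((h / 3 : ℕ) : ℤ) := by unfold nr; push_cast; ring
  rw [e]
  exact this

/-- **(Z) for the strip** -/
theorem far_ge : ∃ c : ℝ, 0 < c ∧ ∀ (A : Finset (ℤ × ℤ)) (B : Band A) (p y0 k b : ℤ)
    (h N : ℕ) (hz : B.At p y0) (hP : Par B k b h N),
    (PB fun _ : TG => hf).real (farG hz hP)ᶜ ≤ 1 / 2 →
    c * Pf (nr h) ≤ (PB fun _ : TG => hf).real
      ({s : TG → Bool | ¬ Over B p y0 b (farS B y0 k h) s} ∩ farG hz hP) := by
  obtain ⟨c, hc, hw⟩ := win_prob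
  refine ⟨c / 2, by positivity, fun A B p y0 k b h N hz hP hH => ?_⟩
  have h1 := hw A B k b h N hP
  have h4 := PB_indep_real (fun _ : TG => hf) win_far_disj (winE_dep hz hP) (far_dep hz hP)
  have h5 := probReal_compl_eq_one_sub (μ := PB fun _ : TG => hf) (far_dep hz hP).measurableSet
  refine le_trans ?_ (measureReal_mono (win_far hz hP))
  rw [h4, winE_law]
  rw [h5] at hH
  generalize (PB fun _ : TG => hf).real (farG hz hP) = x at *
  generalize (tau hf).real (WinD (b - 2, B.y2 - 1) (2 * k - 2) (B.R - 2 * k) (B.y1 - 1)) = y at *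
  have h7 : 0 ≤ c * Pf (nr h) := mul_nonneg hc.le (Zb180.Pf_nonneg _)
  nlinarith

end Crest.Agent.R158.Zc180
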