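import Crest.Agent.R158.Rs2_689
import Crest.Agent.R161.Perc_374

/-!
# Row 158, Block Z (helper96), part 1: crossings of rectangles

* `Cn z S a b` : open connection inside the vertex set `S`
* `HX x0 x1 y0 y1`, `VX x0 x1 y0 y1` : left-right / bottom-top crossing of a rectangle
* `ext_h`, `ext_v` : extraction of crossings from connections
* `cn_cross` : two crossing connections meet
-/

set_option autoImplicit false

noncomputable section

namespace Crest.Agent.R158.Ze96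

open MeasureTheory unitInterval
open Crest.Agent.R161.Geo729 Crest.Agent.R161.Topo374 Crest.Agent.R161.Dual374
open Crest.Agent.R158.Rs689
open Crest.Agent.R161.Perc374 (Rc)

/-- open step -/
abbrev Os (z : Cfz) (u v : P2) : Prop := PStep (fun e => z e = true) u v

/-- open step inside a vertex set -/
def Sp (z : Cfz) (S : Set P2) (u v : P2) : Prop := Os z u v ∧ u ∈ S ∧ v ∈ S

/-- open connection inside a vertex set -/
def Cn (z : Cfz) (S : Set P2) (a b : P2) : Prop := Relation.ReflTransGen (Sp z S) a b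

theorem rtg_mono {α : Type*} {r s : α → α → Prop} (h : ∀ a b, r a b → s a b) {a b : α}
    (hab : Relation.ReflTransGen r a b) : Relation.ReflTransGen s a b := by
  induction hab with
  | refl => exact Relation.ReflTransGen.refl
  | tail _ h2 ih => exact ih.tail (h _ _ h2)

theorem pstep_nbr {Z : Edge → Prop} {u v : P2} (h : PStep Z u v) : Nbr u v := by
  obtain ⟨e, -, h⟩ := h
  exact nbr_iff.2 ⟨e, h⟩

theorem Sp.symm {z : Cfz} {S : Set P2} {u v : P2} (h : Sp z S u v) : Sp z S v u :=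
  ⟨h.1.symm, h.2.2, h.2.1⟩

theorem Cn.refl {z : Cfz} {S : Set P2} (a : P2) : Cn z S a a := Relation.ReflTransGen.refl

theorem Cn.trans {z : Cfz} {S : Set P2} {a b c : P2} (h : Cn z S a b) (h' : Cn z S b c) :
    Cn z S a c := Relation.ReflTransGen.trans h h'

theorem Cn.symm {z : Cfz} {S : Set P2} {a b : P2} (h : Cn z S a b) : Cn z S b a := by
  induction h with
  | refl => exact Relation.ReflTransGen.refl
  | tail _ h2 ih => exact Relation.ReflTransGen.head h2.symm ih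

theorem Cn.mono {z : Cfz} {S T : Set P2} (hST : S ⊆ T) {a b : P2} (h : Cn z S a b) :
    Cn z T a b :=
  rtg_mono (fun _ _ h => ⟨h.1, hST h.2.1, hST h.2.2⟩) h

theorem Cn.mono_z {z z' : Cfz} (hz : ∀ e, z e = true → z' e = true) {S : Set P2} {a b : P2}
    (h : Cn z S a b) : Cn z' S a b :=
  rtg_mono (fun _ _ ⟨⟨e, he, h1⟩, h2⟩ => ⟨⟨e, hz e he, h1⟩, h2⟩) h

theorem Cn.right {z : Cfz} {S : Set P2} {a b : P2} (h : Cn z S a b) (ha : a ∈ S) : b ∈ S := by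
  induction h with
  | refl => exact ha
  | tail _ h2 _ => exact h2.2.2

/-- connection inside a set: all vertices of the path are reached -/
theorem Cn.self {z : Cfz} {S : Set P2} {a b : P2} (h : Cn z S a b) :
    Cn z {w | Cn z S a w} a b := by
  induction h with
  | refl => exact Relation.ReflTransGen.refl
  | tail h1 h2 ih => exact ih.tail ⟨h2.1, h1, h1.tail h2⟩

theorem Cn.rch {z : Cfz} {S : Set P2} {a b : P2} (h : Cn z S a b) : Rch z a b :=
  rtg_mono (fun _ _ h => h.1) h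

theorem cn_univ {z : Cfz} {a b : P2} : Cn z Set.univ a b ↔ Rch z a b :=
  ⟨Cn.rch, fun h => rtg_mono (fun _ _ h => ⟨h, trivial, trivial⟩) h⟩

theorem Cn.walk {z : Cfz} {S : Set P2} {a b : P2} (h : Cn z S a b) :
    Walk {w | Cn z S a w} a b := by
  refine ⟨Cn.refl a, ?_⟩
  have h' := h.self
  exact rtg_mono (fun u v h => ⟨pstep_nbr h.1, h.2⟩) h'

/-- **Crossing connections meet.** -/
theorem cn_cross {z : Cfz} {S1 S2 : Set P2} {a b p q : P2} (h1 : Cn z S1 a b) (h2 : Cn z S2 p q)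
    (ha : a ∈ S1) (hp : p ∈ S2)
    (hy : ∀ w ∈ S1, p.2 ≤ w.2 ∧ w.2 ≤ q.2) (hx : ∀ w ∈ S2, a.1 ≤ w.1 ∧ w.1 ≤ b.1) :
    ∃ w, Cn z S1 a w ∧ Cn z S2 p w := by
  obtain ⟨w, hw1, hw2⟩ := cross h1.walk h2.walk (fun w hw => hy w (Cn.right hw ha))
    (fun w hw => hx w (Cn.right hw hp))
  exact ⟨w, hw1, hw2⟩

/-! ### crossings -/

/-- left-right crossing of the rectangle by open edges -/
def HX (x0 x1 y0 y1 : ℤ) : Set Cfz :=
  {z | ∃ a b : P2, a.1 = x0 ∧ y0 ≤ a.2 ∧ a.2 ≤ y1 ∧ b.1 = x1 ∧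
    Relation.ReflTransGen (PStep (fun e => z e = true ∧ RE x0 x1 y0 y1 e)) a b}

theorem re_src {x0 x1 y0 y1 : ℤ} {e : Edge} (h : RE x0 x1 y0 y1 e) :
    src e ∈ Rc x0 x1 y0 y1 ∧ tgt e ∈ Rc x0 x1 y0 y1 := by
  obtain ⟨⟨ex, ey⟩, c⟩ := e
  unfold RE at h
  cases c <;> simp [Rc] at h ⊢ <;> omega

theorem hx_cn {z : Cfz} {x0 x1 y0 y1 : ℤ} (hx : x0 ≤ x1) (h : z ∈ HX x0 x1 y0 y1) :
    ∃ a b : P2, a.1 = x0 ∧ b.1 = x1 ∧ a ∈ Rc x0 x1 y0 y1 ∧ b ∈ Rc x0 x1 y0 y1 ∧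
      Cn z (Rc x0 x1 y0 y1) a b := by
  obtain ⟨a, b, h1, h2, h3, h4, h5⟩ := h
  have ha : a ∈ Rc x0 x1 y0 y1 := ⟨h1.ge, h1.le.trans hx, h2, h3⟩
  have h6 : Cn z (Rc x0 x1 y0 y1) a b := by
    refine rtg_mono (fun u v h => ?_) h5
    obtain ⟨e, ⟨he1, he2⟩, h⟩ := h
    refine ⟨⟨e, he1, h⟩, ?_⟩
    obtain ⟨h7, h8⟩ := re_src he2
    rcases h with ⟨rfl, rfl⟩ | ⟨rfl, rfl⟩
    · exact ⟨h7, h8⟩
    · exact ⟨h8, h7⟩
  exact ⟨a, b, h1, h4, ha, h6.right ha, h6⟩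

/-- **Extraction of a left-right crossing.** -/
theorem ext_h {z : Cfz} {S : Set P2} {a b : P2} {x0 x1 y0 y1 : ℤ} (h : Cn z S a b)
    (hS : ∀ v ∈ S, y0 ≤ v.2 ∧ v.2 ≤ y1) (ha : a.1 ≤ x0) (hb : x1 ≤ b.1) (hx : x0 < x1) :
    z ∈ HX x0 x1 y0 y1 := by
  have key : ∀ w, Cn z S a w → (w.1 ≤ x0) ∨ (x0 < w.1 ∧ w.1 < x1 ∧ ∃ a' : P2, a'.1 = x0 ∧
      y0 ≤ a'.2 ∧ a'.2 ≤ y1 ∧
      Relation.ReflTransGen (PStep (fun e => z e = true ∧ RE x0 x1 y0 y1 e)) a' w) ∨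
      z ∈ HX x0 x1 y0 y1 := by
    intro w hw
    induction hw with
    | refl => exact Or.inl ha
    | @tail u w h1 h2 ih =>
      obtain ⟨⟨e, he, h3⟩, hu, hw⟩ := h2
      have hu' := hS u hu
      have hw' := hS w hw
      rcases ih with ih | ⟨h4, h5, a', h6, h7, h8, h9⟩ | ih
      · by_cases hwx : w.1 ≤ x0
        · exact Or.inl hwx
        right
        obtain ⟨⟨ex, ey⟩, c⟩ := e
        obtain ⟨ux, uy⟩ := u
        obtain ⟨wx, wy⟩ := w
        have h10 : ux = x0 ∧ wx = x0 + 1 ∧ uy = wy ∧ c = false ∧ ex = ux ∧ ey = uy := by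
          cases c <;> rcases h3 with ⟨h3, h3'⟩ | ⟨h3, h3'⟩ <;>
            simp only [src_mk, tgt_h, tgt_v, Prod.mk.injEq] at h3 h3' ih hwx ⊢ <;>
            refine ⟨?_, ?_, ?_, ?_, ?_, ?_⟩ <;> first | omega | rfl | trivial
        obtain ⟨rfl, rfl, rfl, rfl, rfl, rfl⟩ := h10
        simp only at hu' hw'
        have h11 : PStep (fun e => z e = true ∧ RE ex x1 y0 y1 e) (ex, ey) (ex + 1, ey) :=
          ⟨((ex, ey), false), ⟨he, Or.inl ⟨rfl, le_refl _, hx, hu'.1, hu'.2⟩⟩, Or.inl ⟨rfl, rfl⟩⟩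
        by_cases hw1 : ex + 1 < x1
        · left
          exact ⟨by simp, hw1, (ex, ey), rfl, hu'.1, hu'.2, .single h11⟩
        · right
          exact ⟨(ex, ey), (ex + 1, ey), rfl, hu'.1, hu'.2, by simp only; omega, .single h11⟩
      · by_cases hwx : w.1 ≤ x0
        · exact Or.inl hwx
        right
        have h10 : RE x0 x1 y0 y1 e := by
          obtain ⟨⟨ex, ey⟩, c⟩ := e
          obtain ⟨ux, uy⟩ := u
          obtain ⟨wx, wy⟩ := w
          unfold RE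
          cases c <;> rcases h3 with ⟨h3, h3'⟩ | ⟨h3, h3'⟩ <;>
            simp only [src_mk, tgt_h, tgt_v, Prod.mk.injEq] at h3 h3' h4 h5 hwx hu' hw' ⊢ <;>
            simp <;> omega
        have h11 : PStep (fun e => z e = true ∧ RE x0 x1 y0 y1 e) u w := ⟨e, ⟨he, h10⟩, h3⟩
        by_cases hw1 : w.1 < x1
        · left
          exact ⟨by omega, hw1, a', h6, h7, h8, h9.tail h11⟩
        · right
          refine ⟨a', w, h6, h7, h8, ?_, h9.tail h11⟩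
          have := pstep_nbr h11
          unfold Nbr at this
          omega
      · exact Or.inr (Or.inr ih)
  rcases key b h with h1 | ⟨h1, h2, -⟩ | h1
  · omega
  · omega
  · exact h1

/-- the crossing of a smaller width rectangle contained in a wide one -/
theorem hx_sub {x0 x1 y0 y1 X0 X1 Y0 Y1 : ℤ} (h0 : X0 ≤ x0) (h1 : x0 < x1) (h2 : x1 ≤ X1)
    (h3 : y0 ≤ Y0) (h4 : Y1 ≤ y1) : HX X0 X1 Y0 Y1 ⊆ HX x0 x1 y0 y1 := by
  intro z hz
  obtain ⟨a, b, ha, hb, ha', hb', h⟩ := hx_cn (by omega) hz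
  exact ext_h h (fun v hv => ⟨h3.trans hv.2.2.1, hv.2.2.2.trans h4⟩) (by omega) (by omega) h1

/-! ### dependence -/

/-- edges of `RE` as a finset -/
def REf (x0 x1 y0 y1 : ℤ) : Finset Edge := by
  classical
  exact ((Finset.Icc x0 x1 ×ˢ Finset.Icc y0 y1) ×ˢ Finset.univ).filter (RE x0 x1 y0 y1)

theorem mem_REf {x0 x1 y0 y1 : ℤ} {e : Edge} : e ∈ REf x0 x1 y0 y1 ↔ RE x0 x1 y0 y1 e := by
  classical
  unfold REf
  simp only [Finset.mem_filter, Finset.mem_product, Finset.mem_Icc, Finset.mem_univ, and_true,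
    and_iff_right_iff_imp]
  intro h
  have h1 := (re_src h).1
  simp only [src, Rc, Set.mem_ofPred_eq] at h1
  omega

theorem dep_HX (x0 x1 y0 y1 : ℤ) : Dep (REf x0 x1 y0 y1) (HX x0 x1 y0 y1) := by
  intro z z' h
  have h1 : (fun e => z e = true ∧ RE x0 x1 y0 y1 e) = fun e => z' e = true ∧ RE x0 x1 y0 y1 e := by
    funext e
    by_cases he : RE x0 x1 y0 y1 e
    · rw [h e (mem_REf.2 he)]
    · simp [he]
  unfold HX
  simp only [Set.mem_ofPred_eq, h1]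

theorem inc_HX (x0 x1 y0 y1 : ℤ) : Inc (HX x0 x1 y0 y1) := by
  rintro z z' h ⟨a, b, h1, h2, h3, h4, h5⟩
  refine ⟨a, b, h1, h2, h3, h4, ?_⟩
  exact rtg_mono (fun u v ⟨e, he, h6⟩ => ⟨e, ⟨h e he.1, he.2⟩, h6⟩) h5

theorem meas_HX (x0 x1 y0 y1 : ℤ) : MeasurableSet (HX x0 x1 y0 y1) :=
  (dep_HX x0 x1 y0 y1).measurableSet

/-! ### symmetries -/

/-- a symmetry of the lattice: a map on vertices and on edges -/
structure LS where
  f : P2 → P2
  E : Edge ≃ Edge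
  st : ∀ e, (src (E e) = f (src e) ∧ tgt (E e) = f (tgt e)) ∨
    (src (E e) = f (tgt e) ∧ tgt (E e) = f (src e))

/-- action on configurations: `(g • z) (E e) = z e` -/
def LS.act (g : LS) (z : Cfz) : Cfz := fun e => z (g.E.symm e)

theorem LS.act_E (g : LS) (z : Cfz) (e : Edge) : g.act z (g.E e) = z e := by simp [LS.act]

theorem LS.step (g : LS) {Z : Edge → Prop} {Z' : Edge → Prop} (hZ : ∀ e, Z e → Z' (g.E e))
    {u v : P2} (h : PStep Z u v) : PStep Z' (g.f u) (g.f v) := by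
  obtain ⟨e, he, h⟩ := h
  refine ⟨g.E e, hZ e he, ?_⟩
  rcases g.st e with ⟨h1, h2⟩ | ⟨h1, h2⟩ <;> rcases h with ⟨rfl, rfl⟩ | ⟨rfl, rfl⟩
  · exact Or.inl ⟨h1.symm, h2.symm⟩
  · exact Or.inr ⟨h2.symm, h1.symm⟩
  · exact Or.inr ⟨h2.symm, h1.symm⟩
  · exact Or.inl ⟨h1.symm, h2.symm⟩

theorem LS.rtg (g : LS) {Z : Edge → Prop} {Z' : Edge → Prop} (hZ : ∀ e, Z e → Z' (g.E e))
    {u v : P2} (h : Relation.ReflTransGen (PStep Z) u v) :
    Relation.ReflTransGen (PStep Z') (g.f u) (g.f v) := by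
  induction h with
  | refl => exact Relation.ReflTransGen.refl
  | tail _ h2 ih => exact ih.tail (g.step hZ h2)

theorem LS.cn (g : LS) {z : Cfz} {S T : Set P2} (hST : ∀ v ∈ S, g.f v ∈ T) {u v : P2}
    (h : Cn z S u v) : Cn (g.act z) T (g.f u) (g.f v) := by
  induction h with
  | refl => exact Relation.ReflTransGen.refl
  | tail _ h2 ih =>
    exact ih.tail ⟨g.step (fun e he => by rw [g.act_E]; exact he) h2.1, hST _ h2.2.1,
      hST _ h2.2.2⟩

theorem LS.map (g : LS) (p : I) : (PB fun _ : Edge => p).map g.act = PB fun _ : Edge => p :=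
  PB_map_equiv g.E (fun _ => p)

theorem LS.meas (g : LS) : Measurable g.act :=
  measurable_pi_lambda _ fun _ => measurable_pi_apply _

theorem LS.real (g : LS) (p : I) {A : Set Cfz} (hA : MeasurableSet A) :
    (PB fun _ : Edge => p).real (g.act ⁻¹' A) = (PB fun _ : Edge => p).real A := by
  conv_rhs => rw [← g.map p]
  rw [measureReal_def, measureReal_def, Measure.map_apply g.meas hA]

/-- translation -/
def tL (s t : ℤ) : LS where
  f v := (v.1 + s, v.2 + t)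
  E := { toFun := fun e => ((e.1.1 + s, e.1.2 + t), e.2)
         invFun := fun e => ((e.1.1 - s, e.1.2 - t), e.2)
         left_inv := by rintro ⟨⟨a, b⟩, c⟩; simp
         right_inv := by rintro ⟨⟨a, b⟩, c⟩; simp }
  st := by
    rintro ⟨⟨a, b⟩, c⟩
    left
    cases c <;> simp <;> ring

/-- exchange of the coordinates -/
def sL : LS where
  f v := (v.2, v.1)
  E := { toFun := fun e => ((e.1.2, e.1.1), !e.2)
         invFun := fun e => ((e.1.2, e.1.1), !e.2)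
         left_inv := by rintro ⟨⟨a, b⟩, c⟩; simp
         right_inv := by rintro ⟨⟨a, b⟩, c⟩; simp }
  st := by
    rintro ⟨⟨a, b⟩, c⟩
    left
    cases c <;> simp

/-- reflection of the first coordinate -/
def rL : LS where
  f v := (-v.1, v.2)
  E := { toFun := fun e => if e.2 then ((-e.1.1, e.1.2), true) else ((-e.1.1 - 1, e.1.2), false)
         invFun := fun e => if e.2 then ((-e.1.1, e.1.2), true) else ((-e.1.1 - 1, e.1.2), false)
         left_inv := by rintro ⟨⟨a, b⟩, c⟩; cases c <;> simp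
         right_inv := by rintro ⟨⟨a, b⟩, c⟩; cases c <;> simp }
  st := by
    rintro ⟨⟨a, b⟩, c⟩
    cases c
    · right
      simp
      ring
    · left
      simp

/-- translated crossings -/
theorem hx_tr (s t x0 x1 y0 y1 : ℤ) {z : Cfz} :
    (tL s t).act z ∈ HX (x0 + s) (x1 + s) (y0 + t) (y1 + t) ↔ z ∈ HX x0 x1 y0 y1 := by
  have aux : ∀ (s t x0 x1 y0 y1 : ℤ) (z : Cfz), z ∈ HX x0 x1 y0 y1 →
      (tL s t).act z ∈ HX (x0 + s) (x1 + s) (y0 + t) (y1 + t) := by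
    rintro s t x0 x1 y0 y1 z ⟨a, b, h1, h2, h3, h4, h5⟩
    refine ⟨(tL s t).f a, (tL s t).f b, by simp [tL, h1], by simp [tL, h2], by simp [tL, h3],
      by simp [tL, h4], (tL s t).rtg (fun e he => ⟨?_, ?_⟩) h5⟩
    · rw [LS.act_E]; exact he.1
    · obtain ⟨⟨ex, ey⟩, c⟩ := e
      have := he.2
      unfold RE at this ⊢
      simp only [tL, Equiv.coe_fn_mk] at this ⊢
      cases c <;> simp at this ⊢ <;> omega
  constructor
  · intro h
    have h1 := aux (-s) (-t) _ _ _ _ _ h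
    have h2 : (tL (-s) (-t)).act ((tL s t).act z) = z := by
      funext e
      simp only [LS.act, tL, Equiv.coe_fn_symm_mk]
      congr 1
      obtain ⟨⟨a, b⟩, c⟩ := e
      simp
    rw [h2] at h1
    have h3 : x0 + s + -s = x0 := by ring
    have h4 : x1 + s + -s = x1 := by ring
    have h5 : y0 + t + -t = y0 := by ring
    have h6 : y1 + t + -t = y1 := by ring
    rwa [h3, h4, h5, h6] at h1
  · exact aux s t x0 x1 y0 y1 z

/-- probability of a crossing event -/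
abbrev Pr (p : I) (A : Set Cfz) : ℝ := (PB fun _ : Edge => p).real A

theorem pr_hx_tr (p : I) (s t x0 x1 y0 y1 : ℤ) :
    Pr p (HX (x0 + s) (x1 + s) (y0 + t) (y1 + t)) = Pr p (HX x0 x1 y0 y1) := by
  have h := (tL s t).real p (meas_HX (x0 + s) (x1 + s) (y0 + t) (y1 + t))
  have h2 : (tL s t).act ⁻¹' HX (x0 + s) (x1 + s) (y0 + t) (y1 + t) = HX x0 x1 y0 y1 := by
    ext z
    exact hx_tr s t x0 x1 y0 y1
  rw [h2] at h
  exact h.symm

theorem pr_hx_eq (p : I) {x0 x1 y0 y1 X0 X1 Y0 Y1 : ℤ} (h1 : X1 - X0 = x1 - x0)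
    (h2 : Y1 - Y0 = y1 - y0) : Pr p (HX X0 X1 Y0 Y1) = Pr p (HX x0 x1 y0 y1) := by
  have := pr_hx_tr p (X0 - x0) (Y0 - y0) x0 x1 y0 y1
  rw [← this]
  congr 2 <;> omega

/-- bottom-top crossing -/
def VX (x0 x1 y0 y1 : ℤ) : Set Cfz := sL.act ⁻¹' HX y0 y1 x0 x1

theorem meas_VX (x0 x1 y0 y1 : ℤ) : MeasurableSet (VX x0 x1 y0 y1) :=
  sL.meas (meas_HX _ _ _ _)

theorem pr_VX (p : I) (x0 x1 y0 y1 : ℤ) : Pr p (VX x0 x1 y0 y1) = Pr p (HX y0 y1 x0 x1) :=
  sL.real p (meas_HX _ _ _ _)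

theorem sL_sL (z : Cfz) : sL.act (sL.act z) = z := by
  funext e
  simp only [LS.act, sL, Equiv.coe_fn_symm_mk]
  congr 1
  obtain ⟨⟨a, b⟩, c⟩ := e
  simp

theorem vx_cn {z : Cfz} {x0 x1 y0 y1 : ℤ} (hy : y0 ≤ y1) (h : z ∈ VX x0 x1 y0 y1) :
    ∃ a b : P2, a.2 = y0 ∧ b.2 = y1 ∧ a ∈ Rc x0 x1 y0 y1 ∧ b ∈ Rc x0 x1 y0 y1 ∧
      Cn z (Rc x0 x1 y0 y1) a b := by
  obtain ⟨a, b, h1, h2, h3, h4, h5⟩ := hx_cn hy h
  have h6 := sL.cn (T := Rc x0 x1 y0 y1) (fun v hv => by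
    simp only [sL, Rc, Set.mem_ofPred_eq] at hv ⊢; omega) h5
  rw [sL_sL] at h6
  refine ⟨sL.f a, sL.f b, h1, h2, ?_, ?_, h6⟩
  · simp only [sL, Rc, Set.mem_ofPred_eq] at h3 ⊢; omega
  · simp only [sL, Rc, Set.mem_ofPred_eq] at h4 ⊢; omega

/-- **Extraction of a bottom-top crossing.** -/
theorem ext_v {z : Cfz} {S : Set P2} {a b : P2} {x0 x1 y0 y1 : ℤ} (h : Cn z S a b)
    (hS : ∀ v ∈ S, x0 ≤ v.1 ∧ v.1 ≤ x1) (ha : a.2 ≤ y0) (hb : y1 ≤ b.2) (hy : y0 < y1) :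
    z ∈ VX x0 x1 y0 y1 := by
  have h1 := sL.cn (T := {v | (v.2, v.1) ∈ S}) (fun v hv => hv) h
  exact ext_h h1 (fun v hv => hS (v.2, v.1) hv) ha hb hy

theorem inc_VX (x0 x1 y0 y1 : ℤ) : Inc (VX x0 x1 y0 y1) := by
  intro z z' h hz
  exact inc_HX _ _ _ _ _ _ (fun e he => h _ he) hz

/-- edges of `VX` -/
def REv (x0 x1 y0 y1 : ℤ) : Finset Edge := (REf y0 y1 x0 x1).map sL.E.toEmbedding

theorem dep_VX (x0 x1 y0 y1 : ℤ) : Dep (REv x0 x1 y0 y1) (VX x0 x1 y0 y1) := by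
  intro z z' h
  refine dep_HX y0 y1 x0 x1 _ _ fun e he => ?_
  refine h _ ?_
  unfold REv
  rw [Finset.mem_map]
  refine ⟨e, he, ?_⟩
  obtain ⟨⟨a, b⟩, c⟩ := e
  simp [sL]

end Crest.Agent.R158.Ze96
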