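import Crest.Agent.R158.Ze1_96
import Crest.Agent.R158.FrDef_158
import Crest.Agent.R158.Rs3_689

/-!
# Row 158, Block Z (helper96), part 2: renormalisation, exponential decay

* `Q p n` : probability of the easy crossing of `[0,n] × [0,3n]`
* `Q_two` : `Q p (2n) ≤ 64 (Q p n)²`
* `Q_pow` : `Q p (2^j M) ≤ exp(-2^(j+1)) / 64` if `Q p M ≤ 1/500`
* `arm_decay` : `P(0 ↔ Out R) ≤ exp(-R/(2M))` for `R ≥ 2M`
-/

set_option autoImplicit false

noncomputable section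

namespace Crest.Agent.R158.Ze96

open MeasureTheory unitInterval
open Crest.Agent.R161.Geo729 Crest.Agent.R161.Topo374 Crest.Agent.R161.Dual374
open Crest.Agent.R158.Rs689
open Crest.Agent.R161.Perc374 (Rc)

theorem Pr_nonneg (p : I) (A : Set Cfz) : 0 ≤ Pr p A := measureReal_nonneg

theorem Pr_mono (p : I) {A B : Set Cfz} (h : A ⊆ B) : Pr p A ≤ Pr p B :=
  measureReal_mono h

theorem Pr_union_le (p : I) (A B : Set Cfz) : Pr p (A ∪ B) ≤ Pr p A + Pr p B :=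
  measureReal_union_le A B

/-- easy crossing probability -/
def Q (p : I) (n : ℤ) : ℝ := Pr p (HX 0 n 0 (3 * n))

theorem Q_nonneg (p : I) (n : ℤ) : 0 ≤ Q p n := Pr_nonneg _ _

/-- **Windows.** -/
theorem windows {n : ℤ} (hn : 1 ≤ n) {z : Cfz} (h : z ∈ HX 0 n 0 (6 * n)) :
    (z ∈ HX 0 n 0 (3 * n) ∨ z ∈ HX 0 n n (4 * n) ∨ z ∈ HX 0 n (2 * n) (5 * n) ∨
      z ∈ HX 0 n (3 * n) (6 * n)) ∨
    (z ∈ VX 0 n n (2 * n) ∨ z ∈ VX 0 n (2 * n) (3 * n) ∨ z ∈ VX 0 n (3 * n) (4 * n) ∨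
      z ∈ VX 0 n (4 * n) (5 * n)) := by
  obtain ⟨a, b, ha, hb, ha', hb', h⟩ := hx_cn (by omega) h
  by_contra hcon
  push Not at hcon
  obtain ⟨⟨w0, w1, w2, w3⟩, v1, v2, v3, v4⟩ := hcon
  have hS : ∀ v ∈ Rc 0 n 0 (6 * n), 0 ≤ v.1 ∧ v.1 ≤ n := fun v hv => ⟨hv.1, hv.2.1⟩
  have up : ∀ y0 y1 : ℤ, y0 < y1 → a.2 ≤ y0 → z ∉ VX 0 n y0 y1 →
      ∀ w, Cn z (Rc 0 n 0 (6 * n)) a w → w.2 < y1 := by
    intro y0 y1 hy h1 h2 w hw
    by_contra h3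
    exact h2 (ext_v hw hS h1 (by omega) hy)
  have dn : ∀ y0 y1 : ℤ, y0 < y1 → y1 ≤ a.2 → z ∉ VX 0 n y0 y1 →
      ∀ w, Cn z (Rc 0 n 0 (6 * n)) a w → y0 < w.2 := by
    intro y0 y1 hy h1 h2 w hw
    by_contra h3
    exact h2 (ext_v hw.symm hS (by omega) h1 hy)
  have fin : ∀ y0 y1 : ℤ, (∀ w, Cn z (Rc 0 n 0 (6 * n)) a w → y0 ≤ w.2 ∧ w.2 ≤ y1) →
      z ∈ HX 0 n y0 y1 := by
    intro y0 y1 h1
    exact ext_h h.self (fun v hv => h1 v hv) (by omega) (by omega) (by omega)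
  have hr : ∀ w, Cn z (Rc 0 n 0 (6 * n)) a w → 0 ≤ w.2 ∧ w.2 ≤ 6 * n :=
    fun w hw => ⟨(hw.right ha').2.2.1, (hw.right ha').2.2.2⟩
  by_cases c1 : a.2 ≤ 2 * n
  · refine w0 (fin _ _ fun w hw => ⟨(hr w hw).1, ?_⟩)
    have := up _ _ (by omega) c1 v2 w hw
    omega
  by_cases c2 : a.2 ≤ 3 * n
  · refine w1 (fin _ _ fun w hw => ?_)
    have h1 := up _ _ (by omega) c2 v3 w hw
    have h2 := dn _ _ (by omega) (by omega) v1 w hw
    omega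
  by_cases c3 : a.2 ≤ 4 * n
  · refine w2 (fin _ _ fun w hw => ?_)
    have h1 := up _ _ (by omega) c3 v4 w hw
    have h2 := dn _ _ (by omega) (by omega) v2 w hw
    omega
  · refine w3 (fin _ _ fun w hw => ?_)
    have h2 := dn _ _ (by omega) (by omega) v3 w hw
    have h3 := hr w hw
    omega

theorem pr_six (p : I) {n : ℤ} (hn : 1 ≤ n) : Pr p (HX 0 n 0 (6 * n)) ≤ 8 * Q p n := by
  have h1 : HX 0 n 0 (6 * n) ⊆
      (HX 0 n 0 (3 * n) ∪ (HX 0 n n (4 * n) ∪ (HX 0 n (2 * n) (5 * n) ∪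
        HX 0 n (3 * n) (6 * n)))) ∪
      (VX 0 n n (2 * n) ∪ (VX 0 n (2 * n) (3 * n) ∪ (VX 0 n (3 * n) (4 * n) ∪
        VX 0 n (4 * n) (5 * n)))) := fun z hz => windows hn hz
  have hv : ∀ k : ℤ, Pr p (VX 0 n k (k + n)) ≤ Q p n := by
    intro k
    rw [pr_VX]
    have h2 : Pr p (HX k (k + n) 0 n) = Pr p (HX 0 n 0 n) := pr_hx_eq p (by ring) (by ring)
    rw [h2]
    exact Pr_mono p (hx_sub (le_refl _) (by omega) (le_refl _) (le_refl _) (by omega))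
  have e1 : Pr p (HX 0 n 0 (3 * n)) = Q p n := rfl
  have e2 : Pr p (HX 0 n n (4 * n)) = Q p n := pr_hx_eq p (by ring) (by ring)
  have e3 : Pr p (HX 0 n (2 * n) (5 * n)) = Q p n := pr_hx_eq p (by ring) (by ring)
  have e4 : Pr p (HX 0 n (3 * n) (6 * n)) = Q p n := pr_hx_eq p (by ring) (by ring)
  have f1 := hv n
  have f2 := hv (2 * n)
  have f3 := hv (3 * n)
  have f4 := hv (4 * n)
  rw [show n + n = 2 * n by ring] at f1
  rw [show 2 * n + n = 3 * n by ring] at f2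
  rw [show 3 * n + n = 4 * n by ring] at f3
  rw [show 4 * n + n = 5 * n by ring] at f4
  refine (Pr_mono p h1).trans ((Pr_union_le p _ _).trans ?_)
  have g1 := Pr_union_le p (HX 0 n 0 (3 * n)) (HX 0 n n (4 * n) ∪ (HX 0 n (2 * n) (5 * n) ∪
        HX 0 n (3 * n) (6 * n)))
  have g2 := Pr_union_le p (HX 0 n n (4 * n)) (HX 0 n (2 * n) (5 * n) ∪
        HX 0 n (3 * n) (6 * n))
  have g3 := Pr_union_le p (HX 0 n (2 * n) (5 * n)) (HX 0 n (3 * n) (6 * n))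
  have g4 := Pr_union_le p (VX 0 n n (2 * n)) (VX 0 n (2 * n) (3 * n) ∪ (VX 0 n (3 * n) (4 * n) ∪
        VX 0 n (4 * n) (5 * n)))
  have g5 := Pr_union_le p (VX 0 n (2 * n) (3 * n)) (VX 0 n (3 * n) (4 * n) ∪
        VX 0 n (4 * n) (5 * n))
  have g6 := Pr_union_le p (VX 0 n (3 * n) (4 * n)) (VX 0 n (4 * n) (5 * n))
  linarith

/-- **Renormalisation inequality.** -/
theorem Q_two (p : I) {n : ℤ} (hn : 1 ≤ n) : Q p (2 * n) ≤ 64 * Q p n ^ 2 := by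
  have h1 : HX 0 (2 * n) 0 (3 * (2 * n)) ⊆ HX 0 n 0 (6 * n) ∩ HX n (2 * n) 0 (6 * n) := by
    intro z hz
    rw [show 3 * (2 * n) = 6 * n by ring] at hz
    exact ⟨hx_sub (le_refl _) (by omega) (by omega) (le_refl _) (le_refl _) hz,
      hx_sub (by omega) (by omega) (le_refl _) (le_refl _) (le_refl _) hz⟩
  have hd : Disjoint (REf 0 n 0 (6 * n)) (REf n (2 * n) 0 (6 * n)) := by
    rw [Finset.disjoint_left]
    intro e h1 h2
    rw [mem_REf] at h1 h2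
    unfold RE at h1 h2
    omega
  have h2 := PB_indep_real (fun _ : Edge => p) hd (dep_HX 0 n 0 (6 * n))
    (dep_HX n (2 * n) 0 (6 * n))
  have h3 : Pr p (HX n (2 * n) 0 (6 * n)) = Pr p (HX 0 n 0 (6 * n)) :=
    pr_hx_eq p (by ring) (by ring)
  have h4 := pr_six p hn
  have h5 := Pr_nonneg p (HX 0 n 0 (6 * n))
  calc Q p (2 * n) ≤ Pr p (HX 0 n 0 (6 * n) ∩ HX n (2 * n) 0 (6 * n)) := Pr_mono p h1
    _ = Pr p (HX 0 n 0 (6 * n)) * Pr p (HX n (2 * n) 0 (6 * n)) := h2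
    _ = Pr p (HX 0 n 0 (6 * n)) ^ 2 := by rw [h3]; ring
    _ ≤ (8 * Q p n) ^ 2 := pow_le_pow_left₀ h5 h4 2
    _ = 64 * Q p n ^ 2 := by ring

theorem exp_two_le : Real.exp 2 ≤ 7.4 := by
  have h : Real.exp 1 ≤ 2.7182818286 := Real.exp_one_lt_d9.le
  have h2 : Real.exp 2 = Real.exp 1 ^ 2 := by rw [← Real.exp_nat_mul]; norm_num
  rw [h2]
  have h3 := Real.exp_pos 1
  nlinarith

theorem Q_pow (p : I) {M : ℤ} (hM : 1 ≤ M) (h : Q p M ≤ 1 / 500) (j : ℕ) :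
    Q p (2 ^ j * M) ≤ Real.exp (-(2 : ℝ) ^ (j + 1)) / 64 := by
  induction j with
  | zero =>
    simp only [pow_zero, one_mul, zero_add, pow_one]
    rw [Real.exp_neg]
    have h1 := exp_two_le
    have h2 : (0 : ℝ) < Real.exp 2 := Real.exp_pos 2
    have h3 : (1 : ℝ) / 7.4 ≤ (Real.exp 2)⁻¹ := by
      rw [one_div]
      exact inv_anti₀ h2 h1
    have h4 : (1 : ℝ) / 500 ≤ (1 / 7.4) / 64 := by norm_num
    calc Q p M ≤ 1 / 500 := h
      _ ≤ (1 / 7.4) / 64 := h4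
      _ ≤ _ := by gcongr
  | succ j ih =>
    have h1 : (1 : ℤ) ≤ 2 ^ j * M := by
      have : (1 : ℤ) ≤ 2 ^ j := one_le_pow₀ (by norm_num)
      nlinarith
    have h2 := Q_two p h1
    have h3 : (2 : ℤ) ^ (j + 1) * M = 2 * (2 ^ j * M) := by ring
    rw [h3]
    have h4 := Q_nonneg p (2 ^ j * M)
    calc Q p (2 * (2 ^ j * M)) ≤ 64 * Q p (2 ^ j * M) ^ 2 := h2
      _ ≤ 64 * (Real.exp (-(2 : ℝ) ^ (j + 1)) / 64) ^ 2 := by gcongr
      _ = Real.exp (-(2 : ℝ) ^ (j + 1)) ^ 2 / 64 := by ring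
      _ = Real.exp (-(2 : ℝ) ^ (j + 1 + 1)) / 64 := by
        rw [← Real.exp_nat_mul]
        congr 2
        push_cast
        ring

/-! ### arms -/

/-- vertices at sup distance at least `n` -/
abbrev Out (n : ℤ) : Set P2 := Crest.Agent.R158.Fr158.Out n

/-- connection to distance `n` -/
def AR (n : ℤ) : Set Cfz := {z | ∃ b ∈ Out n, Rch z (0, 0) b}

/-- first exit -/
theorem exit_box {z : Cfz} {n : ℤ} (hn : 0 ≤ n) {b : P2} (hb : b ∈ Out n)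
    (h : Rch z (0, 0) b) : ∃ b' ∈ Out n, b' ∈ Rc (-n) n (-n) n ∧
      Cn z (Rc (-n) n (-n) n) (0, 0) b' := by
  have h0 : ((0 : ℤ), (0 : ℤ)) ∈ Rc (-n) n (-n) n := by
    simp only [Rc, Set.mem_ofPred_eq]
    omega
  have key : ∀ w, Rch z (0, 0) w → (∃ b' ∈ Out n, b' ∈ Rc (-n) n (-n) n ∧
      Cn z (Rc (-n) n (-n) n) (0, 0) b') ∨ (w ∉ Out n ∧ w ∈ Rc (-n) n (-n) n ∧
      Cn z (Rc (-n) n (-n) n) (0, 0) w) := by
    intro w hw
    induction hw with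
    | refl =>
      by_cases h1 : ((0 : ℤ), (0 : ℤ)) ∈ Out n
      · exact Or.inl ⟨_, h1, h0, Cn.refl _⟩
      · exact Or.inr ⟨h1, h0, Cn.refl _⟩
    | @tail u w h1 h2 ih =>
      rcases ih with ih | ⟨h3, h4, h5⟩
      · exact Or.inl ih
      have h6 := pstep_nbr h2
      have h7 : w ∈ Rc (-n) n (-n) n := by
        simp only [Out, Fr158.Out, Set.mem_ofPred_eq, not_or, not_le, abs_lt] at h3
        simp only [Rc, Set.mem_ofPred_eq]
        unfold Nbr at h6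
        omega
      have h8 : Cn z (Rc (-n) n (-n) n) (0, 0) w := h5.tail ⟨h2, h4, h7⟩
      by_cases h9 : w ∈ Out n
      · exact Or.inl ⟨w, h9, h7, h8⟩
      · exact Or.inr ⟨h9, h7, h8⟩
  rcases key b h with h1 | ⟨h1, -⟩
  · exact h1
  · exact absurd hb h1

theorem arm_slab {n : ℤ} (hn : 1 ≤ n) {z : Cfz} (h : z ∈ AR (2 * n)) :
    z ∈ HX n (2 * n) (-(2 * n)) (2 * n) ∨ z ∈ HX (-(2 * n)) (-n) (-(2 * n)) (2 * n) ∨
      z ∈ VX (-(2 * n)) (2 * n) n (2 * n) ∨ z ∈ VX (-(2 * n)) (2 * n) (-(2 * n)) (-n) := by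
  obtain ⟨b, hb, h⟩ := h
  obtain ⟨b, hb, hb', h⟩ := exit_box (by omega) hb h
  have hb2 := hb'
  simp only [Out, Fr158.Out, Set.mem_ofPred_eq] at hb
  simp only [Rc, Set.mem_ofPred_eq] at hb2
  rcases hb with hb | hb
  · rcases le_abs'.1 hb with hb | hb
    · right; left
      exact ext_h h.symm (fun v hv => ⟨hv.2.2.1, hv.2.2.2⟩) (by omega)
        (by show -n ≤ (0 : ℤ); omega) (by omega)
    · left
      exact ext_h h (fun v hv => ⟨hv.2.2.1, hv.2.2.2⟩) (by show (0 : ℤ) ≤ n; omega) hb (by omega)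
  · rcases le_abs'.1 hb with hb | hb
    · right; right; right
      exact ext_v h.symm (fun v hv => ⟨hv.1, hv.2.1⟩) (by omega)
        (by show -n ≤ (0 : ℤ); omega) (by omega)
    · right; right; left
      exact ext_v h (fun v hv => ⟨hv.1, hv.2.1⟩) (by show (0 : ℤ) ≤ n; omega) hb (by omega)

theorem pr_slab (p : I) {n : ℤ} (hn : 1 ≤ n) {x0 x1 y0 y1 : ℤ} (hx : x1 - x0 = n)
    (hy : y1 - y0 ≤ 6 * n) : Pr p (HX x0 x1 y0 y1) ≤ 8 * Q p n := by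
  have h1 : Pr p (HX x0 x1 y0 y1) ≤ Pr p (HX x0 x1 y0 (y0 + 6 * n)) :=
    Pr_mono p (hx_sub (le_refl _) (by omega) (le_refl _) (le_refl _) (by omega))
  have h2 : Pr p (HX x0 x1 y0 (y0 + 6 * n)) = Pr p (HX 0 n 0 (6 * n)) :=
    pr_hx_eq p (by omega) (by ring)
  rw [h2] at h1
  exact h1.trans (pr_six p hn)

theorem pr_arm (p : I) {n : ℤ} (hn : 1 ≤ n) : Pr p (AR (2 * n)) ≤ 32 * Q p n := by
  have h1 : AR (2 * n) ⊆ HX n (2 * n) (-(2 * n)) (2 * n) ∪ (HX (-(2 * n)) (-n) (-(2 * n)) (2 * n) ∪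
      (VX (-(2 * n)) (2 * n) n (2 * n) ∪ VX (-(2 * n)) (2 * n) (-(2 * n)) (-n))) :=
    fun z hz => arm_slab hn hz
  refine (Pr_mono p h1).trans ?_
  refine (Pr_union_le p _ _).trans ?_
  have g1 := Pr_union_le p (HX (-(2 * n)) (-n) (-(2 * n)) (2 * n))
    (VX (-(2 * n)) (2 * n) n (2 * n) ∪ VX (-(2 * n)) (2 * n) (-(2 * n)) (-n))
  have g2 := Pr_union_le p (VX (-(2 * n)) (2 * n) n (2 * n)) (VX (-(2 * n)) (2 * n) (-(2 * n)) (-n))
  have e1 := pr_slab p hn (x0 := n) (x1 := 2 * n) (y0 := -(2 * n)) (y1 := 2 * n) (by ring)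
    (by omega)
  have e2 := pr_slab p hn (x0 := -(2 * n)) (x1 := -n) (y0 := -(2 * n)) (y1 := 2 * n) (by ring)
    (by omega)
  have e3 : Pr p (VX (-(2 * n)) (2 * n) n (2 * n)) ≤ 8 * Q p n := by
    rw [pr_VX]; exact e1
  have e4 : Pr p (VX (-(2 * n)) (2 * n) (-(2 * n)) (-n)) ≤ 8 * Q p n := by
    rw [pr_VX]; exact e2
  linarith

theorem out_anti {m n : ℤ} (h : m ≤ n) : Out n ⊆ Out m := by
  intro v hv
  simp only [Out, Fr158.Out, Set.mem_ofPred_eq] at hv ⊢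
  rcases hv with hv | hv
  · exact Or.inl (h.trans hv)
  · exact Or.inr (h.trans hv)

theorem AR_anti {m n : ℤ} (h : m ≤ n) : AR n ⊆ AR m := by
  rintro z ⟨b, hb, h'⟩
  exact ⟨b, out_anti h hb, h'⟩

/-- dyadic bracketing of a radius -/
theorem dyadic {M R : ℤ} (hM : 1 ≤ M) (hR : 2 * M ≤ R) :
    ∃ j : ℕ, 2 * (2 ^ j * M) ≤ R ∧ R < 2 * (2 ^ (j + 1) * M) := by
  have hex : ∃ j : ℕ, R < 2 * (2 ^ j * M) := by
    obtain ⟨j, hj⟩ := pow_unbounded_of_one_lt R (by norm_num : (1 : ℤ) < 2)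
    refine ⟨j, ?_⟩
    have : (0 : ℤ) < 2 ^ j := by positivity
    nlinarith
  classical
  set j0 := Nat.find hex with hj0
  have h1 := Nat.find_spec hex
  rw [← hj0] at h1
  rcases Nat.eq_zero_or_pos j0 with h0 | h0
  · rw [h0] at h1
    simp only [pow_zero, one_mul] at h1
    omega
  · have h2 := Nat.find_min hex (m := j0 - 1) (by omega)
    refine ⟨j0 - 1, not_lt.1 h2, ?_⟩
    rw [Nat.sub_add_cancel h0]
    exact h1

/-- the exponential factor -/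
theorem exp_dyadic {M R : ℤ} (hM : 1 ≤ M) {j : ℕ} (h : R < 2 * (2 ^ (j + 1) * M)) :
    Real.exp (-(2 : ℝ) ^ (j + 1)) ≤ Real.exp (-(R : ℝ) / (2 * M)) := by
  apply Real.exp_le_exp.2
  have hM' : (0 : ℝ) < M := by exact_mod_cast (by omega : (0 : ℤ) < M)
  rw [neg_div]
  apply neg_le_neg
  rw [div_le_iff₀ (by positivity)]
  have h1 : (R : ℝ) < 2 * (2 ^ (j + 1) * M) := by exact_mod_cast h
  linarith

/-- **Exponential decay beyond a subcritical scale.** -/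
theorem arm_decay (p : I) {M : ℤ} (hM : 1 ≤ M) (h : Q p M ≤ 1 / 500) {R : ℤ} (hR : 2 * M ≤ R) :
    Pr p (AR R) ≤ Real.exp (-(R : ℝ) / (2 * M)) := by
  obtain ⟨j, h1, h2⟩ := dyadic hM hR
  have h3 : (1 : ℤ) ≤ 2 ^ j * M := by
    have : (1 : ℤ) ≤ 2 ^ j := one_le_pow₀ (by norm_num)
    nlinarith
  have h4 := Q_pow p hM h j
  have h5 := Real.exp_pos (-(2 : ℝ) ^ (j + 1))
  calc Pr p (AR R) ≤ Pr p (AR (2 * (2 ^ j * M))) := Pr_mono p (AR_anti h1)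
    _ ≤ 32 * Q p (2 ^ j * M) := pr_arm p h3
    _ ≤ Real.exp (-(2 : ℝ) ^ (j + 1)) := by linarith
    _ ≤ _ := exp_dyadic hM h2

end Crest.Agent.R158.Ze96
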