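import Crest.Agent.R158.Ze3_96
import Crest.Agent.R158.FrPre_158

/-!
# Row 158, Block Z (helper96), part 4: two-point function

`F p x = P(0 ↔ x, cluster finite)`

* `F_le_arm` : `F p x ≤ π_p(s)²` for `2s < |x|`
* `F_ge` : `π_p(4k)² P(LR 2k)⁴ (1 - P(BT (10k+2)))⁴ ≤ F p x` for `|x| ≤ k`
* `F_decay` : `F p x ≤ exp(-|x|/(2M))` for `|x| ≥ 2M`, `M` above the window
-/

set_option autoImplicit false

noncomputable section

namespace Crest.Agent.R158.Zf96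

open MeasureTheory Filter Topology unitInterval
open Crest.ProbabilityR.Percolation Crest.ProbabilityR.FirstPassage
open Crest.Agent.R158.Rs689 Crest.Agent.R161.Tas682 Crest.Agent.R161.Geo729
open Crest.Agent.R161.Topo374 Crest.Agent.R161.Dual374
open Crest.Agent.R158.Fr158
open scoped ENNReal

/-- the origin is joined to `x` and its cluster is finite -/
def FE (x : P2) : Set Cf := {z | Rch z (0, 0) x ∧ (clu z).Finite}

/-- truncated two-point function -/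
def F (p : ℝ) (x : P2) : ℝ := Fr158.Pr p (FE x)

theorem F_nonneg (p : ℝ) (x : P2) : 0 ≤ F p x := Pr_nonneg _ _

theorem F_le_one (p : ℝ) (x : P2) : F p x ≤ 1 := Pr_le_one _ _

theorem FE_meas (x : P2) : MeasurableSet (FE x) := (rch_meas (0, 0) x).inter finite_meas

/-! ### arms at other vertices -/

/-- the arm of `x` -/
def ArmX (x : P2) (s : ℤ) : Set Cf :=
  EV {v | (v.1 - x.1, v.2 - x.2) ∈ Bx s} {v | (v.1 - x.1, v.2 - x.2) ∈ ({(0, 0)} : Set P2)}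
    {v | (v.1 - x.1, v.2 - x.2) ∈ Out s}

theorem pr_armX (p : ℝ) (x : P2) (s : ℤ) : Fr158.Pr p (ArmX x s) = Fr158.Pr p (Arm1 s) :=
  Pr_shift p x.1 x.2 (Bx_finite s) _ _

theorem mem_shift {x v : P2} {s : ℤ} :
    v ∈ {v : P2 | (v.1 - x.1, v.2 - x.2) ∈ Bx s} ↔ sd x v ≤ s := by
  rw [sd_le]
  simp only [Bx, mem_rect, Set.mem_ofPred_eq]
  omega

theorem shift_fin (x : P2) (s : ℤ) : {v : P2 | (v.1 - x.1, v.2 - x.2) ∈ Bx s}.Finite := by
  refine (rect_finite (x.1 - s) (x.1 + s) (x.2 - s) (x.2 + s)).subset fun v hv => ?_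
  rw [mem_shift, sd_le] at hv
  exact hv

theorem armX_incLoc (x : P2) (s : ℤ) : IncLoc (ArmX x s) := EV_incLoc (shift_fin x s) _ _

theorem armX_dep (x : P2) (s : ℤ) : Dep (eIn (bx x s)) (ArmX x s) :=
  dep_EV (fun _ hv => mem_bx_sd.2 (mem_shift.1 hv)) _ _

theorem sd_self (x : P2) : sd x x = 0 := by simp [sd]

theorem armX_of_oc {z : Cf} {x : P2} {s : ℤ} (hs : 0 ≤ s) {S : Set P2} {v : P2}
    (h : OC z S x v) (hv : s ≤ sd x v) : z ∈ ArmX x s := by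
  obtain ⟨w, h1, h2⟩ := first_hit (sd x) (sd_nbr x) s h (by rw [sd_self]; exact hs) hv
  refine ⟨x, ?_, w, ?_, h2.monoS ?_⟩
  · show (x.1 - x.1, x.2 - x.2) ∈ ({(0, 0)} : Set P2)
    simp
  · show (w.1 - x.1, w.2 - x.2) ∈ Out s
    rw [mem_Out]
    have : sd (0, 0) (w.1 - x.1, w.2 - x.2) = sd x w := by simp [sd]
    rw [this, h1]
  · rintro q ⟨_, hq⟩
    exact mem_shift.2 hq

theorem sd_comm (x y : P2) : sd x y = sd y x := by
  unfold sd
  rw [abs_sub_comm, abs_sub_comm y.2]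

/-- **Two boxes.** -/
theorem F_le_arm (p : ℝ) {s : ℤ} (hs : 0 ≤ s) {x : P2} (hx : 2 * s < sd (0, 0) x) :
    F p x ≤ Fr158.Pr p (Arm1 s) ^ 2 := by
  have h1 : FE x ⊆ Arm1 s ∩ ArmX x s := by
    rintro z ⟨hz, -⟩
    have h2 : OC z Set.univ (0, 0) x := rch_oc_univ.1 hz
    refine ⟨arm_of_oc hs h2 (by omega), armX_of_oc hs h2.symm ?_⟩
    rw [sd_comm]
    omega
  have hd : Disjoint (bx (0, 0) s) (bx x s) := by
    rw [Finset.disjoint_left]
    intro v h2 h3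
    rw [mem_bx] at h2 h3
    have h4 : sd (0, 0) x ≤ 2 * s := by
      rw [sd_le]
      simp only at h2 ⊢
      omega
    omega
  calc F p x ≤ Fr158.Pr p (Arm1 s ∩ ArmX x s) := Pr_mono h1
    _ = Fr158.Pr p (Arm1 s) * Fr158.Pr p (ArmX x s) := Pr_indep hd (arm1_dep s) (armX_dep x s)
    _ = Fr158.Pr p (Arm1 s) ^ 2 := by rw [pr_armX]; ring

/-! ### lower bound -/

theorem pr_lrc (p : ℝ) {a b c d m : ℤ} (h1 : b - a = 3 * m) (h2 : d - c = m) :
    Fr158.Pr p {z | LRc z a b c d} = Fr158.Pr p (LR m) := by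
  have e1 := lr_eq_xpr (clampUnit p) a b c d
  have e2 := lr_eq_xpr (clampUnit p) 0 (3 * m) 0 m
  rw [h1, h2] at e1
  simp only [sub_zero] at e2
  exact e1.trans e2.symm

theorem pr_btc (p : ℝ) {a b c d m : ℤ} (h1 : d - c = 3 * m) (h2 : b - a = m) :
    Fr158.Pr p {z | BTc z a b c d} = Fr158.Pr p (LR m) := by
  have e1 := bt_eq_xpr (clampUnit p) a b c d
  have e2 := lr_eq_xpr (clampUnit p) 0 (3 * m) 0 m
  rw [h1, h2] at e1
  simp only [sub_zero] at e2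
  exact e1.trans e2.symm

theorem pr_lrc' (p : ℝ) {a b c d m : ℤ} (h1 : b - a = m) (h2 : d - c = 3 * m) :
    Fr158.Pr p {z | LRc z a b c d} = Fr158.Pr p (BT m) := by
  have e1 := lr_eq_xpr (clampUnit p) a b c d
  have e2 := bt_eq_xpr (clampUnit p) 0 (3 * m) 0 m
  rw [h1, h2] at e1
  simp only [sub_zero] at e2
  exact e1.trans e2.symm

theorem pr_btc' (p : ℝ) {a b c d m : ℤ} (h1 : d - c = m) (h2 : b - a = 3 * m) :
    Fr158.Pr p {z | BTc z a b c d} = Fr158.Pr p (BT m) := by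
  have e1 := bt_eq_xpr (clampUnit p) a b c d
  have e2 := bt_eq_xpr (clampUnit p) 0 (3 * m) 0 m
  rw [h1, h2] at e1
  simp only [sub_zero] at e2
  exact e1.trans e2.symm

theorem lrc_incLoc (a b c d : ℤ) : IncLoc {z | LRc z a b c d} := by
  rw [setOf_LRc]
  exact EV_incLoc (rect_finite _ _ _ _) _ _

theorem btc_incLoc (a b c d : ℤ) : IncLoc {z | BTc z a b c d} := by
  rw [setOf_BTc]
  exact EV_incLoc (rect_finite _ _ _ _) _ _

theorem circ4_incLoc (x : P2) (n m : ℤ) : IncLoc {z | Circ4 z x n m} := by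
  have : {z | Circ4 z x n m} =
    {z | LRc z (x.1 - m) (x.1 + m) (x.2 + n) (x.2 + m)} ∩
    ({z | LRc z (x.1 - m) (x.1 + m) (x.2 - m) (x.2 - n)} ∩
    ({z | BTc z (x.1 + n) (x.1 + m) (x.2 - m) (x.2 + m)} ∩
      {z | BTc z (x.1 - m) (x.1 - n) (x.2 - m) (x.2 + m)})) := rfl
  rw [this]
  exact (lrc_incLoc _ _ _ _).inter ((lrc_incLoc _ _ _ _).inter
    ((btc_incLoc _ _ _ _).inter (btc_incLoc _ _ _ _)))

theorem pr_circ4 (p : ℝ) (x : P2) (k : ℤ) :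
    Fr158.Pr p (LR (2 * k)) ^ 4 ≤ Fr158.Pr p {z | Circ4 z x k (3 * k)} := by
  have e1 := pr_lrc p (a := x.1 - 3 * k) (b := x.1 + 3 * k) (c := x.2 + k) (d := x.2 + 3 * k)
    (m := 2 * k) (by ring) (by ring)
  have e2 := pr_lrc p (a := x.1 - 3 * k) (b := x.1 + 3 * k) (c := x.2 - 3 * k) (d := x.2 - k)
    (m := 2 * k) (by ring) (by ring)
  have e3 := pr_btc p (a := x.1 + k) (b := x.1 + 3 * k) (c := x.2 - 3 * k) (d := x.2 + 3 * k)
    (m := 2 * k) (by ring) (by ring)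
  have e4 := pr_btc p (a := x.1 - 3 * k) (b := x.1 - k) (c := x.2 - 3 * k) (d := x.2 + 3 * k)
    (m := 2 * k) (by ring) (by ring)
  have g3 := Pr_fkg (p := p)
    (btc_incLoc (x.1 + k) (x.1 + 3 * k) (x.2 - 3 * k) (x.2 + 3 * k))
    (btc_incLoc (x.1 - 3 * k) (x.1 - k) (x.2 - 3 * k) (x.2 + 3 * k))
  have g2 := Pr_fkg (p := p)
    (lrc_incLoc (x.1 - 3 * k) (x.1 + 3 * k) (x.2 - 3 * k) (x.2 - k))
    ((btc_incLoc (x.1 + k) (x.1 + 3 * k) (x.2 - 3 * k) (x.2 + 3 * k)).inter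
    (btc_incLoc (x.1 - 3 * k) (x.1 - k) (x.2 - 3 * k) (x.2 + 3 * k)))
  have g1 := Pr_fkg (p := p)
    (lrc_incLoc (x.1 - 3 * k) (x.1 + 3 * k) (x.2 + k) (x.2 + 3 * k))
    ((lrc_incLoc (x.1 - 3 * k) (x.1 + 3 * k) (x.2 - 3 * k) (x.2 - k)).inter
    ((btc_incLoc (x.1 + k) (x.1 + 3 * k) (x.2 - 3 * k) (x.2 + 3 * k)).inter
    (btc_incLoc (x.1 - 3 * k) (x.1 - k) (x.2 - 3 * k) (x.2 + 3 * k))))
  rw [e1] at g1
  rw [e2] at g2
  rw [e3, e4] at g3
  have h0 := Pr_nonneg p (LR (2 * k))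
  refine le_trans ?_ g1
  calc Fr158.Pr p (LR (2 * k)) ^ 4 = Fr158.Pr p (LR (2 * k)) *
      (Fr158.Pr p (LR (2 * k)) * (Fr158.Pr p (LR (2 * k)) * Fr158.Pr p (LR (2 * k)))) := by ring
    _ ≤ _ := by
      refine mul_le_mul_of_nonneg_left (le_trans ?_ g2) h0
      exact mul_le_mul_of_nonneg_left g3 h0

/-- connection inside a box -/
theorem conn_box {z : Cf} {k : ℤ} (hk : 0 ≤ k) {x : P2} (hx : sd (0, 0) x ≤ k)
    (hC : Circ4 z (0, 0) k (3 * k)) (h0 : z ∈ Arm1 (4 * k)) (h1 : z ∈ ArmX x (4 * k)) :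
    z ∈ EV (Bx (5 * k)) {((0 : ℤ), (0 : ℤ))} {x} := by
  obtain ⟨t, -, ht⟩ := circ4_meet hk (by omega) hC
  obtain ⟨u, hu, v, hv, h2⟩ := h0
  rw [Set.mem_singleton_iff] at hu
  subst hu
  obtain ⟨w, hw1, hw2⟩ := ht _ _ _ h2 (by rw [sd_self]; exact hk) (by
    have := mem_Out.1 hv
    omega)
  obtain ⟨u', hu', v', hv', h3⟩ := h1
  have hu2 : u' = x := by
    have h4 : (u'.1 - x.1, u'.2 - x.2) = ((0 : ℤ), (0 : ℤ)) := hu'
    rw [Prod.mk.injEq] at h4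
    exact Prod.ext (by omega) (by omega)
  subst hu2
  have h5 : 4 * k ≤ sd u' v' := by
    have h6 : sd (0, 0) (v'.1 - u'.1, v'.2 - u'.2) = sd u' v' := by simp [sd]
    rw [← h6]
    exact mem_Out.1 hv'
  obtain ⟨w', hw1', hw2'⟩ := ht _ _ _ h3 hx (by
    by_contra hcon
    have h7 : sd (0, 0) v' ≤ 3 * k - 1 := by omega
    rw [sd_le] at h7 hx
    have h8 : sd u' v' ≤ 4 * k - 1 := by
      rw [sd_le]
      simp only at h7 hx ⊢
      omega
    omega)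
  refine ⟨(0, 0), rfl, u', rfl, ?_⟩
  have s1 : Bx (4 * k) ⊆ Bx (5 * k) := Bx_mono (by omega)
  have s2 : Rect ((0 : ℤ) - 3 * k) (0 + 3 * k) (0 - 3 * k) (0 + 3 * k) ⊆ Bx (5 * k) := by
    rintro q ⟨a1, a2, a3, a4⟩
    exact ⟨by omega, by omega, by omega, by omega⟩
  have s3 : {v : P2 | (v.1 - u'.1, v.2 - u'.2) ∈ Bx (4 * k)} ⊆ Bx (5 * k) := by
    intro q hq
    rw [mem_shift, sd_le] at hq
    rw [sd_le] at hx
    simp only at hx
    exact ⟨by omega, by omega, by omega, by omega⟩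
  exact (((hw1.monoS s1).trans (hw2.monoS s2).symm).trans (hw2'.monoS s2)).trans
    (hw1'.monoS s3).symm

theorem pr_conn_box (p : ℝ) {k : ℤ} (hk : 0 ≤ k) {x : P2} (hx : sd (0, 0) x ≤ k) :
    Fr158.Pr p (LR (2 * k)) ^ 4 * Fr158.Pr p (Arm1 (4 * k)) ^ 2 ≤
      Fr158.Pr p (EV (Bx (5 * k)) {((0 : ℤ), (0 : ℤ))} {x}) := by
  have h1 : {z | Circ4 z (0, 0) k (3 * k)} ∩ (Arm1 (4 * k) ∩ ArmX x (4 * k)) ⊆
      EV (Bx (5 * k)) {((0 : ℤ), (0 : ℤ))} {x} := by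
    rintro z ⟨h2, h3, h4⟩
    exact conn_box hk hx h2 h3 h4
  have g1 := Pr_fkg (p := p) (circ4_incLoc (0, 0) k (3 * k))
    ((arm1_incLoc (4 * k)).inter (armX_incLoc x (4 * k)))
  have g2 := Pr_fkg (p := p) (arm1_incLoc (4 * k)) (armX_incLoc x (4 * k))
  rw [pr_armX] at g2
  have g3 := pr_circ4 p (0, 0) k
  have h0 := Pr_nonneg p (Arm1 (4 * k))
  have h5 := Pr_nonneg p {z | Circ4 z (0, 0) k (3 * k)}
  refine le_trans ?_ (g1.trans (Pr_mono h1))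
  exact mul_le_mul g3 (by rw [sq]; exact g2) (by positivity) h5

/-- four slabs, one of which is crossed by the arm -/
def Sl (n : ℤ) : Set Cf :=
  ({z | LRc z n (3 * n) (-(3 * n)) (3 * n)} ∪ {z | LRc z (-(3 * n)) (-n) (-(3 * n)) (3 * n)}) ∪
    ({z | BTc z (-(3 * n)) (3 * n) n (3 * n)} ∪ {z | BTc z (-(3 * n)) (3 * n) (-(3 * n)) (-n)})

theorem sl_incLoc (n : ℤ) : IncLoc (Sl n) :=
  ((lrc_incLoc _ _ _ _).union (lrc_incLoc _ _ _ _)).union
    ((btc_incLoc _ _ _ _).union (btc_incLoc _ _ _ _))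

theorem compl_fkg (p : ℝ) {A B : Set Cf} (hA : IncLoc A) (hB : IncLoc B) :
    (1 - Fr158.Pr p A) * (1 - Fr158.Pr p B) ≤ 1 - Fr158.Pr p (A ∪ B) := by
  have h1 := Pr_fkg (p := p) hA hB
  have h2 : Fr158.Pr p (A ∪ B) + Fr158.Pr p (A ∩ B) = Fr158.Pr p A + Fr158.Pr p B :=
    measureReal_union_add_inter hB.measurableSet
  nlinarith

theorem pr_sl (p : ℝ) (n : ℤ) : (1 - Fr158.Pr p (BT (2 * n))) ^ 4 ≤ 1 - Fr158.Pr p (Sl n) := by
  have e1 := pr_lrc' p (a := n) (b := 3 * n) (c := -(3 * n)) (d := 3 * n) (m := 2 * n) (by ring)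
    (by ring)
  have e2 := pr_lrc' p (a := -(3 * n)) (b := -n) (c := -(3 * n)) (d := 3 * n) (m := 2 * n)
    (by ring) (by ring)
  have e3 := pr_btc' p (a := -(3 * n)) (b := 3 * n) (c := n) (d := 3 * n) (m := 2 * n) (by ring)
    (by ring)
  have e4 := pr_btc' p (a := -(3 * n)) (b := 3 * n) (c := -(3 * n)) (d := -n) (m := 2 * n)
    (by ring) (by ring)
  have g1 := compl_fkg p (lrc_incLoc n (3 * n) (-(3 * n)) (3 * n))
    (lrc_incLoc (-(3 * n)) (-n) (-(3 * n)) (3 * n))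
  have g2 := compl_fkg p (btc_incLoc (-(3 * n)) (3 * n) n (3 * n))
    (btc_incLoc (-(3 * n)) (3 * n) (-(3 * n)) (-n))
  have g3 := compl_fkg p ((lrc_incLoc n (3 * n) (-(3 * n)) (3 * n)).union
    (lrc_incLoc (-(3 * n)) (-n) (-(3 * n)) (3 * n)))
    ((btc_incLoc (-(3 * n)) (3 * n) n (3 * n)).union
    (btc_incLoc (-(3 * n)) (3 * n) (-(3 * n)) (-n)))
  rw [e1, e2] at g1
  rw [e3, e4] at g2
  refine le_trans ?_ g3
  have h0 : 0 ≤ 1 - Fr158.Pr p (BT (2 * n)) := by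
    have := Pr_le_one p (BT (2 * n))
    linarith
  calc (1 - Fr158.Pr p (BT (2 * n))) ^ 4 = ((1 - Fr158.Pr p (BT (2 * n))) *
      (1 - Fr158.Pr p (BT (2 * n)))) * ((1 - Fr158.Pr p (BT (2 * n))) *
      (1 - Fr158.Pr p (BT (2 * n)))) := by ring
    _ ≤ _ := mul_le_mul g1 g2 (by positivity) (le_trans (by positivity) g1)

theorem arm_sl {n : ℤ} (hn : 1 ≤ n) : Arm1 (3 * n) ⊆ Sl n := by
  intro z h
  rw [← Ze96.AR_eq (by omega)] at h
  obtain ⟨b, hb, h⟩ := h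
  obtain ⟨b, hb, hb', h⟩ := Ze96.exit_box (by omega) hb h
  have hb2 := hb'
  simp only [Ze96.Out, Fr158.Out, Set.mem_ofPred_eq] at hb
  simp only [Crest.Agent.R161.Perc374.Rc, Set.mem_ofPred_eq] at hb2
  rcases hb with hb | hb
  · rcases le_abs'.1 hb with hb | hb
    · left; right
      refine (Ze96.hx_iff (by omega)).1 ?_
      exact Ze96.ext_h h.symm (fun v hv => ⟨hv.2.2.1, hv.2.2.2⟩) (by omega)
        (by show -n ≤ (0 : ℤ); omega) (by omega)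
    · left; left
      refine (Ze96.hx_iff (by omega)).1 ?_
      exact Ze96.ext_h h (fun v hv => ⟨hv.2.2.1, hv.2.2.2⟩) (by show (0 : ℤ) ≤ n; omega) hb
        (by omega)
  · rcases le_abs'.1 hb with hb | hb
    · right; right
      refine (Ze96.vx_iff (by omega)).1 ?_
      exact Ze96.ext_v h.symm (fun v hv => ⟨hv.1, hv.2.1⟩) (by omega)
        (by show -n ≤ (0 : ℤ); omega) (by omega)
    · right; left
      refine (Ze96.vx_iff (by omega)).1 ?_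
      exact Ze96.ext_v h (fun v hv => ⟨hv.1, hv.2.1⟩) (by show (0 : ℤ) ≤ n; omega) hb (by omega)

theorem finite_of_sl {n : ℤ} (hn : 1 ≤ n) {z : Cf} (h : z ∉ Sl n) : (clu z).Finite := by
  by_contra hcon
  have h1 := clu_infinite_iff.1 hcon (3 * n).toNat
  rw [Int.toNat_of_nonneg (by omega)] at h1
  exact h (arm_sl hn h1)

/-- vertices of the slabs -/
def slV (n : ℤ) : Finset P2 := bx (0, 0) (3 * n) \ bx (0, 0) (n - 1)

theorem dep_union {S : Finset Edge} {A B : Set Cf} (hA : Dep S A) (hB : Dep S B) :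
    Dep S (A ∪ B) := Dep.union hA hB

theorem sl_dep {n : ℤ} : Dep (eIn (slV n)) (Sl n) := by
  unfold Sl
  rw [setOf_LRc, setOf_LRc, setOf_BTc, setOf_BTc]
  have aux : ∀ (a b c d : ℤ) (A B : Set P2), (∀ v ∈ Rect a b c d, v ∈ slV n) →
      Dep (eIn (slV n)) (EV (Rect a b c d) A B) := fun a b c d A B h => dep_EV h A B
  refine dep_union (dep_union (aux _ _ _ _ _ _ ?_) (aux _ _ _ _ _ _ ?_))
    (dep_union (aux _ _ _ _ _ _ ?_) (aux _ _ _ _ _ _ ?_)) <;>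
  · rintro v ⟨h1, h2, h3, h4⟩
    unfold slV
    rw [Finset.mem_sdiff, mem_bx, mem_bx]
    simp only
    omega

theorem disj_slV {n : ℤ} : Disjoint (bx (0, 0) (n - 1)) (slV n) := by
  unfold slV
  exact Finset.disjoint_sdiff

/-- **Lower bound of the truncated two-point function.** -/
theorem F_ge (p : ℝ) {k : ℤ} (hk : 0 ≤ k) {x : P2} (hx : sd (0, 0) x ≤ k) :
    (Fr158.Pr p (LR (2 * k)) ^ 4 * Fr158.Pr p (Arm1 (4 * k)) ^ 2) *
      (1 - Fr158.Pr p (BT (10 * k + 2))) ^ 4 ≤ F p x := by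
  set n : ℤ := 5 * k + 1 with hn
  have h1 : EV (Bx (5 * k)) {((0 : ℤ), (0 : ℤ))} {x} ∩ (Sl n)ᶜ ⊆ FE x := by
    rintro z ⟨⟨u, hu, v, hv, h2⟩, h3⟩
    rw [Set.mem_singleton_iff] at hu hv
    subst hu; subst hv
    exact ⟨rch_of_oc h2, finite_of_sl (by omega) h3⟩
  have h2 : Dep (eIn (bx (0, 0) (n - 1))) (EV (Bx (5 * k)) {((0 : ℤ), (0 : ℤ))} {x}) := by
    rw [show n - 1 = 5 * k by omega]
    exact dep_EV (fun v hv => mem_Bx.1 hv) _ _
  have h3 := Pr_indep (p := p) disj_slV h2 (Dep.compl (sl_dep (n := n)))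
  have h4 := pr_sl p n
  rw [show 2 * n = 10 * k + 2 by omega, ← Pr_compl (sl_incLoc n).measurableSet] at h4
  have h5 := pr_conn_box p hk hx
  have h6 := Pr_mono (p := p) h1
  rw [h3] at h6
  refine le_trans ?_ h6
  have h0 : 0 ≤ 1 - Fr158.Pr p (BT (10 * k + 2)) := by
    have := Pr_le_one p (BT (10 * k + 2))
    linarith
  exact mul_le_mul h5 h4 (by positivity) (Pr_nonneg _ _)

/-! ### decay -/

theorem sd_mem_out {x : P2} : x ∈ Fr158.Out (sd (0, 0) x) := mem_Out.2 le_rfl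

theorem F_decay (p : ℝ) {M : ℤ} (hM : 1 ≤ M)
    (h : Ze96.Q (clampUnit p) M ≤ 1 / 500 ∨ Ze96.Q (σ (clampUnit p)) M ≤ 1 / 500) {x : P2}
    (hx : 2 * M ≤ sd (0, 0) x) : F p x ≤ Real.exp (-(sd (0, 0) x : ℝ) / (2 * M)) := by
  have h1 : FE x ⊆ Ze96.AR (sd (0, 0) x) ∩ {z | (Ze96.C0 z).Finite} :=
    fun z hz => ⟨⟨x, sd_mem_out, hz.1⟩, hz.2⟩
  rcases h with h | h
  · exact (Pr_mono (fun z hz => (h1 hz).1)).trans (Ze96.arm_decay (clampUnit p) hM h hx)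
  · exact (Pr_mono h1).trans (Ze96.fin_decay (clampUnit p) hM h hx)

theorem clamp_symm (p : ℝ) : σ (clampUnit p) = clampUnit (1 - p) := by
  apply Subtype.ext
  rw [unitInterval.coe_symm_eq]
  unfold clampUnit
  rw [Set.coe_projIcc, Set.coe_projIcc]
  rcases le_total p 0 with h0 | h0
  · rw [min_eq_right (by linarith), max_eq_left h0, min_eq_left (by linarith)]
    simp
  · rcases le_total p 1 with h1 | h1
    · rw [min_eq_right h1, max_eq_right h0, min_eq_right (by linarith),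
        max_eq_right (by linarith)]
    · rw [min_eq_left h1, max_eq_right zero_le_one, min_eq_right (by linarith),
        max_eq_left (by linarith)]
      simp

/-- the end of the window in the form used by `F_decay` -/
theorem hypD_Q (hD : HypD) {δ : ℝ} (hδ : 0 < δ) {ε : ℝ} (hε : 0 < ε) :
    ∀ᶠ p : ℝ in 𝓝[≠] (1 / 2), ∃ n : ℕ, 1 ≤ n ∧ (n : ℝ) ≤ |p - 1 / 2| ^ (-(4 / 3 : ℝ) - ε) ∧
      (Ze96.Q (clampUnit p) n ≤ δ ∨ Ze96.Q (σ (clampUnit p)) n ≤ δ) := by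
  have h1 := hD δ hδ ε hε
  have h2 : Tendsto (fun p : ℝ => 1 - p) (𝓝[≠] (1 / 2)) (𝓝[≠] (1 / 2)) := by
    rw [tendsto_nhdsWithin_iff]
    constructor
    · have h : Tendsto (fun p : ℝ => 1 - p) (𝓝 (1 / 2)) (𝓝 (1 - 1 / 2)) :=
        tendsto_const_nhds.sub tendsto_id
      rw [show (1 : ℝ) - 1 / 2 = 1 / 2 by norm_num] at h
      exact h.mono_left nhdsWithin_le_nhds
    · filter_upwards [self_mem_nhdsWithin] with p hp
      intro h
      apply hp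
      have : 1 - p = 1 / 2 := h
      show p = 1 / 2
      linarith
  filter_upwards [h1, h2.eventually h1, self_mem_nhdsWithin] with p hp hq hne
  have hne' : p ≠ 1 / 2 := hne
  rcases lt_or_gt_of_ne hne' with hlt | hgt
  · obtain ⟨n, h3, h4, -, h5⟩ := hp
    refine ⟨n, h3, h4, Or.inl ?_⟩
    rw [← Ze96.pr_BT p (by omega)]
    exact h5 hlt
  · obtain ⟨n, h3, h4, -, h5⟩ := hq
    have h6 : |1 - p - 1 / 2| = |p - 1 / 2| := by
      rw [← abs_neg]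
      congr 1
      ring
    rw [h6] at h4
    refine ⟨n, h3, h4, Or.inr ?_⟩
    rw [clamp_symm, ← Ze96.pr_BT (1 - p) (by omega)]
    exact h5 (by linarith)

end Crest.Agent.R158.Zf96
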