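import Crest.Agent.R158.Ze4_96

/-!
# Row 158, Block Z (helper96), part 5: the literal quantities as sums and the summation

* `trunc_real`, `corr_real` : `χ` and `ξ` through `F p x`
* `sum_bounds` : from pointwise bounds of `F` to bounds of both sums
-/

set_option autoImplicit false

noncomputable section

namespace Crest.Agent.R158.Zf96

open MeasureTheory Filter Topology unitInterval
open Crest.ProbabilityR.Percolation Crest.ProbabilityR.FirstPassage
open Crest.Agent.R158.Rs689 Crest.Agent.R161.Tas682 Crest.Agent.R161.Geo729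
open Crest.Agent.R161.Topo374 Crest.Agent.R161.Dual374
open Crest.Agent.R158.Fr158
open scoped ENNReal

/-! ### the literal quantities -/

/-- the event `FE x` in the space of sets of pairs -/
theorem FE_pre (x : ℤ × ℤ) : {ω | x ∈ originCluster ω ∧ (originCluster ω).Finite} =
    conf ⁻¹' FE x := by
  ext ω
  simp only [Set.mem_ofPred_eq, Set.mem_preimage, FE, originCluster_eq]
  exact Iff.rfl

theorem law_FE (p : ℝ) (x : ℤ × ℤ) :
    squareBondLaw p {ω | x ∈ originCluster ω ∧ (originCluster ω).Finite} =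
      ENNReal.ofReal (F p x) := by
  rw [FE_pre, squareBondLaw_conf p (FE_meas x)]
  exact (ENNReal.ofReal_toReal (measure_ne_top (Fr158.nu p) _)).symm

theorem trunc_eq (p : ℝ) :
    truncSusceptibilityENN p = ∑' x : ℤ × ℤ, ENNReal.ofReal (F p x) := by
  have h1 : ∀ ω, {ω' | (originCluster ω').Finite}.indicator
      (fun ω' => ((originCluster ω').ncard : ENNReal)) ω =
      ∑' x : ℤ × ℤ, (conf ⁻¹' FE x).indicator (fun _ => (1 : ENNReal)) ω := by
    intro ω
    by_cases hω : (originCluster ω).Finite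
    · rw [Set.indicator_of_mem (show ω ∈ {ω' | (originCluster ω').Finite} from hω)]
      have h2 : ∀ x : ℤ × ℤ, (conf ⁻¹' FE x).indicator (fun _ => (1 : ENNReal)) ω =
          (originCluster ω).indicator (fun _ => (1 : ENNReal)) x := by
        intro x
        rw [← FE_pre]
        by_cases hx : x ∈ originCluster ω
        · rw [Set.indicator_of_mem hx, Set.indicator_of_mem]
          exact ⟨hx, hω⟩
        · rw [Set.indicator_of_notMem hx, Set.indicator_of_notMem]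
          exact fun h => hx h.1
      simp_rw [h2]
      rw [← tsum_subtype, ENNReal.tsum_set_one, ← hω.cast_ncard_eq]
      rfl
    · rw [Set.indicator_of_notMem (show ω ∉ {ω' | (originCluster ω').Finite} from hω)]
      symm
      rw [ENNReal.tsum_eq_zero]
      intro x
      rw [← FE_pre, Set.indicator_of_notMem]
      exact fun h => hω h.2
  unfold truncSusceptibilityENN
  simp_rw [h1]
  have hm : ∀ x : ℤ × ℤ, MeasurableSet (conf ⁻¹' FE x) := fun x => measurable_conf (FE_meas x)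
  rw [lintegral_tsum fun x => (measurable_const.indicator (hm x)).aemeasurable]
  congr 1
  funext x
  rw [lintegral_indicator (hm x), lintegral_one, Measure.restrict_apply_univ, ← FE_pre, law_FE]

theorem second_eq (p : ℝ) :
    truncSecondMomentENN p = ∑' x : ℤ × ℤ, ENNReal.ofReal (((x.1 : ℝ) ^ 2 + (x.2 : ℝ) ^ 2) *
      F p x) := by
  unfold truncSecondMomentENN
  congr 1
  funext x
  rw [law_FE, ENNReal.ofReal_mul (by positivity)]

/-- the susceptibility -/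
def Xs (p : ℝ) : ℝ := ∑' x : ℤ × ℤ, F p x

/-- the second moment -/
def Ys (p : ℝ) : ℝ := ∑' x : ℤ × ℤ, ((x.1 : ℝ) ^ 2 + (x.2 : ℝ) ^ 2) * F p x

theorem trunc_real (p : ℝ) : truncSusceptibility p = Xs p := by
  unfold truncSusceptibility Xs
  rw [trunc_eq, ENNReal.tsum_toReal_eq fun _ => ENNReal.ofReal_ne_top]
  congr 1
  funext x
  exact ENNReal.toReal_ofReal (F_nonneg p x)

theorem second_real (p : ℝ) : (truncSecondMomentENN p).toReal = Ys p := by
  unfold Ys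
  rw [second_eq, ENNReal.tsum_toReal_eq fun _ => ENNReal.ofReal_ne_top]
  congr 1
  funext x
  exact ENNReal.toReal_ofReal (mul_nonneg (by positivity) (F_nonneg p x))

theorem corr_real (p : ℝ) : correlationLength p = √(Ys p / Xs p) := by
  unfold correlationLength
  rw [ENNReal.toReal_div, second_real]
  have h : (truncSusceptibilityENN p).toReal = Xs p := trunc_real p
  rw [h]

/-! ### sums over boxes -/

theorem tsum_split {f g : P2 → ℝ} (s : Finset P2) (hf : ∀ x, 0 ≤ f x) (hg : Summable g)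
    (hg0 : ∀ x, 0 ≤ g x) (h : ∀ x, x ∉ s → f x ≤ g x) :
    Summable f ∧ ∑' x, f x ≤ ∑ x ∈ s, f x + ∑' x, g x := by
  classical
  have h1 : Summable fun x => if x ∈ s then f x else 0 :=
    summable_of_ne_finset_zero (s := s) fun x hx => if_neg hx
  have h2 : ∀ x, f x ≤ (if x ∈ s then f x else 0) + g x := by
    intro x
    by_cases hx : x ∈ s
    · rw [if_pos hx]
      linarith [hg0 x]
    · rw [if_neg hx]
      linarith [h x hx]
  have h3 : Summable f := Summable.of_nonneg_of_le hf h2 (h1.add hg)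
  refine ⟨h3, ?_⟩
  calc ∑' x, f x ≤ ∑' x, ((if x ∈ s then f x else 0) + g x) := h3.tsum_le_tsum h2 (h1.add hg)
    _ = ∑' x, (if x ∈ s then f x else 0) + ∑' x, g x := h1.tsum_add hg
    _ = _ := by
      congr 1
      rw [tsum_eq_sum (s := s) fun x hx => if_neg hx]
      exact Finset.sum_congr rfl fun x hx => if_pos hx

theorem card_bx (K : ℕ) : (bx (0, 0) K).card = (2 * K + 1) ^ 2 := by
  unfold bx
  rw [Finset.card_product, Int.card_Icc]
  have : ((0 : ℤ) + K + 1 - (0 - K)).toNat = 2 * K + 1 := by omega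
  rw [this]
  ring

theorem box_sum {f : P2 → ℝ} {G : ℝ} (h1 : ∀ x, f x ≤ 1) (hG : 0 ≤ G) (K : ℕ)
    (h : ∀ x, 3 ≤ sd (0, 0) x → sd (0, 0) x ≤ K → (sd (0, 0) x : ℝ) * f x ≤ G) :
    ∑ x ∈ bx (0, 0) K, f x ≤ 25 + 8 * K * G := by
  induction K with
  | zero =>
    calc ∑ x ∈ bx (0, 0) (0 : ℕ), f x ≤ ∑ x ∈ bx (0, 0) (0 : ℕ), 1 :=
          Finset.sum_le_sum fun x _ => h1 x
      _ = ((bx (0, 0) (0 : ℕ)).card : ℝ) := by simp
      _ ≤ _ := by rw [card_bx]; norm_num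
  | succ K ih =>
    by_cases hK : K + 1 ≤ 2
    · calc ∑ x ∈ bx (0, 0) (K + 1 : ℕ), f x ≤ ∑ x ∈ bx (0, 0) (K + 1 : ℕ), 1 :=
          Finset.sum_le_sum fun x _ => h1 x
        _ = ((bx (0, 0) (K + 1 : ℕ)).card : ℝ) := by simp
        _ ≤ 25 := by
          rw [card_bx]
          have h2 : (2 * (K + 1) + 1) ^ 2 ≤ 25 := by
            have : 2 * (K + 1) + 1 ≤ 5 := by omega
            calc (2 * (K + 1) + 1) ^ 2 ≤ 5 ^ 2 := Nat.pow_le_pow_left this 2
              _ = 25 := by norm_num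
          exact_mod_cast h2
        _ ≤ _ := by
          have : 0 ≤ 8 * ((K + 1 : ℕ) : ℝ) * G := by positivity
          linarith
    · have ih' := ih fun x h2 h3 => h x h2 (by push_cast; omega)
      have hsub : bx (0, 0) (K : ℤ) ⊆ bx (0, 0) ((K + 1 : ℕ) : ℤ) := by
        intro v hv
        rw [mem_bx_sd] at hv ⊢
        push_cast
        omega
      rw [← Finset.sum_sdiff hsub]
      have h4 : ∀ x ∈ bx (0, 0) ((K + 1 : ℕ) : ℤ) \ bx (0, 0) (K : ℤ), f x ≤ G / (K + 1) := by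
        intro x hx
        rw [Finset.mem_sdiff, mem_bx_sd, mem_bx_sd] at hx
        have h5 : sd (0, 0) x = K + 1 := by
          have := hx.1
          push_cast at this
          omega
        have h6 := h x (by omega) (by push_cast; omega)
        rw [h5] at h6
        rw [le_div_iff₀ (by positivity)]
        push_cast at h6
        linarith
      have h7 : ((bx (0, 0) ((K + 1 : ℕ) : ℤ) \ bx (0, 0) (K : ℤ)).card : ℝ) = 8 * (K + 1) := by
        rw [Finset.card_sdiff_of_subset hsub, card_bx, card_bx, Nat.cast_sub]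
        · push_cast
          ring
        · apply Nat.pow_le_pow_left
          omega
      have h8 : ∑ x ∈ bx (0, 0) ((K + 1 : ℕ) : ℤ) \ bx (0, 0) (K : ℤ), f x ≤ 8 * G := by
        calc ∑ x ∈ bx (0, 0) ((K + 1 : ℕ) : ℤ) \ bx (0, 0) (K : ℤ), f x
            ≤ ((bx (0, 0) ((K + 1 : ℕ) : ℤ) \ bx (0, 0) (K : ℤ)).card : ℝ) * (G / (K + 1)) := by
              rw [← nsmul_eq_mul]
              exact Finset.sum_le_card_nsmul _ _ _ h4
          _ = 8 * G := by
            rw [h7]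
            have : (0 : ℝ) < K + 1 := by positivity
            field_simp
      have h9 : 8 * ((K + 1 : ℕ) : ℝ) * G = 8 * K * G + 8 * G := by push_cast; ring
      linarith

/-! ### the tail -/

/-- one-dimensional weight -/
def w1 (a : ℤ) : ℝ := 1 / (1 + |(a : ℝ)|) ^ 2

theorem w1_nonneg (a : ℤ) : 0 ≤ w1 a := by unfold w1; positivity

theorem w1_summable : Summable w1 := by
  have h1 : Summable fun n : ℕ => 1 / ((n : ℝ) + 1) ^ 2 := by
    have := (summable_nat_add_iff (f := fun n : ℕ => 1 / (n : ℝ) ^ 2) 1).2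
      (Real.summable_one_div_nat_pow.2 (by norm_num))
    simpa using this
  refine Summable.of_nat_of_neg ?_ ?_
  · refine h1.congr fun n => ?_
    unfold w1
    rw [Int.cast_natCast, Nat.abs_cast, add_comm]
  · refine h1.congr fun n => ?_
    unfold w1
    rw [Int.cast_neg, Int.cast_natCast, abs_neg, Nat.abs_cast, add_comm]

/-- two-dimensional weight -/
def w2 (x : P2) : ℝ := w1 x.1 * w1 x.2

theorem w2_nonneg (x : P2) : 0 ≤ w2 x := mul_nonneg (w1_nonneg _) (w1_nonneg _)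

theorem w2_summable : Summable w2 :=
  w1_summable.mul_of_nonneg w1_summable w1_nonneg w1_nonneg

/-- total weight -/
def W2 : ℝ := ∑' x, w2 x

theorem abs_le_sd (x : P2) : |(x.1 : ℝ)| ≤ sd (0, 0) x ∧ |(x.2 : ℝ)| ≤ sd (0, 0) x := by
  have h1 : |x.1| ≤ sd (0, 0) x := by simp [sd]
  have h2 : |x.2| ≤ sd (0, 0) x := by simp [sd]
  rw [← Int.cast_abs, ← Int.cast_abs]
  exact ⟨by exact_mod_cast h1, by exact_mod_cast h2⟩

theorem norm_le_sd (x : P2) : (x.1 : ℝ) ^ 2 + (x.2 : ℝ) ^ 2 ≤ 2 * (sd (0, 0) x : ℝ) ^ 2 := by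
  obtain ⟨h1, h2⟩ := abs_le_sd x
  rw [← sq_abs (x.1 : ℝ), ← sq_abs (x.2 : ℝ)]
  have h3 := abs_nonneg (x.1 : ℝ)
  have h4 := abs_nonneg (x.2 : ℝ)
  nlinarith

theorem w2_ge {x : P2} (hx : 1 ≤ sd (0, 0) x) : 1 ≤ 16 * (sd (0, 0) x : ℝ) ^ 4 * w2 x := by
  obtain ⟨h1, h2⟩ := abs_le_sd x
  have h3 : (1 : ℝ) ≤ sd (0, 0) x := by exact_mod_cast hx
  set r : ℝ := ((sd (0, 0) x : ℤ) : ℝ) with hr
  unfold w2 w1
  have h4 : (1 + |(x.1 : ℝ)|) ^ 2 ≤ (2 * r) ^ 2 := by
    apply pow_le_pow_left₀ (by positivity)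
    linarith
  have h5 : (1 + |(x.2 : ℝ)|) ^ 2 ≤ (2 * r) ^ 2 := by
    apply pow_le_pow_left₀ (by positivity)
    linarith
  have h6 : (0 : ℝ) < (1 + |(x.1 : ℝ)|) ^ 2 := by positivity
  have h7 : (0 : ℝ) < (1 + |(x.2 : ℝ)|) ^ 2 := by positivity
  have h8 : 16 * r ^ 4 * (1 / (1 + |(x.1 : ℝ)|) ^ 2 * (1 / (1 + |(x.2 : ℝ)|) ^ 2)) =
      (16 * r ^ 4) / ((1 + |(x.1 : ℝ)|) ^ 2 * (1 + |(x.2 : ℝ)|) ^ 2) := by
    field_simp
  rw [h8, le_div_iff₀ (by positivity), one_mul]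
  calc (1 + |(x.1 : ℝ)|) ^ 2 * (1 + |(x.2 : ℝ)|) ^ 2 ≤ (2 * r) ^ 2 * (2 * r) ^ 2 :=
        mul_le_mul h4 h5 h7.le (by positivity)
    _ = 16 * r ^ 4 := by ring

theorem exp_six {y : ℝ} (hy : 0 < y) : Real.exp (-y) ≤ 720 / y ^ 6 := by
  have h1 : y ^ 6 / (Nat.factorial 6 : ℝ) ≤ Real.exp y := Real.pow_div_factorial_le_exp y hy.le 6
  have h2 : (Nat.factorial 6 : ℝ) = 720 := by norm_num [Nat.factorial]
  rw [h2] at h1
  rw [Real.exp_neg, inv_le_comm₀ (Real.exp_pos y) (by positivity)]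
  rw [inv_div]
  exact h1

/-- the constant of the tail -/
def CT : ℝ := 32 * 720 * 4 ^ 6

theorem tail_term {M r K : ℝ} (hM : 0 < M) (hr : 1 ≤ r) (hK : K ≤ r) :
    2 * r ^ 2 * Real.exp (-r / (2 * M)) ≤
      Real.exp (-K / (4 * M)) * (2 * 720 * 4 ^ 6 * M ^ 6) / r ^ 4 := by
  have h1 : Real.exp (-r / (2 * M)) = Real.exp (-r / (4 * M)) * Real.exp (-(r / (4 * M))) := by
    rw [← Real.exp_add]
    congr 1
    field_simp
    ring
  have h2 : Real.exp (-r / (4 * M)) ≤ Real.exp (-K / (4 * M)) := by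
    apply Real.exp_le_exp.2
    rw [div_le_div_iff_of_pos_right (by positivity)]
    linarith
  have h3 := exp_six (y := r / (4 * M)) (by positivity)
  have h4 := Real.exp_pos (-(r / (4 * M)))
  have h5 := Real.exp_pos (-K / (4 * M))
  rw [h1]
  calc 2 * r ^ 2 * (Real.exp (-r / (4 * M)) * Real.exp (-(r / (4 * M))))
      ≤ 2 * r ^ 2 * (Real.exp (-K / (4 * M)) * (720 / (r / (4 * M)) ^ 6)) := by gcongr
    _ = Real.exp (-K / (4 * M)) * (2 * 720 * 4 ^ 6 * M ^ 6) / r ^ 4 := by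
      field_simp
      try ring

/-- **Summation.** -/
theorem sum_bounds {p : ℝ} {j K M : ℕ} {L G : ℝ} (hj : 1 ≤ j) (hM : 1 ≤ M) (hL : 0 ≤ L)
    (hG : 0 ≤ G) (hK : 1 ≤ K)
    (ha : ∀ x : P2, sd (0, 0) x ≤ 2 * j → L ≤ F p x)
    (hb : ∀ x : P2, 3 ≤ sd (0, 0) x → sd (0, 0) x ≤ K → (sd (0, 0) x : ℝ) * F p x ≤ G)
    (hc : ∀ x : P2, (K : ℤ) < sd (0, 0) x → F p x ≤ Real.exp (-(sd (0, 0) x : ℝ) / (2 * M)))
    (hd : Real.exp (-(K : ℝ) / (4 * M)) * (CT * (M : ℝ) ^ 6) * W2 ≤ 1) :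
    2 * (j : ℝ) ^ 2 * L ≤ Xs p ∧ Xs p ≤ 26 + 8 * K * G ∧ 2 * (j : ℝ) ^ 4 * L ≤ Ys p ∧
      Ys p ≤ 2 * (K : ℝ) ^ 2 * Xs p + 1 := by
  have hM0 : (0 : ℝ) < M := by exact_mod_cast hM
  set E : ℝ := Real.exp (-(K : ℝ) / (4 * M)) * (CT * (M : ℝ) ^ 6) with hE
  have hE0 : 0 ≤ E := by
    unfold CT at hE
    rw [hE]
    positivity
  set g : P2 → ℝ := fun x => E * w2 x with hg
  have hgs : Summable g := w2_summable.mul_left E
  have hg0 : ∀ x, 0 ≤ g x := fun x => mul_nonneg hE0 (w2_nonneg x)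
  have hgt : ∑' x, g x ≤ 1 := by
    rw [hg, tsum_mul_left]
    exact hd
  have htail : ∀ x, x ∉ bx (0, 0) (K : ℤ) → ((x.1 : ℝ) ^ 2 + (x.2 : ℝ) ^ 2) * F p x ≤ g x ∧
      F p x ≤ g x := by
    intro x hx
    rw [mem_bx_sd, not_le] at hx
    have h1 := hc x hx
    have h2 := norm_le_sd x
    have h3 : (1 : ℝ) ≤ sd (0, 0) x := by
      have : 1 ≤ sd (0, 0) x := by omega
      exact_mod_cast this
    have h4 : (K : ℝ) ≤ sd (0, 0) x := by exact_mod_cast hx.le
    have h5 := tail_term hM0 h3 h4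
    have h6 := w2_ge (x := x) (by omega)
    have h7 : 2 * (sd (0, 0) x : ℝ) ^ 2 * Real.exp (-(sd (0, 0) x : ℝ) / (2 * M)) ≤ g x := by
      refine h5.trans ?_
      rw [div_le_iff₀ (by positivity)]
      have h8 : g x * (sd (0, 0) x : ℝ) ^ 4 =
          Real.exp (-(K : ℝ) / (4 * M)) * (2 * 720 * 4 ^ 6 * M ^ 6) *
            (16 * (sd (0, 0) x : ℝ) ^ 4 * w2 x) := by
        rw [hg]
        simp only
        rw [hE]
        unfold CT
        ring
      rw [h8]
      exact le_mul_of_one_le_right (by positivity) h6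
    have h9 := F_nonneg p x
    constructor
    · refine le_trans ?_ h7
      exact mul_le_mul h2 h1 h9 (by positivity)
    · refine le_trans ?_ h7
      have h10 : (1 : ℝ) ≤ 2 * (sd (0, 0) x : ℝ) ^ 2 := by nlinarith
      calc F p x = 1 * F p x := (one_mul _).symm
        _ ≤ _ := mul_le_mul h10 h1 h9 (by positivity)
  obtain ⟨s1, t1⟩ := tsum_split (f := F p) (bx (0, 0) (K : ℤ)) (F_nonneg p) hgs hg0
    fun x hx => (htail x hx).2
  obtain ⟨s2, t2⟩ := tsum_split (f := fun x : P2 => ((x.1 : ℝ) ^ 2 + (x.2 : ℝ) ^ 2) * F p x)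
    (bx (0, 0) (K : ℤ)) (fun x => mul_nonneg (by positivity) (F_nonneg p x)) hgs hg0
    fun x hx => (htail x hx).1
  have hbox := box_sum (F_le_one p) hG K hb
  -- the corner
  set T : Finset P2 := Finset.Icc (j : ℤ) (2 * j) ×ˢ Finset.Icc (0 : ℤ) (2 * j) with hT
  have hTc : (2 * (j : ℝ) ^ 2) ≤ (T.card : ℝ) := by
    rw [hT, Finset.card_product, Int.card_Icc, Int.card_Icc]
    have e1 : ((2 : ℤ) * j + 1 - j).toNat = j + 1 := by omega
    have e2 : ((2 : ℤ) * j + 1 - 0).toNat = 2 * j + 1 := by omega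
    rw [e1, e2]
    push_cast
    have : (0 : ℝ) ≤ j := by positivity
    nlinarith
  have hTm : ∀ x ∈ T, (j : ℝ) ^ 2 ≤ (x.1 : ℝ) ^ 2 + (x.2 : ℝ) ^ 2 ∧ L ≤ F p x := by
    intro x hx
    rw [hT, Finset.mem_product, Finset.mem_Icc, Finset.mem_Icc] at hx
    constructor
    · have h1 : (j : ℝ) ≤ x.1 := by exact_mod_cast hx.1.1
      have h2 : (0 : ℝ) ≤ j := by positivity
      nlinarith [sq_nonneg (x.2 : ℝ)]
    · apply ha
      rw [sd_le]
      simp only
      omega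
  refine ⟨?_, ?_, ?_, ?_⟩
  · calc 2 * (j : ℝ) ^ 2 * L ≤ (T.card : ℝ) * L := mul_le_mul_of_nonneg_right hTc hL
      _ = ∑ x ∈ T, L := by rw [Finset.sum_const, nsmul_eq_mul]
      _ ≤ ∑ x ∈ T, F p x := Finset.sum_le_sum fun x hx => (hTm x hx).2
      _ ≤ Xs p := s1.sum_le_tsum T fun x _ => F_nonneg p x
  · have : Xs p = ∑' x, F p x := rfl
    linarith
  · calc 2 * (j : ℝ) ^ 4 * L = (2 * (j : ℝ) ^ 2) * ((j : ℝ) ^ 2 * L) := by ring
      _ ≤ (T.card : ℝ) * ((j : ℝ) ^ 2 * L) := mul_le_mul_of_nonneg_right hTc (by positivity)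
      _ = ∑ x ∈ T, ((j : ℝ) ^ 2 * L) := by rw [Finset.sum_const, nsmul_eq_mul]
      _ ≤ ∑ x ∈ T, ((x.1 : ℝ) ^ 2 + (x.2 : ℝ) ^ 2) * F p x :=
        Finset.sum_le_sum fun x hx =>
          mul_le_mul (hTm x hx).1 (hTm x hx).2 hL (by positivity)
      _ ≤ Ys p := s2.sum_le_tsum T fun x _ => mul_nonneg (by positivity) (F_nonneg p x)
  · have h1 : ∑ x ∈ bx (0, 0) (K : ℤ), ((x.1 : ℝ) ^ 2 + (x.2 : ℝ) ^ 2) * F p x ≤
        2 * (K : ℝ) ^ 2 * Xs p := by
      calc ∑ x ∈ bx (0, 0) (K : ℤ), ((x.1 : ℝ) ^ 2 + (x.2 : ℝ) ^ 2) * F p x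
          ≤ ∑ x ∈ bx (0, 0) (K : ℤ), 2 * (K : ℝ) ^ 2 * F p x := by
            refine Finset.sum_le_sum fun x hx => ?_
            rw [mem_bx_sd] at hx
            have h2 := norm_le_sd x
            have h3 : (sd (0, 0) x : ℝ) ≤ K := by exact_mod_cast hx
            have h4 : (0 : ℝ) ≤ sd (0, 0) x := (abs_nonneg _).trans (abs_le_sd x).1
            have h5 : (sd (0, 0) x : ℝ) ^ 2 ≤ (K : ℝ) ^ 2 := pow_le_pow_left₀ h4 h3 2
            exact mul_le_mul_of_nonneg_right (by linarith) (F_nonneg p x)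
        _ = 2 * (K : ℝ) ^ 2 * ∑ x ∈ bx (0, 0) (K : ℤ), F p x := by rw [Finset.mul_sum]
        _ ≤ _ := by
          refine mul_le_mul_of_nonneg_left ?_ (by positivity)
          exact s1.sum_le_tsum _ fun x _ => F_nonneg p x
    have : Ys p = ∑' x : ℤ × ℤ, ((x.1 : ℝ) ^ 2 + (x.2 : ℝ) ^ 2) * F p x := rfl
    linarith

end Crest.Agent.R158.Zf96
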