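import Crest.Agent.R158.Zg1_180
import Crest.Agent.R158.Ka1_470

/-!
# Row 158 (helper180): gates, 2: closed gates separate the strands of a glued complex

A `Gate` is a chart (helper470's `Ch`) of a box of columns `x0 .. x1 + 1`, rows `(y0, y1]`, such that
all sides of the tiles of the columns `x0 < x ≤ x1` which leave the box are free.  It is closed if
there is an even bottom-top crossing of the columns `(x0, x1]`.

* `Gate.enter`, `Gate.cont` : strands in the box of a gate are chart walks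
* `sep` : a strand that starts in `A` never reaches `B` if `A` and `B` are only joined by closed gates
-/

set_option autoImplicit false

noncomputable section

namespace Crest.Agent.R158.Zg180

open unitInterval
open Crest.Agent.R161.Geo729
open Crest.Agent.R158.Rs689 Crest.Agent.R158.Mr679
open Crest.Agent.R158.Nm211 (Dir dx dy trn St mv nx6 rd opp)
open Crest.Agent.R158.Cb771 (FS FP xg)
open Crest.Agent.R158.Ka470 (Ch Wk en ex sg sg_sg Free ex_en ex_inj)
open Crest.Agent.R158.Sw300 (thru)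

variable {T : Type*} {G : T × ZMod 4 → T × ZMod 4 → Prop}

/-- gates -/
structure Gate (T : Type*) (G : T × ZMod 4 → T × ZMod 4 → Prop) where
  /-- the chart -/
  C : Ch T G
  x0 : ℤ
  x1 : ℤ
  y0 : ℤ
  y1 : ℤ
  h01 : x0 < x1
  hR : ∀ v : ℤ × ℤ, v ∈ C.R ↔ x0 ≤ v.1 ∧ v.1 ≤ x1 + 1 ∧ y0 < v.2 ∧ v.2 ≤ y1
  fr : ∀ v ∈ C.R, x0 < v.1 → v.1 ≤ x1 → ∀ d : Dir, mv v d ∉ C.R → Free G (C.pt v (ex d))

namespace Gate

variable (g : Gate T G)

/-- positions in the box -/
def Bx (v : ℤ × ℤ) : Prop := v ∈ g.C.R ∧ g.x0 < v.1 ∧ v.1 ≤ g.x1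

/-- tiles of the gate -/
def Z : Set T := {t | ∃ v, g.Bx v ∧ g.C.emb v = t}

/-- the gate is closed -/
def Closed (s : T → Bool) : Prop :=
  xg (gn (rd g.C.emb g.C.Fn s)) ∈ BX 0 g.x0 g.x1 g.y0 g.y1

variable {g}

theorem mem_Z_iff {v : ℤ × ℤ} (hv : v ∈ g.C.R) : g.C.emb v ∈ g.Z ↔ g.Bx v := by
  constructor
  · rintro ⟨w, hw, e⟩
    rw [← g.C.inj hw.1 hv e]
    exact hw
  · intro h
    exact ⟨v, h, rfl⟩

theorem en_surj (a : ZMod 4) : ∃ d : Dir, en d = a := by revert a; decide

theorem exists_state (v : ℤ × ℤ) (a : ZMod 4) : ∃ d : Dir, g.C.pe (v, d) = (g.C.emb v, a) := by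
  obtain ⟨d, hd⟩ := en_surj (sg (g.C.F v) a)
  refine ⟨d, ?_⟩
  simp only [Ch.pe, hd, sg_sg]

/-- a strand in the box continues in the chart -/
theorem cont (hG : ∀ p q r, G p q → G p r → q = r) {s : T → Bool} {c : St ℤ} (hc : g.Bx c.1)
    {r : T × ZMod 4} (h : G ((g.C.pe c).1, thru (s (g.C.pe c).1) (g.C.pe c).2) r) :
    (g.C.f s c).1 ∈ g.C.R ∧ r = g.C.pe (g.C.f s c) := by
  rw [g.C.exit_eq] at h
  have h1 : (g.C.f s c).1 ∈ g.C.R := by
    by_contra hcon
    have h2 : (g.C.f s c).1 = mv c.1 (g.C.f s c).2 := rfl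
    rw [h2] at hcon
    exact g.fr c.1 hc.1 hc.2.1 hc.2.2 _ hcon _ h
  exact ⟨h1, hG _ _ _ h (g.C.glue_next s hc.1 h1)⟩

/-- a strand enters the box from one of the two border columns, along the chart -/
theorem enter (hS : ∀ p q, G p q → G q p) (hG : ∀ p q r, G p q → G p r → q = r) {s : T → Bool}
    {q r : T × ZMod 4} (hq : q.1 ∉ g.Z) (hr : r.1 ∈ g.Z)
    (h : G (q.1, thru (s q.1) q.2) r) :
    ∃ c : St ℤ, c.1 ∈ g.C.R ∧ (c.1.1 = g.x0 ∨ c.1.1 = g.x1 + 1) ∧ g.C.pe c = q ∧
      r = g.C.pe (g.C.f s c) ∧ g.Bx (g.C.f s c).1 := by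
  obtain ⟨v', hv', hrv⟩ := hr
  obtain ⟨d', hd'⟩ := exists_state (g := g) v' r.2
  have hr' : r = g.C.pe (v', d') := by
    rw [hd', hrv]
  -- the previous position
  have hmv : mv (mv v' (opp d')) d' = v' := by
    obtain ⟨x, y⟩ := v'
    fin_cases d' <;> simp [mv, opp, dx, dy]
  have hin : mv v' (opp d') ∈ g.C.R := by
    by_contra hcon
    have h1 := g.fr v' hv'.1 hv'.2.1 hv'.2.2 (opp d') hcon
    have h2 : g.C.pt v' (ex (opp d')) = r := by
      rw [hr']
      simp only [Ch.pt, Ch.pe, ex_en]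
    rw [h2] at h1
    exact h1 _ (hS _ _ h)
  have hgl := g.C.glue (mv v' (opp d')) hin d' (by rw [hmv]; exact hv'.1)
  rw [hmv] at hgl
  have e1 : (q.1, thru (s q.1) q.2) = g.C.pt (mv v' (opp d')) (ex d') := by
    refine hG r _ _ (hS _ _ h) ?_
    rw [hr']
    exact hS _ _ hgl
  have e2 : q.1 = g.C.emb (mv v' (opp d')) := congrArg Prod.fst e1
  have hnot : ¬ g.Bx (mv v' (opp d')) := by
    intro hb
    exact hq (e2 ▸ (mem_Z_iff hin).2 hb)
  obtain ⟨e, he⟩ := exists_state (g := g) (mv v' (opp d')) q.2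
  have hpe : g.C.pe (mv v' (opp d'), e) = q := by
    rw [he, ← e2]
  have hex := g.C.exit_eq s (mv v' (opp d'), e)
  rw [hpe, e1] at hex
  have hdir : (g.C.f s (mv v' (opp d'), e)).2 = d' := by
    have h1 := congrArg Prod.snd hex
    simp only [Ch.pt] at h1
    exact (ex_inj (Crest.Agent.R158.Ka470.sg_inj _ h1)).symm
  have hf : g.C.f s (mv v' (opp d'), e) = (v', d') := by
    have h1 : (g.C.f s (mv v' (opp d'), e)).1 =
        mv (mv v' (opp d')) (g.C.f s (mv v' (opp d'), e)).2 := rfl
    rw [hdir, hmv] at h1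
    exact Prod.ext h1 hdir
  refine ⟨(mv v' (opp d'), e), hin, ?_, hpe, ?_, ?_⟩
  · have h1 := (g.hR _).1 hin
    unfold Bx at hnot
    by_contra hcon
    dsimp only at hcon
    refine hnot ⟨hin, ?_, ?_⟩ <;> omega
  · rw [hf]; exact hr'
  · rw [hf]; exact hv'

/-- the strand has entered the box from the left (`b = true`) or from the right -/
def Inv (g : Gate T G) (s : T → Bool) (b : Bool) (r : T × ZMod 4) : Prop :=
  ∃ (c : St ℤ) (m : ℕ), 0 < m ∧ c.1 ∈ g.C.R ∧ (c.1.1 = if b then g.x0 else g.x1 + 1) ∧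
    (∀ j, 0 < j → j ≤ m → g.Bx ((g.C.f s)^[j] c).1) ∧ g.C.pe ((g.C.f s)^[m] c) = r

/-- one step from the inside of a closed gate -/
theorem inv_step (hG : ∀ p q r, G p q → G p r → q = r) {s : T → Bool} (hcl : g.Closed s) {b : Bool}
    {q r : T × ZMod 4} (hq : Inv g s b q) (h : G (q.1, thru (s q.1) q.2) r) :
    Inv g s b r ∨ ∃ v ∈ g.C.R, (v.1 = if b then g.x0 else g.x1 + 1) ∧ r.1 = g.C.emb v := by
  obtain ⟨c, m, hm, hc, hcx, hj, hpe⟩ := hq
  rw [← hpe] at h
  obtain ⟨h1, h2⟩ := cont hG (hj m hm le_rfl) h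
  rw [← Function.iterate_succ_apply' (g.C.f s), Nat.succ_eq_add_one] at h1 h2
  by_cases hb : g.Bx ((g.C.f s)^[m + 1] c).1
  · refine Or.inl ⟨c, m + 1, by omega, hc, hcx, fun j h0 hj' => ?_, h2.symm⟩
    rcases Nat.lt_or_ge m j with h3 | h3
    · have : j = m + 1 := by omega
      rw [this]; exact hb
    · exact hj j h0 h3
  · refine Or.inr ⟨_, h1, ?_, congrArg Prod.fst h2⟩
    have h3 := (g.hR _).1 h1
    have h4 : ((g.C.f s)^[m + 1] c).1.1 = g.x0 ∨ ((g.C.f s)^[m + 1] c).1.1 = g.x1 + 1 := by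
      unfold Bx at hb
      by_contra hcon
      refine hb ⟨h1, ?_, ?_⟩ <;> omega
    have hrow : ∀ j < m + 1, g.x0 < ((g.C.f s)^[j] c).1.1 → ((g.C.f s)^[j] c).1.1 ≤ g.x1 →
        g.y0 < ((g.C.f s)^[j] c).1.2 ∧ ((g.C.f s)^[j] c).1.2 ≤ g.y1 := by
      intro j hj' _ _
      rcases Nat.eq_zero_or_pos j with h0 | h0
      · subst h0
        have := (g.hR _).1 hc
        exact this.2.2
      · exact ((g.hR _).1 (hj j h0 (by omega)).1).2.2
    have h01 := g.h01
    cases b
    · simp only [Bool.false_eq_true, if_false] at hcx ⊢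
      rcases h4 with h4 | h4
      · exact (no_cross' hcl g.h01 (c := c) (m := m + 1) hrow (by omega) (le_of_eq h4)).elim
      · exact h4
    · simp only [if_true] at hcx ⊢
      rcases h4 with h4 | h4
      · exact h4
      · refine (no_cross hcl g.h01 (c := c) (m := m + 1) hrow (by omega) ?_).elim
        have h5 : ((nx6 (rd g.C.emb g.C.Fn s))^[m + 1] c).1.1 = g.x1 + 1 := h4
        omega

end Gate

/-- **separation by closed gates**: the gates `k` with `o k = true` have `A` on the left and `B` on the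
right, the others `B` on the left and `A` on the right -/
theorem sep (hS : ∀ p q, G p q → G q p) (hG : ∀ p q r, G p q → G p r → q = r) {κ : Type*}
    (g : κ → Gate T G) (o : κ → Bool) {A B : Set T} (hA : ∀ k, Disjoint A (g k).Z)
    (hAB : Disjoint A B) (hB : ∀ k, Disjoint B (g k).Z)
    (hcov : ∀ q r, G q r → q.1 ∈ A → r.1 ∈ A ∨ ∃ k, r.1 ∈ (g k).Z)
    (hl : ∀ k, ∀ v ∈ (g k).C.R, v.1 = (g k).x0 → (g k).C.emb v ∈ if o k then A else B)
    (hr : ∀ k, ∀ v ∈ (g k).C.R, v.1 = (g k).x1 + 1 → (g k).C.emb v ∈ if o k then B else A)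
    {s : T → Bool} (hcl : ∀ k, (g k).Closed s) {x y : T × ZMod 4} {l : List (T × ZMod 4)}
    (hx : x.1 ∈ A) (hw : Wk s G x y l) : ∀ r ∈ l, r.1 ∉ B := by
  have key : (∃ r, y = (r.1, thru (s r.1) r.2) ∧ (r.1 ∈ A ∨ ∃ k, (g k).Inv s (o k) r)) ∧
      ∀ r ∈ l, r.1 ∉ B := by
    have hxB : x.1 ∉ B := fun h => Set.disjoint_left.1 hAB hx h
    induction hw with
    | one =>
      refine ⟨⟨x, rfl, Or.inl hx⟩, ?_⟩
      intro r hr'
      rw [List.mem_singleton] at hr'
      rw [hr']; exact hxB
    | @snoc q r l _ hgl ih =>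
      obtain ⟨⟨r0, hr0, hinv⟩, hl0⟩ := ih
      subst hr0
      have hgoal : r.1 ∈ A ∨ ∃ k, (g k).Inv s (o k) r := by
        rcases hinv with h0 | ⟨k, h0⟩
        · rcases hcov _ _ hgl h0 with h1 | ⟨k, h1⟩
          · exact Or.inl h1
          · obtain ⟨c, c1, c2, c3, c4, c5⟩ := Gate.enter hS hG
              (fun h => Set.disjoint_left.1 (hA k) h0 h) h1 hgl
            refine Or.inr ⟨k, c, 1, by omega, c1, ?_, ?_, c4.symm⟩
            · have hemb : (g k).C.emb c.1 = r0.1 := congrArg Prod.fst c3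
              cases ho : o k
              · simp only [Bool.false_eq_true, if_false]
                rcases c2 with c2 | c2
                · have := hl k c.1 c1 c2
                  rw [ho] at this
                  simp only [Bool.false_eq_true, if_false, hemb] at this
                  exact (Set.disjoint_left.1 hAB h0 this).elim
                · exact c2
              · simp only [if_true]
                rcases c2 with c2 | c2
                · exact c2
                · have := hr k c.1 c1 c2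
                  rw [ho] at this
                  simp only [if_true, hemb] at this
                  exact (Set.disjoint_left.1 hAB h0 this).elim
            · intro j h2 h3
              have : j = 1 := by omega
              subst this
              exact c5
        · rcases Gate.inv_step hG (hcl k) h0 hgl with h1 | ⟨v, hv, hv1, hv2⟩
          · exact Or.inr ⟨k, h1⟩
          · left
            rw [hv2]
            cases ho : o k
            · rw [ho] at hv1
              simp only [Bool.false_eq_true, if_false] at hv1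
              have := hr k v hv hv1
              rwa [ho] at this
            · rw [ho] at hv1
              simp only [if_true] at hv1
              have := hl k v hv hv1
              rwa [ho] at this
      refine ⟨⟨r, rfl, hgoal⟩, ?_⟩
      intro r' hr'
      rw [List.mem_append, List.mem_singleton] at hr'
      rcases hr' with hr' | rfl
      · exact hl0 r' hr'
      · rcases hgoal with h1 | ⟨k, c, m, hm, _, _, hj, hpe⟩
        · exact fun h => Set.disjoint_left.1 hAB h1 h
        · have h2 := hj m hm le_rfl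
          have h3 : r'.1 = (g k).C.emb (((g k).C.f s)^[m] c).1 := congrArg Prod.fst hpe.symm
          intro h
          refine Set.disjoint_left.1 (hB k) h ?_
          rw [h3]
          exact ⟨_, h2, rfl⟩
  exact key.2

end Crest.Agent.R158.Zg180
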