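import Crest.Agent.R158.Zg2_180
import Crest.Agent.R158.Env_664

/-!
# Row 158 (helper180): gates, 3: the strip of the environment `G^(z)`

* `Gq be q r` : the ports `q ≠ r` of tiles are glued
* `uc y0 v` : the column of the strip tile `v` in the undislocated chart
* `gate` : the gate in the columns `(a0, a1]` of the strip
* `Near`, `Far` : the tiles outside and between the two gates
* `gates` : **no strand visits both `Near` and `Far` if both gates are closed**
-/

set_option autoImplicit false

noncomputable section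

namespace Crest.Agent.R158.Zg180

open unitInterval
open Crest.Agent.R161.Geo729
open Crest.Agent.R158.Rs689 Crest.Agent.R158.Mr679
open Crest.Agent.R158.Nm211 (Dir dx dy trn St mv nx6 rd opp)
open Crest.Agent.R158.Ka470 (Ch Wk en ex sg sg_sg Free ex_en ex_inj)
open Crest.Agent.R158.Sw300 (thru Port)
open Crest.Agent.R158.Env664

/-- glued ports of tiles -/
def Gq {T : Type*} (be : Port T → Port T) (q r : T × ZMod 4) : Prop :=
  be (some q) = some r ∧ q ≠ r

theorem Gq.fn {T : Type*} {be : Port T → Port T} : ∀ p q r, Gq be p q → Gq be p r → q = r := by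
  intro p q r h1 h2
  have := h1.1.symm.trans h2.1
  simpa using this

theorem Gq.symm {T : Type*} {be : Port T → Port T} (hb : ∀ x, be (be x) = x) :
    ∀ p q, Gq be p q → Gq be q p := by
  intro p q h
  refine ⟨?_, h.2.symm⟩
  rw [← h.1, hb]

/-- a suffix of a strand is a strand -/
theorem wk_suffix {T : Type*} {s : T → Bool} {G : T × ZMod 4 → T × ZMod 4 → Prop}
    {x y : T × ZMod 4} {l : List (T × ZMod 4)} (h : Wk s G x y l) :
    ∀ (l1 l2 : List (T × ZMod 4)) (r : T × ZMod 4), l = l1 ++ r :: l2 → Wk s G r y (r :: l2) := by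
  induction h with
  | one =>
    intro l1 l2 r h
    rcases l1 with _ | ⟨a, l1⟩
    · simp only [List.nil_append, List.cons.injEq] at h
      obtain ⟨rfl, rfl⟩ := h
      exact Wk.one
    · simp at h
  | @snoc q r' l _ hg ih =>
    intro l1 l2 r h
    rcases List.eq_nil_or_concat l2 with rfl | ⟨l2', z, rfl⟩
    · have h1 := List.append_inj' h (by simp)
      simp only [List.cons.injEq, and_true] at h1
      rw [← h1.2]
      exact Wk.one
    · have h0 : l ++ [r'] = (l1 ++ r :: l2') ++ [z] := by
        rw [h]; simp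
      have h1 := List.append_inj' h0 (by simp)
      simp only [List.cons.injEq, and_true] at h1
      have h2 := ih l1 l2' r h1.1
      have h3 := Wk.snoc h2 hg
      rw [← h1.2]
      simpa using h3

variable {A : Finset (ℤ × ℤ)} (B : Band A) (y0 : ℤ)

/-- position in the strip -/
def se (y0 : ℤ) (v : ℤ × ℤ) : TG := Sum.inr (if v.2 < y0 then v.1 else v.1 + 1, v.2)

/-- column of a strip tile in the chart -/
def uc (y0 : ℤ) (v : ℤ × ℤ) : ℤ := if v.2 < y0 then v.1 else v.1 - 1

theorem se_uc (v : ℤ × ℤ) : se y0 (uc y0 v, v.2) = Sum.inr v := by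
  obtain ⟨i, y⟩ := v
  unfold se uc
  by_cases h : y < y0 <;> simp [h]

/-- region of the gate -/
def gR (a0 a1 : ℤ) : Finset (ℤ × ℤ) :=
  Finset.Icc a0 (a1 + 1) ×ˢ Finset.Ico B.y1 B.y2

theorem mem_gR {a0 a1 : ℤ} {v : ℤ × ℤ} : v ∈ gR B a0 a1 ↔
    a0 ≤ v.1 ∧ v.1 ≤ a1 + 1 ∧ B.y1 ≤ v.2 ∧ v.2 < B.y2 := by
  unfold gR
  rw [Finset.mem_product, Finset.mem_Icc, Finset.mem_Ico]
  tauto

variable {B y0}

theorem se_mem {v : ℤ × ℤ} (h1 : 0 ≤ v.1) (h2 : v.1 < B.R) (h3 : B.y1 ≤ v.2) (h4 : v.2 < B.y2) :
    se y0 v ∈ B.tG y0 := by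
  unfold se
  rw [Band.inr_mem]
  unfold Band.wd
  by_cases h : v.2 < y0 <;> simp [h] <;> omega

/-- glueing inside the strip -/
theorem se_glue {p : ℤ} {v : ℤ × ℤ} {d : Dir} (h1 : 0 ≤ v.1) (h2 : v.1 < B.R)
    (h3 : B.y1 ≤ v.2) (h4 : v.2 < B.y2) (h1' : 0 ≤ (mv v d).1) (h2' : (mv v d).1 < B.R)
    (h3' : B.y1 ≤ (mv v d).2) (h4' : (mv v d).2 < B.y2) :
    B.beG p y0 (some (se y0 v, ex d)) = some (se y0 (mv v d), en d) := by
  have key : B.nbG p y0 (some (se y0 v, ex d)) = some (se y0 (mv v d), en d) := by
    obtain ⟨u, y⟩ := v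
    fin_cases d
    · -- N
      simp only [mv, dx, dy, add_zero, Int.cast_zero, se, ex, en] at *
      by_cases hy : y = y0 - 1
      · rw [if_pos (by omega), if_neg (by omega), Band.nbG_rN1 B hy]
        simp [hy]
      · rw [Band.nbG_rN B hy]
        by_cases h : y < y0
        · rw [if_pos h, if_pos (by omega)]
        · rw [if_neg h, if_neg (by omega)]
    · -- E
      simp only [mv, dx, dy, add_zero, Int.cast_one, se, ex, en] at *
      rw [Band.nbG_rE B]
      · by_cases h : y < y0
        · simp [h]
        · simp [h]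
      · unfold Band.wd
        by_cases h : y < y0 <;> simp only [h, if_true, if_false] <;> omega
    · -- S
      simp only [mv, dx, dy, add_zero, Int.cast_zero, se, ex, en] at *
      by_cases hy : y = y0
      · rw [if_neg (by omega), if_pos (by omega), Band.nbG_rS2 B ⟨hy, by omega⟩]
        have : y + -1 = y0 - 1 := by omega
        rw [this, add_sub_cancel_right]
      · rw [Band.nbG_rS B hy]
        have e : y + -1 = y - 1 := by ring
        rw [e]
        by_cases h : y < y0
        · rw [if_pos h, if_pos (by omega)]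
        · rw [if_neg h, if_neg (by omega)]
    · -- W
      simp only [mv, dx, dy, add_zero, Int.cast_neg, Int.cast_one, se, ex, en] at *
      rw [Band.nbG_rW B]
      · by_cases h : y < y0
        · simp only [h, if_true]; congr 3
        · simp only [h, if_false]
          have : u + 1 - 1 = u + -1 + 1 := by ring
          rw [this]
      · by_cases h : y < y0 <;> simp only [h, if_true, if_false] <;> omega
  unfold Band.beG
  rw [res_of (portOf_some.2 (se_mem h1 h2 h3 h4)), key]
  rw [key]
  exact portOf_some.2 (se_mem h1' h2' h3' h4')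

theorem se_inj {v w : ℤ × ℤ} (h : se y0 v = se y0 w) : v = w := by
  obtain ⟨a, b⟩ := v
  obtain ⟨c, d⟩ := w
  unfold se at h
  have h1 := Sum.inr_injective h
  simp only [Prod.mk.injEq] at h1
  obtain ⟨h2, rfl⟩ := h1
  by_cases hb : b < y0
  · simp only [hb, if_true] at h2; rw [h2]
  · simp only [hb, if_false, add_left_inj] at h2; rw [h2]

/-- **the gate in the columns `(a0, a1]` of the strip** -/
def gate {p : ℤ} (hz : B.At p y0) {a0 a1 : ℤ} (h0 : 0 ≤ a0) (h01 : a0 < a1) (h1 : a1 + 1 < B.R) :
    Gate TG (Gq (B.beG p y0)) where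
  C := { emb := se y0
         F := fun _ => false
         R := gR B a0 a1
         inj := fun v _ w _ h => se_inj h
         glue := by
          intro v hv d hd
          rw [mem_gR] at hv hd
          refine ⟨?_, ?_⟩
          · show B.beG p y0 (some (se y0 v, ex d)) = some (se y0 (mv v d), en d)
            exact se_glue (by omega) (by omega) (by omega) (by omega) (by omega) (by omega)
              (by omega) (by omega)
          · intro h
            have h2 : v = mv v d := se_inj (congrArg Prod.fst h)
            obtain ⟨x, y⟩ := v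
            fin_cases d <;> simp [mv, dx, dy] at h2 }
  x0 := a0
  x1 := a1
  y0 := B.y1 - 1
  y1 := B.y2 - 1
  h01 := h01
  hR := by
    intro v
    show v ∈ gR B a0 a1 ↔ _
    rw [mem_gR]
    omega
  fr := by
    intro v hv e0 e1 d hd r hr
    replace hv : v ∈ gR B a0 a1 := hv
    replace hd : mv v d ∉ gR B a0 a1 := hd
    rw [mem_gR] at hv hd
    replace hr : Gq (B.beG p y0) (se y0 v, ex d) r := hr
    obtain ⟨hy1, hy2, _, _⟩ := hz
    obtain ⟨hr1, hr2⟩ := hr
    -- the partner is outside
    have key : ∀ (q : TG × ZMod 4), B.nbG p y0 (some (se y0 v, ex d)) = some q → q.1 ∉ B.tG y0 →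
        False := by
      intro q hq hq'
      unfold Band.beG res at hr1
      rw [hq] at hr1
      have hn : ¬ (PortOf (B.tG y0) (some (se y0 v, ex d) : Port TG) ∧
          PortOf (B.tG y0) (some q : Port TG)) := by
        rintro ⟨-, h⟩
        exact hq' (h q rfl)
      rw [if_neg hn] at hr1
      exact hr2 (Option.some_injective _ hr1)
    obtain ⟨u, y⟩ := v
    fin_cases d
    · simp only [mv, dx, dy, Int.cast_zero, add_zero] at hd
      have hy : y = B.y2 - 1 := by omega
      refine key _ (by
        show B.nbG p y0 (some (Sum.inr _, 1)) = _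
        exact Band.nbG_rN B (show y ≠ y0 - 1 by omega)) ?_
      intro h
      have := (Band.inr_mem B).1 h
      omega
    · simp only [mv, dx, dy, Int.cast_one, add_zero] at hd
      dsimp only at e0 e1
      omega
    · simp only [mv, dx, dy, Int.cast_zero, add_zero] at hd
      have hy : y = B.y1 := by omega
      refine key _ (by
        show B.nbG p y0 (some (Sum.inr _, 3)) = _
        exact Band.nbG_rS B (show y ≠ y0 by omega)) ?_
      intro h
      have := (Band.inr_mem B).1 h
      omega
    · simp only [mv, dx, dy, Int.cast_neg, Int.cast_one, add_zero] at hd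
      dsimp only at e0 e1
      omega

end Crest.Agent.R158.Zg180
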