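import Crest.Agent.R158.Zg4_180

/-!
# Row 158 (helper180): gates, 5: probabilities

* `fld C s` : the tile field (679's convention) read in the chart `C`
* `fld_law` : its law on events of the region of the chart
* `fld_dep` : dependence
* `gate_prob` : `P(gate not closed) ≤ q ^ N` if it is `N` times longer than high
-/

set_option autoImplicit false

noncomputable section

namespace Crest.Agent.R158.Zg180

open MeasureTheory ProbabilityTheory unitInterval
open Crest.Agent.R161.Geo729
open Crest.Agent.R158.Rs689 Crest.Agent.R158.Mr679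
open Crest.Agent.R158.Nm211 (Dir dx dy trn St mv nx6 rd opp DepF integral_transport)
open Crest.Agent.R158.Cb771 (xg)
open Crest.Agent.R158.Ka470 (Ch)

universe u

variable {T : Type u} {G : T × ZMod 4 → T × ZMod 4 → Prop}

/-- the tile field read in a chart -/
def fld (C : Ch T G) (s : T → Bool) : TF := xg (gn (rd C.emb C.Fn s))

/-- the flips of the reading -/
def fl (C : Ch T G) (t : P2) : Bool := xor (C.Fn t) (decide ((t.1 + t.2) % 2 = 0))

theorem fld_eq (C : Ch T G) (s : T → Bool) : fld C s = fun t => xor (fl C t) (s (C.emb t)) := by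
  funext t
  unfold fld xg gn rd fl
  by_cases h : (t.1 + t.2) % 2 = 0
  · simp only [h, if_true, decide_true]
    cases C.Fn t <;> cases s (C.emb t) <;> rfl
  · simp only [h, if_false, decide_false]
    cases C.Fn t <;> cases s (C.emb t) <;> rfl

/-- dependence of an event read in a chart -/
theorem fld_dep [DecidableEq T] (C : Ch T G) {S : Finset P2} {A : Set TF} (hA : Dep S A) :
    Dep (S.image C.emb) {s : T → Bool | fld C s ∈ A} := by
  intro s s' h
  refine hA _ _ fun t ht => ?_
  rw [fld_eq, fld_eq]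
  dsimp only
  rw [h _ (Finset.mem_image_of_mem _ ht)]

/-- **law of the field read in a chart** -/
theorem fld_law (C : Ch T G) {S : Finset P2} {A : Set TF} (hA : Dep S A) (hS : S ⊆ C.R) :
    (PB fun _ : T => hf).real {s | fld C s ∈ A} = (tau hf).real A := by
  classical
  have hd : DepF S (A.indicator fun _ => (1 : ℝ)) := by
    intro z z' h
    by_cases hz : z ∈ A
    · rw [Set.indicator_of_mem hz, Set.indicator_of_mem ((hA z z' h).1 hz)]
    · rw [Set.indicator_of_notMem hz, Set.indicator_of_notMem fun h' => hz ((hA z z' h).2 h')]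
  have hinj : Set.InjOn C.emb S := C.inj.mono (by exact_mod_cast hS)
  have h1 := integral_transport (ι := T) (κ := P2) hinj (fl C) hd
  rw [integral_indicator_const _ hA.measurableSet] at h1
  have h2 : ∀ z : T → Bool, (A.indicator fun _ => (1 : ℝ)) (fun e => xor (fl C e) (z (C.emb e))) =
      ({s : T → Bool | fld C s ∈ A}.indicator fun _ => (1 : ℝ)) z := by
    intro z
    have e := fld_eq C z
    by_cases hz : fld C z ∈ A
    · rw [Set.indicator_of_mem (show z ∈ {s : T → Bool | fld C s ∈ A} from hz),
        Set.indicator_of_mem (by rw [← e]; exact hz)]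
    · rw [Set.indicator_of_notMem (show z ∉ {s : T → Bool | fld C s ∈ A} from hz),
        Set.indicator_of_notMem (by rw [← e]; exact hz)]
  simp only [h2] at h1
  rw [integral_indicator_const _ (fld_dep C hA).measurableSet] at h1
  simpa [tau] using h1

/-- **a long gate is closed with high probability** -/
theorem gate_prob : ∃ q : ℝ, 0 < q ∧ q < 1 ∧ ∀ (T : Type u) (G : T × ZMod 4 → T × ZMod 4 → Prop)
    (g : Gate T G) (h N : ℕ), 1 ≤ h → g.y1 = g.y0 + h → g.x0 + N * h ≤ g.x1 →
    (PB fun _ : T => hf).real {s | ¬ g.Closed s} ≤ q ^ N := by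
  obtain ⟨q, hq, hq1, hch⟩ := chan_le
  refine ⟨q, hq, hq1, fun T G g h N hh hy hx => ?_⟩
  set A : Set TF := (BX 0 g.x0 g.x1 g.y0 g.y1)ᶜ with hA
  have hd : Dep (bxF g.x0 g.x1 g.y0 g.y1) A := (bx_dep _ _ _ _ _).compl
  have hS : bxF g.x0 g.x1 g.y0 g.y1 ⊆ g.C.R := by
    intro t ht
    rw [mem_bxF] at ht
    rw [g.hR]
    unfold InB at ht
    omega
  have h1 := fld_law g.C hd hS
  have h2 : {s : T → Bool | ¬ g.Closed s} = {s | fld g.C s ∈ A} := rfl
  rw [h2, h1]
  refine (measureReal_mono ?_).trans (hch h N hh 0 g.x0 g.y0)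
  intro X hX i hi hb
  refine hX (bx_mono (by omega) ?_ ?_ le_rfl le_rfl (hy ▸ hb))
  · have : (0 : ℤ) ≤ (i : ℤ) * h := by positivity
    omega
  · have : ((i : ℤ) + 1) * h ≤ (N : ℤ) * h := by
      have h3 : (i : ℤ) + 1 ≤ N := by exact_mod_cast hi
      exact mul_le_mul_of_nonneg_right h3 (by positivity)
    omega

theorem closed_dep [DecidableEq T] (g : Gate T G) :
    Dep ((bxF g.x0 g.x1 g.y0 g.y1).image g.C.emb) {s : T → Bool | g.Closed s} :=
  fld_dep g.C (bx_dep _ _ _ _ _)

end Crest.Agent.R158.Zg180
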