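import Crest.Agent.R158.Gc6_748
import Crest.Agent.R158.Pt2_266
import Crest.Agent.R158.Ka1_470
import Crest.Agent.R158.Zb2_180

/-!
# Row 158 (helper180): strands in a box = helper748's partner map of the box

`box x0 y0 m n` : tiles `[x0, x0+m] × [y0, y0+n]`.  Splittings `s` of helper300/748 (`true` = W-N),
`sc s = !s` in helper211's convention for `nx6`.

* `wk_iter`, `iter_wk` : walks of the word of the box are iterates of `nx6 (sc s)`
* `bm_iff` : `BM s (some a) = some b` iff the strand entering through `a` leaves the box through `b`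
-/

set_option autoImplicit false

noncomputable section

namespace Crest.Agent.R158.Zm180

open Crest.Agent.R158.Sw300 (Port Wd thru)
open Crest.Agent.R158.Gc748
open Crest.Agent.R158.Nm211 (Dir dx dy trn St mv nx6)
open Crest.Agent.R158.Ka470 (en ex thru_sg ex_inj en_inj)
open Crest.Agent.R158.Pt266 (Fr Gw glu_Gw walk_word fr_of_mem)

variable {x0 y0 : ℤ} {m n : ℕ}

/-- splitting in helper211's convention -/
def sc (s : ℤ × ℤ → Bool) : ℤ × ℤ → Bool := fun v => !s v

theorem thru_en (b : Bool) (d : Dir) : thru b (en d) = ex (trn (!b) d) := by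
  have := thru_sg false b d
  simpa [Crest.Agent.R158.Ka470.sg] using this

theorem rect_gl {v : ℤ × ℤ} {d : Dir} {q : (ℤ × ℤ) × ZMod 4} :
    (rect x0 y0 m n).gl (some (v, ex d)) (some q) ↔
      InR x0 y0 m n v ∧ InR x0 y0 m n (mv v d) ∧ q = (mv v d, en d) := by
  obtain ⟨x, y⟩ := v
  unfold InR
  fin_cases d
  · show (rect x0 y0 m n).gl (some ((x, y), 1)) (some q) ↔ _
    simp only [Xr249.Reg.gl, rect_v, rect_h, mv, dx, dy, en, show (1 : ZMod 4) ≠ 0 by decide,
      show (1 : ZMod 4) ≠ 2 by decide, show (1 : ZMod 4) ≠ 3 by decide, false_and, false_or,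
      or_false, true_and, Option.some.injEq, Int.cast_zero, add_zero]
    constructor
    · rintro ⟨h, rfl⟩; exact ⟨by omega, by omega, rfl⟩
    · rintro ⟨h1, h2, h3⟩; exact ⟨by omega, h3⟩
  · show (rect x0 y0 m n).gl (some ((x, y), 2)) (some q) ↔ _
    simp only [Xr249.Reg.gl, rect_v, rect_h, mv, dx, dy, en, show (2 : ZMod 4) ≠ 0 by decide,
      show (2 : ZMod 4) ≠ 1 by decide, show (2 : ZMod 4) ≠ 3 by decide, false_and, false_or,
      or_false, true_and, Option.some.injEq, Int.cast_one, add_zero]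
    constructor
    · rintro ⟨h, rfl⟩; exact ⟨by omega, by omega, rfl⟩
    · rintro ⟨h1, h2, h3⟩; exact ⟨by omega, h3⟩
  · show (rect x0 y0 m n).gl (some ((x, y), 3)) (some q) ↔ _
    simp only [Xr249.Reg.gl, rect_v, rect_h, mv, dx, dy, en, show (3 : ZMod 4) ≠ 0 by decide,
      show (3 : ZMod 4) ≠ 1 by decide, show (3 : ZMod 4) ≠ 2 by decide, false_and, false_or,
      or_false, true_and, Option.some.injEq, Int.cast_zero, add_zero]
    constructor
    · rintro ⟨h, rfl⟩; exact ⟨by omega, by omega, rfl⟩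
    · rintro ⟨h1, h2, h3⟩; exact ⟨by omega, h3⟩
  · show (rect x0 y0 m n).gl (some ((x, y), 0)) (some q) ↔ _
    simp only [Xr249.Reg.gl, rect_v, rect_h, mv, dx, dy, en, show (0 : ZMod 4) ≠ 1 by decide,
      show (0 : ZMod 4) ≠ 2 by decide, show (0 : ZMod 4) ≠ 3 by decide, false_and, false_or,
      or_false, true_and, Option.some.injEq, Int.cast_neg, Int.cast_one, add_zero]
    constructor
    · rintro ⟨h, rfl⟩; exact ⟨by omega, by omega, rfl⟩
    · rintro ⟨h1, h2, h3⟩; exact ⟨by omega, h3⟩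

/-- glueing of the word of the box -/
theorem gw_iff {v : ℤ × ℤ} {d : Dir} {q : (ℤ × ℤ) × ZMod 4} :
    Gw (rectW x0 y0 m n) (v, ex d) q ↔
      InR x0 y0 m n v ∧ InR x0 y0 m n (mv v d) ∧ q = (mv v d, en d) := by
  rw [← rect_gl]
  exact (rectW_rw x0 y0 m n).gp

variable {s : ℤ × ℤ → Bool}

theorem nx_fst (c : St ℤ) : (nx6 (sc s) c).1 = mv c.1 (nx6 (sc s) c).2 := rfl

theorem it_fst (c : St ℤ) (k : ℕ) : ((nx6 (sc s))^[k + 1] c).1 =
    mv ((nx6 (sc s))^[k] c).1 ((nx6 (sc s))^[k + 1] c).2 := by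
  rw [Function.iterate_succ_apply']
  rfl

theorem pass_st (c : St ℤ) : Pt266.pass s (c.1, en c.2) = (c.1, ex (nx6 (sc s) c).2) := by
  unfold Pt266.pass
  rw [thru_en]
  rfl

/-- walks are iterates -/
theorem wk_iter {c : St ℤ} (hc : InR x0 y0 m n c.1) {y : (ℤ × ℤ) × ZMod 4}
    {l : List ((ℤ × ℤ) × ZMod 4)}
    (hw : Pt266.Wk s (Gw (rectW x0 y0 m n)) (c.1, en c.2) y l) :
    ∃ k, (∀ j ≤ k, InR x0 y0 m n ((nx6 (sc s))^[j] c).1) ∧
      y = (((nx6 (sc s))^[k] c).1, ex ((nx6 (sc s))^[k + 1] c).2) := by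
  induction hw with
  | one =>
    refine ⟨0, fun j hj => ?_, pass_st c⟩
    have : j = 0 := by omega
    subst this
    exact hc
  | @snoc q r l _ hg ih =>
    obtain ⟨k, h1, rfl⟩ := ih
    obtain ⟨h2, h3, rfl⟩ := gw_iff.1 hg
    refine ⟨k + 1, fun j hj => ?_, ?_⟩
    · rcases Nat.lt_or_ge k j with h | h
      · have : j = k + 1 := by omega
        rw [this, it_fst]
        exact h3
      · exact h1 j h
    · rw [← it_fst, pass_st, ← Function.iterate_succ_apply' (nx6 (sc s))]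

/-- iterates are walks -/
theorem iter_wk {c : St ℤ} {k : ℕ} (h : ∀ j ≤ k, InR x0 y0 m n ((nx6 (sc s))^[j] c).1) :
    ∃ l, Pt266.Wk s (Gw (rectW x0 y0 m n)) (c.1, en c.2)
      (((nx6 (sc s))^[k] c).1, ex ((nx6 (sc s))^[k + 1] c).2) l := by
  induction k with
  | zero =>
    refine ⟨[(c.1, en c.2)], ?_⟩
    have := Pt266.Wk.one (s := s) (G := Gw (rectW x0 y0 m n)) (x := (c.1, en c.2))
    rwa [pass_st] at this
  | succ k ih =>
    obtain ⟨l, hl⟩ := ih fun j hj => h j (by omega)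
    have hg : Gw (rectW x0 y0 m n) (((nx6 (sc s))^[k] c).1, ex ((nx6 (sc s))^[k + 1] c).2)
        (((nx6 (sc s))^[k + 1] c).1, en ((nx6 (sc s))^[k + 1] c).2) := by
      refine gw_iff.2 ⟨h k (by omega), ?_, ?_⟩
      · rw [← it_fst]; exact h (k + 1) le_rfl
      · rw [← it_fst]
    have := hl.snoc hg
    rw [pass_st, ← Function.iterate_succ_apply' (nx6 (sc s))] at this
    exact ⟨_, this⟩

/-- sides leaving the box are free -/
theorem fr_out {v : ℤ × ℤ} {d : Dir} (h : ¬ InR x0 y0 m n (mv v d)) :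
    Fr (Gw (rectW x0 y0 m n)) (v, ex d) := by
  intro b hb
  exact h (gw_iff.1 hb).2.1

theorem mem_L_iff {v : ℤ × ℤ} {d : Dir} : (some (v, ex d) : Port (ℤ × ℤ)) ∈
    Sw300.L (rectW x0 y0 m n) ↔ InR x0 y0 m n v ∧ ¬ InR x0 y0 m n (mv v d) := by
  have hrw := rectW_rw x0 y0 m n
  rw [Pt266.mem_L hrw.ok, hrw.tls]
  have e1 : (v ∈ (rect x0 y0 m n).P) ↔ InR x0 y0 m n v := by
    have := congrFun (inR_eq (x0 := x0) (y0 := y0) (m := m) (n := n)) v
    exact iff_of_eq this
  constructor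
  · rintro ⟨h1, h2⟩
    have h1' := e1.1 h1
    refine ⟨h1', fun h3 => h2 ⟨some (mv v d, en d), ?_⟩⟩
    exact (gw_iff (q := (mv v d, en d))).2 ⟨h1', h3, rfl⟩
  · rintro ⟨h1, h2⟩
    refine ⟨e1.2 h1, ?_⟩
    rintro ⟨y, hy⟩
    rcases y with _ | q
    · have := (hrw.gp (p := some (v, ex d)) (q := none)).1 hy
      simp [Xr249.Reg.gl] at this
    · exact h2 (gw_iff.1 hy).2.1

/-- **dictionary**: the partner map of the box and the strands -/
theorem bm_iff {c : St ℤ} (hc : InR x0 y0 m n c.1)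
    (hc' : (some (c.1, en c.2) : Port (ℤ × ℤ)) ∈ Sw300.L (rectW x0 y0 m n))
    {b : (ℤ × ℤ) × ZMod 4} : BM s x0 y0 m n (some (c.1, en c.2)) = some b ↔
    ∃ k, (∀ j ≤ k, InR x0 y0 m n ((nx6 (sc s))^[j] c).1) ∧
      ¬ InR x0 y0 m n ((nx6 (sc s))^[k + 1] c).1 ∧
      b = (((nx6 (sc s))^[k] c).1, ex ((nx6 (sc s))^[k + 1] c).2) := by
  have hrw := rectW_rw x0 y0 m n
  have hne : Sw300.M s (rectW x0 y0 m n) (some (c.1, en c.2)) ≠ some (c.1, en c.2) := by
    intro h
    have := M_fix s hrw.ok (by rw [hrw.bas]; simp) hc' h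
    simp at this
  obtain ⟨a, b', l, ha, hb', hw, -⟩ := walk_word s hrw.ok hc' hne
  have ha' : a = (c.1, en c.2) := (Option.some_injective _ ha).symm
  subst ha'
  have hbL : (some b' : Port (ℤ × ℤ)) ∈ Sw300.L (rectW x0 y0 m n) := by
    rw [← hb']
    exact (gd_wd s hrw.ok).mem _ hc'
  have hfr := fr_of_mem hrw.ok hbL
  constructor
  · intro h
    have e : b' = b := by
      have h2 : some b' = some b := hb'.symm.trans h
      exact Option.some_injective _ h2
    subst e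
    obtain ⟨k, h1, h2⟩ := wk_iter hc hw
    refine ⟨k, h1, fun h3 => ?_, h2⟩
    rw [h2] at hfr
    rw [it_fst] at h3
    exact hfr _ (gw_iff.2 ⟨h1 k le_rfl, h3, rfl⟩)
  · rintro ⟨k, h1, h2, rfl⟩
    obtain ⟨l', hw'⟩ := iter_wk h1
    rw [it_fst] at h2
    have := (Pt266.Wk.det (glu_Gw hrw.ok).fn hw hfr hw' (fr_out h2)).1
    show Sw300.M s (rectW x0 y0 m n) (some (c.1, en c.2)) = _
    rw [hb', this]

end Crest.Agent.R158.Zm180
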