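import Crest.Agent.R158.It4_200

/-!
# Row 158, BLOCK Z (helper110), part 1: the type of a strand is increasing, medial reflections

* `AllFin z` : all the strands of `z` are finite; `allFin_flip`, `allFin_open`, `allFin_cof`
* `sg_mono` : opening edges keeps `sg z c = 1` (the face of the corner is inside its strand)
* `Rfl` : reflection in the line of a medial edge (exchanges `ℤ²` and its dual); `Rfl.sg_eq` :
  it changes the type of the strand through a fixed corner
* `exists_rfl` : every corner is fixed by such a reflection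
-/

set_option autoImplicit false

noncomputable section

namespace Crest.Agent.R158.Zr110

open Crest.Agent.R161.Geo729 Crest.Agent.R161.Dual374
open Crest.Agent.R158.It200
open Finset

/-! ### type along a strand -/

theorem sg_congr {z z' : Cfz} {c : Corner} (h : Lp z c = Lp z' c) : sg z c = sg z' c := by
  unfold sg hv hf JL
  rw [h]

theorem hv_congr {z z' : Cfz} {c : Corner} (h : Lp z c = Lp z' c) : hv z c = hv z' c := by
  unfold hv JL
  rw [h]

theorem hf_congr {z z' : Cfz} {c : Corner} (h : Lp z c = Lp z' c) : hf z c = hf z' c := by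
  unfold hf JL
  rw [h]

/-- the type is constant along a finite strand -/
theorem sg_along {z : Cfz} {c d : Corner} (hfin : (Lp z c).Finite) (h : d ∈ Lp z c) :
    sg z d = sg z c := by
  have e1 : hv z d = hv z c := hv_eq h
  have e2 : hf z d = hf z c := hf_eq h
  unfold sg
  rw [e1, e2]
  rcases sgn_cases hfin with ⟨h1, -, -⟩ | ⟨h1, -, -⟩
  · have a := h1 d h
    have b := h1 c (mem_Lp_self _ _)
    rw [a.1, a.2, b.1, b.2]
  · have a := h1 d h
    have b := h1 c (mem_Lp_self _ _)
    rw [a.1, a.2, b.1, b.2]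

theorem sg_pm {z : Cfz} {c : Corner} (hfin : (Lp z c).Finite) : sg z c = 1 ∨ sg z c = -1 := by
  rcases sg_cases hfin with ⟨h, _⟩ | ⟨h, _⟩
  · exact Or.inr h
  · exact Or.inl h

/-! ### all strands finite -/

/-- all the strands are finite -/
def AllFin (z : Cfz) : Prop := ∀ c, (Lp z c).Finite

theorem allFin_flip {z : Cfz} (h : AllFin z) (e : Edge) : AllFin (flip z e) := by
  intro c
  by_cases hc : i1 e ∈ Lp z c ∨ i2 e ∈ Lp z c
  · -- the strand of `c` in `flip z e` meets the union
    have hU : c ∈ Lp (flip z e) (i1 e) ∪ Lp (flip z e) (i2 e) := by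
      rw [flip_union]
      rcases hc with h1 | h1
      · exact Or.inl h1.symm
      · exact Or.inr h1.symm
    have hfin : (Lp (flip z e) (i1 e) ∪ Lp (flip z e) (i2 e)).Finite := by
      rw [flip_union]
      exact (h _).union (h _)
    rcases hU with h2 | h2
    · refine hfin.subset ?_
      have : Lp (flip z e) c = Lp (flip z e) (i1 e) := Lp_eq h2
      rw [this]; exact Set.subset_union_left
    · refine hfin.subset ?_
      have : Lp (flip z e) c = Lp (flip z e) (i2 e) := Lp_eq h2
      rw [this]; exact Set.subset_union_right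
  · push Not at hc
    rw [flip_other hc.1 hc.2]
    exact h c

/-- in the completely open configuration every strand has at most four corners -/
theorem allFin_open : AllFin (fun _ => true) := by
  intro c
  refine Lp_finite_of_f ?_
  have : DCl (fun _ => true) (fc c) ⊆ {fc c} := by
    intro g hg
    have hg' : Relation.ReflTransGen (DStep (fun e => (fun _ => true : Cfz) e = false))
      (fc c) g := hg
    induction hg' with
    | refl => rfl
    | tail _ hs _ =>
        obtain ⟨e, he, -⟩ := hs
        simp at he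
  exact (Set.finite_singleton _).subset this

/-- in the completely closed configuration every strand is finite -/
theorem allFin_closed : AllFin (fun _ => false) := by
  intro c
  refine Lp_finite_of_v ?_
  have : OCl (fun _ => false) c.1 ⊆ {c.1} := by
    intro g hg
    have hg' : Relation.ReflTransGen (PStep (fun e => (fun _ => false : Cfz) e = true))
      c.1 g := hg
    induction hg' with
    | refl => rfl
    | tail _ hs _ =>
        obtain ⟨e, he, -⟩ := hs
        simp at he
  exact (Set.finite_singleton _).subset this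

theorem update_eq {z : Cfz} {e : Edge} {b : Bool} :
    Function.update z e b = z ∨ Function.update z e b = flip z e := by
  by_cases h : b = z e
  · left; rw [h, Function.update_eq_self]
  · right
    unfold It200.flip
    have : b = !(z e) := by cases b <;> cases hz : z e <;> simp_all
    rw [this]

/-- changing finitely many edges keeps all strands finite -/
theorem allFin_of_agree {S : Finset Edge} : ∀ {z z' : Cfz}, AllFin z → (∀ e ∉ S, z e = z' e) →
    AllFin z' := by
  classical
  induction S using Finset.induction_on with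
  | empty =>
      intro z z' h1 h2
      have : z = z' := funext fun e => h2 e (Finset.notMem_empty e)
      exact this ▸ h1
  | insert a S ha ih =>
      intro z z' h1 h2
      have h3 : AllFin (Function.update z a (z' a)) := by
        rcases update_eq (z := z) (e := a) (b := z' a) with h | h
        · rw [h]; exact h1
        · rw [h]; exact allFin_flip h1 a
      refine ih h3 fun e he => ?_
      by_cases hea : e = a
      · rw [hea, Function.update_self]
      · rw [Function.update_of_ne hea]
        exact h2 e (by rw [Finset.mem_insert]; push Not; exact ⟨hea, he⟩)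

/-! ### monotonicity -/

/-- opening one edge -/
theorem sg_mono_one {z : Cfz} {e : Edge} {c : Corner} (h : AllFin z) (he : z e = false)
    (hs : sg z c = 1) : sg (flip z e) c = 1 := by
  have h' : AllFin (flip z e) := allFin_flip h e
  by_cases h0 : i1 e ∉ Lp z c ∧ i2 e ∉ Lp z c
  · rw [sg_congr (flip_other h0.1 h0.2)]; exact hs
  have hc : c ∈ Lp (flip z e) (i1 e) ∪ Lp (flip z e) (i2 e) := by
    rw [flip_union]
    rw [not_and_or, not_not, not_not] at h0
    rcases h0 with h1 | h1
    · exact Or.inl h1.symm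
    · exact Or.inr h1.symm
  have hc0 : c ∈ Lp z (i1 e) ∪ Lp z (i2 e) := by rw [← flip_union]; exact hc
  by_cases hm : i2 e ∈ Lp z (i1 e)
  · -- split
    have hcz : c ∈ Lp z (i1 e) := by
      rcases hc0 with h1 | h1
      · exact h1
      · rwa [Lp_eq hm] at h1
    have hs1 : sg z (i1 e) = 1 := by rw [← sg_along (h _) hcz]; exact hs
    rcases split_closed_open he (h _) hm with ⟨-, a, b, -, -⟩ | ⟨a, -⟩ | ⟨a, -⟩
    · rcases hc with h1 | h1
      · rw [sg_along (h' _) h1]; exact a
      · rw [sg_along (h' _) h1]; exact b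
    · rw [hs1] at a; norm_num at a
    · rw [hs1] at a; norm_num at a
  · -- merge
    have hm' : i2 e ∈ Lp (flip z e) (i1 e) := flip_merge (h _) hm
    have hcz : c ∈ Lp (flip z e) (i1 e) := by
      rcases hc with h1 | h1
      · exact h1
      · rwa [Lp_eq hm'] at h1
    rw [sg_along (h' _) hcz]
    have he' : flip z e e = true := by rw [flip_same, he]; rfl
    have key := split_open_closed he' (h' _) hm'
    rw [It200.flip_flip] at key
    rcases key with ⟨-, a, b, -, -⟩ | ⟨a, -⟩ | ⟨a, -⟩
    · exfalso
      rcases hc0 with h1 | h1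
      · rw [sg_along (h _) h1, a] at hs; norm_num at hs
      · rw [sg_along (h _) h1, b] at hs; norm_num at hs
    · exact a
    · exact a

/-- **opening edges keeps the face of the corner inside its strand** -/
theorem sg_mono {S : Finset Edge} : ∀ {z z' : Cfz} {c : Corner}, AllFin z →
    (∀ e, z e = true → z' e = true) → (∀ e ∉ S, z e = z' e) → sg z c = 1 → sg z' c = 1 := by
  classical
  induction S using Finset.induction_on with
  | empty =>
      intro z z' c h1 _ h3 h4
      have : z = z' := funext fun e => h3 e (Finset.notMem_empty e)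
      exact this ▸ h4
  | insert a S ha ih =>
      intro z z' c h1 h2 h3 h4
      set z1 := Function.update z a (z' a) with hz1
      have hcase : z1 = z ∨ (z a = false ∧ z1 = flip z a) := by
        rcases update_eq (z := z) (e := a) (b := z' a) with h | h
        · exact Or.inl h
        · cases hza : z a with
          | false => exact Or.inr ⟨rfl, h⟩
          | true =>
              left
              rw [hz1, h2 a hza, ← hza, Function.update_eq_self]
      have g1 : AllFin z1 := by
        rcases hcase with h | ⟨-, h⟩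
        · rw [h]; exact h1
        · rw [h]; exact allFin_flip h1 a
      have g4 : sg z1 c = 1 := by
        rcases hcase with h | ⟨ha', h⟩
        · rw [h]; exact h4
        · rw [h]; exact sg_mono_one h1 ha' h4
      refine ih (z := z1) g1 (fun e he => ?_) (fun e he => ?_) g4
      · by_cases hea : e = a
        · rw [hea] at he ⊢
          rwa [hz1, Function.update_self] at he
        · rw [hz1, Function.update_of_ne hea] at he
          exact h2 e he
      · by_cases hea : e = a
        · rw [hea, hz1, Function.update_self]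
        · rw [hz1, Function.update_of_ne hea]
          exact h3 e (by rw [Finset.mem_insert]; push Not; exact ⟨hea, he⟩)

/-! ### heights far away -/

theorem far {z : Cfz} {c : Corner} (hfin : (Lp z c).Finite) :
    ∃ N : ℤ, ∀ v : P2, N < |v.1| → hv z c v = 0 ∧ hf z c v = 0 := by
  have h1 : ∃ N : ℤ, ∀ d ∈ Lp z c, |d.1.1| ≤ N ∧ |d.1.2| ≤ N := by
    have hb := (hfin.image fun d : Corner => max |d.1.1| |d.1.2|).bddAbove
    obtain ⟨N, hN⟩ := hb
    refine ⟨N, fun d hd => ?_⟩
    have := hN ⟨d, hd, rfl⟩
    exact ⟨(le_max_left _ _).trans this, (le_max_right _ _).trans this⟩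
  obtain ⟨N, hN⟩ := h1
  have hB : ∀ d, JL z c d ≠ 0 → -N ≤ d.1.1 ∧ d.1.1 ≤ N ∧ -N ≤ d.1.2 ∧ d.1.2 ≤ N := by
    intro d hd
    have hmem : d ∈ Lp z c := by
      by_contra h
      exact hd (JL_not_mem h)
    obtain ⟨a, b⟩ := hN d hmem
    rw [abs_le] at a b
    exact ⟨a.1, a.2, b.1, b.2⟩
  refine ⟨N, fun v hv' => ?_⟩
  rw [lt_abs] at hv'
  have hout : v.1 < -N ∨ N < v.1 ∨ v.2 < -N ∨ N < v.2 := by
    rcases hv' with h | h
    · right; left; exact h
    · left; linarith
  refine ⟨Hv_out (JL_fs hfin) (JL_inv z c).cons hB hout, ?_⟩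
  have := Hf_out (JL_fs hfin) (JL_inv z c).cons hB (c := (v, 0)) hout
  rwa [fc_zero] at this

/-! ### medial reflections -/

/-- a reflection of the medial lattice exchanging vertices and faces -/
structure Rfl where
  /-- image of a vertex (a face) -/
  al : P2 → P2
  /-- image of a face (a vertex) -/
  be : P2 → P2
  /-- image of an edge -/
  ep : Edge → Edge
  /-- image of a corner -/
  ka : Corner → Corner
  ep_ep : ∀ e, ep (ep e) = e
  ka_ka : ∀ c, ka (ka c) = c
  fst_ka : ∀ c, (ka c).1 = be (fc c)
  fc_ka : ∀ c, fc (ka c) = al c.1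
  ah_ka : ∀ c, ah (ka c) = ep (ah c)
  nxo_ka : ∀ c, nxo (ka c) = ka (nxc c)
  nxc_ka : ∀ c, nxc (ka c) = ka (nxo c)
  far : ∀ N : ℤ, ∃ v : P2, N < |v.1| ∧ N < |(al v).1|
  al_be : ∀ f, al (be f) = f
  be_al : ∀ v, be (al v) = v

namespace Rfl

variable (ρ : Rfl)

/-- action on configurations -/
def act (z : Cfz) : Cfz := fun e => !z (ρ.ep e)

theorem act_act (z : Cfz) : ρ.act (ρ.act z) = z := by
  funext e; simp [act, ρ.ep_ep]

theorem nx_act (z : Cfz) (c : Corner) : nx (ρ.act z) (ρ.ka c) = ρ.ka (nx z c) := by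
  have h1 : ρ.act z (ah (ρ.ka c)) = !z (ah c) := by
    unfold act; rw [ρ.ah_ka, ρ.ep_ep]
  cases h : z (ah c) with
  | true =>
      rw [nx_open h, nx_closed (by rw [h1, h]; rfl), ρ.nxc_ka]
  | false =>
      rw [nx_closed h, nx_open (by rw [h1, h]; rfl), ρ.nxo_ka]

theorem ka_inj {c d : Corner} (h : ρ.ka c = ρ.ka d) : c = d := by
  rw [← ρ.ka_ka c, h, ρ.ka_ka]

theorem pv_act (z : Cfz) (c : Corner) : pv (ρ.act z) (ρ.ka c) = ρ.ka (pv z c) := by
  have h := ρ.nx_act z (pv z c)
  rw [nx_pv] at h
  rw [← h, pv_nx]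

theorem ka_mem {z : Cfz} {c d : Corner} (h : d ∈ Lp z c) : ρ.ka d ∈ Lp (ρ.act z) (ρ.ka c) := by
  refine Lp_induct (P := fun d => ρ.ka d ∈ Lp (ρ.act z) (ρ.ka c)) (mem_Lp_self _ _) ?_ ?_ d h
  · intro d _ hd
    rw [← ρ.nx_act]
    exact nx_mem_Lp.2 hd
  · intro d _ hd
    rw [← ρ.pv_act]
    exact pv_mem_Lp.2 hd

theorem ka_mem_iff {z : Cfz} {c d : Corner} : ρ.ka d ∈ Lp (ρ.act z) (ρ.ka c) ↔ d ∈ Lp z c := by
  constructor
  · intro h
    have := ρ.ka_mem h
    rwa [ρ.act_act, ρ.ka_ka, ρ.ka_ka] at this
  · exact ρ.ka_mem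

theorem Lp_act (z : Cfz) (c : Corner) : Lp (ρ.act z) (ρ.ka c) = ρ.ka '' Lp z c := by
  ext d
  constructor
  · intro h
    refine ⟨ρ.ka d, ?_, ρ.ka_ka d⟩
    rw [← ρ.ka_mem_iff, ρ.ka_ka]
    exact h
  · rintro ⟨x, hx, rfl⟩
    exact ρ.ka_mem hx

theorem fin_act {z : Cfz} {c : Corner} (h : (Lp z c).Finite) :
    (Lp (ρ.act z) (ρ.ka c)).Finite := by
  rw [ρ.Lp_act]; exact h.image _

theorem JL_act (z : Cfz) (c d : Corner) : JL (ρ.act z) (ρ.ka c) (ρ.ka d) = JL z c d := by
  by_cases h : d ∈ Lp z c
  · rw [JL_mem h, JL_mem (ρ.ka_mem h)]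
  · rw [JL_not_mem h, JL_not_mem fun h' => h (ρ.ka_mem_iff.1 h')]

/-- two functions without jumps are equal constants -/
theorem const_of_grad {A B : P2 → ℤ} (h : ∀ d : Corner, B (fc d) = A d.1) (u v : P2) :
    A u = A v ∧ B u = A v := by
  have e0 : ∀ u : P2, B u = A u := fun u => by
    have := h (u, 0); rwa [fc_zero] at this
  have hx : ∀ u : P2, A (u.1 + 1, u.2) = A u := by
    intro u
    have h3 := h ((u.1 + 1, u.2), 3)
    have e : fc ((u.1 + 1, u.2), 3) = u := by simp [fc]
    rw [e, e0] at h3
    exact h3.symm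
  have hy : ∀ u : P2, A (u.1, u.2 + 1) = A u := by
    intro u
    have h3 := h ((u.1, u.2 + 1), 1)
    have e : fc ((u.1, u.2 + 1), 1) = u := by simp [fc]
    rw [e, e0] at h3
    exact h3.symm
  have hxn : ∀ (n : ℕ) (u : P2), A (u.1 + n, u.2) = A u := by
    intro n
    induction n with
    | zero => intro u; simp
    | succ n ih =>
        intro u
        have := hx (u.1 + n, u.2)
        simp only at this
        rw [Nat.cast_succ, ← add_assoc, this, ih]
  have hyn : ∀ (n : ℕ) (u : P2), A (u.1, u.2 + n) = A u := by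
    intro n
    induction n with
    | zero => intro u; simp
    | succ n ih =>
        intro u
        have := hy (u.1, u.2 + n)
        simp only at this
        rw [Nat.cast_succ, ← add_assoc, this, ih]
  have hxz : ∀ (a : ℤ) (u : P2), A (a, u.2) = A u := by
    intro a u
    rcases le_total u.1 a with h' | h'
    · have := hxn (a - u.1).toNat u
      rwa [Int.toNat_of_nonneg (by linarith), add_sub_cancel] at this
    · have := hxn (u.1 - a).toNat (a, u.2)
      simp only at this
      rw [Int.toNat_of_nonneg (by linarith), add_sub_cancel] at this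
      exact this.symm
  have hyz : ∀ (b : ℤ) (u : P2), A (u.1, b) = A u := by
    intro b u
    rcases le_total u.2 b with h' | h'
    · have := hyn (b - u.2).toNat u
      rwa [Int.toNat_of_nonneg (by linarith), add_sub_cancel] at this
    · have := hyn (u.2 - b).toNat (u.1, b)
      simp only at this
      rw [Int.toNat_of_nonneg (by linarith), add_sub_cancel] at this
      exact this.symm
  have hA : A u = A v := by
    have h1 := hxz v.1 u
    have h2 := hyz v.2 (v.1, u.2)
    simp only at h2
    rw [← h1, ← h2]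
  exact ⟨hA, by rw [e0, hA]⟩

/-- heights of the reflected strand -/
theorem height_act {z : Cfz} {c : Corner} (h : (Lp z c).Finite) (v f : P2) :
    hv (ρ.act z) (ρ.ka c) v = -hf z c (ρ.al v) ∧ hf (ρ.act z) (ρ.ka c) f = -hv z c (ρ.be f) := by
  have h' := ρ.fin_act h
  set A : P2 → ℤ := fun v => hv (ρ.act z) (ρ.ka c) v + hf z c (ρ.al v) with hA
  set B : P2 → ℤ := fun f => hf (ρ.act z) (ρ.ka c) f + hv z c (ρ.be f) with hB
  have hgrad : ∀ d : Corner, B (fc d) = A d.1 := by
    intro d
    have g1 := hv_grad h' d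
    have g2 := hv_grad h (ρ.ka d)
    rw [ρ.fc_ka, ρ.fst_ka] at g2
    have g3 : JL (ρ.act z) (ρ.ka c) d = JL z c (ρ.ka d) := by
      have := ρ.JL_act z c (ρ.ka d)
      rwa [ρ.ka_ka] at this
    show hf (ρ.act z) (ρ.ka c) (fc d) + hv z c (ρ.be (fc d)) =
      hv (ρ.act z) (ρ.ka c) d.1 + hf z c (ρ.al d.1)
    linarith
  obtain ⟨N1, hN1⟩ := Zr110.far h
  obtain ⟨N2, hN2⟩ := Zr110.far h'
  obtain ⟨w, hw1, hw2⟩ := ρ.far (max N1 N2)
  have hAw : A w = 0 := by
    show hv (ρ.act z) (ρ.ka c) w + hf z c (ρ.al w) = 0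
    rw [(hN2 w (lt_of_le_of_lt (le_max_right _ _) hw1)).1,
      (hN1 (ρ.al w) (lt_of_le_of_lt (le_max_left _ _) hw2)).2, add_zero]
  have hc1 := const_of_grad hgrad
  constructor
  · have := (hc1 v w).1
    rw [hAw] at this
    have h3 : hv (ρ.act z) (ρ.ka c) v + hf z c (ρ.al v) = 0 := this
    linarith
  · have := (hc1 f w).2
    rw [hAw] at this
    have h3 : hf (ρ.act z) (ρ.ka c) f + hv z c (ρ.be f) = 0 := this
    linarith

/-- **the reflection changes the type** -/
theorem sg_act {z : Cfz} {c : Corner} (h : (Lp z c).Finite) :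
    sg (ρ.act z) (ρ.ka c) = -sg z c := by
  unfold sg
  rw [(ρ.height_act h (ρ.ka c).1 (fc (ρ.ka c))).1, (ρ.height_act h (ρ.ka c).1 (fc (ρ.ka c))).2,
    ρ.fc_ka, ρ.fst_ka, ρ.al_be, ρ.be_al]
  ring

end Rfl

/-- reflection in an antidiagonal medial line -/
def rA (s : ℤ) : Rfl where
  al v := (s - v.2, s - v.1)
  be v := (s - v.2, s - v.1)
  ep e := ((s - e.1.2, s - e.1.1), e.2)
  ka c := match c.2 with
    | 0 => ((s - c.1.2, s - c.1.1), 0)
    | 1 => ((s - c.1.2 + 1, s - c.1.1), 3)
    | 2 => ((s - c.1.2 + 1, s - c.1.1 + 1), 2)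
    | 3 => ((s - c.1.2, s - c.1.1 + 1), 1)
  ep_ep := by rintro ⟨⟨x, y⟩, b⟩; simp
  ka_ka := by
    rintro ⟨⟨x, y⟩, q⟩
    fin_cases q <;> simp <;> first | done | omega | (constructor <;> omega)
  fst_ka := by
    rintro ⟨⟨x, y⟩, q⟩
    fin_cases q <;> simp [fc] <;> ring_nf <;> simp
  fc_ka := by
    rintro ⟨⟨x, y⟩, q⟩
    fin_cases q <;> simp [fc]
  ah_ka := by
    rintro ⟨⟨x, y⟩, q⟩
    fin_cases q <;> simp [ah] <;> ring
  nxo_ka := by
    rintro ⟨⟨x, y⟩, q⟩
    fin_cases q <;> simp [nxo, nxc, wa, rl, rr]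
  nxc_ka := by
    rintro ⟨⟨x, y⟩, q⟩
    fin_cases q <;> simp [nxo, nxc, wa, rl, rr] <;> first | done | omega | (constructor <;> omega)
  far := by
    intro N
    refine ⟨(|N| + 1, -(|N| + |s| + 1)), ?_, ?_⟩
    · simp only
      have := le_abs_self N
      have h2 := abs_nonneg N
      rw [abs_of_nonneg (by linarith)]; linarith
    · simp only
      have := le_abs_self N
      have h2 := abs_nonneg N
      have h3 := neg_abs_le s
      rw [lt_abs]; left; linarith
  al_be := by rintro ⟨x, y⟩; simp <;> first | done | omega | (constructor <;> omega)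
  be_al := by rintro ⟨x, y⟩; simp <;> first | done | omega | (constructor <;> omega)

/-- reflection in a diagonal medial line -/
def rD (t : ℤ) : Rfl where
  al v := (v.2 - t, v.1 + t - 1)
  be v := (v.2 - t + 1, v.1 + t)
  ep e := if e.2 then ((e.1.2 - t + 1, e.1.1 + t - 1), true) else ((e.1.2 - t, e.1.1 + t), false)
  ka c := match c.2 with
    | 0 => ((c.1.2 - t + 1, c.1.1 + t), 2)
    | 1 => ((c.1.2 - t, c.1.1 + t), 1)
    | 2 => ((c.1.2 - t, c.1.1 + t - 1), 0)
    | 3 => ((c.1.2 - t + 1, c.1.1 + t - 1), 3)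
  ep_ep := by
    rintro ⟨⟨x, y⟩, b⟩
    cases b <;> simp <;> first | done | omega | (constructor <;> omega)
  ka_ka := by
    rintro ⟨⟨x, y⟩, q⟩
    fin_cases q <;> simp <;> first | done | omega | (constructor <;> omega)
  fst_ka := by
    rintro ⟨⟨x, y⟩, q⟩
    fin_cases q <;> simp [fc] <;> ring_nf <;> simp
  fc_ka := by
    rintro ⟨⟨x, y⟩, q⟩
    fin_cases q <;> simp [fc] <;> ring
  ah_ka := by
    rintro ⟨⟨x, y⟩, q⟩
    fin_cases q <;> simp [ah] <;> ring
  nxo_ka := by
    rintro ⟨⟨x, y⟩, q⟩
    fin_cases q <;> simp [nxo, nxc, wa, rl, rr] <;> ring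
  nxc_ka := by
    rintro ⟨⟨x, y⟩, q⟩
    fin_cases q <;> simp [nxo, nxc, wa, rl, rr] <;> ring
  far := by
    intro N
    refine ⟨(|N| + 1, |N| + |t| + 1), ?_, ?_⟩
    · simp only
      have := le_abs_self N
      have h2 := abs_nonneg N
      rw [abs_of_nonneg (by linarith)]; linarith
    · simp only
      have := le_abs_self N
      have h2 := abs_nonneg N
      have h3 := le_abs_self t
      rw [lt_abs]; left; linarith
  al_be := by rintro ⟨x, y⟩; simp <;> first | done | omega | (constructor <;> omega)
  be_al := by rintro ⟨x, y⟩; simp <;> first | done | omega | (constructor <;> omega)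

/-- every corner is fixed by a medial reflection -/
theorem exists_rfl (c : Corner) : ∃ ρ : Rfl, ρ.ka c = c := by
  obtain ⟨⟨a, b⟩, q⟩ := c
  fin_cases q
  · refine ⟨rA (a + b), ?_⟩
    simp [rA] <;> first | done | omega | (constructor <;> omega)
  · refine ⟨rD (b - a), ?_⟩
    simp [rD] <;> first | done | omega | (constructor <;> omega)
  · refine ⟨rA (a + b - 1), ?_⟩
    simp [rA] <;> first | done | omega | (constructor <;> omega)
  · refine ⟨rD (b - a + 1), ?_⟩
    simp [rD] <;> first | done | omega | (constructor <;> omega)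

end Crest.Agent.R158.Zr110
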