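import Crest.Agent.R158.Zr1_110
import Crest.Agent.R158.Wf0_850

/-!
# Row 158, BLOCK Z (helper110), part 2: revealing strands

`M` = a set of edges.  A corner is *marked* if its strand visits an edge of `M`; `Xe M z` = the edges
visited by marked strands (the revealed edges).

* `mk_congr`, `xe_congr` : the revelation is self determined
* `JN M z` : indicator of the unmarked corners, an invariant flow; `col M z c` = parity of its height
* `parity` : `(-1)^{# unmarked loops around the corner c} = col M z c * sg z c`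
* `col_open` : the revealed edges visited by an unmarked strand have the colour `col`
* `inner_bounds` : the sign of the filling compared with that of an independent plane configuration
-/

set_option autoImplicit false

noncomputable section

namespace Crest.Agent.R158.Zr110

open Crest.Agent.R161.Geo729 Crest.Agent.R161.Dual374
open Crest.Agent.R158.It200 Crest.Agent.R158.Wf850
open Finset

/-! ### marks -/

/-- marked corners -/
def Mk (M : Set Edge) (z : Cfz) : Set Corner := {c | ∃ e ∈ Ve z c, e ∈ M}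

/-- revealed edges -/
def Xe (M : Set Edge) (z : Cfz) : Set Edge := {e | i1 e ∈ Mk M z ∨ i2 e ∈ Mk M z}

variable {M : Set Edge}

theorem Ve_eq {z : Cfz} {c d : Corner} (h : d ∈ Lp z c) : Ve z d = Ve z c := by
  unfold Ve; rw [Lp_eq h]

theorem mk_along {z : Cfz} {c d : Corner} (h : d ∈ Lp z c) : d ∈ Mk M z ↔ c ∈ Mk M z := by
  unfold Mk
  rw [Set.mem_ofPred_eq, Set.mem_ofPred_eq, Ve_eq h]

theorem mk_ah {z : Cfz} {c : Corner} (h : ah c ∈ M) : c ∈ Mk M z :=
  ⟨ah c, ⟨c, mem_Lp_self _ _, rfl⟩, h⟩

theorem mk_bh {z : Cfz} {c : Corner} (h : bh c ∈ M) : c ∈ Mk M z :=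
  ⟨bh c, bh_mem_Ve (mem_Lp_self _ _), h⟩

theorem sub_xe (z : Cfz) : M ⊆ Xe M z := fun e he => Or.inl (mk_ah (by rw [ah_i1]; exact he))

theorem ve_sub_xe {z : Cfz} {c : Corner} (hc : c ∈ Mk M z) : Ve z c ⊆ Xe M z := by
  rintro e ⟨d, hd, rfl⟩
  have hd' : d ∈ Mk M z := (mk_along hd).2 hc
  rcases (ah_eq_iff d (ah d)).1 rfl with h | h
  · exact Or.inl (h ▸ hd')
  · exact Or.inr (h ▸ hd')

theorem lp_marked {z z' : Cfz} (h : ∀ e ∈ Xe M z, z' e = z e) {c : Corner} (hc : c ∈ Mk M z) :
    Lp z c = Lp z' c := Lp_congr fun e he => (h e (ve_sub_xe hc he)).symm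

/-- the marked strands are determined by the revealed edges -/
theorem mk_congr {z z' : Cfz} (h : ∀ e ∈ Xe M z, z' e = z e) : Mk M z' = Mk M z := by
  have h1 : Mk M z ⊆ Mk M z' := by
    intro c hc
    obtain ⟨e, ⟨d, hd, rfl⟩, he⟩ := hc
    refine ⟨ah d, ⟨d, ?_, rfl⟩, he⟩
    rw [← lp_marked h ⟨ah d, ⟨d, hd, rfl⟩, he⟩]
    exact hd
  refine Set.Subset.antisymm ?_ h1
  rintro c ⟨e, ⟨d, hd, rfl⟩, he⟩
  have hd' : d ∈ Mk M z := mk_ah he
  have h2 := lp_marked h hd'
  have h3 : c ∈ Lp z' d := hd.symm
  rw [← h2] at h3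
  exact (mk_along h3).2 hd'

theorem xe_congr {z z' : Cfz} (h : ∀ e ∈ Xe M z, z' e = z e) : Xe M z' = Xe M z := by
  unfold Xe; rw [mk_congr h]

/-! ### the flow of the unmarked corners -/

/-- indicator of the unmarked corners -/
def JN (M : Set Edge) (z : Cfz) : Corner → ℤ := (Mk M z)ᶜ.indicator 1

theorem JN_mk {z : Cfz} {c : Corner} (h : c ∈ Mk M z) : JN M z c = 0 :=
  Set.indicator_of_notMem (by simpa using h) _

theorem JN_un {z : Cfz} {c : Corner} (h : c ∉ Mk M z) : JN M z c = 1 := by
  unfold JN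
  rw [Set.indicator_of_mem (by simpa using h)]; rfl

theorem JN_congr {z z' : Cfz} (h : ∀ e ∈ Xe M z, z' e = z e) : JN M z' = JN M z := by
  unfold JN; rw [mk_congr h]

theorem JN_inv (M : Set Edge) (z : Cfz) : Inv z (JN M z) := by
  intro c
  have h : nx z c ∈ Mk M z ↔ c ∈ Mk M z := mk_along (nx_mem_Lp.2 (mem_Lp_self z c))
  by_cases hc : c ∈ Mk M z
  · rw [JN_mk hc, JN_mk (h.2 hc)]
  · rw [JN_un hc, JN_un fun h' => hc (h.1 h')]

theorem ah_fin {S : Set Edge} (hS : S.Finite) : {c : Corner | ah c ∈ S}.Finite := by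
  have h : {c : Corner | ah c ∈ S} ⊆ (i1 '' S) ∪ (i2 '' S) := by
    intro c hc
    rcases (ah_eq_iff c (ah c)).1 rfl with h | h
    · exact Or.inl ⟨ah c, hc, h.symm⟩
    · exact Or.inr ⟨ah c, hc, h.symm⟩
  exact ((hS.image _).union (hS.image _)).subset h

theorem un_fin (hM : Mᶜ.Finite) (z : Cfz) : (Mk M z)ᶜ.Finite :=
  (ah_fin hM).subset fun _ hc h => hc (mk_ah h)

theorem JN_fs (hM : Mᶜ.Finite) (z : Cfz) : Fs (JN M z) :=
  (un_fin hM z).subset Set.support_indicator_subset

theorem lp_un_fin (hM : Mᶜ.Finite) {z : Cfz} {c : Corner} (hc : c ∉ Mk M z) :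
    (Lp z c).Finite :=
  (un_fin hM z).subset fun _ hd h => hc ((mk_along hd).1 h)

/-! ### heights along strands -/

/-- height of the unmarked flow -/
def HN (M : Set Edge) (z : Cfz) (v : P2) : ℤ := Hv (JN M z) v

/-- height of the unmarked flow at faces -/
def HF (M : Set Edge) (z : Cfz) (f : P2) : ℤ := Hf (JN M z) f

theorem HN_congr {z z' : Cfz} (h : ∀ e ∈ Xe M z, z' e = z e) : HN M z' = HN M z := by
  funext v; unfold HN; rw [JN_congr h]

theorem HF_congr {z z' : Cfz} (h : ∀ e ∈ Xe M z, z' e = z e) : HF M z' = HF M z := by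
  funext v; unfold HF; rw [JN_congr h]

theorem HN_along (hM : Mᶜ.Finite) {z : Cfz} {c d : Corner} (h : d ∈ Lp z c) :
    HN M z d.1 = HN M z c.1 := ((JN_inv M z).const_strand (JN_fs hM z) d h).1

theorem HF_mk (hM : Mᶜ.Finite) {z : Cfz} {c : Corner} (h : c ∈ Mk M z) :
    HF M z (fc c) = HN M z c.1 := by
  have := grad (JN_fs hM z) (JN_inv M z).cons c
  rw [JN_mk h] at this
  unfold HF HN; linarith

theorem HF_un (hM : Mᶜ.Finite) {z : Cfz} {c : Corner} (h : c ∉ Mk M z) :
    HF M z (fc c) = HN M z c.1 + 1 := by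
  have := grad (JN_fs hM z) (JN_inv M z).cons c
  rw [JN_un h] at this
  unfold HF HN; linarith

/-- all the marked strands are at height `0` -/
def Gd (M : Set Edge) (z : Cfz) : Prop := ∀ d ∈ Mk M z, HN M z d.1 = 0

theorem Gd_congr {z z' : Cfz} (h : ∀ e ∈ Xe M z, z' e = z e) : Gd M z' ↔ Gd M z := by
  unfold Gd; rw [mk_congr h, HN_congr h]

theorem ends_i (e : Edge) : (i1 e).1 = src e ∧ (i2 e).1 = tgt e := ⟨fst_i1 e, fst_i2 e⟩

theorem fc_i2_o1 (e : Edge) : fc (i2 e) = fc (o1 e) := by rw [← nxo_i2, fc_nxo]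

/-- a revealed edge visited by the unmarked strand of `c`: open means height `0`, closed height `-1` -/
theorem col_edge (hM : Mᶜ.Finite) {z : Cfz} (hG : Gd M z) {c : Corner} (hc : c ∉ Mk M z)
    {e : Edge} (h1 : e ∈ Ve z c) (h2 : e ∈ Xe M z) :
    (z e = true → HN M z c.1 = 0) ∧ (z e = false → HN M z c.1 = -1) := by
  have hJ := JN_inv M z
  have hF := JN_fs hM z
  obtain ⟨d, hd, hde⟩ := h1
  have hdu : d ∉ Mk M z := fun h => hc ((mk_along hd).1 h)
  have hdh : HN M z d.1 = HN M z c.1 := HN_along hM hd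
  -- heights at the two incoming corners
  have hop : z e = true → HN M z (i1 e).1 = HN M z (i2 e).1 := by
    intro he
    have := hJ.hv_open hF he
    rw [fst_i1, fst_i2]
    exact this
  have hcl : z e = false → HF M z (fc (i1 e)) = HF M z (fc (i2 e)) := by
    intro he
    have := hJ.hf_closed hF he
    rw [fc_i2_o1]
    rcases fA_or_fB e with ⟨a, b⟩ | ⟨a, b⟩ <;> rw [a, b]
    · exact this
    · exact this.symm
  rcases (ah_eq_iff d e).1 hde with hd1 | hd1
  · rw [hd1] at hdu hdh
    have hm : i2 e ∈ Mk M z := by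
      rcases h2 with h | h
      · exact absurd h hdu
      · exact h
    have h0 := hG _ hm
    constructor
    · intro he
      rw [← hdh, hop he, h0]
    · intro he
      have h3 := hcl he
      rw [HF_un hM hdu, HF_mk hM hm, h0, hdh] at h3
      linarith
  · rw [hd1] at hdu hdh
    have hm : i1 e ∈ Mk M z := by
      rcases h2 with h | h
      · exact h
      · exact absurd h hdu
    have h0 := hG _ hm
    constructor
    · intro he
      rw [← hdh, ← hop he, h0]
    · intro he
      have h3 := hcl he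
      rw [HF_un hM hdu, HF_mk hM hm, h0, hdh] at h3
      linarith

/-! ### parity -/

/-- `(-1)^n` -/
def par (n : ℤ) : ℤ := if Even n then 1 else -1

@[simp] theorem par_zero : par 0 = 1 := by simp [par]

theorem par_add (m n : ℤ) : par (m + n) = par m * par n := by
  unfold par
  by_cases h1 : Even m <;> by_cases h2 : Even n <;> simp [h1, h2, Int.even_add]

theorem par_one : par 1 = -1 := by simp [par]

theorem par_neg_one : par (-1) = -1 := by simp [par]

theorem par_pm (n : ℤ) : par n = 1 ∨ par n = -1 := by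
  unfold par; split_ifs <;> simp

theorem par_sq (n : ℤ) : par n * par n = 1 := by
  rcases par_pm n with h | h <;> rw [h] <;> norm_num

theorem par_natCast (n : ℕ) : par n = (-1) ^ n := by
  induction n with
  | zero => simp
  | succ n ih => rw [Nat.cast_succ, par_add, ih, par_one, pow_succ]

/-- colour of the region of a corner -/
def col (M : Set Edge) (z : Cfz) (c : Corner) : ℤ := par (HN M z c.1)

theorem col_congr {z z' : Cfz} (h : ∀ e ∈ Xe M z, z' e = z e) (c : Corner) :
    col M z' c = col M z c := by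
  unfold col; rw [HN_congr h]

/-- marked loops -/
def MkA (M : Set Edge) (A : Finset Face) : Prop := ∃ e ∈ bdE A, e ∈ M

theorem mkA_iff {z : Cfz} {c : Corner} (hfin : (Lp z c).Finite) {A : Finset Face}
    (hA : ∀ f, f ∈ A ↔ ht z c f ≠ 0) : MkA M A ↔ c ∈ Mk M z := by
  unfold MkA Mk Ve
  constructor
  · rintro ⟨e, he, heM⟩
    obtain ⟨d, hd, rfl⟩ := mem_bdE.1 he
    exact ⟨ah d, ⟨d, (sep_iff hfin hA d).1 hd, rfl⟩, heM⟩
  · rintro ⟨e, ⟨d, hd, rfl⟩, heM⟩
    exact ⟨ah d, mem_bdE.2 ⟨d, (sep_iff hfin hA d).2 hd, rfl⟩, heM⟩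

/-- unmarked loops -/
def UL (M : Set Edge) (z : Cfz) : Set (Finset Face) := {A | A ∈ Lps z ∧ ¬ MkA M A}

theorem UL_finite (hM : Mᶜ.Finite) (z : Cfz) : (UL M z).Finite := by
  have h1 : ∀ A : UL M z, ∃ c : Corner, c ∉ Mk M z ∧ sepC A c := by
    rintro ⟨A, ⟨c, hc, hA⟩, hn⟩
    exact ⟨c, fun h => hn ((mkA_iff hc hA).2 h), (sep_iff hc hA c).2 (mem_Lp_self _ _)⟩
  choose φ hφ using h1
  have h2 : Function.Injective φ := fun A B h =>
    Subtype.ext (sep_uniq A.2.1 B.2.1 (hφ A).2 (h ▸ (hφ B).2))
  have h3 : (Set.range φ).Finite := (un_fin hM z).subset (by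
    rintro _ ⟨A, rfl⟩; exact (hφ A).1)
  have := h3.to_subtype
  have h4 : Finite (UL M z) :=
    Finite.of_injective (fun A => (⟨φ A, ⟨A, rfl⟩⟩ : Set.range φ)) fun A B h =>
      h2 (congrArg Subtype.val h)
  exact Set.finite_coe_iff.1 h4

open Classical in
/-- indicator of the corners of a loop -/
def Jn (A : Finset Face) : Corner → ℤ := fun d => if sepC A d then 1 else 0

theorem Jn_eq {z : Cfz} {c : Corner} (hfin : (Lp z c).Finite) {A : Finset Face}
    (hA : ∀ f, f ∈ A ↔ ht z c f ≠ 0) : Jn A = JL z c := by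
  funext d
  unfold Jn
  by_cases h : d ∈ Lp z c
  · rw [if_pos ((sep_iff hfin hA d).2 h), JL_mem h]
  · rw [if_neg (fun h' => h ((sep_iff hfin hA d).1 h')), JL_not_mem h]

theorem Jn_fs {z : Cfz} {A : Finset Face} (hA : A ∈ Lps z) : Fs (Jn A) := by
  obtain ⟨c, hc, hA⟩ := hA
  rw [Jn_eq hc hA]; exact JL_fs hc

theorem par_Jn {z : Cfz} {A : Finset Face} (hA : A ∈ Lps z) (v : P2) [Decidable ((v, false) ∈ A)] :
    par (Hv (Jn A) v) = if (v, false) ∈ A then -1 else 1 := by
  obtain ⟨c, hc, hA⟩ := hA
  rw [Jn_eq hc hA]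
  by_cases h : (v, false) ∈ A
  · rw [if_pos h]
    have h1 := (hA (v, false)).1 h
    rw [ht_false] at h1
    show par (hv z c v) = -1
    rcases sg_cases hc with ⟨-, -, h2, -⟩ | ⟨-, -, h2, -⟩
    · rcases h2 v with h3 | h3
      · rw [h3]; exact par_neg_one
      · exact absurd h3 h1
    · rcases h2 v with h3 | h3
      · exact absurd h3 h1
      · rw [h3]; exact par_one
  · rw [if_neg h]
    have h1 : ht z c (v, false) = 0 := by
      by_contra h'; exact h ((hA _).2 h')
    rw [ht_false] at h1
    show par (hv z c v) = 1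
    rw [h1]; exact par_zero

open Classical in
/-- finite sums of loops -/
theorem par_sum {z : Cfz} (T : Finset (Finset Face)) (hT : ∀ A ∈ T, A ∈ Lps z) (v : P2) :
    Fs (∑ A ∈ T, Jn A) ∧ par (Hv (∑ A ∈ T, Jn A) v) =
      (-1) ^ (T.filter fun A => (v, false) ∈ A).card := by
  induction T using Finset.induction_on with
  | empty =>
      rw [Finset.sum_empty]
      refine ⟨by simp [Fs], ?_⟩
      rw [Hv_zero, par_zero]; simp
  | insert A T hA ih =>
      obtain ⟨i1, i2⟩ := ih fun B hB => hT B (Finset.mem_insert_of_mem hB)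
      have hA' := hT A (Finset.mem_insert_self _ _)
      rw [Finset.sum_insert hA]
      refine ⟨(Jn_fs hA').add i1, ?_⟩
      rw [Hv_add (Jn_fs hA') i1, par_add, i2, par_Jn hA', Finset.filter_insert]
      by_cases h : (v, false) ∈ A
      · rw [if_pos h, if_pos h, Finset.card_insert_of_notMem (by
          rw [Finset.mem_filter]; exact fun h' => hA h'.1), pow_succ]
        ring
      · rw [if_neg h, if_neg h, one_mul]

open Classical in
theorem JN_eq_sum (hM : Mᶜ.Finite) (z : Cfz) :
    JN M z = ∑ A ∈ (UL_finite hM z).toFinset, Jn A := by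
  funext d
  rw [Finset.sum_apply]
  by_cases hd : d ∈ Mk M z
  · rw [JN_mk hd]
    symm
    refine Finset.sum_eq_zero fun A hA => ?_
    obtain ⟨⟨c, hc, hA'⟩, hn⟩ := (Set.Finite.mem_toFinset _).1 hA
    unfold Jn
    rw [if_neg]
    intro h
    rw [sep_iff hc hA'] at h
    exact hn ((mkA_iff hc hA').2 ((mk_along h).1 hd))
  · rw [JN_un hd]
    obtain ⟨A, hA, hA'⟩ := exists_int (lp_un_fin hM hd)
    have hfin := lp_un_fin hM hd
    have hAU : A ∈ (UL_finite hM z).toFinset := by
      rw [Set.Finite.mem_toFinset]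
      exact ⟨hA, fun h => hd ((mkA_iff hfin hA').1 h)⟩
    have hsep : sepC A d := (sep_iff hfin hA' d).2 (mem_Lp_self _ _)
    rw [Finset.sum_eq_single_of_mem A hAU]
    · unfold Jn; rw [if_pos hsep]
    · intro B hB hne
      unfold Jn
      rw [if_neg]
      intro h
      exact hne (sep_uniq ((Set.Finite.mem_toFinset _).1 hB).1 hA h hsep)

/-- parity of the height = parity of the number of unmarked loops around the vertex -/
theorem par_HN (hM : Mᶜ.Finite) (z : Cfz) (v : P2) :
    par (HN M z v) = (-1) ^ {A | A ∈ UL M z ∧ (v, false) ∈ A}.ncard := by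
  classical
  unfold HN
  rw [JN_eq_sum hM, (par_sum _ (fun A hA => ((Set.Finite.mem_toFinset _).1 hA).1) v).2]
  congr 1
  rw [← Set.ncard_coe_finset]
  congr 1
  ext A
  simp

/-- number of unmarked loops around the corner `c` (its own strand excluded) -/
def N0 (M : Set Edge) (z : Cfz) (c : Corner) : ℕ :=
  {A | A ∈ UL M z ∧ cv c ∈ A ∧ cf c ∈ A}.ncard

/-- **parity of the number of unmarked loops around an unmarked corner** -/
theorem parity (hM : Mᶜ.Finite) {z : Cfz} {c : Corner} (hc : c ∉ Mk M z) :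
    (-1) ^ N0 M z c = col M z c * sg z c := by
  have hfin := lp_un_fin hM hc
  obtain ⟨A, hA, hA'⟩ := exists_int hfin
  have hAU : A ∈ UL M z := ⟨hA, fun h => hc ((mkA_iff hfin hA').1 h)⟩
  have hsep : sepC A c := (sep_iff hfin hA' c).2 (mem_Lp_self _ _)
  have hS : {B | B ∈ UL M z ∧ cv c ∈ B ∧ cf c ∈ B}.Finite :=
    (UL_finite hM z).subset fun B hB => hB.1
  unfold col
  rw [par_HN hM]
  rcases sg_cases hfin with ⟨s, h1, -, -⟩ | ⟨s, h1, -, -⟩
  · -- vertices inside
    have e1 : {B | B ∈ UL M z ∧ ((c.1, false) : Face) ∈ B} =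
        insert A {B | B ∈ UL M z ∧ cv c ∈ B ∧ cf c ∈ B} := by
      ext B
      simp only [Set.mem_ofPred_eq, Set.mem_insert_iff]
      constructor
      · rintro ⟨hB, hv'⟩
        by_cases hf' : cf c ∈ B
        · exact Or.inr ⟨hB, hv', hf'⟩
        · left
          refine sep_uniq hB.1 hA (d := c) ?_ hsep
          intro h
          exact hf' (h.1 hv')
      · rintro (rfl | h)
        · refine ⟨hAU, (hA' _).2 ?_⟩
          rw [ht_false, (h1 c (mem_Lp_self _ _)).1]; norm_num
        · exact ⟨h.1, h.2.1⟩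
    have hnot : A ∉ {B | B ∈ UL M z ∧ cv c ∈ B ∧ cf c ∈ B} := by
      intro h
      exact hsep ⟨fun _ => h.2.2, fun _ => h.2.1⟩
    rw [e1, Set.ncard_insert_of_notMem hnot hS, s, pow_succ]
    unfold N0
    ring
  · have e1 : {B | B ∈ UL M z ∧ ((c.1, false) : Face) ∈ B} =
        {B | B ∈ UL M z ∧ cv c ∈ B ∧ cf c ∈ B} := by
      ext B
      simp only [Set.mem_ofPred_eq]
      constructor
      · rintro ⟨hB, hv'⟩
        refine ⟨hB, hv', ?_⟩
        by_contra hf'
        have hBA : B = A := by
          refine sep_uniq hB.1 hA (d := c) ?_ hsep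
          intro h
          exact hf' (h.1 hv')
        rw [hBA, hA', ht_false, (h1 c (mem_Lp_self _ _)).1] at hv'
        exact hv' rfl
      · rintro ⟨hB, h2, -⟩
        exact ⟨hB, h2⟩
    rw [e1, s, mul_one]
    rfl

/-! ### comparison with a plane configuration -/

open Classical in
/-- `z` on `X`, `y` off `X` -/
def mix (X : Set Edge) (z y : Cfz) : Cfz := fun e => if e ∈ X then z e else y e

theorem mix_in {X : Set Edge} {z y : Cfz} {e : Edge} (h : e ∈ X) : mix X z y e = z e := by
  simp [mix, h]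

theorem mix_out {X : Set Edge} {z y : Cfz} {e : Edge} (h : e ∉ X) : mix X z y e = y e := by
  simp [mix, h]

theorem mix_agree (M : Set Edge) (z y : Cfz) : ∀ e ∈ Xe M z, mix (Xe M z) z y e = z e :=
  fun _ he => mix_in he

theorem xe_cofin (hM : Mᶜ.Finite) (z : Cfz) : (Xe M z)ᶜ.Finite :=
  hM.subset (Set.compl_subset_compl.2 (sub_xe z))

theorem allFin_mix {X : Set Edge} (hX : Xᶜ.Finite) {z : Cfz} (hz : AllFin z) (y : Cfz) :
    AllFin (mix X z y) := by
  refine allFin_of_agree (S := hX.toFinset) hz fun e he => ?_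
  rw [Set.Finite.mem_toFinset, Set.mem_compl_iff, not_not] at he
  rw [mix_in he]

/-- all revealed edges open -/
theorem sg_le_open {X : Set Edge} (hX : Xᶜ.Finite) {y : Cfz} {c : Corner}
    (hfin : (Lp y c).Finite) (hs : sg y c = 1) : sg (mix X (fun _ => true) y) c = 1 := by
  classical
  set w := mix X (fun _ => true) y with hw
  have hwF : AllFin w := allFin_mix hX allFin_open y
  have hVf : (Ve y c).Finite := hfin.image _
  set K := hVf.toFinset with hK
  set y' : Cfz := fun e => if e ∈ K then y e else w e with hy'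
  have e1 : Lp y c = Lp y' c := by
    refine Lp_congr fun e he => ?_
    rw [hy']
    simp only
    rw [if_pos ((Set.Finite.mem_toFinset _).2 he)]
  have e2 : sg y' c = 1 := by rw [← sg_congr e1]; exact hs
  have e3 : AllFin y' := allFin_of_agree (S := K) hwF fun e he => by
    rw [hy']; simp only; rw [if_neg he]
  refine sg_mono (S := K) e3 (fun e he => ?_) (fun e he => ?_) e2
  · rw [hy'] at he
    simp only at he
    split_ifs at he with h
    · by_cases hX' : e ∈ X
      · rw [hw, mix_in hX']
      · rw [hw, mix_out hX']; exact he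
    · exact he
  · rw [hy']; simp only; rw [if_neg he]

/-- all revealed edges closed -/
theorem sg_closed_le {X : Set Edge} (hX : Xᶜ.Finite) {y : Cfz} {c : Corner}
    (hfin : (Lp y c).Finite) (hs : sg (mix X (fun _ => false) y) c = 1) : sg y c = 1 := by
  classical
  set w := mix X (fun _ => false) y with hw
  have hwF : AllFin w := allFin_mix hX allFin_closed y
  have hVf : (Ve y c).Finite := hfin.image _
  set K := hVf.toFinset with hK
  set y' : Cfz := fun e => if e ∈ K then y e else w e with hy'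
  have e1 : Lp y c = Lp y' c := by
    refine Lp_congr fun e he => ?_
    rw [hy']
    simp only
    rw [if_pos ((Set.Finite.mem_toFinset _).2 he)]
  rw [sg_congr e1]
  refine sg_mono (S := K) hwF (fun e he => ?_) (fun e he => ?_) hs
  · rw [hy']
    simp only
    split_ifs with h
    · by_cases hX' : e ∈ X
      · rw [hw, mix_in hX'] at he; simp at he
      · rw [hw, mix_out hX'] at he; exact he
    · exact he
  · rw [hy']; simp only; rw [if_neg he]

theorem sg_free {X : Set Edge} {z y : Cfz} {c : Corner} (h : Disjoint (Ve y c) X) :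
    sg (mix X z y) c = sg y c := by
  refine (sg_congr (Lp_congr fun e he => ?_)).symm
  rw [mix_out (Set.disjoint_left.1 h he)]

open Classical in
/-- **the sign of the filling**: `(-1)^{N0} - col * sg y` is nonnegative and vanishes unless the strand of `c`
in `y` visits a revealed edge -/
theorem inner_bounds (hM : Mᶜ.Finite) {z y : Cfz} (hG : Gd M z) {c : Corner} (hc : c ∉ Mk M z)
    (hfin : (Lp y c).Finite) :
    0 ≤ (-1) ^ N0 M (mix (Xe M z) z y) c - col M z c * sg y c ∧
      (-1) ^ N0 M (mix (Xe M z) z y) c - col M z c * sg y c ≤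
        if Disjoint (Ve y c) (Xe M z) then 0 else 2 := by
  set X := Xe M z with hX
  set z' := mix X z y with hz'
  have hag : ∀ e ∈ Xe M z, z' e = z e := mix_agree M z y
  have hXc : Xᶜ.Finite := xe_cofin hM z
  have hc' : c ∉ Mk M z' := by rw [mk_congr hag]; exact hc
  have hG' : Gd M z' := (Gd_congr hag).2 hG
  rw [parity hM hc', col_congr hag]
  have hfin' := lp_un_fin hM hc'
  have hXe : Xe M z' = X := xe_congr hag
  rcases par_pm (HN M z c.1) with hp | hp
  · -- open colour
    have hcol : col M z c = 1 := hp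
    rw [hcol, one_mul, one_mul]
    have hopen : ∀ e ∈ Ve z' c, e ∈ X → z' e = true := by
      intro e he heX
      by_contra hne
      have hfalse : z' e = false := by simpa using hne
      have := (col_edge hM hG' hc' he (by rw [hXe]; exact heX)).2 hfalse
      rw [HN_congr hag] at this
      rw [this, par_neg_one] at hp
      norm_num at hp
    have e1 : Lp z' c = Lp (mix X (fun _ => true) y) c := by
      refine Lp_congr fun e he => ?_
      by_cases heX : e ∈ X
      · rw [mix_in heX]; exact hopen e he heX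
      · rw [mix_out heX, hz', mix_out heX]
    rw [sg_congr e1]
    have hwF := (allFin_mix hXc allFin_open y) c
    split_ifs with hdis
    · rw [sg_free hdis]; simp
    · rcases sg_pm hfin with h | h
      · rw [h, sg_le_open hXc hfin h]; norm_num
      · rw [h]
        rcases sg_pm hwF with h' | h' <;> rw [h'] <;> norm_num
  · have hcol : col M z c = -1 := hp
    rw [hcol]
    have hclosed : ∀ e ∈ Ve z' c, e ∈ X → z' e = false := by
      intro e he heX
      by_contra hne
      have htrue : z' e = true := by simpa using hne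
      have := (col_edge hM hG' hc' he (by rw [hXe]; exact heX)).1 htrue
      rw [HN_congr hag] at this
      rw [this, par_zero] at hp
      norm_num at hp
    have e1 : Lp z' c = Lp (mix X (fun _ => false) y) c := by
      refine Lp_congr fun e he => ?_
      by_cases heX : e ∈ X
      · rw [mix_in heX]; exact hclosed e he heX
      · rw [mix_out heX, hz', mix_out heX]
    rw [sg_congr e1]
    have hwF := (allFin_mix hXc allFin_closed y) c
    split_ifs with hdis
    · rw [sg_free hdis]; simp
    · rcases sg_pm hfin with h | h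
      · rw [h]
        rcases sg_pm hwF with h' | h' <;> rw [h'] <;> norm_num
      · rw [h]
        rcases sg_pm hwF with h' | h'
        · have := sg_closed_le hXc hfin h'
          rw [this] at h; norm_num at h
        · rw [h']; norm_num

end Crest.Agent.R158.Zr110
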