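import Crest.Agent.R158.Zr2_110
import Crest.Agent.R158.Rz1_808
import Crest.Agent.R158.Rs5_689

/-!
# Row 158, BLOCK Z (helper110), part 3: expectations

* `Mo x n` : the edges outside the box of radius `n`; `gd_Mo` : the marked strands are at height `0`
* `resample` : revealing the marked strands and refilling the other edges preserves the law
* `ae_fin` : at `p = 1/2` the strand of a corner is almost surely finite
* `int_sgt` : the mean type of the strand of a corner is `0`
* `Z1` : `0 ≤ E_y (-1)^{N0(mix z y)} ≤ 2 P_y(the strand of c visits a revealed edge)`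
* `Z1_int` : the same inside an expectation over `z`
-/

set_option autoImplicit false

noncomputable section

namespace Crest.Agent.R158.Zr110

open Crest.Agent.R161.Geo729 Crest.Agent.R161.Dual374 Crest.Agent.R161.Tas682
open Crest.Agent.R158.It200 Crest.Agent.R158.Wf850
open Crest.Agent.R158.Rs689 (nu Dep PB PB_map_not PB_map_equiv sigma_hf ArmX arm_half Rch)
open Crest.Agent.R158.Fr158 (bx mem_bx mem_bx_sd)
open MeasureTheory Finset

/-- the critical law -/
abbrev nh : Measure Cfz := nu Rs689.hf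

instance : IsProbabilityMeasure nh := by unfold nh nu; infer_instance

variable {M : Set Edge}

/-! ### heights of marked strands -/

/-- heights do not change across an edge of `M` -/
theorem HN_edge (hM : Mᶜ.Finite) (z : Cfz) {e : Edge} (he : e ∈ M) :
    HN M z (src e) = HN M z (tgt e) := by
  have h1 : i1 e ∈ Mk M z := mk_ah (by rw [ah_i1]; exact he)
  have h2 : o2 e ∈ Mk M z := mk_bh (by rw [bh_o2]; exact he)
  have g1 := HF_mk hM h1
  have g2 := HF_mk hM h2
  rw [fst_i1] at g1
  rw [fst_o2] at g2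
  have : fc (o2 e) = fc (i1 e) := by rw [← nxo_i1, fc_nxo]
  rw [this] at g2
  rw [← g1, ← g2]

/-- the edges outside the box of radius `n` around `x` -/
def Mo (x : P2) (n : ℤ) : Set Edge := {e | n < sd x (src e) ∨ n < sd x (tgt e)}

theorem Mo_cofin (x : P2) (n : ℤ) : (Mo x n)ᶜ.Finite := by
  refine ((bx x n ×ˢ (Finset.univ : Finset Bool)).finite_toSet).subset ?_
  rintro ⟨v, b⟩ h
  have h' : ¬ (n < sd x v ∨ n < sd x (tgt (v, b))) := h
  push Not at h'
  rw [Finset.mem_coe, Finset.mem_product]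
  exact ⟨mem_bx_sd.2 h'.1, Finset.mem_univ _⟩

/-- a vertex outside the box is at height `0` -/
theorem HN_out {x : P2} {n : ℤ} (hM : Mᶜ.Finite) (hsub : Mo x n ⊆ M) (z : Cfz) {w : P2}
    (hw : n < sd x w) : HN M z w = 0 := by
  have hsup : ∀ d : Corner, JN M z d ≠ 0 →
      x.1 - n ≤ d.1.1 ∧ d.1.1 ≤ x.1 + n ∧ x.2 - n ≤ d.1.2 ∧ d.1.2 ≤ x.2 + n := by
    intro d hd
    by_contra hcon
    apply hd
    apply JN_mk
    apply mk_ah
    apply hsub
    have h1 : n < sd x d.1 := by
      rw [← mem_bx] at hcon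
      rw [mem_bx_sd] at hcon
      exact not_le.1 hcon
    rcases ah_ends d with ⟨h, _⟩ | ⟨h, _⟩
    · left; rw [← h]; exact h1
    · right; rw [← h]; exact h1
  refine Hv_out (JN_fs hM z) (JN_inv M z).cons hsup ?_
  by_contra hcon
  have : w ∈ bx x n := by rw [mem_bx]; omega
  rw [mem_bx_sd] at this
  omega

/-- a strand visiting an edge outside the box is at height `0` -/
theorem HN_mo {x : P2} {n : ℤ} (hM : Mᶜ.Finite) (hsub : Mo x n ⊆ M) (z : Cfz) {e : Edge}
    (he : e ∈ Mo x n) : HN M z (src e) = 0 ∧ HN M z (tgt e) = 0 := by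
  have h1 := HN_edge hM z (hsub he)
  rcases he with h | h
  · have := HN_out hM hsub z h
    exact ⟨this, by rw [← h1, this]⟩
  · have := HN_out hM hsub z h
    exact ⟨by rw [h1, this], this⟩

/-- criterion for `Gd` -/
theorem gd_of (hM : Mᶜ.Finite) {z : Cfz} (h : ∀ e ∈ M, HN M z (src e) = 0) : Gd M z := by
  rintro d ⟨e, ⟨d', hd', rfl⟩, he⟩
  have h1 : HN M z d'.1 = HN M z d.1 := HN_along hM hd'
  rw [← h1]
  rcases ah_ends d' with ⟨h2, _⟩ | ⟨h2, _⟩
  · rw [h2]; exact h _ he
  · rw [h2, ← HN_edge hM z he]; exact h _ he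

theorem gd_Mo (x : P2) (n : ℤ) (z : Cfz) : Gd (Mo x n) z :=
  gd_of (Mo_cofin x n) fun _ he => (HN_mo (Mo_cofin x n) subset_rfl z he).1

/-! ### functions of finitely many edges -/

theorem meas_of_fin {β : Type*} [MeasurableSpace β] {S : Set Edge} (hS : S.Finite)
    {f : Cfz → β} (h : ∀ z z' : Cfz, (∀ e ∈ S, z e = z' e) → f z = f z') : Measurable f := by
  classical
  set T := hS.toFinset
  have h1 : f = (fun y : T → Bool => f fun e => if he : e ∈ T then y ⟨e, he⟩ else false) ∘
      T.restrict := by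
    funext z
    refine h _ _ fun e he => ?_
    have : e ∈ T := (Set.Finite.mem_toFinset _).2 he
    rw [dif_pos this]
    rfl
  rw [h1]
  exact Measurable.of_discrete.comp (Finset.measurable_restrict T)

/-- being unmarked depends on the edges outside `M` -/
theorem un_dep {z z' : Cfz} (h : ∀ e ∈ Mᶜ, z e = z' e) {c : Corner} (hc : c ∉ Mk M z) :
    c ∉ Mk M z' ∧ Lp z c = Lp z' c := by
  have h1 : Lp z c = Lp z' c := Lp_congr fun e he => h e fun h' => hc ⟨e, he, h'⟩
  refine ⟨?_, h1⟩
  rintro ⟨e, ⟨d, hd, rfl⟩, he⟩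
  rw [← h1] at hd
  exact hc ⟨ah d, ⟨d, hd, rfl⟩, he⟩

theorem mk_dep {z z' : Cfz} (h : ∀ e ∈ Mᶜ, z e = z' e) : Mk M z = Mk M z' := by
  ext c
  constructor
  · intro hc
    by_contra hc'
    exact (un_dep (fun e he => (h e he).symm) hc').1 hc
  · intro hc
    by_contra hc'
    exact (un_dep h hc').1 hc

theorem xe_dep {z z' : Cfz} (h : ∀ e ∈ Mᶜ, z e = z' e) : Xe M z = Xe M z' := by
  unfold Xe; rw [mk_dep h]

theorem ul_dep {z z' : Cfz} (h : ∀ e ∈ Mᶜ, z e = z' e) : UL M z = UL M z' := by
  have key : ∀ z z' : Cfz, (∀ e ∈ Mᶜ, z e = z' e) → UL M z ⊆ UL M z' := by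
    rintro z z' h A ⟨hA, hn⟩
    refine ⟨loc_aux (fun e he => h e fun h' => hn ⟨e, he, h'⟩) hA, hn⟩
  exact Set.Subset.antisymm (key _ _ h) (key _ _ fun e he => (h e he).symm)

theorem N0_dep {z z' : Cfz} (h : ∀ e ∈ Mᶜ, z e = z' e) (c : Corner) : N0 M z c = N0 M z' c := by
  unfold N0; rw [ul_dep h]

theorem meas_N0 (hM : Mᶜ.Finite) (c : Corner) : Measurable fun z : Cfz => N0 M z c :=
  meas_of_fin hM fun _ _ h => N0_dep h c

theorem meas_un (hM : Mᶜ.Finite) (c : Corner) : MeasurableSet {z : Cfz | c ∉ Mk M z} := by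
  have : Measurable fun z : Cfz => (c ∉ Mk M z) := meas_of_fin hM fun _ _ h => by rw [mk_dep h]
  exact measurableSet_setOfPred.2 this

/-- measurability of a function of the filling -/
theorem meas_fill {β : Type*} [MeasurableSpace β] {X : Set Edge} (hX : Xᶜ.Finite) (z : Cfz)
    (f : Cfz → β) : Measurable fun y => f (mix X z y) := by
  refine meas_of_fin hX fun y y' h => ?_
  congr 1
  funext e
  by_cases he : e ∈ X
  · rw [mix_in he, mix_in he]
  · rw [mix_out he, mix_out he]; exact h e he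

/-- the strand of `c` avoids `X` : depends on the edges off `X` -/
theorem meas_disj {X : Set Edge} (hX : Xᶜ.Finite) (c : Corner) :
    MeasurableSet {y : Cfz | Disjoint (Ve y c) X} := by
  have h1 : ∀ y : Cfz, Disjoint (Ve y c) X ↔ c ∉ Mk X y := by
    intro y
    rw [Set.disjoint_left]
    unfold Mk
    simp
  have h2 : {y : Cfz | Disjoint (Ve y c) X} = {y | c ∉ Mk X y} := by
    ext y; exact h1 y
  rw [h2]
  exact meas_un hX c

/-! ### resampling -/

theorem mix_compl_glue (D : Finset Edge) (z y : Cfz) :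
    mix ((D : Set Edge)ᶜ) z y = Rz808.glue D y z := by
  funext e
  by_cases he : e ∈ D
  · rw [Rz808.glue_in he, mix_out (by simpa using he)]
  · rw [Rz808.glue_out he, mix_in (by simpa using he)]

theorem map_mix_fin (D : Finset Edge) :
    (nh.prod nh).map (fun q => mix ((D : Set Edge)ᶜ) q.1 q.2) = nh := by
  have h1 : (fun q : Cfz × Cfz => mix ((D : Set Edge)ᶜ) q.1 q.2) =
      (fun q : Cfz × Cfz => Rz808.glue D q.1 q.2) ∘ Prod.swap := by
    funext q
    rw [mix_compl_glue]; rfl
  rw [h1, ← Measure.map_map (Rz808.meas_glue D) measurable_swap, Measure.prod_swap]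
  exact Rz808.map_glue _ D

theorem meas_mix_fin (D : Finset Edge) :
    Measurable fun q : Cfz × Cfz => mix ((D : Set Edge)ᶜ) q.1 q.2 := by
  have h1 : (fun q : Cfz × Cfz => mix ((D : Set Edge)ᶜ) q.1 q.2) =
      (fun q : Cfz × Cfz => Rz808.glue D q.1 q.2) ∘ Prod.swap := by
    funext q
    rw [mix_compl_glue]; rfl
  rw [h1]
  exact (Rz808.meas_glue D).comp measurable_swap

/-- a self determined revelation with finitely many unrevealed edges -/
structure Rev (S : Finset Edge) (X : Cfz → Set Edge) : Prop where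
  sub : ∀ z, (X z)ᶜ ⊆ (S : Set Edge)
  self : ∀ z z', (∀ e ∈ X z, z' e = z e) → X z' = X z
  dep : ∀ z z', (∀ e ∈ S, z e = z' e) → X z = X z'

namespace Rev

variable {S : Finset Edge} {X : Cfz → Set Edge}

theorem meas_eq (h : Rev S X) (Y : Set Edge) : MeasurableSet {z | X z = Y} := by
  have : Measurable fun z : Cfz => (X z = Y) :=
    meas_of_fin (S := (S : Set Edge)) S.finite_toSet fun z z' hz => by
      rw [h.dep z z' fun e he => hz e he]
  exact measurableSet_setOfPred.2 this

theorem mix_eq (h : Rev S X) {Y : Set Edge} {z y : Cfz} : X (mix Y z y) = Y ↔ X z = Y := by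
  constructor
  · intro h1
    have := h.self (mix Y z y) z fun e he => by
      rw [h1] at he; rw [mix_in he]
    rw [this, h1]
  · intro h1
    have := h.self z (mix Y z y) fun e he => by
      rw [h1] at he; rw [mix_in he]
    rw [this, h1]

theorem cover (h : Rev S X) (z : Cfz) : ∃ D ∈ S.powerset, X z = (D : Set Edge)ᶜ := by
  classical
  refine ⟨S.filter (· ∉ X z), Finset.mem_powerset.2 (Finset.filter_subset _ _), ?_⟩
  ext e
  simp only [Finset.coe_filter, Set.mem_compl_iff, Set.mem_ofPred_eq, not_and, not_not]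
  constructor
  · intro he _; exact he
  · intro he
    by_contra hn
    exact hn (he (h.sub z hn))

theorem meas_mix (h : Rev S X) : Measurable fun q : Cfz × Cfz => mix (X q.1) q.1 q.2 := by
  classical
  intro F hF
  have h1 : (fun q : Cfz × Cfz => mix (X q.1) q.1 q.2) ⁻¹' F =
      ⋃ D ∈ S.powerset, ((Prod.fst ⁻¹' {z | X z = (D : Set Edge)ᶜ}) ∩
        ((fun q : Cfz × Cfz => mix ((D : Set Edge)ᶜ) q.1 q.2) ⁻¹' F)) := by
    ext q
    simp only [Set.mem_iUnion, Set.mem_inter_iff, Set.mem_preimage, Set.mem_ofPred_eq, exists_prop]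
    constructor
    · intro hq
      obtain ⟨D, hD, hX⟩ := h.cover q.1
      exact ⟨D, hD, hX, by rw [← hX]; exact hq⟩
    · rintro ⟨D, _, hX, hq⟩
      rw [hX]; exact hq
  rw [h1]
  exact Finset.measurableSet_biUnion _ fun D _ =>
    (measurable_fst (h.meas_eq _)).inter (meas_mix_fin D hF)

/-- **resampling** -/
theorem map_mix (h : Rev S X) : (nh.prod nh).map (fun q => mix (X q.1) q.1 q.2) = nh := by
  classical
  ext F hF
  rw [Measure.map_apply h.meas_mix hF]
  have h0 : F = ⋃ D ∈ S.powerset, (F ∩ {z | X z = (D : Set Edge)ᶜ}) := by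
    ext z
    simp only [Set.mem_iUnion, Set.mem_inter_iff, Set.mem_ofPred_eq, exists_prop]
    constructor
    · intro hz
      obtain ⟨D, hD, hX⟩ := h.cover z
      exact ⟨D, hD, hz, hX⟩
    · rintro ⟨D, _, hz, _⟩
      exact hz
  have h1 : (fun q : Cfz × Cfz => mix (X q.1) q.1 q.2) ⁻¹' F =
      ⋃ D ∈ S.powerset, ((fun q : Cfz × Cfz => mix ((D : Set Edge)ᶜ) q.1 q.2) ⁻¹'
        (F ∩ {z | X z = (D : Set Edge)ᶜ})) := by
    ext q
    simp only [Set.mem_iUnion, Set.mem_inter_iff, Set.mem_preimage, Set.mem_ofPred_eq, exists_prop,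
      h.mix_eq]
    constructor
    · intro hq
      obtain ⟨D, hD, hX⟩ := h.cover q.1
      exact ⟨D, hD, by rw [← hX]; exact hq, hX⟩
    · rintro ⟨D, _, hq, hX⟩
      rw [hX]; exact hq
  have hinj : ∀ D D' : Finset Edge, (D : Set Edge)ᶜ = (D' : Set Edge)ᶜ → D = D' := by
    intro D D' hDD
    have := compl_injective hDD
    exact Finset.coe_injective this
  have hsum : nh F = ∑ D ∈ S.powerset, nh (F ∩ {z | X z = (D : Set Edge)ᶜ}) := by
    conv_lhs => rw [h0]
    refine measure_biUnion_finset ?_ fun D _ => hF.inter (h.meas_eq _)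
    intro D _ D' _ hne
    refine Set.disjoint_left.2 fun z h2 h3 => hne ?_
    exact hinj _ _ (h2.2.symm.trans h3.2)
  rw [h1, hsum, measure_biUnion_finset]
  · refine Finset.sum_congr rfl fun D _ => ?_
    rw [← Measure.map_apply (meas_mix_fin D) (hF.inter (h.meas_eq _)), map_mix_fin]
  · intro D _ D' _ hne
    refine Set.disjoint_left.2 fun q h2 h3 => hne ?_
    exact hinj _ _ ((h.mix_eq.1 h2.2).symm.trans (h.mix_eq.1 h3.2))
  · intro D _
    exact meas_mix_fin D (hF.inter (h.meas_eq _))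

theorem integral_eq (h : Rev S X) {f : Cfz → ℝ} (hf : Integrable f nh) :
    ∫ z, f z ∂nh = ∫ z, ∫ y, f (mix (X z) z y) ∂nh ∂nh := by
  have h2 : Integrable f ((nh.prod nh).map fun q => mix (X q.1) q.1 q.2) := by
    rw [h.map_mix]; exact hf
  have h1 : ∫ z, f z ∂nh = ∫ q, f (mix (X q.1) q.1 q.2) ∂(nh.prod nh) := by
    conv_lhs => rw [← h.map_mix]
    exact integral_map h.meas_mix.aemeasurable h2.aestronglyMeasurable
  rw [h1]
  exact integral_prod _ ((integrable_map_measure h2.aestronglyMeasurable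
    h.meas_mix.aemeasurable).1 h2)

end Rev

/-- revealing the marked strands -/
theorem rev_xe (hM : Mᶜ.Finite) : Rev hM.toFinset (Xe M) where
  sub z := by
    rw [Set.Finite.coe_toFinset]
    exact Set.compl_subset_compl.2 (sub_xe z)
  self z z' h := xe_congr h
  dep z z' h := xe_dep fun e he => h e ((Set.Finite.mem_toFinset _).2 he)

/-! ### finiteness of strands -/

theorem ocl_far {z : Cfz} {v : P2} (h : ¬ (OCl z v).Finite) (R : ℕ) : z ∈ ArmX v 1 R := by
  by_contra hn
  apply h
  refine ((bx v R).finite_toSet).subset fun u hu => ?_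
  rw [Finset.mem_coe, mem_bx]
  by_contra hcon
  apply hn
  refine ⟨v, u, by simp, by simp, ?_, hu⟩
  by_contra hlt
  push Not at hlt
  obtain ⟨h1, h2⟩ := hlt
  rw [abs_lt] at h1 h2
  omega

theorem ae_fin (c : Corner) : ∀ᵐ z ∂nh, (Lp z c).Finite := by
  obtain ⟨C, a, hC, ha, hb⟩ := arm_half
  have h1 : ∀ᵐ z ∂nh, ∃ R : ℕ, z ∉ ArmX c.1 1 R := by
    rw [ae_iff]
    have h2 : {z : Cfz | ¬ ∃ R : ℕ, z ∉ ArmX c.1 1 R} = ⋂ R : ℕ, ArmX c.1 1 R := by
      ext z; simp
    rw [h2]
    have h3 : ∀ R : ℕ, 1 ≤ R → nh (⋂ R : ℕ, ArmX c.1 1 R) ≤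
        ENNReal.ofReal (C * ((1 : ℝ) / R) ^ a) := by
      intro R hR
      refine (measure_mono (Set.iInter_subset _ R)).trans ?_
      have h4 := hb c.1 1 R le_rfl hR
      rw [measureReal_def] at h4
      rw [← ENNReal.ofReal_toReal (measure_ne_top nh (ArmX c.1 1 R))]
      refine ENNReal.ofReal_le_ofReal ?_
      simpa using h4
    have h5 : Filter.Tendsto (fun R : ℕ => ENNReal.ofReal (C * ((1 : ℝ) / R) ^ a))
        Filter.atTop (nhds 0) := by
      have h6 : Filter.Tendsto (fun R : ℕ => C * ((1 : ℝ) / R) ^ a) Filter.atTop (nhds 0) := by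
        have h7 : Filter.Tendsto (fun R : ℕ => ((1 : ℝ) / R)) Filter.atTop (nhds 0) :=
          tendsto_one_div_atTop_nhds_zero_nat
        have h8 := h7.rpow_const (p := a) (Or.inr ha.le)
        rw [Real.zero_rpow ha.ne'] at h8
        simpa using h8.const_mul C
      have := ENNReal.tendsto_ofReal h6
      rwa [ENNReal.ofReal_zero] at this
    have h9 : nh (⋂ R : ℕ, ArmX c.1 1 R) ≤ 0 :=
      ge_of_tendsto h5 (Filter.eventually_atTop.2 ⟨1, h3⟩)
    exact le_antisymm h9 (zero_le)
  filter_upwards [h1] with z hz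
  by_contra hfin
  obtain ⟨R, hR⟩ := hz
  exact hR (ocl_far (fun h => hfin (Lp_finite_of_v h)) R)

/-! ### the mean type -/

open Classical in
/-- type of the strand (`0` if it is infinite) -/
def sgt (c : Corner) (z : Cfz) : ℝ := if (Lp z c).Finite then (sg z c : ℝ) else 0

theorem sgt_fin {c : Corner} {z : Cfz} (h : (Lp z c).Finite) : sgt c z = sg z c := by
  simp [sgt, h]

theorem abs_sgt (c : Corner) (z : Cfz) : |sgt c z| ≤ 1 := by
  by_cases h : (Lp z c).Finite
  · rw [sgt_fin h]
    rcases sg_pm h with h' | h' <;> rw [h'] <;> norm_num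
  · simp [sgt, h]

theorem set_fin_one (c : Corner) (b : Bool) :
    MeasurableSet {z : Cfz | (Lp z c).Finite ∧ sg z c = if b then 1 else -1} := by
  classical
  have h1 : {z : Cfz | (Lp z c).Finite ∧ sg z c = if b then 1 else -1} =
      ⋃ A : {A : Finset Face // sepC A c ∧ (cf c ∈ A ↔ b = true)},
        {z | (A : Finset Face) ∈ Lps z} := by
    ext z
    simp only [Set.mem_ofPred_eq, Set.mem_iUnion]
    constructor
    · rintro ⟨hfin, hs⟩
      obtain ⟨A, hA, hA'⟩ := exists_int hfin
      refine ⟨⟨A, (sep_iff hfin hA' c).2 (mem_Lp_self _ _), ?_⟩, hA⟩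
      rw [hA', ht_cf]
      rcases sg_cases hfin with ⟨s, g, -, -⟩ | ⟨s, g, -, -⟩
      · rw [(g c (mem_Lp_self _ _)).2]
        cases b
        · simp
        · rw [s] at hs; norm_num at hs
      · rw [(g c (mem_Lp_self _ _)).2]
        cases b
        · rw [s] at hs; norm_num at hs
        · simp
    · rintro ⟨⟨A, hsep, hcf⟩, ⟨d, hd, hA'⟩⟩
      have hcd : c ∈ Lp z d := (sep_iff hd hA' c).1 hsep
      have hfin : (Lp z c).Finite := by rw [Lp_eq hcd]; exact hd
      refine ⟨hfin, ?_⟩
      have e1 : ht z d = ht z c := by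
        unfold ht; rw [hv_eq hcd, hf_eq hcd]
      rw [hA', e1, ht_cf] at hcf
      rcases sg_cases hfin with ⟨s, g, -, -⟩ | ⟨s, g, -, -⟩
      · rw [(g c (mem_Lp_self _ _)).2] at hcf
        cases b
        · rw [s]; rfl
        · simp at hcf
      · rw [(g c (mem_Lp_self _ _)).2] at hcf
        cases b
        · simp at hcf
        · rw [s]; rfl
  rw [h1]
  exact MeasurableSet.iUnion fun A => meas_lps A

theorem sgt_eq (c : Corner) (z : Cfz) : sgt c z =
    {z : Cfz | (Lp z c).Finite ∧ sg z c = if true then 1 else -1}.indicator 1 z -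
    {z : Cfz | (Lp z c).Finite ∧ sg z c = if false then 1 else -1}.indicator 1 z := by
  classical
  by_cases h : (Lp z c).Finite
  · rw [sgt_fin h]
    rcases sg_pm h with h' | h'
    · rw [Set.indicator_of_mem (by exact ⟨h, h'⟩), Set.indicator_of_notMem, h']
      · simp
      · rintro ⟨-, h2⟩; rw [h'] at h2; simp at h2
    · rw [Set.indicator_of_notMem, Set.indicator_of_mem (by exact ⟨h, h'⟩), h']
      · simp
      · rintro ⟨-, h2⟩; rw [h'] at h2; simp at h2
  · rw [Set.indicator_of_notMem (fun h' => h h'.1), Set.indicator_of_notMem (fun h' => h h'.1)]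
    simp [sgt, h]

theorem meas_sgt (c : Corner) : Measurable (sgt c) := by
  have : sgt c = fun z =>
    {z : Cfz | (Lp z c).Finite ∧ sg z c = if true then 1 else -1}.indicator 1 z -
    {z : Cfz | (Lp z c).Finite ∧ sg z c = if false then 1 else -1}.indicator 1 z := by
    funext z; exact sgt_eq c z
  rw [this]
  exact (measurable_const.indicator (set_fin_one c true)).sub
    (measurable_const.indicator (set_fin_one c false))

theorem int_sgt_able (c : Corner) : Integrable (sgt c) nh :=
  Integrable.of_bound (meas_sgt c).aestronglyMeasurable 1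
    (Filter.Eventually.of_forall fun z => by rw [Real.norm_eq_abs]; exact abs_sgt c z)

/-- edges as an equivalence -/
def Rfl.epE (ρ : Rfl) : Edge ≃ Edge := ⟨ρ.ep, ρ.ep, ρ.ep_ep, ρ.ep_ep⟩

theorem Rfl.meas_act (ρ : Rfl) : Measurable ρ.act :=
  measurable_pi_lambda _ fun e =>
    (Measurable.of_discrete (f := fun b : Bool => !b)).comp (measurable_pi_apply (ρ.ep e))

/-- the reflection preserves the critical law -/
theorem Rfl.map_act (ρ : Rfl) : nh.map ρ.act = nh := by
  have h1 := PB_map_not (fun _ : Edge => Rs689.hf)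
  have h2 := PB_map_equiv ρ.epE (fun _ : Edge => unitInterval.symm Rs689.hf)
  have h3 : (fun _ : Edge => unitInterval.symm Rs689.hf) = fun _ : Edge => Rs689.hf := by
    funext _; exact sigma_hf
  have h4 : nh.map ρ.act = PB fun _ : Edge => unitInterval.symm Rs689.hf := by
    rw [← h2, ← h1]
    unfold nh nu
    rw [Measure.map_map]
    · rfl
    · exact measurable_pi_lambda _ fun k => measurable_pi_apply _
    · exact measurable_pi_lambda _ fun k =>
        (Measurable.of_discrete (f := fun b : Bool => !b)).comp (measurable_pi_apply k)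
  rw [h4, h3]
  rfl

/-- **the mean type of the strand of a corner is zero** -/
theorem int_sgt (c : Corner) : ∫ z, sgt c z ∂nh = 0 := by
  obtain ⟨ρ, hρ⟩ := exists_rfl c
  have h1 : ∀ z, sgt c (ρ.act z) = -sgt c z := by
    intro z
    by_cases h : (Lp z c).Finite
    · have h' := ρ.fin_act h
      have h2 := ρ.sg_act h
      rw [hρ] at h' h2
      rw [sgt_fin h, sgt_fin h', h2]; push_cast; ring
    · have h' : ¬ (Lp (ρ.act z) c).Finite := by
        intro hf
        have := ρ.fin_act hf
        rw [ρ.act_act, hρ] at this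
        exact h this
      simp [sgt, h, h']
  have h2 : ∫ z, sgt c z ∂nh = ∫ z, sgt c (ρ.act z) ∂nh := by
    conv_lhs => rw [← ρ.map_act]
    rw [integral_map ρ.meas_act.aemeasurable]
    exact (meas_sgt c).aestronglyMeasurable
  rw [integral_congr_ae (Filter.Eventually.of_forall h1), integral_neg] at h2
  linarith

/-! ### the inner expectation -/

/-- **Z1**: expectation over the filling of the sign of the unmarked loops around `c` -/
theorem Z1 (hM : Mᶜ.Finite) {z : Cfz} (hG : Gd M z) {c : Corner} (hc : c ∉ Mk M z) :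
    0 ≤ ∫ y, ((-1 : ℝ) ^ N0 M (mix (Xe M z) z y) c) ∂nh ∧
    ∫ y, ((-1 : ℝ) ^ N0 M (mix (Xe M z) z y) c) ∂nh ≤
      2 * nh.real {y | ¬ Disjoint (Ve y c) (Xe M z)} := by
  classical
  set X := Xe M z with hX
  have hXc : Xᶜ.Finite := xe_cofin hM z
  have hm1 : Measurable fun y : Cfz => ((-1 : ℝ) ^ N0 M (mix X z y) c) :=
    meas_fill hXc z fun w => ((-1 : ℝ) ^ N0 M w c)
  have hi1 : Integrable (fun y : Cfz => ((-1 : ℝ) ^ N0 M (mix X z y) c)) nh :=
    Integrable.of_bound hm1.aestronglyMeasurable 1 (Filter.Eventually.of_forall fun y => by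
      simp)
  have hi2 : Integrable (fun y => (col M z c : ℝ) * sgt c y) nh := (int_sgt_able c).const_mul _
  have heq : ∫ y, ((-1 : ℝ) ^ N0 M (mix X z y) c) ∂nh =
      ∫ y, (((-1 : ℝ) ^ N0 M (mix X z y) c) - (col M z c : ℝ) * sgt c y) ∂nh := by
    rw [integral_sub hi1 hi2, integral_const_mul, int_sgt]; ring
  have hset : MeasurableSet {y : Cfz | ¬ Disjoint (Ve y c) X} := (meas_disj hXc c).compl
  have hae : ∀ᵐ y ∂nh, 0 ≤ ((-1 : ℝ) ^ N0 M (mix X z y) c) - (col M z c : ℝ) * sgt c y ∧
      ((-1 : ℝ) ^ N0 M (mix X z y) c) - (col M z c : ℝ) * sgt c y ≤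
        {y | ¬ Disjoint (Ve y c) X}.indicator (fun _ => (2 : ℝ)) y := by
    filter_upwards [ae_fin c] with y hy
    obtain ⟨h1, h2⟩ := inner_bounds hM hG hc hy
    rw [sgt_fin hy]
    constructor
    · have : ((0 : ℤ) : ℝ) ≤ (((-1) ^ N0 M (mix X z y) c - col M z c * sg y c : ℤ) : ℝ) :=
        Int.cast_le.2 h1
      push_cast at this
      exact this
    · have := (Int.cast_le (R := ℝ)).2 h2
      by_cases hd : Disjoint (Ve y c) X
      · rw [Set.indicator_of_notMem (by simpa using hd)]
        rw [if_pos hd] at this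
        push_cast at this
        exact this
      · rw [Set.indicator_of_mem (by simpa using hd)]
        rw [if_neg hd] at this
        push_cast at this
        exact this
  rw [heq]
  refine ⟨integral_nonneg_of_ae (hae.mono fun y h => h.1), ?_⟩
  refine (integral_mono_ae (hi1.sub hi2) ?_ (hae.mono fun y h => h.2)).trans ?_
  · exact (integrable_const (2 : ℝ)).indicator hset
  · rw [integral_indicator_const _ hset, smul_eq_mul, mul_comm]

/-- adapted functions -/
def Adp (M : Set Edge) (G : Cfz → ℝ) : Prop := ∀ z z' : Cfz, (∀ e ∈ Xe M z, z' e = z e) → G z' = G z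

open Classical in
/-- **Z1, integrated form** -/
theorem Z1_int (hM : Mᶜ.Finite) {G : Cfz → ℝ} (hG : Adp M G) (hGi : Integrable G nh) (c : Corner) :
    ∫ z, G z * (if c ∉ Mk M z then ((-1 : ℝ) ^ N0 M z c) else 0) ∂nh =
      ∫ z, G z * (if c ∉ Mk M z then ∫ y, ((-1 : ℝ) ^ N0 M (mix (Xe M z) z y) c) ∂nh else 0) ∂nh := by
  have hm : Measurable fun z : Cfz => (if c ∉ Mk M z then ((-1 : ℝ) ^ N0 M z c) else 0) :=
    meas_of_fin hM fun z z' h => by rw [mk_dep h, N0_dep h]
  have hfi : Integrable (fun z => G z * (if c ∉ Mk M z then ((-1 : ℝ) ^ N0 M z c) else 0)) nh := by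
    refine hGi.mul_bdd (c := 1) hm.aestronglyMeasurable (Filter.Eventually.of_forall fun z => ?_)
    split_ifs <;> simp
  rw [(rev_xe hM).integral_eq hfi]
  refine integral_congr_ae (Filter.Eventually.of_forall fun z => ?_)
  simp only
  have h1 : ∀ y, G (mix (Xe M z) z y) = G z := fun y => hG _ _ (mix_agree M z y)
  have h2 : ∀ y, Mk M (mix (Xe M z) z y) = Mk M z := fun y => mk_congr (mix_agree M z y)
  simp only [h1, h2]
  split_ifs with hc
  · simp
  · rw [integral_const_mul]

end Crest.Agent.R158.Zr110
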