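import Crest.Agent.R158.Zr3_110

/-!
# Row 158, BLOCK Z (helper110), part 4: positivity in the presence of a small square

`Kc X z c` : the corners that can be reached from `c` in some filling (the region of `c`).
`Z2` : for an unmarked corner `c` and a vertex `y0` all of whose four corners are marked (a vertex of the
small square): `0 ≤ E_y (-1)^{N0} 1{no unmarked loop around y0}` (Harris' inequality in the region of `c`,
independence of the other regions).
-/

set_option autoImplicit false

noncomputable section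

namespace Crest.Agent.R158.Zr110

open Crest.Agent.R161.Geo729 Crest.Agent.R161.Dual374 Crest.Agent.R161.Tas682
open Crest.Agent.R158.It200 Crest.Agent.R158.Wf850
open Crest.Agent.R158.Rs689 (nu Dep Inc PB harris PB_indep_real)
open MeasureTheory Finset

variable {M : Set Edge}

/-! ### the region of a corner -/

/-- fillings -/
def Fl (X : Set Edge) (z : Cfz) : Set Cfz := {z' | ∀ e ∈ X, z' e = z e}

theorem mix_mem_fl (X : Set Edge) (z y : Cfz) : mix X z y ∈ Fl X z := fun _ he => mix_in he

/-- one step in some filling -/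
def Stp (X : Set Edge) (z : Cfz) (d d' : Corner) : Prop :=
  ∃ z' ∈ Fl X z, d' = nx z' d ∨ d' = pv z' d

/-- the region of `c` -/
def Kc (X : Set Edge) (z : Cfz) (c : Corner) : Set Corner :=
  {d | Relation.ReflTransGen (Stp X z) c d}

section region

variable {X : Set Edge} {z : Cfz} {c : Corner}

theorem kc_self : c ∈ Kc X z c := Relation.ReflTransGen.refl

theorem kc_nx {z' : Cfz} (h : z' ∈ Fl X z) {d : Corner} (hd : d ∈ Kc X z c) : nx z' d ∈ Kc X z c :=
  Relation.ReflTransGen.tail hd ⟨z', h, Or.inl rfl⟩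

theorem kc_pv {z' : Cfz} (h : z' ∈ Fl X z) {d : Corner} (hd : d ∈ Kc X z c) : pv z' d ∈ Kc X z c :=
  Relation.ReflTransGen.tail hd ⟨z', h, Or.inr rfl⟩

theorem kc_lp {z' : Cfz} (h : z' ∈ Fl X z) {d x : Corner} (hd : d ∈ Kc X z c)
    (hx : x ∈ Lp z' d) : x ∈ Kc X z c :=
  Lp_induct (P := fun x => x ∈ Kc X z c) hd (fun _ _ h' => kc_nx h h') (fun _ _ h' => kc_pv h h') x hx

theorem kc_lp' {z' : Cfz} (h : z' ∈ Fl X z) {d x : Corner} (hd : d ∉ Kc X z c)
    (hx : x ∈ Lp z' d) : x ∉ Kc X z c := fun hx' =>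
  hd (kc_lp h hx' (Equiv.Perm.SameCycle.symm hx))

theorem exists_fill (z : Cfz) {e : Edge} (he : e ∉ X) (b : Bool) : ∃ z' ∈ Fl X z, z' e = b := by
  classical
  refine ⟨Function.update z e b, fun e' he' => ?_, Function.update_self _ _ _⟩
  rw [Function.update_of_ne]
  rintro rfl
  exact he he'

theorem kc_i12 {e : Edge} (he : e ∉ X) (h : i1 e ∈ Kc X z c) : i2 e ∈ Kc X z c := by
  obtain ⟨z1, h1, h1e⟩ := exists_fill z he true
  obtain ⟨z2, h2, h2e⟩ := exists_fill z he false
  have a := kc_nx h1 h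
  rw [nx_i1, if_pos h1e] at a
  have b := kc_pv h2 a
  have e1 : pv z2 (o2 e) = i2 e := by
    have := pv_nx z2 (i2 e)
    rw [nx_i2, if_neg (by rw [h2e]; simp)] at this
    exact this
  rwa [e1] at b

theorem kc_i21 {e : Edge} (he : e ∉ X) (h : i2 e ∈ Kc X z c) : i1 e ∈ Kc X z c := by
  obtain ⟨z1, h1, h1e⟩ := exists_fill z he true
  obtain ⟨z2, h2, h2e⟩ := exists_fill z he false
  have a := kc_nx h1 h
  rw [nx_i2, if_pos h1e] at a
  have b := kc_pv h2 a
  have e1 : pv z2 (o1 e) = i1 e := by
    have := pv_nx z2 (i1 e)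
    rw [nx_i1, if_neg (by rw [h2e]; simp)] at this
    exact this
  rwa [e1] at b

/-- the unrevealed edges of the region -/
def Us (X : Set Edge) (z : Cfz) (c : Corner) : Set Edge := {e | e ∉ X ∧ i1 e ∈ Kc X z c}

theorem us_sub : Us X z c ⊆ Xᶜ := fun _ h => h.1

theorem us_of_kc {d : Corner} (hd : d ∈ Kc X z c) (h : ah d ∉ X) : ah d ∈ Us X z c := by
  refine ⟨h, ?_⟩
  rcases (ah_eq_iff d (ah d)).1 rfl with h1 | h1
  · rw [← h1]; exact hd
  · exact kc_i21 h (by rw [← h1]; exact hd)

theorem not_us_of {d : Corner} (hd : d ∉ Kc X z c) : ah d ∉ Us X z c := by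
  rintro ⟨h1, h2⟩
  rcases (ah_eq_iff d (ah d)).1 rfl with h3 | h3
  · exact hd (by rw [h3]; exact h2)
  · exact hd (by rw [h3]; exact kc_i12 h1 h2)

end region

theorem kc_un {z : Cfz} {c d : Corner} (hc : c ∉ Mk M z) (hd : d ∈ Kc (Xe M z) z c) :
    d ∉ Mk M z := by
  have hd' : Relation.ReflTransGen (Stp (Xe M z) z) c d := hd
  induction hd' with
  | refl => exact hc
  | @tail a b _ h2 ih =>
      obtain ⟨z', hz', h3⟩ := h2
      have ih' := ih ‹_›
      rw [← mk_congr hz'] at ih' ⊢
      rcases h3 with h3 | h3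
      · rw [h3]
        exact fun h => ih' ((mk_along (nx_mem_Lp.2 (mem_Lp_self z' a))).1 h)
      · rw [h3]
        exact fun h => ih' ((mk_along (pv_mem_Lp.2 (mem_Lp_self z' a))).1 h)

theorem kc_HN (hM : Mᶜ.Finite) {z : Cfz} {c d : Corner} (hd : d ∈ Kc (Xe M z) z c) :
    HN M z d.1 = HN M z c.1 := by
  have hd' : Relation.ReflTransGen (Stp (Xe M z) z) c d := hd
  induction hd' with
  | refl => rfl
  | @tail a b _ h2 ih =>
      obtain ⟨z', hz', h3⟩ := h2
      rw [← ih ‹_›, ← HN_congr hz']
      rcases h3 with h3 | h3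
      · rw [h3]; exact HN_along hM (nx_mem_Lp.2 (mem_Lp_self z' a))
      · rw [h3]; exact HN_along hM (pv_mem_Lp.2 (mem_Lp_self z' a))

/-- revealed edges visited by the region have the colour of the region -/
theorem kc_col (hM : Mᶜ.Finite) {z : Cfz} (hG : Gd M z) {c d : Corner} (hc : c ∉ Mk M z)
    (hd : d ∈ Kc (Xe M z) z c) (he : ah d ∈ Xe M z) :
    (col M z c = 1 → z (ah d) = true) ∧ (col M z c = -1 → z (ah d) = false) := by
  have h1 := col_edge hM hG (kc_un hc hd) ⟨d, mem_Lp_self _ _, rfl⟩ he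
  rw [kc_HN hM hd] at h1
  constructor
  · intro h
    by_contra hne
    have h2 := h1.2 (by simpa using hne)
    unfold col at h
    rw [h2, par_neg_one] at h
    norm_num at h
  · intro h
    by_contra hne
    have h2 := h1.1 (by simpa using hne)
    unfold col at h
    rw [h2, par_zero] at h
    norm_num at h

/-! ### small strands -/

theorem fc_four {d x : Corner} (h : fc x = fc d) :
    x = d ∨ x = nxo d ∨ x = nxo (nxo d) ∨ x = nxo (nxo (nxo d)) := by
  obtain ⟨⟨a, b⟩, q⟩ := d
  obtain ⟨⟨a', b'⟩, q'⟩ := x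
  fin_cases q <;> fin_cases q' <;> simp [fc] at h <;> simp [nxo, wa, rl] <;> omega

theorem fst_four {d x : Corner} (h : x.1 = d.1) :
    x = d ∨ x = nxc d ∨ x = nxc (nxc d) ∨ x = nxc (nxc (nxc d)) := by
  obtain ⟨⟨a, b⟩, q⟩ := d
  obtain ⟨⟨a', b'⟩, q'⟩ := x
  simp only at h
  obtain ⟨rfl, rfl⟩ := Prod.mk.inj h
  fin_cases q <;> fin_cases q' <;> simp [nxc, rr]

/-- a strand all of whose edges are open surrounds no vertex -/
theorem hv_small {w : Cfz} {d : Corner} (hfin : (Lp w d).Finite)
    (h : ∀ x ∈ Lp w d, w (ah x) = true) (v : P2) : hv w d v = 0 := by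
  classical
  have hnx : ∀ x ∈ Lp w d, nxo x ∈ Lp w d := by
    intro x hx
    have := nx_mem_Lp.2 hx
    rwa [nx_open (h x hx)] at this
  have hfc : ∀ x ∈ Lp w d, fc x = fc d := by
    refine Lp_induct rfl ?_ ?_
    · intro x hx h1
      rw [nx_open (h x hx), fc_nxo, h1]
    · intro x hx h1
      have h2 : pv w x ∈ Lp w d := pv_mem_Lp.2 hx
      have h3 := nx_pv w x
      rw [nx_open (h _ h2)] at h3
      rw [← fc_nxo, h3, h1]
  have hmem : ∀ x, fc x = fc d → x ∈ Lp w d := by
    intro x hx
    have m0 := mem_Lp_self w d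
    rcases fc_four hx with h1 | h1 | h1 | h1
    · rw [h1]; exact m0
    · rw [h1]; exact hnx _ m0
    · rw [h1]; exact hnx _ (hnx _ m0)
    · rw [h1]; exact hnx _ (hnx _ (hnx _ m0))
  set A : P2 → ℤ := fun v => hv w d v with hA
  set B : P2 → ℤ := fun f => hf w d f - (if f = fc d then 1 else 0) with hB
  have hgrad : ∀ x : Corner, B (fc x) = A x.1 := by
    intro x
    have g := hv_grad hfin x
    show hf w d (fc x) - (if fc x = fc d then 1 else 0) = hv w d x.1
    by_cases hx : fc x = fc d
    · rw [if_pos hx]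
      rw [JL_mem (hmem x hx)] at g
      linarith
    · rw [if_neg hx]
      rw [JL_not_mem (fun h' => hx (hfc x h'))] at g
      linarith
  obtain ⟨N, hN⟩ := far hfin
  have h1 : A (|N| + 1, 0) = 0 := (hN (|N| + 1, 0) (by
    simp only
    have := le_abs_self N
    have h2 := abs_nonneg N
    rw [abs_of_nonneg (by linarith)]; linarith)).1
  have := (Rfl.const_of_grad hgrad v (|N| + 1, 0)).1
  rw [h1] at this
  exact this

/-- a strand all of whose edges are closed surrounds no face -/
theorem hf_small {w : Cfz} {d : Corner} (hfin : (Lp w d).Finite)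
    (h : ∀ x ∈ Lp w d, w (ah x) = false) (f : P2) : hf w d f = 0 := by
  classical
  have hnx : ∀ x ∈ Lp w d, nxc x ∈ Lp w d := by
    intro x hx
    have := nx_mem_Lp.2 hx
    rwa [nx_closed (h x hx)] at this
  have hfc : ∀ x ∈ Lp w d, x.1 = d.1 := by
    refine Lp_induct rfl ?_ ?_
    · intro x hx h1
      rw [nx_closed (h x hx), fst_nxc, h1]
    · intro x hx h1
      have h2 : pv w x ∈ Lp w d := pv_mem_Lp.2 hx
      have h3 := nx_pv w x
      rw [nx_closed (h _ h2)] at h3
      rw [← fst_nxc, h3, h1]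
  have hmem : ∀ x : Corner, x.1 = d.1 → x ∈ Lp w d := by
    intro x hx
    have m0 := mem_Lp_self w d
    rcases fst_four hx with h1 | h1 | h1 | h1
    · rw [h1]; exact m0
    · rw [h1]; exact hnx _ m0
    · rw [h1]; exact hnx _ (hnx _ m0)
    · rw [h1]; exact hnx _ (hnx _ (hnx _ m0))
  set A : P2 → ℤ := fun v => hv w d v + (if v = d.1 then 1 else 0) with hA
  set B : P2 → ℤ := fun f => hf w d f with hB
  have hgrad : ∀ x : Corner, B (fc x) = A x.1 := by
    intro x
    have g := hv_grad hfin x
    show hf w d (fc x) = hv w d x.1 + (if x.1 = d.1 then 1 else 0)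
    by_cases hx : x.1 = d.1
    · rw [if_pos hx]
      rw [JL_mem (hmem x hx)] at g
      linarith
    · rw [if_neg hx]
      rw [JL_not_mem (fun h' => hx (hfc x h'))] at g
      linarith
  obtain ⟨N, hN⟩ := far hfin
  have h1 : B (|N| + 1, 0) = 0 := (hN (|N| + 1, 0) (by
    simp only
    have := le_abs_self N
    have h2 := abs_nonneg N
    rw [abs_of_nonneg (by linarith)]; linarith)).2
  have k1 := (Rfl.const_of_grad hgrad (0, 0) (|N| + 1, 0)).2
  have k2 := (Rfl.const_of_grad hgrad (|N| + 1, 0) (|N| + 1, 0)).2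
  have k3 := (Rfl.const_of_grad hgrad f (|N| + 1, 0)).2
  rw [h1] at k2
  rw [← k2] at k3
  exact k3

/-! ### infinite clusters and loops -/

/-- no finite loop surrounds a vertex of an infinite open cluster -/
theorem hv_zero_of_inf {w : Cfz} {y0 : P2} (h : ¬ (OCl w y0).Finite) {d : Corner}
    (hfin : (Lp w d).Finite) : hv w d y0 = 0 := by
  have h1 : {v | hv w d v ≠ 0}.Finite := by
    obtain ⟨A, -, hA⟩ := exists_int hfin
    have : {v : P2 | hv w d v ≠ 0} ⊆ Prod.fst '' (A : Set Face) := by
      intro v hv'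
      exact ⟨(v, false), Finset.mem_coe.2 ((hA _).2 hv'), rfl⟩
    exact (A.finite_toSet.image _).subset this
  by_contra h0
  apply h
  refine h1.subset fun u hu => ?_
  have := (JL_inv w d).hv_path (JL_fs hfin) hu
  show hv w d u ≠ 0
  unfold hv at h0 ⊢
  rw [← this]; exact h0

/-- no finite loop surrounds a face of an infinite dual cluster -/
theorem hf_zero_of_inf {w : Cfz} {y0 : P2} (h : ¬ (DCl w y0).Finite) {d : Corner}
    (hfin : (Lp w d).Finite) : hf w d y0 = 0 := by
  have h1 : {v | hf w d v ≠ 0}.Finite := by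
    obtain ⟨A, -, hA⟩ := exists_int hfin
    have : {v : P2 | hf w d v ≠ 0} ⊆ Prod.fst '' (A : Set Face) := by
      intro v hv'
      exact ⟨(v, true), Finset.mem_coe.2 ((hA _).2 hv'), rfl⟩
    exact (A.finite_toSet.image _).subset this
  by_contra h0
  apply h
  refine h1.subset fun u hu => ?_
  have := (JL_inv w d).hf_path (JL_fs hfin) hu
  show hf w d u ≠ 0
  unfold hf at h0 ⊢
  rw [← this]; exact h0

/-! ### the comparison configuration -/

/-- all the edges off the region in the state `b` -/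
def ws (X : Set Edge) (z : Cfz) (c : Corner) (b : Bool) (y : Cfz) : Cfz :=
  mix (Us X z c)ᶜ (fun _ => b) y

theorem ws_in {X : Set Edge} {z : Cfz} {c : Corner} {b : Bool} {y : Cfz} {e : Edge}
    (h : e ∈ Us X z c) : ws X z c b y e = y e := mix_out (by simpa using h)

theorem ws_out {X : Set Edge} {z : Cfz} {c : Corner} {b : Bool} {y : Cfz} {e : Edge}
    (h : e ∉ Us X z c) : ws X z c b y e = b := mix_in (by simpa using h)

theorem us_fin (hM : Mᶜ.Finite) (z : Cfz) (c : Corner) : (Us (Xe M z) z c).Finite :=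
  (xe_cofin hM z).subset us_sub

theorem ws_fin (hM : Mᶜ.Finite) (z : Cfz) (c : Corner) (b : Bool) (y : Cfz) :
    AllFin (ws (Xe M z) z c b y) := by
  refine allFin_mix (by rw [compl_compl]; exact us_fin hM z c) ?_ y
  cases b
  · exact allFin_closed
  · exact allFin_open

/-- colour of the region as a Boolean -/
def IsCol (M : Set Edge) (z : Cfz) (c : Corner) (b : Bool) : Prop := col M z c = if b then 1 else -1

theorem lp_ws (hM : Mᶜ.Finite) {z : Cfz} (hG : Gd M z) {c d : Corner} (hc : c ∉ Mk M z)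
    {b : Bool} (hb : IsCol M z c b) (y : Cfz) (hd : d ∈ Kc (Xe M z) z c) :
    Lp (mix (Xe M z) z y) d = Lp (ws (Xe M z) z c b y) d := by
  refine Lp_congr ?_
  rintro e ⟨x, hx, rfl⟩
  have hx' := kc_lp (mix_mem_fl _ z y) hd hx
  by_cases he : ah x ∈ Xe M z
  · rw [mix_in he, ws_out (fun h => h.1 he)]
    have := kc_col hM hG hc hx' he
    unfold IsCol at hb
    cases b
    · exact this.2 (by simpa using hb)
    · exact this.1 (by simpa using hb)
  · rw [mix_out he, ws_in (us_of_kc hx' he)]

theorem out_ws (hM : Mᶜ.Finite) {z : Cfz} (hG : Gd M z) {c d : Corner} (hc : c ∉ Mk M z)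
    {b : Bool} (hb : IsCol M z c b) (y : Cfz) (hd : d ∉ Kc (Xe M z) z c) :
    ∀ x ∈ Lp (ws (Xe M z) z c b y) d, ws (Xe M z) z c b y (ah x) = b := by
  intro x hx
  refine ws_out (not_us_of fun hx' => hd ?_)
  have h1 := lp_ws hM hG hc hb y hx'
  have h2 : d ∈ Lp (ws (Xe M z) z c b y) x := Equiv.Perm.SameCycle.symm hx
  rw [← h1] at h2
  exact kc_lp (mix_mem_fl _ z y) hx' h2

/-- the face of the small square that is used for the colour `b` -/
def gb (b : Bool) (y0 : P2) : Face := (y0, !b)

/-- same height function in the region -/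
theorem ht_ws (hM : Mᶜ.Finite) {z : Cfz} (hG : Gd M z) {c d : Corner} (hc : c ∉ Mk M z)
    {b : Bool} (hb : IsCol M z c b) (y : Cfz) (hd : d ∈ Kc (Xe M z) z c) :
    ht (mix (Xe M z) z y) d = ht (ws (Xe M z) z c b y) d := by
  have h1 := lp_ws hM hG hc hb y hd
  unfold ht
  rw [hv_congr h1, hf_congr h1]

/-- the cluster of the base face of the square in the comparison configuration -/
def Cb (b : Bool) (w : Cfz) (y0 : P2) : Set P2 := if b then OCl w y0 else DCl w y0

/-- **loops of the region around the square** exist iff the cluster of the square is finite in the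
comparison configuration -/
theorem loop_iff (hM : Mᶜ.Finite) {z : Cfz} (hG : Gd M z) {c : Corner} (hc : c ∉ Mk M z)
    {b : Bool} (hb : IsCol M z c b) (y : Cfz) (y0 : P2) :
    (∃ A ∈ UL M (mix (Xe M z) z y), gb b y0 ∈ A ∧ ∃ d ∈ Kc (Xe M z) z c, sepC A d) ↔
      (Cb b (ws (Xe M z) z c b y) y0).Finite := by
  set z' := mix (Xe M z) z y with hz'
  set w := ws (Xe M z) z c b y with hw
  have hag : ∀ e ∈ Xe M z, z' e = z e := mix_agree M z y
  have hwF : AllFin w := ws_fin hM z c b y
  constructor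
  · rintro ⟨A, ⟨⟨c1, hc1, hA⟩, hn⟩, hg, d, hd, hsep⟩
    rw [sep_iff hc1 hA] at hsep
    have e1 : ht z' c1 = ht z' d := by
      unfold ht; rw [hv_eq hsep, hf_eq hsep]
    rw [hA, e1, ht_ws hM hG hc hb y hd] at hg
    by_contra hinf
    cases b
    · exact hg (hf_zero_of_inf hinf (hwF d))
    · exact hg (hv_zero_of_inf hinf (hwF d))
  · intro hfin
    have key : ∃ d : Corner, ht w d (gb b y0) ≠ 0 := by
      cases b
      · obtain ⟨d, -, -, h3⟩ := outer_dual (z := w) (f := y0) hfin
        refine ⟨d, ?_⟩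
        show hf w d y0 ≠ 0
        rw [h3 y0 Relation.ReflTransGen.refl]; norm_num
      · obtain ⟨d, -, -, h3⟩ := outer_open (z := w) (v := y0) hfin
        refine ⟨d, ?_⟩
        show hv w d y0 ≠ 0
        rw [h3 y0 Relation.ReflTransGen.refl]; norm_num
    obtain ⟨d, hd⟩ := key
    have hdK : d ∈ Kc (Xe M z) z c := by
      by_contra hn
      have h1 := out_ws hM hG hc hb y hn
      apply hd
      cases b
      · exact hf_small (hwF d) h1 y0
      · exact hv_small (hwF d) h1 y0
    rw [← ht_ws hM hG hc hb y hdK] at hd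
    have hdu : d ∉ Mk M z' := by rw [mk_congr hag]; exact kc_un hc hdK
    have hdf := lp_un_fin hM hdu
    obtain ⟨A, hA, hA'⟩ := exists_int hdf
    exact ⟨A, ⟨hA, fun h => hdu ((mkA_iff hdf hA').1 h)⟩, (hA' _).2 hd, d, hdK,
      (sep_iff hdf hA' d).2 (mem_Lp_self _ _)⟩

/-! ### events -/

/-- increasing event `sg = 1` of the comparison configuration -/
def EvA (M : Set Edge) (z : Cfz) (c : Corner) (b : Bool) : Set Cfz :=
  {y | sg (ws (Xe M z) z c b y) c = 1}

/-- the cluster of the square is infinite -/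
def EvB (M : Set Edge) (z : Cfz) (c : Corner) (b : Bool) (y0 : P2) : Set Cfz :=
  {y | ¬ (Cb b (ws (Xe M z) z c b y) y0).Finite}

/-- no loop outside the region around the square -/
def EvR (M : Set Edge) (z : Cfz) (c : Corner) (b : Bool) (y0 : P2) : Set Cfz :=
  {y | ∀ A ∈ UL M (mix (Xe M z) z y), gb b y0 ∈ A → ∃ d ∈ Kc (Xe M z) z c, sepC A d}

/-- no unmarked loop around the face `g` -/
def NoL (M : Set Edge) (g : Face) : Set Cfz := {z | ∀ A ∈ UL M z, g ∉ A}

theorem noL_iff (hM : Mᶜ.Finite) {z : Cfz} (hG : Gd M z) {c : Corner} (hc : c ∉ Mk M z)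
    {b : Bool} (hb : IsCol M z c b) (y : Cfz) (y0 : P2) :
    mix (Xe M z) z y ∈ NoL M (gb b y0) ↔ y ∈ EvB M z c b y0 ∩ EvR M z c b y0 := by
  have h1 := loop_iff hM hG hc hb y y0
  constructor
  · intro h
    refine ⟨fun hf => ?_, fun A hA hg => absurd hg (h A hA)⟩
    obtain ⟨A, hA, hg, -⟩ := h1.2 hf
    exact h A hA hg
  · rintro ⟨hB, hR⟩ A hA hg
    exact hB (h1.1 ⟨A, hA, hg, hR A hA hg⟩)

theorem ws_congr {z : Cfz} {c : Corner} {b : Bool} {X : Set Edge} {y y' : Cfz}
    (h : ∀ e ∈ Us X z c, y e = y' e) : ws X z c b y = ws X z c b y' := by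
  funext e
  by_cases he : e ∈ Us X z c
  · rw [ws_in he, ws_in he, h e he]
  · rw [ws_out he, ws_out he]

theorem ws_mono {z : Cfz} {c : Corner} {b : Bool} {X : Set Edge} {y y' : Cfz}
    (h : ∀ e, y e = true → y' e = true) :
    ∀ e, ws X z c b y e = true → ws X z c b y' e = true := by
  intro e
  by_cases he : e ∈ Us X z c
  · rw [ws_in he, ws_in he]; exact h e
  · rw [ws_out he, ws_out he]; exact id

theorem ocl_mono {w w' : Cfz} (h : ∀ e, w e = true → w' e = true) (v : P2) :
    OCl w v ⊆ OCl w' v := fun _ hu =>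
  Relation.ReflTransGen.mono (fun _ _ ⟨e, he, h'⟩ => ⟨e, h e he, h'⟩) _ _ hu

theorem dcl_anti {w w' : Cfz} (h : ∀ e, w e = true → w' e = true) (v : P2) :
    DCl w' v ⊆ DCl w v := fun _ hu =>
  Relation.ReflTransGen.mono (fun _ _ ⟨e, he, h'⟩ => ⟨e, by
    by_contra hne
    have h1 : w e = true := by simpa using hne
    have h2 := h e h1
    have h3 : w' e = false := he
    rw [h3] at h2
    exact absurd h2 (by simp), h'⟩) _ _ hu

section prob

variable (hM : Mᶜ.Finite) (z : Cfz) (c : Corner) (b : Bool) (y0 : P2)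

include hM

/-- the unrevealed edges of the region as a finset -/
def UsF : Finset Edge := (us_fin hM z c).toFinset

open Classical in
/-- the other unrevealed edges -/
def TsF : Finset Edge := (xe_cofin hM z).toFinset \ UsF hM z c

theorem mem_UsF {e : Edge} : e ∈ UsF hM z c ↔ e ∈ Us (Xe M z) z c := Set.Finite.mem_toFinset _

theorem depA : Dep (UsF hM z c) (EvA M z c b) := by
  intro y y' h
  unfold EvA
  rw [Set.mem_ofPred_eq, Set.mem_ofPred_eq, ws_congr fun e he => h e ((mem_UsF hM z c).2 he)]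

theorem depB : Dep (UsF hM z c) (EvB M z c b y0) := by
  intro y y' h
  unfold EvB
  rw [Set.mem_ofPred_eq, Set.mem_ofPred_eq, ws_congr fun e he => h e ((mem_UsF hM z c).2 he)]

theorem incA : Inc (EvA M z c b) := by
  intro y y' h hy
  refine sg_mono (S := UsF hM z c) (ws_fin hM z c b y) (ws_mono h) (fun e he => ?_) hy
  rw [mem_UsF] at he
  rw [ws_out he, ws_out he]

omit hM in
theorem incB_open : Inc (EvB M z c true y0) := by
  intro y y' h hy hfin
  exact hy (Set.Finite.subset hfin (ocl_mono (ws_mono h) y0))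

omit hM in
theorem incB_closed : Inc (EvB M z c false y0)ᶜ := by
  intro y y' h hy hinf
  apply hy
  intro hfin
  exact hinf (Set.Finite.subset hfin (dcl_anti (ws_mono h) y0))

theorem depR_aux {y y' : Cfz} (h : ∀ e ∈ TsF hM z c, y e = y' e) (hy : y ∈ EvR M z c b y0) :
    y' ∈ EvR M z c b y0 := by
  classical
  intro A hA hg
  by_contra hcon
  push Not at hcon
  have hloc : ∀ e ∈ bdE A, mix (Xe M z) z y' e = mix (Xe M z) z y e := by
    intro e he
    obtain ⟨d, hd, rfl⟩ := mem_bdE.1 he
    have hdK : d ∉ Kc (Xe M z) z c := fun h' => hcon d h' hd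
    by_cases hX : ah d ∈ Xe M z
    · rw [mix_in hX, mix_in hX]
    · rw [mix_out hX, mix_out hX]
      refine (h _ ?_).symm
      unfold TsF
      rw [Finset.mem_sdiff, Set.Finite.mem_toFinset, mem_UsF]
      exact ⟨hX, not_us_of hdK⟩
  have hA' : A ∈ UL M (mix (Xe M z) z y) := ⟨loc_aux hloc hA.1, hA.2⟩
  obtain ⟨d, hd, hs⟩ := hy A hA' hg
  exact hcon d hd hs

theorem depR : Dep (TsF hM z c) (EvR M z c b y0) := fun _ _ h =>
  ⟨depR_aux hM z c b y0 h, depR_aux hM z c b y0 fun e he => (h e he).symm⟩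

theorem disjUT : Disjoint (UsF hM z c) (TsF hM z c) := by
  classical
  unfold TsF
  exact Finset.disjoint_sdiff

/-- probability of `sg = 1` in the comparison configuration -/
theorem half_open : 1 / 2 ≤ nh.real (EvA M z c true) := by
  have hX : ((Us (Xe M z) z c)ᶜ)ᶜ.Finite := by rw [compl_compl]; exact us_fin hM z c
  have hmA : MeasurableSet (EvA M z c true) := (depA hM z c true).measurableSet
  have h1 : ∫ y, sgt c y ∂nh ≤ ∫ y, ((EvA M z c true).indicator (fun _ => (2 : ℝ)) y - 1) ∂nh := by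
    refine integral_mono_ae (int_sgt_able c)
      (((integrable_const (2 : ℝ)).indicator hmA).sub (integrable_const 1)) ?_
    filter_upwards [ae_fin c] with y hy
    rw [sgt_fin hy]
    rcases sg_pm hy with h | h
    · have : y ∈ EvA M z c true := sg_le_open hX hy h
      rw [Set.indicator_of_mem this, h]; norm_num
    · rw [h]
      by_cases hm : y ∈ EvA M z c true
      · rw [Set.indicator_of_mem hm]; norm_num
      · rw [Set.indicator_of_notMem hm]; norm_num
  rw [int_sgt, integral_sub ((integrable_const (2 : ℝ)).indicator hmA) (integrable_const 1),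
    integral_indicator_const _ hmA] at h1
  simp at h1
  linarith

theorem half_closed : nh.real (EvA M z c false) ≤ 1 / 2 := by
  have hX : ((Us (Xe M z) z c)ᶜ)ᶜ.Finite := by rw [compl_compl]; exact us_fin hM z c
  have hmA : MeasurableSet (EvA M z c false) := (depA hM z c false).measurableSet
  have h1 : ∫ y, ((EvA M z c false).indicator (fun _ => (2 : ℝ)) y - 1) ∂nh ≤ ∫ y, sgt c y ∂nh := by
    refine integral_mono_ae
      (((integrable_const (2 : ℝ)).indicator hmA).sub (integrable_const 1)) (int_sgt_able c) ?_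
    filter_upwards [ae_fin c] with y hy
    rw [sgt_fin hy]
    by_cases hm : y ∈ EvA M z c false
    · have : sg y c = 1 := sg_closed_le hX hy hm
      rw [Set.indicator_of_mem hm, this]; norm_num
    · rw [Set.indicator_of_notMem hm]
      rcases sg_pm hy with h | h <;> rw [h] <;> norm_num
  rw [int_sgt, integral_sub ((integrable_const (2 : ℝ)).indicator hmA) (integrable_const 1),
    integral_indicator_const _ hmA] at h1
  simp at h1
  linarith

end prob

open Classical in
/-- **Z2**, in terms of the base face of the colour of the region -/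
theorem Z2_aux (hM : Mᶜ.Finite) {z : Cfz} (hG : Gd M z) {c : Corner} (hc : c ∉ Mk M z)
    {b : Bool} (hb : IsCol M z c b) (y0 : P2) :
    0 ≤ ∫ y, (if mix (Xe M z) z y ∈ NoL M (gb b y0) then
      ((-1 : ℝ) ^ N0 M (mix (Xe M z) z y) c) else 0) ∂nh := by
  set A := EvA M z c b
  set B := EvB M z c b y0
  set R := EvR M z c b y0
  have hmA : MeasurableSet A := (depA hM z c b).measurableSet
  have hmB : MeasurableSet B := (depB hM z c b y0).measurableSet
  have hmR : MeasurableSet R := (depR hM z c b y0).measurableSet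
  have hBR : MeasurableSet (B ∩ R) := hmB.inter hmR
  -- pointwise value
  have hval : ∀ y, (if mix (Xe M z) z y ∈ NoL M (gb b y0) then
      ((-1 : ℝ) ^ N0 M (mix (Xe M z) z y) c) else 0) =
      (if b then (1 : ℝ) else -1) * ((A ∩ (B ∩ R)).indicator (fun _ => (2 : ℝ)) y -
        (B ∩ R).indicator (fun _ => (1 : ℝ)) y) := by
    intro y
    have h1 := noL_iff hM hG hc hb y y0
    by_cases hy : y ∈ B ∩ R
    · rw [if_pos (h1.2 hy), Set.indicator_of_mem hy]
      have hag := mix_agree M z y
      have hc' : c ∉ Mk M (mix (Xe M z) z y) := by rw [mk_congr hag]; exact hc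
      have h2 := parity hM hc'
      rw [col_congr hag] at h2
      have h3 : ((-1 : ℝ) ^ N0 M (mix (Xe M z) z y) c) =
          ((col M z c * sg (mix (Xe M z) z y) c : ℤ) : ℝ) := by
        rw [← h2]; push_cast; rfl
      rw [h3]
      unfold IsCol at hb
      rw [hb, sg_congr (lp_ws hM hG hc hb y kc_self)]
      have hpm := sg_pm ((ws_fin hM z c b y) c)
      by_cases hyA : y ∈ A
      · have hs : sg (ws (Xe M z) z c b y) c = 1 := hyA
        have hmem : y ∈ A ∩ (B ∩ R) := ⟨hyA, hy⟩
        rw [Set.indicator_of_mem hmem, hs]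
        cases b <;> norm_num
      · have hs : sg (ws (Xe M z) z c b y) c = -1 := by
          rcases hpm with h | h
          · exact absurd h hyA
          · exact h
        rw [Set.indicator_of_notMem (fun h => hyA h.1), hs]
        cases b <;> norm_num
    · rw [if_neg (fun h => hy (h1.1 h)), Set.indicator_of_notMem hy,
        Set.indicator_of_notMem (fun h => hy h.2)]
      simp
  rw [integral_congr_ae (Filter.Eventually.of_forall hval), integral_const_mul,
    integral_sub ((integrable_const (2 : ℝ)).indicator (hmA.inter hBR))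
      ((integrable_const (1 : ℝ)).indicator hBR),
    integral_indicator_const _ (hmA.inter hBR), integral_indicator_const _ hBR, smul_eq_mul,
    smul_eq_mul, mul_one]
  -- independence
  have i1 : nh.real (A ∩ (B ∩ R)) = nh.real (A ∩ B) * nh.real R := by
    rw [← Set.inter_assoc]
    exact PB_indep_real _ (disjUT hM z c) ((depA hM z c b).inter (depB hM z c b y0))
      (depR hM z c b y0)
  have i2 : nh.real (B ∩ R) = nh.real B * nh.real R :=
    PB_indep_real _ (disjUT hM z c) (depB hM z c b y0) (depR hM z c b y0)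
  rw [i1, i2]
  have hR0 : 0 ≤ nh.real R := measureReal_nonneg
  have hB0 : 0 ≤ nh.real B := measureReal_nonneg
  cases b
  · -- closed
    have h1 : nh.real A * nh.real Bᶜ ≤ nh.real (A ∩ Bᶜ) :=
      harris _ (depA hM z c false) (depB hM z c false y0).compl (incA hM z c false)
        (incB_closed z c y0)
    have h2 : nh.real Bᶜ = 1 - nh.real B := probReal_compl_eq_one_sub hmB
    have h3 : nh.real (A ∩ B) + nh.real (A ∩ Bᶜ) = nh.real A := by
      have := measureReal_inter_add_sdiff (μ := nh) (s := A) (t := B) hmB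
      rw [← Set.sdiff_eq]; exact this
    have h4 := half_closed hM z c
    have h5 : nh.real (A ∩ B) ≤ nh.real A * nh.real B := by
      rw [h2] at h1; nlinarith
    have h6 : 2 * nh.real (A ∩ B) ≤ nh.real B := by
      have : nh.real A * nh.real B ≤ 1 / 2 * nh.real B := mul_le_mul_of_nonneg_right h4 hB0
      linarith
    have h7 : 0 ≤ (nh.real B - 2 * nh.real (A ∩ B)) * nh.real R :=
      mul_nonneg (by linarith) hR0
    simp only [Bool.false_eq_true, if_false]
    linarith
  · have h1 : nh.real A * nh.real B ≤ nh.real (A ∩ B) :=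
      harris _ (depA hM z c true) (depB hM z c true y0) (incA hM z c true)
        (incB_open z c y0)
    have h4 := half_open hM z c
    have h6 : nh.real B ≤ 2 * nh.real (A ∩ B) := by
      have : 1 / 2 * nh.real B ≤ nh.real A * nh.real B := mul_le_mul_of_nonneg_right h4 hB0
      linarith
    have h7 : 0 ≤ (2 * nh.real (A ∩ B) - nh.real B) * nh.real R :=
      mul_nonneg (by linarith) hR0
    simp only [if_true]
    linarith

/-! ### the small square -/

theorem Hv_sum {z : Cfz} (T : Finset (Finset Face)) (hT : ∀ A ∈ T, A ∈ Lps z) (v : P2) :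
    Hv (∑ A ∈ T, Jn A) v = ∑ A ∈ T, Hv (Jn A) v := by
  classical
  induction T using Finset.induction_on with
  | empty => simp
  | insert A T hA ih =>
      rw [Finset.sum_insert hA, Finset.sum_insert hA,
        Hv_add (Jn_fs (hT A (Finset.mem_insert_self _ _)))
          (par_sum T (fun B hB => hT B (Finset.mem_insert_of_mem hB)) v).1,
        ih fun B hB => hT B (Finset.mem_insert_of_mem hB)]

/-- if no unmarked loop surrounds the vertex then the height vanishes -/
theorem HN_of_noL (hM : Mᶜ.Finite) {z : Cfz} {v : P2} (h : z ∈ NoL M (v, false)) :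
    HN M z v = 0 := by
  classical
  unfold HN
  rw [JN_eq_sum hM, Hv_sum _ fun A hA => ((Set.Finite.mem_toFinset _).1 hA).1]
  refine Finset.sum_eq_zero fun A hA => ?_
  have hA' := (Set.Finite.mem_toFinset _).1 hA
  obtain ⟨⟨c, hc, hAc⟩, hn⟩ := hA'
  have h1 : (v, false) ∉ A := h A ⟨⟨c, hc, hAc⟩, hn⟩
  rw [Jn_eq hc hAc]
  by_contra h2
  exact h1 ((hAc _).2 h2)

/-- the edges meeting the square of radius `r` around `y0` -/
def Mb (y0 : P2) (r : ℤ) : Set Edge := {e | sd y0 (src e) ≤ r ∨ sd y0 (tgt e) ≤ r}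

/-- the height is constant on the square -/
theorem HN_sq (hM : Mᶜ.Finite) {y0 : P2} {r : ℤ} (hsub : Mb y0 r ⊆ M) (z : Cfz) {v : P2}
    (hv' : sd y0 v ≤ r) : HN M z v = HN M z y0 := by
  have hr : ∀ u : P2, sd y0 u ≤ r → HN M z (u.1 + 1, u.2) = HN M z u := by
    intro u hu
    have h1 : ((u, false) : Edge) ∈ M := hsub (Or.inl hu)
    have := HN_edge hM z h1
    rw [src_mk, tgt_h] at this
    exact this.symm
  have hu : ∀ u : P2, sd y0 u ≤ r → HN M z (u.1, u.2 + 1) = HN M z u := by
    intro u hu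
    have h1 : ((u, true) : Edge) ∈ M := hsub (Or.inl hu)
    have := HN_edge hM z h1
    have e : tgt ((u, true) : Edge) = (u.1, u.2 + 1) := rfl
    rw [src_mk, e] at this
    exact this.symm
  rw [sd_le] at hv'
  -- horizontal moves
  have hrow : ∀ (k : ℕ) (a b : ℤ), y0.1 - r ≤ a → a + k ≤ y0.1 + r → y0.2 - r ≤ b → b ≤ y0.2 + r →
      HN M z (a + k, b) = HN M z (a, b) := by
    intro k
    induction k with
    | zero => intro a b _ _ _ _; simp
    | succ k ih =>
        intro a b h1 h2 h3 h4
        push_cast at h2 ⊢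
        have h5 := hr (a + k, b) (by rw [sd_le]; dsimp only; omega)
        dsimp only at h5
        rw [show a + ((k : ℤ) + 1) = a + k + 1 by ring, h5, ih a b h1 (by linarith) h3 h4]
  have hcol : ∀ (k : ℕ) (a b : ℤ), y0.1 - r ≤ a → a ≤ y0.1 + r → y0.2 - r ≤ b → b + k ≤ y0.2 + r →
      HN M z (a, b + k) = HN M z (a, b) := by
    intro k
    induction k with
    | zero => intro a b _ _ _ _; simp
    | succ k ih =>
        intro a b h1 h2 h3 h4
        push_cast at h4 ⊢
        have h5 := hu (a, b + k) (by rw [sd_le]; dsimp only; omega)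
        dsimp only at h5
        rw [show b + ((k : ℤ) + 1) = b + k + 1 by ring, h5, ih a b h1 h2 h3 (by linarith)]
  obtain ⟨a, b⟩ := v
  dsimp only at hv'
  obtain ⟨h1, h2, h3, h4⟩ := hv'
  have h5 : 0 ≤ r := by linarith
  have e1 : HN M z (a, b) = HN M z (y0.1, b) := by
    rcases le_total y0.1 a with h | h
    · have := hrow (a - y0.1).toNat y0.1 b (by linarith)
        (by rw [Int.toNat_of_nonneg (by linarith)]; linarith) h3 h4
      rwa [Int.toNat_of_nonneg (by linarith), add_sub_cancel] at this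
    · have := hrow (y0.1 - a).toNat a b h1
        (by rw [Int.toNat_of_nonneg (by linarith)]; linarith) h3 h4
      rw [Int.toNat_of_nonneg (by linarith), add_sub_cancel] at this
      exact this.symm
  have e2 : HN M z (y0.1, b) = HN M z (y0.1, y0.2) := by
    rcases le_total y0.2 b with h | h
    · have := hcol (b - y0.2).toNat y0.1 y0.2 (by linarith) (by linarith) (by linarith)
        (by rw [Int.toNat_of_nonneg (by linarith)]; linarith)
      rwa [Int.toNat_of_nonneg (by linarith), add_sub_cancel] at this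
    · have := hcol (y0.2 - b).toNat y0.1 b (by linarith) (by linarith) h3
        (by rw [Int.toNat_of_nonneg (by linarith)]; linarith)
      rw [Int.toNat_of_nonneg (by linarith), add_sub_cancel] at this
      exact this.symm
  rw [e1, e2]

/-- an unmarked loop does not separate the square -/
theorem ul_sq {y0 : P2} {r : ℤ} (hr : 0 ≤ r) (hsub : Mb y0 r ⊆ M) {z : Cfz} {A : Finset Face}
    (hA : A ∈ UL M z) {d : Corner} (hd : sd y0 d.1 ≤ r) : cv d ∈ A ↔ cf d ∈ A := by
  by_contra hn
  apply hA.2
  refine ⟨ah d, mem_bdE.2 ⟨d, hn, rfl⟩, hsub ?_⟩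
  rcases ah_ends d with ⟨h, _⟩ | ⟨h, _⟩
  · exact Or.inl (by rw [← h]; exact hd)
  · exact Or.inr (by rw [← h]; exact hd)

theorem noL_face {y0 : P2} {r : ℤ} (hr : 0 ≤ r) (hsub : Mb y0 r ⊆ M) (z : Cfz) (b : Bool) :
    z ∈ NoL M (gb b y0) ↔ z ∈ NoL M (y0, false) := by
  cases b
  · have e : ∀ A ∈ UL M z, ((y0, false) : Face) ∈ A ↔ ((y0, true) : Face) ∈ A := by
      intro A hA
      have := ul_sq hr hsub hA (d := (y0, 0)) (by
        show sd y0 y0 ≤ r
        unfold sd; simpa using hr)
      unfold cv cf at this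
      rw [fc_zero] at this
      exact this
    constructor
    · intro h A hA hg
      exact h A hA ((e A hA).1 hg)
    · intro h A hA hg
      exact h A hA ((e A hA).2 hg)
  · exact Iff.rfl

/-- `Gd` for the outside of a box together with a square at height `0` -/
theorem gd_sq {x y0 : P2} {n r : ℤ} (hr : 0 ≤ r) (z : Cfz)
    (h0 : HN (Mo x n ∪ Mb y0 r) z y0 = 0) : Gd (Mo x n ∪ Mb y0 r) z := by
  have hM : (Mo x n ∪ Mb y0 r)ᶜ.Finite :=
    (Mo_cofin x n).subset (Set.compl_subset_compl.2 Set.subset_union_left)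
  refine gd_of hM fun e he => ?_
  rcases he with he | he
  · exact (HN_mo hM Set.subset_union_left z he).1
  · rcases he with h | h
    · rw [HN_sq hM Set.subset_union_right z h, h0]
    · rw [HN_edge hM z (Or.inr (Or.inr h)), HN_sq hM Set.subset_union_right z h, h0]

open Classical in
/-- **Z2**: outside of a box and a small square marked, `c` unmarked:
`0 ≤ E_y (-1)^{N0} 1{no unmarked loop around the square}` -/
theorem Z2 {x y0 : P2} {n r : ℤ} (hr : 0 ≤ r) {z : Cfz} {c : Corner}
    (hc : c ∉ Mk (Mo x n ∪ Mb y0 r) z) :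
    0 ≤ ∫ y, (if mix (Xe (Mo x n ∪ Mb y0 r) z) z y ∈ NoL (Mo x n ∪ Mb y0 r) (y0, false) then
      ((-1 : ℝ) ^ N0 (Mo x n ∪ Mb y0 r) (mix (Xe (Mo x n ∪ Mb y0 r) z) z y) c) else 0) ∂nh := by
  set M := Mo x n ∪ Mb y0 r with hMdef
  have hM : Mᶜ.Finite :=
    (Mo_cofin x n).subset (Set.compl_subset_compl.2 Set.subset_union_left)
  by_cases h0 : HN M z y0 = 0
  · have hG : Gd M z := gd_sq hr z h0
    have hb : ∃ b : Bool, IsCol M z c b := by
      rcases par_pm (HN M z c.1) with h | h
      · exact ⟨true, h⟩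
      · exact ⟨false, h⟩
    obtain ⟨b, hb⟩ := hb
    have := Z2_aux hM hG hc hb y0
    have e : ∀ w : Cfz, w ∈ NoL M (gb b y0) ↔ w ∈ NoL M (y0, false) := fun w =>
      noL_face hr Set.subset_union_right w b
    simpa only [e] using this
  · refine integral_nonneg fun y => ?_
    simp only
    rw [if_neg]
    · exact le_rfl
    · intro h
      have h1 := HN_of_noL hM h
      rw [HN_congr (mix_agree M z y)] at h1
      exact h0 h1

end Crest.Agent.R158.Zr110
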