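import Crest.Agent.R158.Zr3_110
import Crest.Agent.R158.Vx6_107

/-!
# Row 158, BLOCK Z / UB3b (helper110), part 1: the isolated part of `∫ Xs μ c`

* `ul_box` : the unmarked loops of `M = Mo x N` lie in the box `BF x N`
* `Xs_split` : if `c` is unmarked, `Xs μ c z = √3 * Gf μ M c z * (-1)^{N0 M z c}`, `Gf` adapted
* `iso_le` : `|∫ Xs μ c 1[c ∉ Mk]| ≤ 2 ∫ |Xs μ c z| 1[c ∉ Mk] P_y(the strand of c in y visits Xe M z)`
-/

set_option autoImplicit false

noncomputable section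

namespace Crest.Agent.R158.Zs110

open Crest.Agent.R161.Geo729 Crest.Agent.R161.Dual374
open Crest.Agent.R161.Tas682 (sd)
open Crest.Agent.R158.It200 Crest.Agent.R158.Wf850
open Crest.Agent.R158.Vx107 (mass tot Ntr Fw Sw Fv Xs Oth chv mass_chv fin_supp ntr_chv Fw_zero
  Fw_sub_pi Fv_eq Xs_eq integrable_Xs)
open Crest.Agent.R158.Zr110 hiding AllFin ae_fin
open Crest.Agent.R158.Fr158 (bx mem_bx mem_bx_sd)
open MeasureTheory Real

variable {M : Set Edge}

/-- marked loops -/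
def ML (M : Set Edge) (z : Cfz) : Set (Finset Face) := {A | A ∈ Lps z ∧ MkA M A}

theorem ml_congr {z z' : Cfz} (h : ∀ e ∈ Xe M z, z' e = z e) : ML M z' = ML M z := by
  have key : ∀ z z' : Cfz, (∀ e ∈ Xe M z, z' e = z e) → ML M z ⊆ ML M z' := by
    rintro z z' h A ⟨⟨c, hc, hA⟩, hM⟩
    have hcm : c ∈ Mk M z := (mkA_iff hc hA).1 hM
    have h1 := lp_marked h hcm
    refine ⟨⟨c, h1 ▸ hc, fun f => ?_⟩, hM⟩
    rw [hA]
    have h2 : JL z c = JL z' c := by unfold JL; rw [h1]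
    unfold ht hv hf
    rw [h2]
  refine Set.Subset.antisymm ?_ (key _ _ h)
  refine key _ _ fun e he => ?_
  rw [xe_congr h] at he
  exact (h e he).symm

/-- unmarked loops lie in the box -/
theorem ul_box {x : P2} {N : ℤ} {z : Cfz} {A : Finset Face} (hA : A ∈ UL (Mo x N) z) :
    A ⊆ BF x N := by
  obtain ⟨⟨c, hc, hA⟩, hn⟩ := hA
  have hcu : c ∉ Mk (Mo x N) z := fun h => hn ((mkA_iff hc hA).2 h)
  intro f hf
  rw [mem_BF]
  by_contra hcon
  have hsup : ∀ d : Corner, JL z c d ≠ 0 →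
      x.1 - N ≤ d.1.1 ∧ d.1.1 ≤ x.1 + N ∧ x.2 - N ≤ d.1.2 ∧ d.1.2 ≤ x.2 + N := by
    intro d hd
    by_contra hcon'
    have hdm : d ∈ Lp z c := by
      by_contra h
      exact hd (JL_not_mem h)
    refine hcu ((mk_along hdm).1 (mk_ah ?_))
    have h1 : N < sd x d.1 := by
      rw [← mem_bx] at hcon'
      rw [mem_bx_sd] at hcon'
      exact not_le.1 hcon'
    rcases ah_ends d with ⟨h, _⟩ | ⟨h, _⟩
    · left; rw [← h]; exact h1
    · right; rw [← h]; exact h1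
  obtain ⟨v, b⟩ := f
  have hout : v.1 < x.1 - N ∨ x.1 + N < v.1 ∨ v.2 < x.2 - N ∨ x.2 + N < v.2 := by
    by_contra hcon'
    have : v ∈ bx x N := by rw [mem_bx]; omega
    rw [mem_bx_sd] at this
    exact hcon this
  rw [hA] at hf
  apply hf
  cases b
  · rw [ht_false]
    exact Hv_out (JL_fs hc) (JL_inv z c).cons hsup hout
  · rw [ht_true]
    have := Hf_out (JL_fs hc) (JL_inv z c).cons hsup (c := (v, 0)) hout
    rwa [fc_zero] at this

theorem mass_off {x : P2} {N : ℤ} {μ : Face →₀ ℝ} (hoff : ∀ f ∈ BF x N, μ f = 0)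
    {A : Finset Face} (hA : A ⊆ BF x N) : mass μ A = 0 :=
  Finset.sum_eq_zero fun f hf => hoff f (hA hf)

/-- product over the marked loops -/
def Gm (μ : Face →₀ ℝ) (M : Set Edge) (v : P2) (z : Cfz) : ℝ := ∏ᶠ B ∈ ML M z, Fv μ v B

theorem gm_congr {μ : Face →₀ ℝ} {v : P2} {z z' : Cfz} (h : ∀ e ∈ Xe M z, z' e = z e) :
    Gm μ M v z' = Gm μ M v z := by
  unfold Gm; rw [ml_congr h]

theorem sw_zero : Sw 0 = √3 := by
  unfold Sw; rw [add_zero, sin_pi_div_three]; ring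

/-- unmarked loops not through `c` -/
def UO (M : Set Edge) (z : Cfz) (c : Corner) : Set (Finset Face) := {A | A ∈ UL M z ∧ ¬ sepC A c}

theorem oth_eq (hM : Mᶜ.Finite) {z : Cfz} {c : Corner} (hc : c ∉ Mk M z) :
    Oth z c = ML M z ∪ UO M z c := by
  obtain ⟨A, hA, hA'⟩ := exists_int (lp_un_fin hM hc)
  have hfin := lp_un_fin hM hc
  ext B
  constructor
  · rintro ⟨h1, h2⟩
    by_cases h3 : MkA M B
    · exact Or.inl ⟨h1, h3⟩
    · exact Or.inr ⟨⟨h1, h3⟩, h2⟩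
  · rintro (⟨h1, h2⟩ | ⟨⟨h1, h2⟩, h3⟩)
    · refine ⟨h1, fun h3 => hc ?_⟩
      obtain ⟨d, hd, hB⟩ := h1
      have h4 : c ∈ Lp z d := (sep_iff hd hB c).1 h3
      exact (mk_along h4).2 ((mkA_iff hd hB).1 h2)
    · exact ⟨h1, h3⟩

theorem ml_uo_disj (z : Cfz) (c : Corner) : Disjoint (ML M z) (UO M z c) :=
  Set.disjoint_left.2 fun _ h h' => h'.1.2 h.2

theorem uo_fin (hM : Mᶜ.Finite) (z : Cfz) (c : Corner) : (UO M z c).Finite :=
  (UL_finite hM z).subset fun _ h => h.1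

/-- the product of signs -/
theorem sign_prod {S : Set (Finset Face)} (hS : S.Finite) {f : Face}
    {g : Finset Face → ℝ} (h1 : ∀ A ∈ S, f ∈ A → g A = -1) (h2 : ∀ A ∈ S, f ∉ A → g A = 1) :
    ∏ᶠ A ∈ S, g A = (-1) ^ {A | A ∈ S ∧ f ∈ A}.ncard := by
  classical
  have e1 : ∏ᶠ A ∈ S, g A = ∏ A ∈ hS.toFinset, g A := by
    refine finprod_mem_eq_finite_toFinset_prod g hS
  rw [e1]
  have e2 : ∏ A ∈ hS.toFinset, g A = ∏ A ∈ hS.toFinset, (if f ∈ A then (-1 : ℝ) else 1) := by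
    refine Finset.prod_congr rfl fun A hA => ?_
    rw [Set.Finite.mem_toFinset] at hA
    split_ifs with h
    · exact h1 A hA h
    · exact h2 A hA h
  rw [e2, Finset.prod_ite, Finset.prod_const, Finset.prod_const_one, mul_one]
  congr 1
  rw [← Set.ncard_coe_finset]
  congr 1
  ext A
  simp

/-- **factorisation at an unmarked corner** -/
theorem Xs_split {x : P2} {N : ℤ} {μ : Face →₀ ℝ} (hμ : tot μ = π) (hoff : ∀ f ∈ BF x N, μ f = 0)
    {z : Cfz} {c : Corner} (hc : c ∉ Mk (Mo x N) z) :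
    Xs μ c z = √3 * Gm μ (Mo x N) c.1 z * (-1) ^ N0 (Mo x N) z c := by
  classical
  have hM := Mo_cofin x N
  have hfin := lp_un_fin hM hc
  obtain ⟨A, hA, hA'⟩ := exists_int hfin
  have hAU : A ∈ UL (Mo x N) z := ⟨hA, fun h => hc ((mkA_iff hfin hA').1 h)⟩
  rw [Xs_eq hfin hA', mass_off hoff (ul_box hAU), sw_zero, oth_eq hM hc]
  have hsub1 : ML (Mo x N) z ⊆ Lps z := fun _ h => h.1
  have hsub2 : UO (Mo x N) z c ⊆ Lps z := fun _ h => h.1.1
  have hf1 : (ML (Mo x N) z ∩ Function.mulSupport fun B => Fv μ c.1 B).Finite :=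
    fin_supp (ntr_chv hμ c.1) hsub1
  have hf2 : (UO (Mo x N) z c ∩ Function.mulSupport fun B => Fv μ c.1 B).Finite :=
    fin_supp (ntr_chv hμ c.1) hsub2
  rw [finprod_mem_union' (ml_uo_disj z c) hf1 hf2, mul_assoc]
  congr 2
  have h1 : ∀ B ∈ UO (Mo x N) z c, (c.1, false) ∈ B → Fv μ c.1 B = -1 := by
    intro B hB h
    rw [Fv_eq, if_pos h, mass_off hoff (ul_box hB.1), Fw_zero]
  have h2 : ∀ B ∈ UO (Mo x N) z c, (c.1, false) ∉ B → Fv μ c.1 B = 1 := by
    intro B hB h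
    rw [Fv_eq, if_neg h, mass_off hoff (ul_box hB.1), Fw_zero]
  rw [sign_prod (uo_fin hM z c) h1 h2]
  congr 1
  unfold N0
  congr 1
  ext B
  simp only [Set.mem_ofPred_eq]
  constructor
  · rintro ⟨⟨hB, hs⟩, h⟩
    have hs' : cv c ∈ B ↔ cf c ∈ B := by
      unfold sepC at hs
      exact not_not.1 hs
    exact ⟨hB, h, hs'.1 h⟩
  · rintro ⟨hB, h, h'⟩
    exact ⟨⟨hB, fun hs => hs ⟨fun _ => h', fun _ => h⟩⟩, h⟩

open Classical in
/-- the adapted factor, cut off at marked corners -/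
def Gf (μ : Face →₀ ℝ) (M : Set Edge) (c : Corner) (z : Cfz) : ℝ :=
  if c ∉ Mk M z then Gm μ M c.1 z else 0

theorem gf_adp (μ : Face →₀ ℝ) (c : Corner) : Adp M (Gf μ M c) := by
  intro z z' h
  unfold Gf
  rw [mk_congr h, gm_congr h]

open Classical in
theorem gf_eq {x : P2} {N : ℤ} {μ : Face →₀ ℝ} (hμ : tot μ = π) (hoff : ∀ f ∈ BF x N, μ f = 0)
    (z : Cfz) (c : Corner) :
    Gf μ (Mo x N) c z = (1 / √3) * (Xs μ c z *
      (if c ∉ Mk (Mo x N) z then ((-1 : ℝ) ^ N0 (Mo x N) z c) else 0)) := by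
  unfold Gf
  have h3 : (√3 : ℝ) ≠ 0 := by positivity
  by_cases hc : c ∉ Mk (Mo x N) z
  · rw [if_pos hc, if_pos hc, Xs_split hμ hoff hc]
    have h4 : ((-1 : ℝ) ^ N0 (Mo x N) z c) * ((-1 : ℝ) ^ N0 (Mo x N) z c) = 1 := by
      rw [← pow_add, ← two_mul, pow_mul]; norm_num
    calc Gm μ (Mo x N) c.1 z = Gm μ (Mo x N) c.1 z * 1 := (mul_one _).symm
      _ = Gm μ (Mo x N) c.1 z * (((-1 : ℝ) ^ N0 (Mo x N) z c) * ((-1 : ℝ) ^ N0 (Mo x N) z c)) := by
          rw [h4]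
      _ = _ := by field_simp
  · rw [if_neg hc, if_neg hc, mul_zero, mul_zero]

theorem meas_sgn (hM : Mᶜ.Finite) (c : Corner) [∀ z, Decidable (c ∉ Mk M z)] :
    Measurable fun z : Cfz => (if c ∉ Mk M z then ((-1 : ℝ) ^ N0 M z c) else 0) :=
  meas_of_fin hM fun z z' h => by
    have h1 := mk_dep h
    have h2 := N0_dep h c
    by_cases hc : c ∉ Mk M z
    · rw [if_pos hc, if_pos (by rw [← h1]; exact hc), h2]
    · rw [if_neg hc, if_neg (by rw [← h1]; exact hc)]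

theorem gf_int {x : P2} {N : ℤ} {μ : Face →₀ ℝ} (hμ : tot μ = π)
    (hoff : ∀ f ∈ BF x N, μ f = 0) (c : Corner) : Integrable (Gf μ (Mo x N) c) nh := by
  classical
  have h1 : Gf μ (Mo x N) c = fun z => (1 / √3) * (Xs μ c z *
      (if c ∉ Mk (Mo x N) z then ((-1 : ℝ) ^ N0 (Mo x N) z c) else 0)) := by
    funext z
    rw [gf_eq hμ hoff]
  rw [h1]
  refine Integrable.const_mul ?_ _
  refine (integrable_Xs Vx107.ae_fin hμ c).mul_bdd (c := 1)
    (meas_sgn (Mo_cofin x N) c).aestronglyMeasurable (Filter.Eventually.of_forall fun z => ?_)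
  split_ifs <;> simp

/-- probability that the strand of `c` in a fresh configuration visits a revealed edge -/
def Pv (M : Set Edge) (c : Corner) (z : Cfz) : ℝ := nh.real {y | ¬ Disjoint (Ve y c) (Xe M z)}

theorem pv_nonneg (c : Corner) (z : Cfz) : 0 ≤ Pv M c z := measureReal_nonneg

theorem pv_le_one (c : Corner) (z : Cfz) : Pv M c z ≤ 1 := measureReal_le_one

theorem meas_pv (hM : Mᶜ.Finite) (c : Corner) : Measurable (Pv M c) :=
  meas_of_fin hM fun z z' h => by unfold Pv; rw [xe_dep h]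

open Classical in
/-- **the isolated part** -/
theorem iso_le {x : P2} {N : ℤ} {μ : Face →₀ ℝ} (hμ : tot μ = π)
    (hoff : ∀ f ∈ BF x N, μ f = 0) (c : Corner) :
    |∫ z, (if c ∉ Mk (Mo x N) z then Xs μ c z else 0) ∂nh| ≤
      2 * ∫ z, (if c ∉ Mk (Mo x N) z then |Xs μ c z| * Pv (Mo x N) c z else 0) ∂nh := by
  have hM := Mo_cofin x N
  have h3 : (0 : ℝ) < √3 := by positivity
  have hG := gf_int hμ hoff c
  -- the integrand
  have e1 : ∀ z, (if c ∉ Mk (Mo x N) z then Xs μ c z else 0) =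
      √3 * (Gf μ (Mo x N) c z *
        (if c ∉ Mk (Mo x N) z then ((-1 : ℝ) ^ N0 (Mo x N) z c) else 0)) := by
    intro z
    by_cases hc : c ∉ Mk (Mo x N) z
    · rw [if_pos hc, if_pos hc, Xs_split hμ hoff hc]
      unfold Gf
      rw [if_pos hc, mul_assoc]
    · rw [if_neg hc, if_neg hc, mul_zero, mul_zero]
  have e2 := Z1_int hM (gf_adp (M := Mo x N) μ c) hG c
  simp only [e1]
  rw [integral_const_mul, e2, ← integral_const_mul]
  -- the pointwise bound
  have hb : ∀ z, |√3 * (Gf μ (Mo x N) c z *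
      (if c ∉ Mk (Mo x N) z then ∫ y, ((-1 : ℝ) ^ N0 (Mo x N) (mix (Xe (Mo x N) z) z y) c) ∂nh
        else 0))| ≤ 2 * (if c ∉ Mk (Mo x N) z then |Xs μ c z| * Pv (Mo x N) c z else 0) := by
    intro z
    by_cases hc : c ∉ Mk (Mo x N) z
    · rw [if_pos hc, if_pos hc]
      obtain ⟨g1, g2⟩ := Z1 hM (gd_Mo x N z) hc
      have e3 : |Xs μ c z| = √3 * |Gf μ (Mo x N) c z| := by
        rw [Xs_split hμ hoff hc, abs_mul, abs_mul, abs_of_pos h3]
        unfold Gf
        rw [if_pos hc]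
        simp
      rw [abs_mul, abs_mul, abs_of_pos h3, abs_of_nonneg g1, e3]
      have : √3 * |Gf μ (Mo x N) c z| *
          (∫ y, ((-1 : ℝ) ^ N0 (Mo x N) (mix (Xe (Mo x N) z) z y) c) ∂nh) ≤
          √3 * |Gf μ (Mo x N) c z| * (2 * Pv (Mo x N) c z) :=
        mul_le_mul_of_nonneg_left g2 (by positivity)
      linarith
    · rw [if_neg hc, if_neg hc, mul_zero, mul_zero, abs_zero, mul_zero]
  have hXi : Integrable (fun z => |Xs μ c z|) nh := (integrable_Xs Vx107.ae_fin hμ c).abs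
  have hmf : Measurable fun z : Cfz => (if c ∉ Mk (Mo x N) z then Pv (Mo x N) c z else 0) := by
    refine Measurable.ite ?_ (meas_pv hM c) measurable_const
    exact meas_un hM c
  have hri : Integrable (fun z => 2 * (if c ∉ Mk (Mo x N) z then |Xs μ c z| * Pv (Mo x N) c z
      else 0)) nh := by
    refine Integrable.const_mul ?_ _
    have e4 : (fun z => if c ∉ Mk (Mo x N) z then |Xs μ c z| * Pv (Mo x N) c z else 0) =
        fun z => |Xs μ c z| * (if c ∉ Mk (Mo x N) z then Pv (Mo x N) c z else 0) := by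
      funext z; split_ifs <;> simp
    rw [e4]
    refine hXi.mul_bdd (c := 1) hmf.aestronglyMeasurable (Filter.Eventually.of_forall fun z => ?_)
    rw [Real.norm_eq_abs]
    by_cases hc : c ∉ Mk (Mo x N) z
    · rw [if_pos hc, abs_of_nonneg (pv_nonneg c z)]; exact pv_le_one c z
    · rw [if_neg hc]; simp
  refine (abs_integral_le_integral_abs).trans ?_
  rw [← integral_const_mul]
  exact integral_mono_of_nonneg (Filter.Eventually.of_forall fun z => abs_nonneg _) hri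
    (Filter.Eventually.of_forall hb)

end Crest.Agent.R158.Zs110
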