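import Crest.Agent.R158.Zs1_110
import Crest.Agent.R158.Ax2_107
import Crest.Agent.R158.Lc1_522
import Crest.Agent.R158.Rs10_689
import Crest.Agent.R158.Wf1_850
import Crest.Agent.R161.Sym_597

/-!
# Row 158, BLOCK Z / UB3b (helper110), part 2: arm events

* `TA v f n m` : the open cluster of `v` reaches distance `n`, the dual cluster of `f` distance `m`
* `ta_le_p2` : at every corner the probability of two arms is at most `p2 (n - 4)`
* `mk_le` : a marked corner has two arms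
* `pv_sum` : `∫ Pv (Mo 0 N) c` is bounded by the sum over dyadic scales of `p2 * P2a`
-/

set_option autoImplicit false

noncomputable section

namespace Crest.Agent.R158.Zs110

open Crest.Agent.R161.Geo729 Crest.Agent.R161.Dual374
open Crest.Agent.R161.Tas682 (sd)
open Crest.Agent.R161.Sym597 (Refl)
open Crest.Agent.R158.It200 Crest.Agent.R158.Wf850
open Crest.Agent.R158.Rs689 (nu PB_map_equiv PArm DArm dual measurable_dual mem_dcl Rch)
open Crest.Agent.R158.Fr158 (rch_meas)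
open Crest.Agent.R158.Ax107 (p2 P2ev p2_anti p2_nonneg p2_le_one)
open Crest.Agent.R158.Lc522 (rch_strand rchd_strand)
open Crest.Agent.R158.Zr110 hiding AllFin ae_fin
open MeasureTheory

/-! ### reflections of the lattice -/

/-- action of a reflection on configurations -/
def rz (R : Refl) (z : Cfz) : Cfz := fun e => z (R.E e)

theorem meas_rz (R : Refl) : Measurable (rz R) :=
  measurable_pi_lambda _ fun e => measurable_pi_apply (R.E e)

theorem map_rz (R : Refl) : nh.map (rz R) = nh :=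
  PB_map_equiv R.EEquiv.symm (fun _ : Edge => Rs689.hf)

theorem ocl_rz (R : Refl) {z : Cfz} {u v : P2} (h : u ∈ OCl (rz R z) v) :
    R.V u ∈ OCl z (R.V v) := by
  change Relation.ReflTransGen (PStep (fun e => rz R z e = true)) v u at h
  show Relation.ReflTransGen (PStep (fun e => z e = true)) (R.V v) (R.V u)
  induction h with
  | refl => exact .refl
  | @tail b c _ hs ih =>
      obtain ⟨e, he, h3⟩ := hs
      refine ih.tail ⟨R.E e, he, ?_⟩
      rcases R.edge_v e with ⟨a1, a2⟩ | ⟨a1, a2⟩ <;> rcases h3 with ⟨rfl, rfl⟩ | ⟨rfl, rfl⟩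
      · exact Or.inl ⟨a1.symm, a2.symm⟩
      · exact Or.inr ⟨a2.symm, a1.symm⟩
      · exact Or.inr ⟨a2.symm, a1.symm⟩
      · exact Or.inl ⟨a1.symm, a2.symm⟩

theorem dcl_rz (R : Refl) {z : Cfz} {u v : P2} (h : u ∈ DCl (rz R z) v) :
    R.Fc u ∈ DCl z (R.Fc v) := by
  change Relation.ReflTransGen (DStep (fun e => rz R z e = false)) v u at h
  show Relation.ReflTransGen (DStep (fun e => z e = false)) (R.Fc v) (R.Fc u)
  induction h with
  | refl => exact .refl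
  | @tail b c _ hs ih =>
      obtain ⟨e, he, h3⟩ := hs
      refine ih.tail ⟨R.E e, he, ?_⟩
      rcases R.edge_f e with ⟨a1, a2⟩ | ⟨a1, a2⟩ <;> rcases h3 with ⟨rfl, rfl⟩ | ⟨rfl, rfl⟩
      · exact Or.inl ⟨a1.symm, a2.symm⟩
      · exact Or.inr ⟨a2.symm, a1.symm⟩
      · exact Or.inr ⟨a2.symm, a1.symm⟩
      · exact Or.inl ⟨a1.symm, a2.symm⟩

/-! ### two arms from a vertex and a face -/

/-- two arms from the vertex `v` and the face `f` -/
def TA (v f : P2) (n m : ℤ) : Set Cfz :=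
  {z | (∃ u ∈ OCl z v, n ≤ sd v u) ∧ ∃ g ∈ DCl z f, m ≤ sd v g}

theorem TA_mono {v f : P2} {n m n' m' : ℤ} (h1 : n' ≤ n) (h2 : m' ≤ m) :
    TA v f n m ⊆ TA v f n' m' := by
  rintro z ⟨⟨u, hu, a⟩, g, hg, b⟩
  exact ⟨⟨u, hu, h1.trans a⟩, g, hg, h2.trans b⟩

theorem meas_ocl (v : P2) (P : P2 → Prop) : MeasurableSet {z : Cfz | ∃ u ∈ OCl z v, P u} := by
  have h : {z : Cfz | ∃ u ∈ OCl z v, P u} = ⋃ u ∈ {u : P2 | P u}, {z : Cfz | Rch z v u} := by
    ext z
    simp only [Set.mem_ofPred_eq, Set.mem_iUnion, exists_prop]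
    constructor
    · rintro ⟨u, h1, h2⟩; exact ⟨u, h2, h1⟩
    · rintro ⟨u, h1, h2⟩; exact ⟨u, h2, h1⟩
  rw [h]
  exact MeasurableSet.biUnion (Set.to_countable _) fun u _ => rch_meas v u

theorem meas_dcl (v : P2) (P : P2 → Prop) : MeasurableSet {z : Cfz | ∃ u ∈ DCl z v, P u} := by
  have h : {z : Cfz | ∃ u ∈ DCl z v, P u} = dual ⁻¹' {z : Cfz | ∃ u ∈ OCl z v, P u} := by
    ext z
    simp only [Set.mem_ofPred_eq, Set.mem_preimage, mem_dcl]
  rw [h]
  exact measurable_dual (meas_ocl v P)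

theorem meas_TA (v f : P2) (n m : ℤ) : MeasurableSet (TA v f n m) :=
  (meas_ocl v _).inter (meas_dcl f _)

/-- one reflection -/
theorem ta_refl (R : Refl) (hV : ∀ x u : P2, sd (R.V x) (R.V u) = sd x u)
    (hF : ∀ x g : P2, sd x g - 1 ≤ sd (R.V x) (R.Fc g)) (v f : P2) (n m : ℤ) :
    nh.real (TA v f n m) ≤ nh.real (TA (R.V v) (R.Fc f) n (m - 1)) := by
  have h1 : nh.real (TA v f n m) = nh.real (rz R ⁻¹' TA v f n m) := by
    conv_lhs => rw [← map_rz R]
    rw [measureReal_def, measureReal_def, Measure.map_apply (meas_rz R) (meas_TA _ _ _ _)]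
  rw [h1]
  refine measureReal_mono ?_
  rintro z ⟨⟨u, hu, a⟩, g, hg, b⟩
  refine ⟨⟨R.V u, ocl_rz R hu, by rw [hV]; exact a⟩, R.Fc g, dcl_rz R hg, ?_⟩
  have := hF v g
  linarith

theorem vert_V (k : ℤ) (x u : P2) : sd ((Refl.vert k).V x) ((Refl.vert k).V u) = sd x u := by
  show max |(k - u.1) - (k - x.1)| |u.2 - x.2| = max |u.1 - x.1| |u.2 - x.2|
  rw [show (k - u.1) - (k - x.1) = -(u.1 - x.1) by ring, abs_neg]

theorem vert_F (k : ℤ) (x g : P2) : sd x g - 1 ≤ sd ((Refl.vert k).V x) ((Refl.vert k).Fc g) := by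
  show max |g.1 - x.1| |g.2 - x.2| - 1 ≤ max |(k - 1 - g.1) - (k - x.1)| |g.2 - x.2|
  rw [show (k - 1 - g.1) - (k - x.1) = -(g.1 - x.1) - 1 by ring]
  have h1 : |g.1 - x.1| ≤ |-(g.1 - x.1) - 1| + 1 := by
    have := abs_sub (-(g.1 - x.1) - 1) (-1)
    rw [show -(g.1 - x.1) - 1 - -1 = -(g.1 - x.1) by ring, abs_neg] at this
    simpa using this
  rw [sub_le_iff_le_add]
  refine max_le ?_ ?_
  · exact h1.trans (add_le_add (le_max_left _ _) le_rfl)
  · have : |g.2 - x.2| ≤ max |-(g.1 - x.1) - 1| |g.2 - x.2| := le_max_right _ _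
    linarith

theorem horiz_V (k : ℤ) (x u : P2) : sd ((Refl.horiz k).V x) ((Refl.horiz k).V u) = sd x u := by
  show max |u.1 - x.1| |(k - u.2) - (k - x.2)| = max |u.1 - x.1| |u.2 - x.2|
  rw [show (k - u.2) - (k - x.2) = -(u.2 - x.2) by ring, abs_neg]

theorem horiz_F (k : ℤ) (x g : P2) :
    sd x g - 1 ≤ sd ((Refl.horiz k).V x) ((Refl.horiz k).Fc g) := by
  show max |g.1 - x.1| |g.2 - x.2| - 1 ≤ max |g.1 - x.1| |(k - 1 - g.2) - (k - x.2)|
  rw [show (k - 1 - g.2) - (k - x.2) = -(g.2 - x.2) - 1 by ring]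
  have h1 : |g.2 - x.2| ≤ |-(g.2 - x.2) - 1| + 1 := by
    have := abs_sub (-(g.2 - x.2) - 1) (-1)
    rw [show -(g.2 - x.2) - 1 - -1 = -(g.2 - x.2) by ring, abs_neg] at this
    simpa using this
  rw [sub_le_iff_le_add]
  refine max_le ?_ ?_
  · have : |g.1 - x.1| ≤ max |g.1 - x.1| |-(g.2 - x.2) - 1| := le_max_left _ _
    linarith
  · exact h1.trans (add_le_add (le_max_right _ _) le_rfl)

theorem norm_x (x y a b n m : ℤ) (h : a = x ∨ a = x - 1) :
    nh.real (TA (x, y) (a, b) n m) ≤ nh.real (TA (0, y) (0, b) n (m - 2)) := by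
  have h1 := ta_refl (Refl.vert x) (vert_V x) (vert_F x) (x, y) (a, b) n m
  have e1 : (Refl.vert x).V (x, y) = (0, y) := by
    show (x - x, y) = (0, y); rw [sub_self]
  have e2 : (Refl.vert x).Fc (a, b) = (x - 1 - a, b) := rfl
  rw [e1, e2] at h1
  refine h1.trans ?_
  rcases h with rfl | rfl
  · have h2 := ta_refl (Refl.vert 0) (vert_V 0) (vert_F 0) (0, y) (a - 1 - a, b) n (m - 1)
    have e3 : (Refl.vert 0).V (0, y) = (0, y) := rfl
    have e4 : (Refl.vert 0).Fc (a - 1 - a, b) = (0, b) := by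
      show (0 - 1 - (a - 1 - a), b) = (0, b)
      congr 1; ring
    rw [e3, e4] at h2
    refine h2.trans (measureReal_mono (TA_mono le_rfl (by linarith)))
  · rw [show x - 1 - (x - 1) = 0 by ring]
    exact measureReal_mono (TA_mono le_rfl (by linarith))

theorem norm_y (x y a b n m : ℤ) (h : b = y ∨ b = y - 1) :
    nh.real (TA (x, y) (a, b) n m) ≤ nh.real (TA (x, 0) (a, 0) n (m - 2)) := by
  have h1 := ta_refl (Refl.horiz y) (horiz_V y) (horiz_F y) (x, y) (a, b) n m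
  have e1 : (Refl.horiz y).V (x, y) = (x, 0) := by
    show (x, y - y) = (x, 0); rw [sub_self]
  have e2 : (Refl.horiz y).Fc (a, b) = (a, y - 1 - b) := rfl
  rw [e1, e2] at h1
  refine h1.trans ?_
  rcases h with rfl | rfl
  · have h2 := ta_refl (Refl.horiz 0) (horiz_V 0) (horiz_F 0) (x, 0) (a, b - 1 - b) n (m - 1)
    have e3 : (Refl.horiz 0).V (x, 0) = (x, 0) := rfl
    have e4 : (Refl.horiz 0).Fc (a, b - 1 - b) = (a, 0) := by
      show (a, 0 - 1 - (b - 1 - b)) = (a, 0)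
      congr 1; ring
    rw [e3, e4] at h2
    refine h2.trans (measureReal_mono (TA_mono le_rfl (by linarith)))
  · rw [show y - 1 - (y - 1) = 0 by ring]
    exact measureReal_mono (TA_mono le_rfl (by linarith))

theorem fc_near (c : Corner) : ((fc c).1 = c.1.1 ∨ (fc c).1 = c.1.1 - 1) ∧
    ((fc c).2 = c.1.2 ∨ (fc c).2 = c.1.2 - 1) := by
  obtain ⟨⟨x, y⟩, q⟩ := c
  fin_cases q <;> simp [fc]

theorem P2ev_eq (n : ℕ) : P2ev n = TA (0, 0) (0, 0) n n := rfl

theorem p2_zero : p2 0 = 1 := by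
  have h : P2ev 0 = Set.univ := by
    rw [Set.eq_univ_iff_forall]
    intro z
    exact ⟨⟨(0, 0), .refl, by simp [sd]⟩, (0, 0), .refl, by simp [sd]⟩
  show nh.real (P2ev 0) = 1
  rw [h]; simp

/-- **two arms at an arbitrary corner** -/
theorem ta_le_p2 (c : Corner) (n m : ℤ) (k : ℕ) (h1 : (k : ℤ) ≤ n) (h2 : (k : ℤ) + 4 ≤ m) :
    nh.real (TA c.1 (fc c) n m) ≤ p2 k := by
  obtain ⟨hx, hy⟩ := fc_near c
  obtain ⟨⟨x, y⟩, q⟩ := c
  set f := fc ((x, y), q) with hf
  obtain ⟨a, b⟩ := f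
  refine (norm_x x y a b n m hx).trans ((norm_y 0 y 0 b n (m - 2) hy).trans ?_)
  show _ ≤ nh.real (P2ev k)
  rw [P2ev_eq]
  exact measureReal_mono (TA_mono h1 (by linarith))

theorem ta_le_p2' (c : Corner) (n m : ℤ) (k : ℕ) (h1 : (k : ℤ) ≤ n + 4) (h2 : (k : ℤ) ≤ m) :
    nh.real (TA c.1 (fc c) n m) ≤ p2 (k - 4) := by
  rcases le_or_gt 4 k with h | h
  · refine ta_le_p2 c n m (k - 4) ?_ ?_
    · push_cast [Nat.cast_sub h]; linarith
    · push_cast [Nat.cast_sub h]; linarith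
  · rw [Nat.sub_eq_zero_of_le h.le, p2_zero]
    exact measureReal_le_one

/-! ### arms from strands -/

theorem sd_ah {d : Corner} {e : Edge} (h : ah d = e) (x : P2) :
    sd x d.1 ≤ sd x (src e) + 1 ∧ sd x (src e) ≤ sd x d.1 + 1 := by
  have h1 : d.1 = src e ∨ d.1 = tgt e := by
    rcases ah_ends d with ⟨a, -⟩ | ⟨a, -⟩
    · left; rw [← h]; exact a
    · right; rw [← h]; exact a
  have h2 : sd (src e) (tgt e) ≤ 1 := by
    obtain ⟨⟨a, b⟩, t⟩ := e
    cases t <;> simp [src, tgt, sd]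
  rcases h1 with h1 | h1 <;> rw [h1]
  · constructor <;> linarith
  · have t1 := sd_tri x (src e) (tgt e)
    have t2 := sd_tri x (tgt e) (src e)
    rw [sd_symm' (tgt e) (src e)] at t2
    constructor <;> linarith

theorem sd_fc (c : Corner) (x : P2) : sd x (fc c) ≤ sd x c.1 + 1 ∧ sd x c.1 ≤ sd x (fc c) + 1 := by
  have h2 : sd c.1 (fc c) ≤ 1 := by
    obtain ⟨⟨a, b⟩, q⟩ := c
    fin_cases q <;> simp [fc, sd]
  have t1 := sd_tri x c.1 (fc c)
  have t2 := sd_tri x (fc c) c.1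
  rw [sd_symm' (fc c) c.1] at t2
  constructor <;> linarith

/-- a strand that visits a far edge has two arms -/
theorem visit_arms {y : Cfz} {c : Corner} {e : Edge} (h : e ∈ Ve y c) (x : P2) :
    (∃ u ∈ OCl y c.1, sd x (src e) - 1 ≤ sd x u) ∧ ∃ g ∈ DCl y (fc c), sd x (src e) - 2 ≤ sd x g := by
  obtain ⟨d, hd, hde⟩ := h
  have h1 := sd_ah hde x
  have h2 := sd_fc d x
  exact ⟨⟨d.1, rch_strand hd, by linarith⟩, fc d, rchd_strand hd, by linarith⟩

/-- a strand that visits an edge outside the box -/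
theorem out_arms {z : Cfz} {c : Corner} {x : P2} {N : ℤ} (h : c ∈ Mk (Mo x N) z) :
    (∃ u ∈ OCl z c.1, N ≤ sd x u) ∧ ∃ g ∈ DCl z (fc c), N - 1 ≤ sd x g := by
  obtain ⟨e, ⟨d, hd, hde⟩, he⟩ := h
  have h2 := sd_fc d x
  have h3 : N ≤ sd x d.1 := by
    have h4 : sd (src e) (tgt e) ≤ 1 := by
      obtain ⟨⟨a, b⟩, t⟩ := e
      cases t <;> simp [src, tgt, sd]
    have t1 := sd_tri x (src e) (tgt e)
    have t2 := sd_tri x (tgt e) (src e)
    rw [sd_symm' (tgt e) (src e)] at t2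
    have h1 : d.1 = src e ∨ d.1 = tgt e := by
      rcases ah_ends d with ⟨a, -⟩ | ⟨a, -⟩
      · left; rw [← hde]; exact a
      · right; rw [← hde]; exact a
    rcases h1 with h1 | h1 <;> rw [h1] <;> rcases he with he | he <;> linarith
  exact ⟨⟨d.1, rch_strand hd, h3⟩, fc d, rchd_strand hd, by linarith⟩

/-- two arms across an annulus -/
def A2 (x : P2) (s R : ℤ) : Set Cfz := PArm x s R ∩ DArm x s R

theorem A2_mono {x : P2} {s s' R R' : ℤ} (h1 : s ≤ s') (h2 : R' ≤ R) : A2 x s R ⊆ A2 x s' R' := by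
  rintro z ⟨⟨u, v, a, b, h⟩, f, g, a', b', h'⟩
  exact ⟨⟨u, v, a.trans h1, h2.trans b, h⟩, f, g, a'.trans h1, h2.trans b', h'⟩

theorem meas_A2 (x : P2) (s R : ℤ) : MeasurableSet (A2 x s R) := by
  have h1 : MeasurableSet (PArm x s R) := by
    have h : PArm x s R = ⋃ u ∈ {u : P2 | sd x u ≤ s}, {z : Cfz | ∃ v ∈ OCl z u, R ≤ sd x v} := by
      ext z
      simp only [PArm, Set.mem_ofPred_eq, Set.mem_iUnion, exists_prop]
      constructor
      · rintro ⟨u, v, h1, h2, h3⟩; exact ⟨u, h1, v, h3, h2⟩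
      · rintro ⟨u, h1, v, h3, h2⟩; exact ⟨u, v, h1, h2, h3⟩
    rw [h]
    exact MeasurableSet.biUnion (Set.to_countable _) fun u _ => meas_ocl u _
  have h2 : MeasurableSet (DArm x s R) := by
    have h : DArm x s R = ⋃ u ∈ {u : P2 | sd x u ≤ s}, {z : Cfz | ∃ v ∈ DCl z u, R ≤ sd x v} := by
      ext z
      simp only [DArm, Set.mem_ofPred_eq, Set.mem_iUnion, exists_prop]
      constructor
      · rintro ⟨u, v, h1, h2, h3⟩; exact ⟨u, h1, v, h3, h2⟩
      · rintro ⟨u, h1, v, h3, h2⟩; exact ⟨u, v, h1, h2, h3⟩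
    rw [h]
    exact MeasurableSet.biUnion (Set.to_countable _) fun u _ => meas_dcl u _
  exact h1.inter h2

/-- a revealed edge near `x` gives two arms across the annulus -/
theorem xe_arms {z : Cfz} {x : P2} {N : ℤ} {e : Edge} (h : e ∈ Xe (Mo x N) z) :
    z ∈ A2 x (sd x (src e) + 2) (N - 1) := by
  have key : ∀ d : Corner, (d.1 = src e ∨ d.1 = tgt e) → d ∈ Mk (Mo x N) z →
      z ∈ A2 x (sd x (src e) + 2) (N - 1) := by
    intro d hd hm
    obtain ⟨⟨u, hu, a⟩, g, hg, b⟩ := out_arms hm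
    have h4 : sd (src e) (tgt e) ≤ 1 := by
      obtain ⟨⟨a, b⟩, t⟩ := e
      cases t <;> simp [src, tgt, sd]
    have t1 := sd_tri x (src e) (tgt e)
    have h1 : sd x d.1 ≤ sd x (src e) + 1 := by
      rcases hd with h1 | h1 <;> rw [h1] <;> linarith
    have h2 := sd_fc d x
    exact ⟨⟨d.1, u, by linarith, by linarith, hu⟩, fc d, g, by linarith, b, hg⟩
  rcases h with h | h
  · exact key _ (Or.inl (fst_i1 e)) h
  · exact key _ (Or.inr (fst_i2 e)) h

/-! ### probabilities -/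

/-- the strand of `c` visits an edge at distance at least `k` -/
def YY (c : Corner) (k : ℤ) : Set Cfz := {y | ∃ e ∈ Ve y c, k ≤ sd (0, 0) (src e)}

theorem yy_sub (c : Corner) (k : ℤ) (hc : sd (0, 0) c.1 ≤ 1) :
    YY c k ⊆ TA c.1 (fc c) (k - 2) (k - 3) := by
  rintro y ⟨e, he, hk⟩
  obtain ⟨⟨u, hu, a⟩, g, hg, b⟩ := visit_arms he (0, 0)
  have t1 := sd_tri (0, 0) c.1 u
  have t2 := sd_tri (0, 0) c.1 g
  exact ⟨⟨u, hu, by linarith⟩, g, hg, by linarith⟩

theorem yy_le (c : Corner) (k : ℕ) (hc : sd (0, 0) c.1 ≤ 1) : nh.real (YY c k) ≤ p2 (k - 7) := by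
  refine (measureReal_mono (yy_sub c k hc)).trans ?_
  rcases le_or_gt 3 k with h | h
  · have := ta_le_p2' c ((k : ℤ) - 2) ((k : ℤ) - 3) (k - 3) (by push_cast [Nat.cast_sub h]; linarith)
      (by push_cast [Nat.cast_sub h]; linarith)
    rwa [Nat.sub_sub] at this
  · rw [Nat.sub_eq_zero_of_le (by omega), p2_zero]
    exact measureReal_le_one

/-- a marked corner near the origin -/
theorem mk_le (c : Corner) (N : ℕ) (hc : sd (0, 0) c.1 ≤ 1) :
    nh.real {z | c ∈ Mk (Mo (0, 0) N) z} ≤ p2 (N - 6) := by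
  have h1 : {z | c ∈ Mk (Mo (0, 0) N) z} ⊆ TA c.1 (fc c) ((N : ℤ) - 1) ((N : ℤ) - 2) := by
    intro z hz
    obtain ⟨⟨u, hu, a⟩, g, hg, b⟩ := out_arms hz
    have t1 := sd_tri (0, 0) c.1 u
    have t2 := sd_tri (0, 0) c.1 g
    exact ⟨⟨u, hu, by linarith⟩, g, hg, by linarith⟩
  refine (measureReal_mono h1).trans ?_
  rcases le_or_gt 2 N with h | h
  · have := ta_le_p2' c ((N : ℤ) - 1) ((N : ℤ) - 2) (N - 2)
      (by push_cast [Nat.cast_sub h]; linarith) (by push_cast [Nat.cast_sub h]; linarith)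
    rwa [Nat.sub_sub] at this
  · rw [Nat.sub_eq_zero_of_le (by omega), p2_zero]
    exact measureReal_le_one

/-- probability of two arms across an annulus around the origin -/
def P2a (s R : ℤ) : ℝ := nh.real (A2 (0, 0) s R)

theorem p2a_mono {s s' R R' : ℤ} (h1 : s ≤ s') (h2 : R' ≤ R) : P2a s R ≤ P2a s' R' :=
  measureReal_mono (A2_mono h1 h2)

theorem p2a_nonneg (s R : ℤ) : 0 ≤ P2a s R := measureReal_nonneg

theorem p2a_le_one (s R : ℤ) : P2a s R ≤ 1 := measureReal_le_one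

open Classical in
/-- pointwise bound of `Pv` -/
theorem pv_pt (c : Corner) (N J : ℕ) (hc : sd (0, 0) c.1 ≤ 1) (z : Cfz) :
    Pv (Mo (0, 0) N) c z ≤ p2 (2 ^ J - 7) + ∑ j ∈ Finset.range (J + 1),
      p2 (2 ^ j - 8) * (A2 (0, 0) (2 ^ (j + 1)) ((N : ℤ) - 1)).indicator 1 z := by
  have hsub : {y | ¬ Disjoint (Ve y c) (Xe (Mo (0, 0) N) z)} ⊆
      YY c ((2 ^ J : ℕ) : ℤ) ∪ ⋃ j ∈ (Finset.range (J + 1)).filter
        (fun j => z ∈ A2 (0, 0) (2 ^ (j + 1)) ((N : ℤ) - 1)), YY c ((2 ^ j - 1 : ℕ) : ℤ) := by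
    intro y hy
    rw [Set.mem_ofPred_eq, Set.not_disjoint_iff] at hy
    obtain ⟨e, he, hX⟩ := hy
    have h0 : 0 ≤ sd (0, 0) (src e) := sd_nonneg' _ _
    obtain ⟨k, hk⟩ := Int.eq_ofNat_of_zero_le h0
    rcases le_or_gt (2 ^ J) k with h1 | h1
    · left
      refine ⟨e, he, ?_⟩
      rw [hk]
      exact_mod_cast h1
    · right
      have h2 : 2 ^ Nat.log 2 (k + 1) ≤ k + 1 := Nat.pow_log_le_self 2 (by omega)
      have h3 : k + 1 < 2 ^ (Nat.log 2 (k + 1) + 1) := Nat.lt_pow_succ_log_self (by norm_num) _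
      have h4 : Nat.log 2 (k + 1) ≤ J := by
        by_contra hcon
        push Not at hcon
        have : 2 ^ (J + 1) ≤ 2 ^ Nat.log 2 (k + 1) := Nat.pow_le_pow_right (by norm_num) hcon
        rw [pow_succ] at this
        omega
      rw [Set.mem_iUnion₂]
      refine ⟨Nat.log 2 (k + 1), ?_, e, he, ?_⟩
      · rw [Finset.mem_filter, Finset.mem_range]
        refine ⟨by omega, A2_mono ?_ le_rfl (xe_arms hX)⟩
        rw [hk]
        have : ((k + 1 : ℕ) : ℤ) < ((2 ^ (Nat.log 2 (k + 1) + 1) : ℕ) : ℤ) := by exact_mod_cast h3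
        push_cast at this ⊢
        linarith
      · rw [hk]
        have : 2 ^ Nat.log 2 (k + 1) - 1 ≤ k := by omega
        exact_mod_cast this
  unfold Pv
  refine (measureReal_mono hsub).trans ((measureReal_union_le _ _).trans ?_)
  refine add_le_add (yy_le c (2 ^ J) hc) ?_
  refine (measureReal_biUnion_finset_le _ _).trans ?_
  rw [Finset.sum_filter]
  refine Finset.sum_le_sum fun j _ => ?_
  split_ifs with h
  · rw [Set.indicator_of_mem h, Pi.one_apply, mul_one]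
    have := yy_le c (2 ^ j - 1) hc
    rwa [Nat.sub_sub] at this
  · rw [Set.indicator_of_notMem h, mul_zero]

/-- **bound of the mean of `Pv`** -/
theorem pv_sum (c : Corner) (N J : ℕ) (hc : sd (0, 0) c.1 ≤ 1) :
    ∫ z, Pv (Mo (0, 0) N) c z ∂nh ≤ p2 (2 ^ J - 7) + ∑ j ∈ Finset.range (J + 1),
      p2 (2 ^ j - 8) * P2a (2 ^ (j + 1)) ((N : ℤ) - 1) := by
  have hm : ∀ j : ℕ, Integrable (fun z => p2 (2 ^ j - 8) *
      (A2 (0, 0) (2 ^ (j + 1)) ((N : ℤ) - 1)).indicator (1 : Cfz → ℝ) z) nh := fun j =>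
    ((integrable_const (1 : ℝ)).indicator (meas_A2 _ _ _)).const_mul _
  have h1 : ∫ z, (p2 (2 ^ J - 7) + ∑ j ∈ Finset.range (J + 1), p2 (2 ^ j - 8) *
      (A2 (0, 0) (2 ^ (j + 1)) ((N : ℤ) - 1)).indicator (1 : Cfz → ℝ) z) ∂nh =
      p2 (2 ^ J - 7) + ∑ j ∈ Finset.range (J + 1),
      p2 (2 ^ j - 8) * P2a (2 ^ (j + 1)) ((N : ℤ) - 1) := by
    rw [integral_add (integrable_const _) (integrable_finsetSum _ fun j _ => hm j),
      integral_finsetSum _ fun j _ => hm j]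
    congr 1
    · simp
    · refine Finset.sum_congr rfl fun j _ => ?_
      rw [integral_const_mul]
      congr 1
      rw [integral_indicator_one (meas_A2 _ _ _)]
      rfl
  rw [← h1]
  refine integral_mono_of_nonneg (Filter.Eventually.of_forall fun z => pv_nonneg c z)
    ((integrable_const _).add (integrable_finsetSum _ fun j _ => hm j))
    (Filter.Eventually.of_forall fun z => pv_pt c N J hc z)

end Crest.Agent.R158.Zs110
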